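import Vale.Agent.N168.Low1

/-!
The positivity argument behind the interpolation, for an arbitrary interaction `a (1 - ψ)`:
the dual cone of the multilinear forms in the laws of finitely many replicas, and the induction
over the levels. The scheme is that of the starting file `Bdl/B1` of this problem, where `ψ` is
a product of functions of one spin.
-/

set_option linter.all false

section

section

set_option autoImplicit false

open Finset Polynomial

namespace Vale.Agent.N168I.PT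

theorem choose_real (a : ℝ) (n : ℕ) :
    Ring.choose a (n + 1) * (n + 1) = Ring.choose a n * (a - n) := by
  have h : (descPochhammer ℤ (n + 1)).smeval a = (descPochhammer ℤ n).smeval a * (a - n) := by
    rw [descPochhammer_succ_right, smeval_mul, smeval_sub, smeval_X, smeval_natCast, npow_one,
      npow_zero, nsmul_one]
  rw [Ring.choose_eq_smul, Ring.choose_eq_smul, h, Nat.factorial_succ]
  have h1 : (n.factorial : ℝ) ≠ 0 := by exact_mod_cast Nat.factorial_ne_zero n
  have h2 : (n : ℝ) + 1 ≠ 0 := by positivity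
  push_cast
  simp only [smul_eq_mul]
  field_simp

theorem choose_sign {a : ℝ} (ha : 0 < a) (ha1 : a ≤ 1) (n : ℕ) :
    0 ≤ (-1 : ℝ) ^ n * Ring.choose a (n + 1) := by
  induction n with
  | zero => simpa only [pow_zero, zero_add, Ring.choose_one_right', pow_one, one_mul] using ha.le
  | succ n ih =>
    have h := choose_real a (n + 1)
    have h2 : (0 : ℝ) < (n : ℝ) + 1 + 1 := by positivity
    have h3 : Ring.choose a (n + 1 + 1) = Ring.choose a (n + 1) * (a - (n + 1)) / (n + 1 + 1) := by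
      rw [eq_div_iff h2.ne']
      push_cast at h
      exact h
    rw [h3]
    have h4 : (-1 : ℝ) ^ (n + 1) * (Ring.choose a (n + 1) * (a - (n + 1)) / (n + 1 + 1)) =
        ((-1 : ℝ) ^ n * Ring.choose a (n + 1)) * ((n + 1 - a) / (n + 1 + 1)) := by
      rw [pow_succ]; ring
    rw [h4]
    refine mul_nonneg ih (div_nonneg ?_ h2.le)
    have : (0 : ℝ) ≤ n := Nat.cast_nonneg n
    linarith only [ha1]

theorem one_sub_rpow_hasSum {a v : ℝ} (hv : |v| < 1) :
    HasSum (fun n : ℕ => ((-1 : ℝ) ^ n * Ring.choose a (n + 1)) * v ^ (n + 1))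
      (1 - (1 - v) ^ a) := by
  have hs := (Real.one_add_rpow_hasFPowerSeriesOnBall_zero (a := a)).hasSum (y := -v) (by
    rw [mem_eball_zero_iff]
    rw [← ofReal_norm, Real.norm_eq_abs, abs_neg]
    exact ENNReal.ofReal_lt_one.2 hv)
  have h1 : HasSum (fun n : ℕ => Ring.choose a n * (-v) ^ n) ((1 - v) ^ a) := by
    have e1 : (fun n : ℕ => Ring.choose a n * (-v) ^ n) =
        fun n => (binomialSeries ℝ a n) fun _ => -v := by
      funext n
      rw [binomialSeries_apply]
      simp only [List.ofFn_const, List.prod_replicate, smul_eq_mul]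
    rw [e1]
    simpa only [FormalMultilinearSeries.apply_eq_prod_smul_coeff, prod_const, card_univ, Fintype.card_fin,     smul_eq_mul, sub_eq_add_neg, zero_add] using hs
  have h2 := (hasSum_nat_add_iff' 1).2 h1
  have h3 := h2.neg
  have e : -((1 - v) ^ a - ∑ i ∈ range 1, Ring.choose a i * (-v) ^ i) = 1 - (1 - v) ^ a := by
    simp only [range_one, sum_singleton, Ring.choose_zero_right', pow_zero, mul_one, neg_sub]
  rw [e] at h3
  have e2 : (fun n : ℕ => ((-1 : ℝ) ^ n * Ring.choose a (n + 1)) * v ^ (n + 1)) =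
      fun n => -(Ring.choose a (n + 1) * (-v) ^ (n + 1)) := by
    funext n
    rw [neg_pow v, pow_succ (-1 : ℝ)]
    ring
  rw [e2]
  exact h3

end Vale.Agent.N168I.PT
end
end

section

section

set_option autoImplicit false
set_option linter.unusedSectionVars false

open MeasureTheory ProbabilityTheory Filter
open scoped NNReal Topology

namespace Vale.Agent.N168I.PT

/-- Bounded and measurable. -/
def Bdm {A : Type} [MeasurableSpace A] (Q : A → ℝ) : Prop := Measurable Q ∧ ∃ C, ∀ z, |Q z| ≤ C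

section Bdm

variable {A : Type} [MeasurableSpace A] {Q Q' : A → ℝ}

theorem Bdm.integrable (h : Bdm Q) (P : Measure A) [IsFiniteMeasure P] : Integrable Q P := by
  obtain ⟨hm, C, hC⟩ := h
  exact Integrable.of_bound hm.aestronglyMeasurable C (Eventually.of_forall hC)

theorem Bdm.mul (h : Bdm Q) (h' : Bdm Q') : Bdm fun z => Q z * Q' z := by
  obtain ⟨hm, C, hC⟩ := h
  obtain ⟨hm', C', hC'⟩ := h'
  refine ⟨hm.mul hm', |C| * |C'|, fun z => ?_⟩
  rw [abs_mul]
  exact mul_le_mul ((hC z).trans (le_abs_self C)) ((hC' z).trans (le_abs_self C'))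
    (abs_nonneg _) (abs_nonneg _)

theorem Bdm.add (h : Bdm Q) (h' : Bdm Q') : Bdm fun z => Q z + Q' z := by
  obtain ⟨hm, C, hC⟩ := h
  obtain ⟨hm', C', hC'⟩ := h'
  exact ⟨hm.add hm', C + C', fun z => (abs_add_le _ _).trans (add_le_add (hC z) (hC' z))⟩

theorem Bdm.const (c : ℝ) : Bdm (fun _ : A => c) := ⟨measurable_const, |c|, fun _ => le_rfl⟩

theorem Bdm.smul (h : Bdm Q) (c : ℝ) : Bdm fun z => c * Q z := (Bdm.const c).mul h

theorem Bdm.sub (h : Bdm Q) (h' : Bdm Q') : Bdm fun z => Q z - Q' z := by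
  have := h.add (h'.smul (-1))
  simpa [sub_eq_add_neg] using this

theorem Bdm.comp {B : Type} [MeasurableSpace B] (h : Bdm Q) {f : B → A} (hf : Measurable f) :
    Bdm fun b => Q (f b) := by
  obtain ⟨hm, C, hC⟩ := h
  exact ⟨hm.comp hf, C, fun z => hC _⟩

theorem Bdm.finprod {ι : Type*} (s : Finset ι) {F : ι → A → ℝ} (h : ∀ i ∈ s, Bdm (F i)) :
    Bdm fun z => ∏ i ∈ s, F i z := by
  classical
  induction s using Finset.induction_on with
  | empty => simpa using Bdm.const (A := A) 1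
  | insert i s hi ih =>
    have h1 := (h i (Finset.mem_insert_self i s)).mul
      (ih fun j hj => h j (Finset.mem_insert_of_mem hj))
    simpa [Finset.prod_insert hi] using h1

theorem Bdm.pow (h : Bdm Q) (n : ℕ) : Bdm fun z => Q z ^ n := by
  induction n with
  | zero => simpa using Bdm.const (A := A) 1
  | succ n ih => simpa [pow_succ] using ih.mul h

end Bdm

variable {K : ℕ} {𝔹 X : Type} [MeasurableSpace 𝔹] [MeasurableSpace X]

/-- The product measure. -/
noncomputable abbrev mm (K : ℕ) (β : Measure 𝔹) (PX : Measure X) : Measure (𝔹 × (Fin K → X)) :=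
  β.prod (Measure.pi fun _ : Fin K => PX)

theorem sum_prod_one {T : Type} [Fintype T] {μ : Fin K → T → ℝ} (h1 : ∀ j, ∑ t, μ j t = 1) :
    ∑ τ : Fin K → T, ∏ j, μ j (τ j) = 1 := by
  classical
  have := Finset.prod_univ_sum (fun _ : Fin K => (Finset.univ : Finset T)) (fun j e => μ j e)
  rw [Fintype.piFinset_univ] at this
  rw [← this]
  exact Finset.prod_eq_one fun j _ => h1 j

theorem abs_mform_le {T : Type} [Fintype T] {μ : Fin K → T → ℝ} (h0 : ∀ j t, 0 ≤ μ j t)
    (h1 : ∀ j, ∑ t, μ j t = 1) {c : (Fin K → T) → ℝ} {s : ℝ} (hc : ∀ τ, |c τ| ≤ s) :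
    |mform c μ| ≤ s := by
  unfold mform
  have hp : ∀ τ : Fin K → T, 0 ≤ ∏ j, μ j (τ j) := fun τ =>
    Finset.prod_nonneg fun j _ => h0 _ _
  calc |∑ τ : Fin K → T, (∏ j, μ j (τ j)) * c τ|
      ≤ ∑ τ : Fin K → T, |(∏ j, μ j (τ j)) * c τ| := Finset.abs_sum_le_sum_abs _ _
    _ ≤ ∑ τ : Fin K → T, (∏ j, μ j (τ j)) * s := by
        refine Finset.sum_le_sum fun τ _ => ?_
        rw [abs_mul, abs_of_nonneg (hp τ)]
        exact mul_le_mul_of_nonneg_left (hc τ) (hp τ)
    _ = s := by rw [← Finset.sum_mul, sum_prod_one h1, one_mul]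

theorem mform_smul {T : Type} [Fintype T] (s : ℝ) (c : (Fin K → T) → ℝ) (μ : Fin K → T → ℝ) :
    mform (s • c) μ = s * mform c μ := by
  unfold mform
  rw [Finset.mul_sum]
  refine Finset.sum_congr rfl fun τ _ => ?_
  rw [Pi.smul_apply, smul_eq_mul]
  ring

theorem abs_prod_le_one {ι : Type*} (t : Finset ι) {f : ι → ℝ} (h : ∀ i ∈ t, |f i| ≤ 1) :
    |∏ i ∈ t, f i| ≤ 1 := by
  rw [Finset.abs_prod]
  exact Finset.prod_le_one (fun i _ => abs_nonneg _) h

theorem abs_app_le {A : Type} [Fintype A] (t : A → ℝ) (a : A) : |t a| ≤ ‖t‖ :=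
  norm_le_pi_norm t a

/-- The generators. -/
noncomputable def gen (bb : 𝔹 → (Fin K → Bool) → ℝ) (ι : Type) [Fintype ι] [DecidableEq ι]
    (φ : X → (ι → Bool) → ℝ) (z : 𝔹 × (Fin K → X)) : ℝ :=
  mform (fun τ : Fin K → ι → Bool => ∏ i, bb z.1 (fun j => τ j i)) fun j => φ (z.2 j)

/-- Measurable families of probability vectors. -/
structure Ker {T : Type} [Fintype T] (φ : X → T → ℝ) : Prop where
  meas : ∀ t, Measurable fun x => φ x t
  nn : ∀ x t, 0 ≤ φ x t
  sum : ∀ x, ∑ t, φ x t = 1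

theorem Ker.le_one {T : Type} [Fintype T] {φ : X → T → ℝ} (h : Ker φ) (x : X) (t : T) :
    |φ x t| ≤ 1 := by
  rw [abs_of_nonneg (h.nn x t), ← h.sum x]
  exact Finset.single_le_sum (fun t _ => h.nn x t) (Finset.mem_univ t)

theorem Ker.bdm {T : Type} [Fintype T] {φ : X → T → ℝ} (h : Ker φ) (t : T) :
    Bdm fun x => φ x t := ⟨h.meas t, 1, fun x => h.le_one x t⟩

/-- Positivity against the generators. -/
def Pos (bb : 𝔹 → (Fin K → Bool) → ℝ) (β : Measure 𝔹) (PX : Measure X)
    (L : 𝔹 × (Fin K → X) → ℝ) : Prop :=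
  ∀ (ι : Type) [Fintype ι] [DecidableEq ι] (φ : X → (ι → Bool) → ℝ), Ker φ →
    0 ≤ ∫ z, L z * gen bb ι φ z ∂(mm K β PX)

/-- The dual cone. -/
def Good (bb : 𝔹 → (Fin K → Bool) → ℝ) (β : Measure 𝔹) (PX : Measure X)
    (Q : 𝔹 × (Fin K → X) → ℝ) : Prop :=
  Bdm Q ∧ ∀ L : 𝔹 × (Fin K → X) → ℝ, Bdm L → Pos bb β PX L → 0 ≤ ∫ z, L z * Q z ∂(mm K β PX)

theorem gen_bdm {bb : 𝔹 → (Fin K → Bool) → ℝ} (hb : Measurable bb) (hb1 : ∀ b, ‖bb b‖ ≤ 1)
    (ι : Type) [Fintype ι] [DecidableEq ι] {φ : X → (ι → Bool) → ℝ} (hφ : Ker φ) :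
    Bdm (gen (K := K) bb ι φ) := by
  refine ⟨?_, 1, fun z => ?_⟩
  · unfold gen mform
    refine Finset.measurable_fun_sum _ fun τ _ => Measurable.mul
      (Finset.measurable_fun_prod _ fun j _ => ?_) (Finset.measurable_fun_prod _ fun i _ => ?_)
    · exact (hφ.meas (τ j)).comp ((measurable_pi_apply j).comp measurable_snd)
    · exact (measurable_pi_apply _).comp (hb.comp measurable_fst)
  · unfold gen
    exact abs_mform_le (μ := fun j => φ (z.2 j)) (fun j t => hφ.nn _ _) (fun j => hφ.sum _)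
      fun τ => abs_prod_le_one _ fun i _ => (abs_app_le _ _).trans (hb1 _)

/-- The product of two kernels. -/
def kmul {ι ι' : Type} (φ : X → (ι → Bool) → ℝ) (φ' : X → (ι' → Bool) → ℝ) :
    X → (ι ⊕ ι' → Bool) → ℝ := fun x t => φ x (fun i => t (Sum.inl i)) * φ' x fun i => t (Sum.inr i)

theorem Ker.kmul {ι ι' : Type} [Fintype ι] [DecidableEq ι] [Fintype ι'] [DecidableEq ι']
    {φ : X → (ι → Bool) → ℝ} {φ' : X → (ι' → Bool) → ℝ} (h : Ker φ) (h' : Ker φ') :
    Ker (kmul φ φ') := by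
  refine ⟨fun t => (h.meas _).mul (h'.meas _), fun x t => mul_nonneg (h.nn _ _) (h'.nn _ _),
    fun x => ?_⟩
  have e := Fintype.sum_equiv (Equiv.sumArrowEquivProdArrow ι ι' Bool)
    (fun t => PT.kmul φ φ' x t) (fun p => φ x p.1 * φ' x p.2) fun t => rfl
  rw [e, Fintype.sum_prod_type, ← Finset.sum_mul_sum, h.sum, h'.sum, one_mul]

/-- Splitting a family of configurations. -/
def splitE (K : ℕ) (ι ι' : Type) :
    (Fin K → ι ⊕ ι' → Bool) ≃ (Fin K → ι → Bool) × (Fin K → ι' → Bool) where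
  toFun τ := (fun j i => τ j (Sum.inl i), fun j i => τ j (Sum.inr i))
  invFun p := fun j => Sum.elim (p.1 j) (p.2 j)
  left_inv τ := by
    funext j i
    cases i <;> rfl
  right_inv p := rfl

theorem gen_mul (bb : 𝔹 → (Fin K → Bool) → ℝ) (ι ι' : Type) [Fintype ι] [DecidableEq ι]
    [Fintype ι'] [DecidableEq ι'] (φ : X → (ι → Bool) → ℝ) (φ' : X → (ι' → Bool) → ℝ)
    (z : 𝔹 × (Fin K → X)) :
    gen bb ι φ z * gen bb ι' φ' z = gen bb (ι ⊕ ι') (kmul φ φ') z := by
  unfold gen mform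
  rw [Finset.sum_mul_sum, ← Fintype.sum_prod_type']
  refine (Fintype.sum_equiv (splitE K ι ι') _ _ fun τ => ?_).symm
  simp only [kmul, Finset.prod_mul_distrib, Fintype.prod_sum_type]
  change _ = ((∏ j, φ (z.2 j) fun i => τ j (Sum.inl i)) *
    ∏ i, bb z.1 fun j => τ j (Sum.inl i)) * ((∏ j, φ' (z.2 j) fun i => τ j (Sum.inr i)) *
    ∏ i, bb z.1 fun j => τ j (Sum.inr i))
  ring

theorem gen_empty (bb : 𝔹 → (Fin K → Bool) → ℝ) (z : 𝔹 × (Fin K → X)) :
    gen bb Empty (fun _ _ => (1 : ℝ)) z = 1 := by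
  unfold gen mform
  simp

theorem gen_unit (bb : 𝔹 → (Fin K → Bool) → ℝ) (g : X → Bool → ℝ) (z : 𝔹 × (Fin K → X)) :
    gen bb Unit (fun x t => g x (t ())) z = mform (bb z.1) fun j => g (z.2 j) := by
  unfold gen mform
  refine Fintype.sum_equiv (Equiv.arrowCongr (Equiv.refl _) (Equiv.funUnique Unit Bool)) _ _
    fun τ => ?_
  simp only [Finset.univ_unique, Finset.prod_singleton]
  rfl

theorem ker_unit {g : X → Bool → ℝ} (h : Ker g) : Ker fun x (t : Unit → Bool) => g x (t ()) := by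
  refine ⟨fun t => h.meas _, fun x t => h.nn _ _, fun x => ?_⟩
  rw [← h.sum x]
  exact Fintype.sum_equiv (Equiv.funUnique Unit Bool) _ _ fun t => rfl

section Good

variable {bb : 𝔹 → (Fin K → Bool) → ℝ} {β : Measure 𝔹} {PX : Measure X} [IsProbabilityMeasure β]
  [IsFiniteMeasure PX] {Q Q' : 𝔹 × (Fin K → X) → ℝ}

theorem Good.of_gen (hb : Measurable bb) (hb1 : ∀ b, ‖bb b‖ ≤ 1) (ι : Type) [Fintype ι]
    [DecidableEq ι] {φ : X → (ι → Bool) → ℝ} (hφ : Ker φ) :
    Good bb β PX (gen (K := K) bb ι φ) :=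
  ⟨gen_bdm hb hb1 ι hφ, fun _ _ hL => hL ι φ hφ⟩

theorem Good.one (hb : Measurable bb) (hb1 : ∀ b, ‖bb b‖ ≤ 1) :
    Good bb β PX (fun _ : 𝔹 × (Fin K → X) => (1 : ℝ)) := by
  have h := Good.of_gen (K := K) (β := β) (PX := PX) hb hb1 Empty (φ := fun _ _ => (1 : ℝ))
    ⟨fun _ => measurable_const, fun _ _ => zero_le_one, fun _ => by simp⟩
  have e : gen (K := K) bb Empty (fun (_ : X) _ => (1 : ℝ)) = fun _ => 1 :=
    funext fun z => gen_empty bb z
  rwa [e] at h

theorem Good.add (h : Good bb β PX Q) (h' : Good bb β PX Q') :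
    Good bb β PX fun z => Q z + Q' z := by
  refine ⟨h.1.add h'.1, fun L hL hP => ?_⟩
  simp_rw [mul_add]
  rw [integral_add ((hL.mul h.1).integrable _) ((hL.mul h'.1).integrable _)]
  exact add_nonneg (h.2 L hL hP) (h'.2 L hL hP)

theorem Good.smul (h : Good bb β PX Q) {c : ℝ} (hc : 0 ≤ c) :
    Good bb β PX fun z => c * Q z := by
  refine ⟨h.1.smul c, fun L hL hP => ?_⟩
  have : ∀ z, L z * (c * Q z) = c * (L z * Q z) := fun z => by ring
  simp_rw [this]
  rw [integral_const_mul]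
  exact mul_nonneg hc (h.2 L hL hP)

theorem Good.zero : Good bb β PX (fun _ : 𝔹 × (Fin K → X) => (0 : ℝ)) :=
  ⟨Bdm.const 0, fun L _ _ => by simp⟩

theorem Good.finsum {ι : Type*} (s : Finset ι) {F : ι → 𝔹 × (Fin K → X) → ℝ}
    (h : ∀ i ∈ s, Good bb β PX (F i)) : Good bb β PX fun z => ∑ i ∈ s, F i z := by
  classical
  induction s using Finset.induction_on with
  | empty => simpa using Good.zero (K := K) (bb := bb) (β := β) (PX := PX)
  | insert i s hi ih =>
    have h1 := (h i (Finset.mem_insert_self i s)).add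
      (ih fun j hj => h j (Finset.mem_insert_of_mem hj))
    simpa [Finset.sum_insert hi] using h1

theorem Good.mul (hb : Measurable bb) (hb1 : ∀ b, ‖bb b‖ ≤ 1) (h : Good bb β PX Q)
    (h' : Good bb β PX Q') : Good bb β PX fun z => Q z * Q' z := by
  refine ⟨h.1.mul h'.1, fun L hL hP => ?_⟩
  have h1 : ∀ z, L z * (Q z * Q' z) = (L z * Q z) * Q' z := fun z => by ring
  simp_rw [h1]
  refine h'.2 (fun z => L z * Q z) (hL.mul h.1) fun n _ _ φ hφ => ?_
  have h2 : ∀ z, L z * Q z * gen bb n φ z = (L z * gen bb n φ z) * Q z := fun z => by ring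
  simp_rw [h2]
  refine h.2 (fun z => L z * gen bb n φ z) (hL.mul (gen_bdm hb hb1 n hφ))
    fun n' _ _ φ' hφ' => ?_
  have h3 : ∀ z, L z * gen bb n φ z * gen bb n' φ' z =
      L z * gen bb (n ⊕ n') (kmul φ φ') z := fun z => by
    rw [mul_assoc, gen_mul]
  simp_rw [h3]
  exact hP (n ⊕ n') _ (hφ.kmul hφ')

theorem Good.pow (hb : Measurable bb) (hb1 : ∀ b, ‖bb b‖ ≤ 1) (h : Good bb β PX Q) (n : ℕ) :
    Good bb β PX fun z => Q z ^ n := by
  induction n with
  | zero => simpa using Good.one (K := K) (β := β) (PX := PX) hb hb1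
  | succ n ih => simpa [pow_succ] using ih.mul hb hb1 h

theorem Good.of_tendsto {F : ℕ → 𝔹 × (Fin K → X) → ℝ} (hF : ∀ n, Good bb β PX (F n)) (C : ℝ)
    (hC : ∀ n z, |F n z| ≤ C) (hlim : ∀ z, Tendsto (fun n => F n z) atTop (𝓝 (Q z))) :
    Good bb β PX Q := by
  have hm : Measurable Q := measurable_of_tendsto_metrizable (fun n => (hF n).1.1)
    (tendsto_pi_nhds.2 hlim)
  have hQC : ∀ z, |Q z| ≤ C := fun z => le_of_tendsto (hlim z).abs (Eventually.of_forall
    fun n => hC n z)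
  refine ⟨⟨hm, C, hQC⟩, fun L hL hP => ?_⟩
  obtain ⟨hLm, D, hD⟩ := hL
  have hlim2 : Tendsto (fun n => ∫ z, L z * F n z ∂(mm K β PX)) atTop
      (𝓝 (∫ z, L z * Q z ∂(mm K β PX))) := by
    refine tendsto_integral_of_dominated_convergence (fun _ => |D| * |C|) (fun n => ?_)
      (integrable_const _) (fun n => Eventually.of_forall fun z => ?_)
      (Eventually.of_forall fun z => (hlim z).const_mul _)
    · exact (hLm.mul (hF n).1.1).aestronglyMeasurable
    · rw [Real.norm_eq_abs, abs_mul]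
      exact mul_le_mul ((hD z).trans (le_abs_self _)) ((hC n z).trans (le_abs_self _))
        (abs_nonneg _) (abs_nonneg _)
  exact ge_of_tendsto hlim2 (Eventually.of_forall fun n => (hF n).2 L ⟨hLm, D, hD⟩ hP)

theorem Good.series (hb : Measurable bb) (hb1 : ∀ b, ‖bb b‖ ≤ 1) (h : Good bb β PX Q)
    {c : ℕ → ℝ} (hc : ∀ n, 0 ≤ c n) {q : ℝ} (hq : ∀ z, |Q z| ≤ q)
    (hs : Summable fun n => c n * q ^ (n + 1)) {R : 𝔹 × (Fin K → X) → ℝ}
    (hR : ∀ z, HasSum (fun n => c n * Q z ^ (n + 1)) (R z)) : Good bb β PX R := by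
  refine Good.of_tendsto (F := fun N z => ∑ n ∈ Finset.range N, c n * Q z ^ (n + 1))
    (fun N => ?_) (∑' n, c n * q ^ (n + 1)) (fun N z => ?_) fun z => (hR z).tendsto_sum_nat
  · exact Good.finsum _ fun n _ => (h.pow hb hb1 (n + 1)).smul (hc n)
  · have hq0 : 0 ≤ q := (abs_nonneg _).trans (hq z)
    calc |∑ n ∈ Finset.range N, c n * Q z ^ (n + 1)|
        ≤ ∑ n ∈ Finset.range N, |c n * Q z ^ (n + 1)| := Finset.abs_sum_le_sum_abs _ _
      _ ≤ ∑ n ∈ Finset.range N, c n * q ^ (n + 1) := by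
          refine Finset.sum_le_sum fun n _ => ?_
          rw [abs_mul, abs_of_nonneg (hc n), abs_pow]
          exact mul_le_mul_of_nonneg_left (pow_le_pow_left₀ (abs_nonneg _) (hq z) _) (hc n)
      _ ≤ ∑' n, c n * q ^ (n + 1) :=
          hs.sum_le_tsum _ fun n _ => mul_nonneg (hc n) (pow_nonneg hq0 _)

theorem Good.one_sub_rpow (hb : Measurable bb) (hb1 : ∀ b, ‖bb b‖ ≤ 1) (h : Good bb β PX Q)
    {q : ℝ} (hq0 : 0 ≤ q) (hq1 : q < 1) (hq : ∀ z, |Q z| ≤ q) {a : ℝ} (ha : 0 < a) (ha1 : a ≤ 1) :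
    Good bb β PX fun z => 1 - (1 - Q z) ^ a := by
  refine h.series hb hb1 (choose_sign ha ha1) hq ?_ fun z =>
    one_sub_rpow_hasSum ((hq z).trans_lt hq1)
  exact (one_sub_rpow_hasSum (a := a) (by rwa [abs_of_nonneg hq0])).summable

theorem Good.neg_log (hb : Measurable bb) (hb1 : ∀ b, ‖bb b‖ ≤ 1) (h : Good bb β PX Q)
    {q : ℝ} (hq0 : 0 ≤ q) (hq1 : q < 1) (hq : ∀ z, |Q z| ≤ q) :
    Good bb β PX fun z => -Real.log (1 - Q z) := by
  have hh : ∀ {x : ℝ}, |x| < 1 →
      HasSum (fun n : ℕ => (1 / ((n : ℝ) + 1)) * x ^ (n + 1)) (-Real.log (1 - x)) := by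
    intro x hx
    have h1 := Real.hasSum_pow_div_log_of_abs_lt_one hx
    have e : (fun n : ℕ => (1 / ((n : ℝ) + 1)) * x ^ (n + 1)) =
        fun n : ℕ => x ^ (n + 1) / ((n : ℝ) + 1) := by
      funext n; ring
    rw [e]; exact h1
  refine h.series hb hb1 (c := fun n => 1 / ((n : ℝ) + 1)) (fun n => by positivity) hq
    (hh (by rwa [abs_of_nonneg hq0])).summable fun z => hh ((hq z).trans_lt hq1)

theorem Good.param {U : Type} [MeasurableSpace U] {PU : Measure U} [IsFiniteMeasure PU]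
    {F : U → 𝔹 × (Fin K → X) → ℝ} (hF : Bdm fun x : U × (𝔹 × (Fin K → X)) => F x.1 x.2)
    (hG : ∀ u, Good bb β PX (F u)) : Good bb β PX fun z => ∫ u, F u z ∂PU := by
  obtain ⟨hm, C, hC⟩ := hF
  have hm2 : Measurable fun x : (𝔹 × (Fin K → X)) × U => F x.2 x.1 := hm.comp measurable_swap
  refine ⟨⟨?_, |C| * PU.real Set.univ, fun z => ?_⟩, fun L hL hP => ?_⟩
  · exact (StronglyMeasurable.integral_prod_right (f := fun z u => F u z)
      hm2.stronglyMeasurable).measurable
  · have := norm_integral_le_of_norm_le_const (μ := PU) (f := fun u => F u z) (C := |C|)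
      (Eventually.of_forall fun u => (hC (u, z)).trans (le_abs_self C))
    exact this
  · have h1 : ∀ z, L z * ∫ u, F u z ∂PU = ∫ u, L z * F u z ∂PU := fun z =>
      (integral_const_mul _ _).symm
    simp_rw [h1]
    rw [integral_integral_swap]
    · exact integral_nonneg fun u => (hG u).2 L hL hP
    · have h2 : Bdm fun x : (𝔹 × (Fin K → X)) × U => L x.1 * F x.2 x.1 :=
        (hL.comp measurable_fst).mul ⟨hm2, C, fun x => hC (x.2, x.1)⟩
      exact h2.integrable _

end Good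

section Coord

variable {bb : 𝔹 → (Fin K → Bool) → ℝ} {β : Measure 𝔹} {PX : Measure X} [IsProbabilityMeasure β]
  [IsFiniteMeasure PX] {Y : Type} [MeasurableSpace Y] {PY : Measure Y} [IsProbabilityMeasure PY]

/-- Zipping. -/
def zipp (z : (𝔹 × (Fin K → X)) × (Fin K → Y)) : 𝔹 × (Fin K → X × Y) :=
  (z.1.1, fun j => (z.1.2 j, z.2 j))

theorem zipp_mp : MeasurePreserving (zipp (K := K) (𝔹 := 𝔹) (X := X) (Y := Y))
    ((mm K β PX).prod (Measure.pi fun _ => PY)) (mm K β (PX.prod PY)) := by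
  have h1 := (measurePreserving_arrowProdEquivProdArrow X Y (Fin K) (fun _ => PX)
    (fun _ => PY)).symm
  have h2 := (measurePreserving_prodAssoc β (Measure.pi fun _ : Fin K => PX)
    (Measure.pi fun _ : Fin K => PY))
  have h3 := (MeasurePreserving.id β).prod h1
  exact h3.comp h2

theorem integral_zipp {F : 𝔹 × (Fin K → X × Y) → ℝ} (hF : Bdm F) :
    ∫ z, F z ∂(mm K β (PX.prod PY)) =
      ∫ z, (∫ y, F (zipp (z, y)) ∂(Measure.pi fun _ => PY)) ∂(mm K β PX) := by
  have hmp := zipp_mp (K := K) (β := β) (PX := PX) (PY := PY)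
  rw [← hmp.map_eq, integral_map hmp.measurable.aemeasurable hF.1.aestronglyMeasurable,
    integral_prod]
  exact (hF.comp hmp.measurable).integrable _

theorem Ker.avg {T : Type} [Fintype T] {φ : X × Y → T → ℝ} (h : Ker φ) (PY : Measure Y)
    [IsProbabilityMeasure PY] : Ker fun x t => ∫ y, φ (x, y) t ∂PY := by
  refine ⟨fun t => (StronglyMeasurable.integral_prod_right (f := fun x y => φ (x, y) t)
    (h.meas t).stronglyMeasurable).measurable, fun x t => integral_nonneg fun y => h.nn _ _,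
    fun x => ?_⟩
  rw [← integral_finsetSum]
  · simp only [h.sum, integral_const, probReal_univ, smul_eq_mul, mul_one]
  · intro t _
    exact ((h.bdm t).comp (measurable_const.prodMk measurable_id)).integrable _

theorem Good.coord {Q' : 𝔹 × (Fin K → X × Y) → ℝ} (h : Good bb β (PX.prod PY) Q') 
    (hb : Measurable bb) (hb1 : ∀ b, ‖bb b‖ ≤ 1) :
    Good bb β PX fun z => ∫ y, Q' (zipp (z, y)) ∂(Measure.pi fun _ => PY) := by
  have hmz : Measurable (zipp (K := K) (𝔹 := 𝔹) (X := X) (Y := Y)) :=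
    (zipp_mp (K := K) (β := β) (PX := PX) (PY := PY)).measurable
  obtain ⟨⟨hm, C, hC⟩, hG⟩ := h
  have hms : StronglyMeasurable fun z : 𝔹 × (Fin K → X) =>
      ∫ y, Q' (zipp (z, y)) ∂(Measure.pi fun _ => PY) :=
    StronglyMeasurable.integral_prod_right (f := fun z y => Q' (zipp (z, y)))
      (hm.comp hmz).stronglyMeasurable
  refine ⟨⟨hms.measurable, C, fun z => ?_⟩, fun L hL hP => ?_⟩
  · have := norm_integral_le_of_norm_le_const (μ := Measure.pi fun _ : Fin K => PY)
      (f := fun y => Q' (zipp (z, y))) (C := C) (Eventually.of_forall fun u => hC _)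
    simpa using this
  · have hL' : Bdm fun z : 𝔹 × (Fin K → X × Y) => L (z.1, fun j => (z.2 j).1) := by
      refine hL.comp (measurable_fst.prodMk (measurable_pi_lambda _ fun j => ?_))
      exact measurable_fst.comp ((measurable_pi_apply j).comp measurable_snd)
    have h1 := hG (fun z => L (z.1, fun j => (z.2 j).1)) hL' ?_
    · rw [integral_zipp (hL'.mul ⟨hm, C, hC⟩)] at h1
      refine h1.trans_eq ?_
      congr 1
      funext z
      simp only [zipp]
      rw [integral_const_mul]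
    · intro n _ _ φ hφ
      rw [integral_zipp (hL'.mul (gen_bdm hb hb1 n hφ))]
      have h2 := hP n (fun x t => ∫ y, φ (x, y) t ∂PY) (hφ.avg PY)
      refine h2.trans_eq ?_
      congr 1
      funext z
      simp only [zipp, gen, mform]
      rw [integral_const_mul, integral_finsetSum]
      · congr 1
        refine Finset.sum_congr rfl fun τ _ => ?_
        rw [integral_mul_const]
        congr 1
        exact (integral_fintype_prod_eq_prod (𝕜 := ℝ) (fun j y => φ (z.2 j, y) (τ j))).symm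
      · intro τ _
        refine Integrable.mul_const (Bdm.integrable (Bdm.finprod _ fun j _ => ?_) _) _
        exact (hφ.bdm (τ j)).comp (measurable_const.prodMk (measurable_pi_apply j))

end Coord

end Vale.Agent.N168I.PT
end
end

section

section

set_option autoImplicit false
set_option linter.unusedSectionVars false

open MeasureTheory ProbabilityTheory Filter
open scoped NNReal Topology

namespace Vale.Agent.N168I.PT

theorem one_sub_rpow_le {s R e : ℝ} (hs0 : 0 ≤ s) (hs1 : s < 1) (h1 : 1 - s ≤ R) (h2 : R ≤ 1 + s)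
    (he : 0 < e) (he1 : e ≤ 1) : |1 - R ^ e| ≤ s := by
  have hR : 0 < R := by linarith
  have a1 : R ^ e ≤ 1 + s := by
    calc R ^ e ≤ (1 + s) ^ e := Real.rpow_le_rpow hR.le h2 he.le
      _ ≤ (1 + s) ^ (1 : ℝ) := Real.rpow_le_rpow_of_exponent_le (by linarith) he1
      _ = 1 + s := Real.rpow_one _
  have a2 : 1 - s ≤ R ^ e := by
    calc 1 - s = (1 - s) ^ (1 : ℝ) := (Real.rpow_one _).symm
      _ ≤ (1 - s) ^ e := Real.rpow_le_rpow_of_exponent_ge (by linarith) (by linarith) he1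
      _ ≤ R ^ e := Real.rpow_le_rpow (by linarith) h1 he.le
  rw [abs_le]
  constructor <;> linarith

variable {K : ℕ} {𝔹 : Type} [MeasurableSpace 𝔹]

section Down

variable {X : Type} [MeasurableSpace X] {bb : 𝔹 → (Fin K → Bool) → ℝ} {β : Measure 𝔹} {PX : Measure X}
  [IsProbabilityMeasure β] [IsFiniteMeasure PX] {s D : ℝ} {N : 𝔹 × (Fin K → X) → ℝ}

theorem div_bounds (hD : 0 < D) (h1 : ∀ z, (1 - s) * D ≤ N z) (h2 : ∀ z, N z ≤ (1 + s) * D)
    (z : 𝔹 × (Fin K → X)) : 1 - s ≤ N z / D ∧ N z / D ≤ 1 + s :=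
  ⟨(le_div_iff₀ hD).2 (h1 z), (div_le_iff₀ hD).2 (h2 z)⟩

theorem vGood (hD : 0 < D) (h1 : ∀ z, (1 - s) * D ≤ N z) (hs1 : s < 1)
    {e0 : ℝ} (hG : Good bb β PX fun z => D ^ e0 - N z ^ e0) :
    Good bb β PX fun z => 1 - (N z / D) ^ e0 := by
  have h := hG.smul (c := (D ^ e0)⁻¹) (inv_nonneg.2 (Real.rpow_nonneg hD.le _))
  have e : (fun z => (D ^ e0)⁻¹ * (D ^ e0 - N z ^ e0)) = fun z => 1 - (N z / D) ^ e0 := by
    funext z
    have hp : 0 < D ^ e0 := Real.rpow_pos_of_pos hD _
    have hN : 0 ≤ N z := le_trans (mul_nonneg (by linarith) hD.le) (h1 z)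
    rw [Real.div_rpow hN hD.le]
    field_simp
  rwa [e] at h

theorem down (hb : Measurable bb) (hb1 : ∀ b, ‖bb b‖ ≤ 1) (hs0 : 0 ≤ s) (hs1 : s < 1)
    (hD : 0 < D) (h1 : ∀ z, (1 - s) * D ≤ N z) (h2 : ∀ z, N z ≤ (1 + s) * D)
    {e0 e : ℝ} (he : 0 < e) (hee : e ≤ e0) (he0 : e0 ≤ 1)
    (hG : Good bb β PX fun z => D ^ e0 - N z ^ e0) : Good bb β PX fun z => D ^ e - N z ^ e := by
  have he00 : 0 < e0 := he.trans_le hee
  have hv := vGood hD h1 hs1 hG
  have hvb : ∀ z, |1 - (N z / D) ^ e0| ≤ s := fun z =>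
    one_sub_rpow_le hs0 hs1 (div_bounds hD h1 h2 z).1 (div_bounds hD h1 h2 z).2 he00 he0
  have h := (hv.one_sub_rpow hb hb1 hs0 hs1 hvb (a := e / e0) (by positivity)
    ((div_le_one he00).2 hee)).smul (c := D ^ e) (Real.rpow_nonneg hD.le _)
  have ee : (fun z => D ^ e * (1 - (1 - (1 - (N z / D) ^ e0)) ^ (e / e0))) =
      fun z => D ^ e - N z ^ e := by
    funext z
    have hN : 0 ≤ N z := le_trans (mul_nonneg (by linarith) hD.le) (h1 z)
    have hp : 0 < D ^ e := Real.rpow_pos_of_pos hD _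
    rw [sub_sub_cancel, ← Real.rpow_mul (div_nonneg hN hD.le), mul_div_cancel₀ _ he00.ne',
      Real.div_rpow hN hD.le]
    (clear * - hD; field_simp)
  rwa [ee] at h

theorem logGood (hb : Measurable bb) (hb1 : ∀ b, ‖bb b‖ ≤ 1) (hs0 : 0 ≤ s) (hs1 : s < 1)
    (hD : 0 < D) (h1 : ∀ z, (1 - s) * D ≤ N z) (h2 : ∀ z, N z ≤ (1 + s) * D)
    {e0 : ℝ} (he00 : 0 < e0) (he0 : e0 ≤ 1)
    (hG : Good bb β PX fun z => D ^ e0 - N z ^ e0) :
    Good bb β PX fun z => Real.log D - Real.log (N z) := by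
  have hv := vGood hD h1 hs1 hG
  have hvb : ∀ z, |1 - (N z / D) ^ e0| ≤ s := fun z =>
    one_sub_rpow_le hs0 hs1 (div_bounds hD h1 h2 z).1 (div_bounds hD h1 h2 z).2 he00 he0
  have h := (hv.neg_log hb hb1 hs0 hs1 hvb).smul (c := 1 / e0) (by positivity)
  have ee : (fun z => 1 / e0 * -Real.log (1 - (1 - (N z / D) ^ e0))) =
      fun z => Real.log D - Real.log (N z) := by
    funext z
    have hN : 0 < N z := lt_of_lt_of_le (mul_pos (by linarith) hD) (h1 z)
    rw [sub_sub_cancel, Real.log_rpow (div_pos hN hD), Real.log_div hN.ne' hD.ne']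
    field_simp
    ring
  rwa [ee] at h

end Down

variable {S : Type} [Fintype S] {W Y : Type} [MeasurableSpace W] [MeasurableSpace Y]

/-- The integrand of the numerator. -/
def numY {X : Type} {r : ℕ} (Z : (Fin r → W) → S → ℝ) (g : X → (Fin r → Y) → S → Bool → ℝ)
    (t : (Fin K → Bool) → ℝ) (x : Fin K → X) (v : Fin r → W × (Fin K → Y)) : ℝ :=
  ∑ σ, Z (fun p => (v p).1) σ * (1 - mform t fun j => g (x j) (fun p => (v p).2 j) σ)

/-- Probability vectors on the two spin values. -/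
def PV {A B C : Type} (g : A → B → C → Bool → ℝ) : Prop :=
  ∀ x v σ, (∀ e, 0 ≤ g x v σ e) ∧ ∑ e, g x v σ e = 1

/-- The numerator. -/
noncomputable def num {X : Type} (P : Measure W) (PY : Measure Y) (r : ℕ) (m : Fin r → ℝ)
    (Z : (Fin r → W) → S → ℝ) (g : X → (Fin r → Y) → S → Bool → ℝ) (s : ℝ) (bb : 𝔹 → (Fin K → Bool) → ℝ)
    (z : 𝔹 × (Fin K → X)) : ℝ :=
  nest (P.prod (Measure.pi fun _ : Fin K => PY)) r m (numY Z g (s • bb z.1) z.2)

theorem numY_bounds {X : Type} {r : ℕ} {Z : (Fin r → W) → S → ℝ}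
    (hZ : ∀ v σ, 0 ≤ Z v σ) {g : X → (Fin r → Y) → S → Bool → ℝ} (hg1 : PV g)
    {s : ℝ} {t : (Fin K → Bool) → ℝ} (ht : ‖t‖ ≤ s) (x : Fin K → X) (v : Fin r → W × (Fin K → Y)) :
    (1 - s) * ∑ σ, Z (fun p => (v p).1) σ ≤ numY Z g t x v ∧
      numY Z g t x v ≤ (1 + s) * ∑ σ, Z (fun p => (v p).1) σ := by
  have hkey : ∀ σ, |mform t fun j => g (x j) (fun p => (v p).2 j) σ| ≤ s := fun σ =>
    abs_mform_le (μ := fun j => g (x j) (fun p => (v p).2 j) σ) (c := t)
      (fun j e => (hg1 (x j) (fun p => (v p).2 j) σ).1 e)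
      (fun j => (hg1 (x j) (fun p => (v p).2 j) σ).2) fun ε => (abs_app_le t ε).trans ht
  unfold numY
  rw [Finset.mul_sum, Finset.mul_sum]
  constructor
  · refine Finset.sum_le_sum fun σ _ => ?_
    rw [mul_comm]
    exact mul_le_mul_of_nonneg_left (by have := (abs_le.1 (hkey σ)).2; linarith) (hZ _ _)
  · refine Finset.sum_le_sum fun σ _ => ?_
    rw [mul_comm (1 + s)]
    exact mul_le_mul_of_nonneg_left (by have := (abs_le.1 (hkey σ)).1; linarith) (hZ _ _)

theorem measurable_numY {Θ X : Type} [MeasurableSpace Θ] [MeasurableSpace X] {r : ℕ}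
    {Z : Θ → (Fin r → W) → S → ℝ}
    (hZ : ∀ σ, Measurable fun z : Θ × (Fin r → W) => Z z.1 z.2 σ)
    {g : X → (Fin r → Y) → S → Bool → ℝ}
    (hg : ∀ σ, Measurable fun z : X × (Fin r → Y) => g z.1 z.2 σ)
    {t : Θ → (Fin K → Bool) → ℝ} (ht : Measurable t) {x : Θ → Fin K → X} (hx : Measurable x) :
    Measurable fun z : Θ × (Fin r → W × (Fin K → Y)) => numY (Z z.1) g (t z.1) (x z.1) z.2 := by
  unfold numY
  refine Finset.measurable_fun_sum _ fun σ _ => ?_
  refine Measurable.mul ?_ ?_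
  · refine (hZ σ).comp (measurable_fst.prodMk (measurable_pi_lambda _ fun p => ?_))
    exact measurable_fst.comp ((measurable_pi_apply p).comp measurable_snd)
  · unfold mform
    refine measurable_const.sub (Finset.measurable_fun_sum _ fun ε _ => Measurable.mul
      (Finset.measurable_fun_prod _ fun j _ => ?_)
      ((measurable_pi_apply ε).comp (ht.comp measurable_fst)))
    have h1 : Measurable fun z : X × (Fin r → Y) => g z.1 z.2 σ (ε j) :=
      (measurable_pi_apply (ε j)).comp (hg σ)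
    have h2 : Measurable fun z : Θ × (Fin r → W × (Fin K → Y)) =>
        ((x z.1 j, fun p => (z.2 p).2 j) : X × (Fin r → Y)) := by
      refine ((measurable_pi_apply j).comp (hx.comp measurable_fst)).prodMk
        (measurable_pi_lambda _ fun p => ?_)
      exact (measurable_pi_apply j).comp
        (measurable_snd.comp ((measurable_pi_apply p).comp measurable_snd))
    have h3 := h1.comp h2
    exact h3

theorem sum_bd {r : ℕ} {Z : (Fin r → W) → S → ℝ} {z0 z1 : ℝ}
    (hZ : ∀ σ, Bd z0 z1 fun v => Z v σ) :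
    Bd (Fintype.card S * z0) (Fintype.card S * z1) fun v => ∑ σ, Z v σ := by
  refine ⟨Finset.measurable_fun_sum _ fun σ _ => (hZ σ).meas, fun v => ?_, fun v => ?_⟩
  · calc (Fintype.card S * z0 : ℝ) = ∑ _σ : S, z0 := by simp only [Finset.sum_const, Finset.card_univ, nsmul_eq_mul]
      _ ≤ _ := Finset.sum_le_sum fun σ _ => (hZ σ).lo v
  · calc ∑ σ, Z v σ ≤ ∑ _σ : S, z1 := Finset.sum_le_sum fun σ _ => (hZ σ).hi v
      _ = (Fintype.card S * z1 : ℝ) := by simp

theorem fst_mp {P : Measure W} {PY : Measure Y} [IsProbabilityMeasure P]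
    [IsProbabilityMeasure PY] :
    MeasurePreserving (Prod.fst : W × (Fin K → Y) → W)
      (P.prod (Measure.pi fun _ : Fin K => PY)) P := measurePreserving_fst

section Num

variable {X : Type} [MeasurableSpace X] {P : Measure W} {PY : Measure Y} [IsProbabilityMeasure P]
  [IsProbabilityMeasure PY] [Nonempty S] {r : ℕ} {m : Fin r → ℝ} {Z : (Fin r → W) → S → ℝ}
  {g : X → (Fin r → Y) → S → Bool → ℝ} {z0 z1 s : ℝ}

theorem numY_bd (hz : 0 < z0) (hZ : ∀ σ, Bd z0 z1 fun v => Z v σ)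
    (hg : ∀ σ, Measurable fun z : X × (Fin r → Y) => g z.1 z.2 σ) (hg1 : PV g)
    {t : (Fin K → Bool) → ℝ} (ht : ‖t‖ ≤ s) (hs1 : s < 1) (x : Fin K → X) :
    Bd ((1 - s) * (Fintype.card S * z0)) ((1 + s) * (Fintype.card S * z1)) (numY Z g t x) := by
  have hZ0 : ∀ v σ, 0 ≤ Z v σ := fun v σ => hz.le.trans ((hZ σ).lo v)
  have hs0 : 0 ≤ s := (norm_nonneg _).trans ht
  refine ⟨?_, fun v => ?_, fun v => ?_⟩
  · have h := measurable_numY (Θ := Unit) (K := K) (Z := fun _ => Z)
      (fun σ => (hZ σ).meas.comp measurable_snd) hg (t := fun _ => t) measurable_const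
      (x := fun _ => x) measurable_const
    exact h.comp ((measurable_const (a := ())).prodMk measurable_id)
  · refine le_trans ?_ (numY_bounds hZ0 hg1 ht x v).1
    exact mul_le_mul_of_nonneg_left ((sum_bd hZ).lo _) (by linarith)
  · refine (numY_bounds hZ0 hg1 ht x v).2.trans ?_
    exact mul_le_mul_of_nonneg_left ((sum_bd hZ).hi _) (by linarith)

theorem num_bounds (hz : 0 < z0) (hZ : ∀ σ, Bd z0 z1 fun v => Z v σ)
    (hg : ∀ σ, Measurable fun z : X × (Fin r → Y) => g z.1 z.2 σ) (hg1 : PV g)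
    (hm : ∀ p, 0 < m p) (hs0 : 0 ≤ s) (hs1 : s < 1) {t : (Fin K → Bool) → ℝ} (ht : ‖t‖ ≤ s) (x : Fin K → X) :
    (1 - s) * nest P r m (fun v => ∑ σ, Z v σ) ≤
        nest (P.prod (Measure.pi fun _ : Fin K => PY)) r m (numY Z g t x) ∧
      nest (P.prod (Measure.pi fun _ : Fin K => PY)) r m (numY Z g t x) ≤
        (1 + s) * nest P r m fun v => ∑ σ, Z v σ := by
  have hc : (0 : ℝ) < Fintype.card S := by exact_mod_cast Fintype.card_pos
  have hZ0 : ∀ v σ, 0 ≤ Z v σ := fun v σ => hz.le.trans ((hZ σ).lo v)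
  have hnn : ∀ v : Fin r → W, 0 ≤ ∑ σ, Z v σ := fun v => Finset.sum_nonneg fun σ _ => hZ0 v σ
  have hbd := numY_bd (K := K) hz hZ hg hg1 ht hs1 x
  have e : nest (P.prod (Measure.pi fun _ : Fin K => PY)) r m
      (fun v => ∑ σ, Z (fun p => (v p).1) σ) = nest P r m fun v => ∑ σ, Z v σ :=
    nest_comp fst_mp r m (fun v => ∑ σ, Z v σ) (sum_bd hZ).meas
  have hmeas : Measurable fun v : Fin r → W × (Fin K → Y) => ∑ σ, Z (fun p => (v p).1) σ :=
    (sum_bd hZ).meas.comp (measurable_pi_lambda _ fun p =>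
      measurable_fst.comp (measurable_pi_apply p))
  have hB : ∀ c : ℝ, 0 < c → Bd (c * (Fintype.card S * z0)) (c * (Fintype.card S * z1))
      fun v : Fin r → W × (Fin K → Y) => c * ∑ σ, Z (fun p => (v p).1) σ := fun c hc0 =>
    ⟨hmeas.const_mul c, fun v => mul_le_mul_of_nonneg_left ((sum_bd hZ).lo _) hc0.le,
      fun v => mul_le_mul_of_nonneg_left ((sum_bd hZ).hi _) hc0.le⟩
  have h1s : 0 < 1 - s := by linarith
  have h1s' : 0 < 1 + s := by linarith
  constructor
  · rw [← e, ← nest_smul h1s.le r m hm _ fun v => hnn _]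
    exact nest_mono (by positivity) (by positivity) r m hm _ _ (hB (1 - s) h1s) hbd
      fun v => (numY_bounds hZ0 hg1 ht x v).1
  · rw [← e, ← nest_smul h1s'.le r m hm _ fun v => hnn _]
    exact nest_mono (by positivity) (by positivity) r m hm _ _ hbd (hB (1 + s) h1s')
      fun v => (numY_bounds hZ0 hg1 ht x v).2

end Num

theorem Bd.bdm {A : Type} [MeasurableSpace A] {a b : ℝ} {f : A → ℝ} (h : Bd a b f) : Bdm f :=
  ⟨h.meas, max |a| |b|, fun z => abs_le_max_abs_abs (h.lo z) (h.hi z)⟩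

theorem measurable_zipp {X : Type} [MeasurableSpace X] :
    Measurable (zipp (K := K) (𝔹 := 𝔹) (X := X) (Y := Y)) := by
  refine (measurable_fst.comp measurable_fst).prodMk (measurable_pi_lambda _ fun j => ?_)
  exact ((measurable_pi_apply j).comp (measurable_snd.comp measurable_fst)).prodMk
    ((measurable_pi_apply j).comp measurable_snd)

/-- The shifted `g`. -/
def shg {X : Type} {r : ℕ} (g : X → (Fin (r + 1) → Y) → S → Bool → ℝ) :
    X × Y → (Fin r → Y) → S → Bool → ℝ := fun x v => g x.1 (Fin.cons x.2 v)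

theorem shg_meas {X : Type} [MeasurableSpace X] {r : ℕ} {g : X → (Fin (r + 1) → Y) → S → Bool → ℝ}
    (hg : ∀ σ, Measurable fun z : X × (Fin (r + 1) → Y) => g z.1 z.2 σ) (σ : S) :
    Measurable fun z : (X × Y) × (Fin r → Y) => shg g z.1 z.2 σ :=
  (hg σ).comp ((measurable_fst.comp measurable_fst).prodMk
    (measurable_cons.comp ((measurable_snd.comp measurable_fst).prodMk measurable_snd)))

theorem Good.param_coord {X : Type} [MeasurableSpace X] {bb : 𝔹 → (Fin K → Bool) → ℝ} {β : Measure 𝔹}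
    [IsProbabilityMeasure β] {PX : Measure X} [IsFiniteMeasure PX] {PY : Measure Y}
    [IsProbabilityMeasure PY] (hb : Measurable bb) (hb1 : ∀ b, ‖bb b‖ ≤ 1)
    {U : Type} [MeasurableSpace U] {PU : Measure U} [IsFiniteMeasure PU]
    {F : U → 𝔹 × (Fin K → X × Y) → ℝ}
    (hF : Bdm fun x : U × (𝔹 × (Fin K → X × Y)) => F x.1 x.2)
    (hG : ∀ u, Good bb β (PX.prod PY) (F u)) :
    Good bb β PX fun z => ∫ u, (∫ y, F u (zipp (z, y)) ∂(Measure.pi fun _ => PY)) ∂PU := by
  refine Good.param (F := fun u z => ∫ y, F u (zipp (z, y)) ∂(Measure.pi fun _ => PY)) ?_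
    fun u => (hG u).coord hb hb1
  obtain ⟨hFm, C, hC⟩ := hF
  refine ⟨?_, C, fun x => ?_⟩
  · refine (StronglyMeasurable.integral_prod_right
      (f := fun (x : U × (𝔹 × (Fin K → X))) y => F x.1 (zipp (x.2, y)))
      (Measurable.stronglyMeasurable ?_)).measurable
    exact hFm.comp ((measurable_fst.comp measurable_fst).prodMk
      (measurable_zipp.comp ((measurable_snd.comp measurable_fst).prodMk measurable_snd)))
  · have := norm_integral_le_of_norm_le_const (μ := Measure.pi fun _ : Fin K => PY)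
      (f := fun y => F x.1 (zipp (x.2, y))) (C := C)
      (Eventually.of_forall fun u => hC (x.1, _))
    simpa only [ge_iff_le, Real.norm_eq_abs, probReal_univ, mul_one] using this

section Step

variable {X : Type} [MeasurableSpace X] {P : Measure W} {PY : Measure Y} [IsProbabilityMeasure P]
  [IsProbabilityMeasure PY] [Nonempty S] {r : ℕ} {m : Fin (r + 1) → ℝ}
  {Z : (Fin (r + 1) → W) → S → ℝ}
  {g : X → (Fin (r + 1) → Y) → S → Bool → ℝ} {z0 z1 s : ℝ} {bb : 𝔹 → (Fin K → Bool) → ℝ}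

theorem measurable_num_cons (hZ : ∀ σ, Bd z0 z1 fun v => Z v σ)
    (hg : ∀ σ, Measurable fun z : X × (Fin (r + 1) → Y) => g z.1 z.2 σ)
    (hb : Measurable bb) (m' : Fin r → ℝ) :
    Measurable fun x : W × (𝔹 × (Fin K → X × Y)) =>
      num P PY r m' (fun v => Z (Fin.cons x.1 v)) (shg g) s bb x.2 := by
  unfold num
  refine measurable_nest _ r m'
    (fun (x : W × (𝔹 × (Fin K → X × Y))) => numY (fun v => Z (Fin.cons x.1 v)) (shg g)
      (s • bb x.2.1) x.2.2) ?_
  refine measurable_numY (Θ := W × (𝔹 × (Fin K → X × Y)))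
    (Z := fun x v => Z (Fin.cons x.1 v)) (fun σ => ?_) (shg_meas hg)
    (t := fun x => s • bb x.2.1) ?_ (x := fun x => x.2.2) ?_
  · exact (hZ σ).meas.comp (measurable_cons.comp
      ((measurable_fst.comp measurable_fst).prodMk measurable_snd))
  · exact (hb.comp (measurable_fst.comp measurable_snd)).const_smul s
  · exact measurable_snd.comp measurable_snd

theorem cons_den_bd (hz : 0 < z0) (hZ : ∀ σ, Bd z0 z1 fun v => Z v σ) (hm : ∀ p, 0 < m p) :
    Bd (Fintype.card S * z0) (Fintype.card S * z1)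
        fun u => nest P r (Fin.tail m) fun v => ∑ σ, Z (Fin.cons u v) σ := by
  have hc : (0 : ℝ) < Fintype.card S := by exact_mod_cast Fintype.card_pos
  exact nest_cons_bd (by positivity) (Fin.tail m) (fun p => hm _) (fun v => ∑ σ, Z v σ) (sum_bd hZ)

theorem num_cons_bd (hz : 0 < z0) (hZ : ∀ σ, Bd z0 z1 fun v => Z v σ)
    (hg : ∀ σ, Measurable fun z : X × (Fin (r + 1) → Y) => g z.1 z.2 σ)
    (hg1 : PV g) (hm : ∀ p, 0 < m p)
    (hb : Measurable bb) (hsb : ∀ b, ‖s • bb b‖ ≤ s) (hs0 : 0 ≤ s) (hs1 : s < 1) :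
    Bd ((1 - s) * (Fintype.card S * z0)) ((1 + s) * (Fintype.card S * z1))
      fun x : W × (𝔹 × (Fin K → X × Y)) =>
        num P PY r (Fin.tail m) (fun v => Z (Fin.cons x.1 v)) (shg g) s bb x.2 := by
  have hDb := cons_den_bd (P := P) hz hZ hm
  have hb1 := fun x : W × (𝔹 × (Fin K → X × Y)) => num_bounds (K := K) (P := P) (PY := PY) hz
    (Z := fun v => Z (Fin.cons x.1 v)) (fun σ => (hZ σ).comp (measurable_consr x.1))
    (shg_meas hg) (fun x v σ => hg1 _ _ _)
    (m := Fin.tail m) (fun p => hm _) hs0 hs1 (hsb x.2.1) x.2.2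
  refine ⟨measurable_num_cons hZ hg hb _, fun x => ?_, fun x => ?_⟩
  · refine le_trans ?_ (hb1 x).1
    exact mul_le_mul_of_nonneg_left (hDb.lo x.1) (by linarith)
  · refine (hb1 x).2.trans ?_
    exact mul_le_mul_of_nonneg_left (hDb.hi x.1) (by linarith)

theorem num_succ (z : 𝔹 × (Fin K → X)) :
    num P PY (r + 1) m Z g s bb z =
      pm (P.prod (Measure.pi fun _ : Fin K => PY)) (m 0) fun w =>
        num P PY r (Fin.tail m) (fun v => Z (Fin.cons w.1 v)) (shg g) s bb (zipp (z, w.2)) := by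
  unfold num
  rw [nest_succ']
  congr 1
  funext w
  congr 1
  funext v
  unfold numY
  refine Finset.sum_congr rfl fun σ _ => ?_
  have a1 : (fun p => ((Fin.cons w v : Fin (r + 1) → W × (Fin K → Y)) p).1) =
      (Fin.cons w.1 (fun p => (v p).1) : Fin (r + 1) → W) := by
    funext p
    refine Fin.cases ?_ (fun j => ?_) p
    · simp
    · simp
  have a2 : ∀ j : Fin K, (fun p => ((Fin.cons w v : Fin (r + 1) → W × (Fin K → Y)) p).2 j) =
      (Fin.cons (w.2 j) (fun p => (v p).2 j) : Fin (r + 1) → Y) := by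
    intro j
    funext p
    refine Fin.cases ?_ (fun j => ?_) p
    · simp
    · simp
  rw [a1]
  simp_rw [a2]
  rfl

theorem step_eq (hz : 0 < z0) (hZ : ∀ σ, Bd z0 z1 fun v => Z v σ)
    (hg : ∀ σ, Measurable fun z : X × (Fin (r + 1) → Y) => g z.1 z.2 σ)
    (hg1 : PV g) (hm : ∀ p, 0 < m p)
    (hb : Measurable bb) (hsb : ∀ b, ‖s • bb b‖ ≤ s) (hs0 : 0 ≤ s) (hs1 : s < 1)
    (z : 𝔹 × (Fin K → X)) :
    ∫ u, (∫ y, ((nest P r (Fin.tail m) fun v => ∑ σ, Z (Fin.cons u v) σ) ^ m 0 -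
        num P PY r (Fin.tail m) (fun v => Z (Fin.cons u v)) (shg g) s bb (zipp (z, y)) ^ m 0)
          ∂(Measure.pi fun _ => PY)) ∂P =
      (nest P (r + 1) m fun v => ∑ σ, Z v σ) ^ m 0 - num P PY (r + 1) m Z g s bb z ^ m 0 := by
  have hc : (0 : ℝ) < Fintype.card S := by exact_mod_cast Fintype.card_pos
  have h1s : 0 < 1 - s := by linarith
  have hNz : Bd ((1 - s) * (Fintype.card S * z0)) ((1 + s) * (Fintype.card S * z1))
      fun w : W × (Fin K → Y) =>
      num P PY r (Fin.tail m) (fun v => Z (Fin.cons w.1 v)) (shg g) s bb (zipp (z, w.2)) :=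
    (num_cons_bd hz hZ hg hg1 hm hb hsb hs0 hs1).comp
      (measurable_fst.prodMk (measurable_zipp.comp (measurable_const.prodMk measurable_snd)))
  have hDb := cons_den_bd (P := P) hz hZ hm
  have hNz' := hNz.rpow (by positivity) (hm 0)
  have hDb' := hDb.rpow (by positivity) (hm 0)
  have e2 : (nest P (r + 1) m fun v => ∑ σ, Z v σ) ^ m 0 =
      ∫ u, (nest P r (Fin.tail m) fun v => ∑ σ, Z (Fin.cons u v) σ) ^ m 0 ∂P := by
    rw [nest_succ']
    exact pm_rpow hDb (by positivity) (hm 0)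
  rw [num_succ, e2, pm_rpow hNz (by positivity) (hm 0), integral_prod _ (hNz'.integrable _),
    ← integral_sub (hDb'.integrable _) (hNz'.integrable _).integral_prod_left]
  congr 1
  funext u
  rw [integral_sub (integrable_const _)]
  · simp
  · exact (hNz'.comp (measurable_const.prodMk measurable_id)).integrable _

theorem step_good {β : Measure 𝔹} [IsProbabilityMeasure β] {PX : Measure X} [IsFiniteMeasure PX]
    (hz : 0 < z0) (hZ : ∀ σ, Bd z0 z1 fun v => Z v σ)
    (hg : ∀ σ, Measurable fun z : X × (Fin (r + 1) → Y) => g z.1 z.2 σ)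
    (hg1 : PV g) (hm : ∀ p, 0 < m p)
    (hb : Measurable bb) (hb1 : ∀ b, ‖bb b‖ ≤ 1) (hsb : ∀ b, ‖s • bb b‖ ≤ s) (hs0 : 0 ≤ s)
    (hs1 : s < 1)
    (hF : ∀ u, Good (K := K) bb β (PX.prod PY) fun z' =>
      (nest P r (Fin.tail m) fun v => ∑ σ, Z (Fin.cons u v) σ) ^ m 0 -
        num P PY r (Fin.tail m) (fun v => Z (Fin.cons u v)) (shg g) s bb z' ^ m 0) :
    Good (K := K) bb β PX fun z =>
      (nest P (r + 1) m fun v => ∑ σ, Z v σ) ^ m 0 - num P PY (r + 1) m Z g s bb z ^ m 0 := by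
  have hc : (0 : ℝ) < Fintype.card S := by exact_mod_cast Fintype.card_pos
  have h1s : 0 < 1 - s := by linarith
  have hNb' := (num_cons_bd (K := K) (P := P) (PY := PY) hz hZ hg hg1 hm hb hsb hs0 hs1).rpow
    (by positivity) (hm 0)
  have hDb' := (cons_den_bd (P := P) hz hZ hm).rpow (by positivity) (hm 0)
  have hFb : Bdm fun x : W × (𝔹 × (Fin K → X × Y)) =>
      (nest P r (Fin.tail m) fun v => ∑ σ, Z (Fin.cons x.1 v) σ) ^ m 0 -
        num P PY r (Fin.tail m) (fun v => Z (Fin.cons x.1 v)) (shg g) s bb x.2 ^ m 0 :=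
    (hDb'.bdm.comp measurable_fst).sub hNb'.bdm
  have hGood := Good.param_coord (K := K) (PU := P) (PY := PY) (PX := PX) hb hb1 hFb hF
  have ee := funext fun z => step_eq (K := K) (P := P) (PY := PY) hz hZ hg hg1 hm hb hsb hs0 hs1 z
  rw [ee] at hGood
  exact hGood

end Step

theorem core {β : Measure 𝔹} [IsProbabilityMeasure β] {bb : 𝔹 → (Fin K → Bool) → ℝ} (hb : Measurable bb)
    (hb1 : ∀ b, ‖bb b‖ ≤ 1) {P : Measure W} {PY : Measure Y} [IsProbabilityMeasure P]
    [IsProbabilityMeasure PY] [Nonempty S] {z0 z1 s : ℝ} (hz : 0 < z0) (hs0 : 0 ≤ s)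
    (hs1 : s < 1) (r : ℕ) :
    ∀ (m : Fin r → ℝ) (_ : ∀ p, 0 < m p) (_ : ∀ p, m p ≤ 1) (_ : Monotone m)
      {X : Type} [MeasurableSpace X] (PX : Measure X) [IsFiniteMeasure PX]
      (Z : (Fin r → W) → S → ℝ) (_ : ∀ σ, Bd z0 z1 fun v => Z v σ)
      (g : X → (Fin r → Y) → S → Bool → ℝ)
      (_ : ∀ σ, Measurable fun z : X × (Fin r → Y) => g z.1 z.2 σ) (_ : PV g)
      (e : ℝ) (_ : 0 < e) (_ : e ≤ 1) (_ : ∀ p, e ≤ m p),
      Good (K := K) bb β PX fun z =>
        (nest P r m fun v => ∑ σ, Z v σ) ^ e - num P PY r m Z g s bb z ^ e := by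
  have hsb : ∀ b, ‖s • bb b‖ ≤ s := fun b => by
    rw [norm_smul, Real.norm_eq_abs, abs_of_nonneg hs0]
    exact mul_le_of_le_one_right hs0 (hb1 b)
  have hc : (0 : ℝ) < Fintype.card S := by exact_mod_cast Fintype.card_pos
  induction r with
  | zero =>
    intro m hm hm1 hmono X _ PX _ Z hZ g hg hg1 e he he1 hee
    have hD : 0 < nest P 0 m fun v => ∑ σ, Z v σ :=
      lt_of_lt_of_le (by positivity) (nest_mem (by positivity) 0 m hm _ (sum_bd hZ)).1
    refine down hb hb1 hs0 hs1 hD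
      (fun z => (num_bounds (K := K) (PY := PY) hz hZ hg hg1 hm hs0 hs1 (hsb z.1) z.2).1)
      (fun z => (num_bounds (K := K) (PY := PY) hz hZ hg hg1 hm hs0 hs1 (hsb z.1) z.2).2)
      he he1 le_rfl ?_
    have h1 : ∀ σ ∈ (Finset.univ : Finset S), Good (K := K) bb β PX fun z =>
        (Z Fin.elim0 σ * s) * gen bb Unit (fun x t => g x Fin.elim0 σ (t ())) z := by
      intro σ _
      refine (Good.of_gen hb hb1 Unit (ker_unit (g := fun x => g x Fin.elim0 σ)
        ⟨fun e => ?_, fun x e => (hg1 _ _ _).1 e, fun x => (hg1 _ _ _).2⟩)).smul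
        (mul_nonneg (hz.le.trans ((hZ σ).lo _)) hs0)
      exact (measurable_pi_apply e).comp ((hg σ).comp (measurable_id.prodMk measurable_const))
    have h2 := Good.finsum (K := K) Finset.univ h1
    have ee : (fun z : 𝔹 × (Fin K → X) => ∑ σ, (Z Fin.elim0 σ * s) *
        gen bb Unit (fun x t => g x Fin.elim0 σ (t ())) z) = fun z =>
        (nest P 0 m fun v => ∑ σ, Z v σ) ^ (1 : ℝ) - num P PY 0 m Z g s bb z ^ (1 : ℝ) := by
      funext z
      unfold num numY
      rw [Real.rpow_one, Real.rpow_one, nest_zero, nest_zero, ← Finset.sum_sub_distrib]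
      refine Finset.sum_congr rfl fun σ _ => ?_
      have e1 : (fun p : Fin 0 => ((Fin.elim0 : Fin 0 → W × (Fin K → Y)) p).1) =
          (Fin.elim0 : Fin 0 → W) := Subsingleton.elim _ _
      have e2 : ∀ j : Fin K, (fun p : Fin 0 => ((Fin.elim0 : Fin 0 → W × (Fin K → Y)) p).2 j) =
          (Fin.elim0 : Fin 0 → Y) := fun j => Subsingleton.elim _ _
      simp only [e1, e2]
      rw [gen_unit bb (fun x => g x Fin.elim0 σ) z, mform_smul]
      ring
    rwa [ee] at h2
  | succ r ih =>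
    intro m hm hm1 hmono X _ PX _ Z hZ g hg hg1 e he he1 hee
    have hD : 0 < nest P (r + 1) m fun v => ∑ σ, Z v σ :=
      lt_of_lt_of_le (by positivity) (nest_mem (by positivity) (r + 1) m hm _ (sum_bd hZ)).1
    refine down hb hb1 hs0 hs1 hD
      (fun z => (num_bounds (K := K) (PY := PY) hz hZ hg hg1 hm hs0 hs1 (hsb z.1) z.2).1)
      (fun z => (num_bounds (K := K) (PY := PY) hz hZ hg hg1 hm hs0 hs1 (hsb z.1) z.2).2)
      he (hee 0) (hm1 0) ?_
    exact step_good hz hZ hg hg1 hm hb hb1 hsb hs0 hs1 fun u =>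
      ih (Fin.tail m) (fun p => hm _) (fun p => hm1 _)
        (fun i j hij => hmono (Fin.succ_le_succ_iff.2 hij)) (PX.prod PY) _
        (fun σ => (hZ σ).comp (measurable_consr u)) (shg g) (shg_meas hg)
        (fun x v σ => hg1 _ _ _) (m 0) (hm 0) (hm1 0) (fun p => hmono (Fin.zero_le _))

theorem core_log {β : Measure 𝔹} [IsProbabilityMeasure β] {bb : 𝔹 → (Fin K → Bool) → ℝ} (hb : Measurable bb)
    (hb1 : ∀ b, ‖bb b‖ ≤ 1) {P : Measure W} {PY : Measure Y} [IsProbabilityMeasure P]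
    [IsProbabilityMeasure PY] [Nonempty S] {z0 z1 s : ℝ} (hz : 0 < z0) (hs0 : 0 ≤ s)
    (hs1 : s < 1) (r : ℕ) (m : Fin r → ℝ) (hm : ∀ p, 0 < m p) (hm1 : ∀ p, m p ≤ 1)
    (hmono : Monotone m) {X : Type} [MeasurableSpace X] (PX : Measure X) [IsFiniteMeasure PX]
    (Z : (Fin r → W) → S → ℝ) (hZ : ∀ σ, Bd z0 z1 fun v => Z v σ)
    (g : X → (Fin r → Y) → S → Bool → ℝ)
    (hg : ∀ σ, Measurable fun z : X × (Fin r → Y) => g z.1 z.2 σ) (hg1 : PV g) :
    Good (K := K) bb β PX fun z =>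
      Real.log (nest P r m fun v => ∑ σ, Z v σ) - Real.log (num P PY r m Z g s bb z) := by
  have hsb : ∀ b, ‖s • bb b‖ ≤ s := fun b => by
    rw [norm_smul, Real.norm_eq_abs, abs_of_nonneg hs0]
    exact mul_le_of_le_one_right hs0 (hb1 b)
  have hc : (0 : ℝ) < Fintype.card S := by exact_mod_cast Fintype.card_pos
  have hD : 0 < nest P r m fun v => ∑ σ, Z v σ :=
    lt_of_lt_of_le (by positivity) (nest_mem (by positivity) r m hm _ (sum_bd hZ)).1
  obtain ⟨e, he, he1, hee⟩ : ∃ e : ℝ, 0 < e ∧ e ≤ 1 ∧ ∀ p, e ≤ m p := by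
    cases r with
    | zero => exact ⟨1, one_pos, le_rfl, fun p => p.elim0⟩
    | succ r => exact ⟨m 0, hm 0, hm1 0, fun p => hmono (Fin.zero_le _)⟩
  exact logGood hb hb1 hs0 hs1 hD
    (fun z => (num_bounds (K := K) (PY := PY) hz hZ hg hg1 hm hs0 hs1 (hsb z.1) z.2).1)
    (fun z => (num_bounds (K := K) (PY := PY) hz hZ hg hg1 hm hs0 hs1 (hsb z.1) z.2).2)
    he he1 (core hb hb1 hz hs0 hs1 r m hm hm1 hmono PX Z hZ g hg hg1 e he he1 hee)

end Vale.Agent.N168I.PT
end
end


/-!
The one-step inequality of the interpolation under the first order convexity condition.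
-/

set_option linter.all false

section

section

set_option autoImplicit false
set_option linter.unusedSectionVars false

open MeasureTheory ProbabilityTheory Filter
open scoped NNReal Topology

namespace Vale.Agent.N168I.PT

variable {K : ℕ} {𝔹 X0 : Type} [MeasurableSpace 𝔹] [MeasurableSpace X0]
  {β : Measure 𝔹} [IsProbabilityMeasure β] {PX0 : Measure X0} [IsProbabilityMeasure PX0]

/-- Indicator of a type pattern. -/
def tyI (τ t : Fin K → Bool) : ℝ := ∏ j, if t j = τ j then 1 else 0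

theorem tyI_eq (τ t : Fin K → Bool) : tyI τ t = if t = τ then 1 else 0 := by
  unfold tyI
  split_ifs with h
  · subst h; simp only [↓reduceIte, Finset.prod_const_one]
  · obtain ⟨j, hj⟩ := Function.ne_iff.1 h
    exact Finset.prod_eq_zero (Finset.mem_univ j) (if_neg hj)

theorem integral_boolK (F : (Fin K → Bool) → ℝ) :
    ∫ t, F t ∂(Measure.pi fun _ : Fin K => (Measure.count : Measure Bool)) = ∑ t, F t := by
  rw [integral_fintype Integrable.of_finite]
  refine Finset.sum_congr rfl fun t _ => ?_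
  have : (Measure.pi fun _ : Fin K => (Measure.count : Measure Bool)).real {t} = 1 := by
    rw [measureReal_def, Measure.pi_singleton]
    simp only [MeasurableSpace.measurableSet_top, Measure.count_singleton', Finset.prod_const_one, ENNReal.toReal_one]
  rw [this, one_smul]

theorem integral_type (τ : Fin K → Bool) {Q : 𝔹 × (Fin K → Bool × X0) → ℝ} (hQ : Bdm Q) :
    ∫ z, tyI τ (fun j => (z.2 j).1) * Q z ∂(mm K β ((Measure.count : Measure Bool).prod PX0)) =
      ∫ z, Q (z.1, fun j => (τ j, z.2 j)) ∂(mm K β PX0) := by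
  have hty : Bdm fun z : 𝔹 × (Fin K → Bool × X0) => tyI τ fun j => (z.2 j).1 := by
    have h1 : Measurable (tyI τ) := measurable_of_finite _
    refine ⟨h1.comp (measurable_pi_lambda _ fun j =>
      measurable_fst.comp ((measurable_pi_apply j).comp measurable_snd)), 1, fun z => ?_⟩
    simp only [tyI_eq]
    split_ifs <;> simp
  have hF := hty.mul hQ
  rw [integral_zipp (PX := (Measure.count : Measure Bool)) (PY := PX0) hF]
  have hF2 : Bdm fun z : (𝔹 × (Fin K → Bool)) × (Fin K → X0) => 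
      tyI τ (fun j => ((zipp z).2 j).1) * Q (zipp z) := hF.comp measurable_zipp
  rw [integral_prod _ (hF2.integrable _).integral_prod_left,
    integral_prod _ (((hQ.comp (f := fun z : 𝔹 × (Fin K → X0) =>
      ((z.1, fun j => (τ j, z.2 j)) : 𝔹 × (Fin K → Bool × X0))) ?_)).integrable _)]
  · congr 1
    funext b
    rw [integral_boolK]
    rw [Finset.sum_eq_single τ]
    · simp only [zipp, tyI_eq, if_true, one_mul]
    · intro t _ ht
      simp only [zipp, tyI_eq, if_neg ht, zero_mul, integral_zero]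
    · intro h; exact absurd (Finset.mem_univ _) h
  · refine measurable_fst.prodMk (measurable_pi_lambda _ fun j => ?_)
    exact measurable_const.prodMk ((measurable_pi_apply j).comp measurable_snd)

/-- The weight of the types. -/
def lamT (K : ℕ) (t : Fin K → Bool) : ℝ :=
  tyI (fun _ => true) t - ∑ l, tyI (fun j => decide (j = l)) t +
    ((K : ℝ) - 1) * tyI (fun _ => false) t

theorem lamT_bdm : Bdm fun z : 𝔹 × (Fin K → Bool × X0) => lamT K fun j => (z.2 j).1 := by
  have h1 : Measurable (lamT K) := measurable_of_finite _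
  refine ⟨h1.comp (measurable_pi_lambda _ fun j =>
    measurable_fst.comp ((measurable_pi_apply j).comp measurable_snd)),
    ∑ t, |lamT K t|, fun z => ?_⟩
  exact Finset.single_le_sum (f := fun t => |lamT K t|) (fun t _ => abs_nonneg _)
    (Finset.mem_univ _)

theorem tyI_bdm (τ : Fin K → Bool) :
    Bdm fun z : 𝔹 × (Fin K → Bool × X0) => tyI τ fun j => (z.2 j).1 := by
  have h1 : Measurable (tyI τ) := measurable_of_finite _
  refine ⟨h1.comp (measurable_pi_lambda _ fun j =>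
    measurable_fst.comp ((measurable_pi_apply j).comp measurable_snd)), 1, fun z => ?_⟩
  simp only [tyI_eq]
  split_ifs <;> simp

theorem pat_bdm (τ : Fin K → Bool) {Q : 𝔹 × (Fin K → Bool × X0) → ℝ} (hQ : Bdm Q) :
    Bdm fun z : 𝔹 × (Fin K → X0) => Q (z.1, fun j => (τ j, z.2 j)) := by
  refine hQ.comp (measurable_fst.prodMk (measurable_pi_lambda _ fun j => ?_))
  exact measurable_const.prodMk ((measurable_pi_apply j).comp measurable_snd)

theorem integral_lamT {Q : 𝔹 × (Fin K → Bool × X0) → ℝ} (hQ : Bdm Q) :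
    ∫ z, lamT K (fun j => (z.2 j).1) * Q z ∂(mm K β ((Measure.count : Measure Bool).prod PX0)) =
      (∫ z, Q (z.1, fun j => (true, z.2 j)) ∂(mm K β PX0)) -
        (∑ l, ∫ z, Q (z.1, fun j => (decide (j = l), z.2 j)) ∂(mm K β PX0)) +
        ((K : ℝ) - 1) * ∫ z, Q (z.1, fun j => (false, z.2 j)) ∂(mm K β PX0) := by
  have e : ∀ z : 𝔹 × (Fin K → Bool × X0), lamT K (fun j => (z.2 j).1) * Q z =
      tyI (fun _ => true) (fun j => (z.2 j).1) * Q z -
        (∑ l, tyI (fun j => decide (j = l)) (fun j => (z.2 j).1) * Q z) +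
        ((K : ℝ) - 1) * (tyI (fun _ => false) (fun j => (z.2 j).1) * Q z) := by
    intro z
    unfold lamT
    rw [← Finset.sum_mul]
    ring
  simp_rw [e]
  have hB : ∀ τ : Fin K → Bool, Integrable (fun z : 𝔹 × (Fin K → Bool × X0) =>
      tyI τ (fun j => (z.2 j).1) * Q z) (mm K β ((Measure.count : Measure Bool).prod PX0)) :=
    fun τ => ((tyI_bdm τ).mul hQ).integrable _
  have i1 : Integrable (fun z : 𝔹 × (Fin K → Bool × X0) =>
      ∑ l, tyI (fun j => decide (j = l)) (fun j => (z.2 j).1) * Q z)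
      (mm K β ((Measure.count : Measure Bool).prod PX0)) :=
    integrable_finsetSum _ fun l _ => hB _
  have i2 : Integrable (fun z : 𝔹 × (Fin K → Bool × X0) =>
      tyI (fun _ => true) (fun j => (z.2 j).1) * Q z -
      ∑ l, tyI (fun j => decide (j = l)) (fun j => (z.2 j).1) * Q z)
      (mm K β ((Measure.count : Measure Bool).prod PX0)) := (hB _).sub i1
  rw [integral_add i2 ((hB _).const_mul _), integral_sub (hB _) i1,
    integral_finsetSum _ fun l _ => hB _, integral_const_mul, integral_type _ hQ,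
    integral_type _ hQ]
  congr 2
  refine Finset.sum_congr rfl fun l _ => ?_
  rw [integral_type _ hQ]

theorem integral_gen_pat {bb : 𝔹 → (Fin K → Bool) → ℝ} (hb : Measurable bb)
    (hb1 : ∀ b, ‖bb b‖ ≤ 1) (ι : Type) [Fintype ι] [DecidableEq ι]
    {φ : Bool × X0 → (ι → Bool) → ℝ} (hφ : Ker φ) (τ : Fin K → Bool) :
    ∫ z, gen bb ι φ (z.1, fun j => (τ j, z.2 j)) ∂(mm K β PX0) =
      mform (repl β bb ι) fun j t => ∫ x, φ (τ j, x) t ∂PX0 := by
  unfold gen mform repl
  simp only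
  rw [integral_finsetSum]
  · refine Finset.sum_congr rfl fun t _ => ?_
    simp_rw [mul_comm (∏ j, φ _ (t j))]
    rw [integral_prod_mul (μ := β) (ν := Measure.pi fun _ : Fin K => PX0)
      (fun b => ∏ i, bb b fun j => t j i) (fun x : Fin K → X0 => ∏ j, φ (τ j, x j) (t j)),
      integral_fintype_prod_eq_prod (𝕜 := ℝ) (fun j x => φ (τ j, x) (t j)), mul_comm]
  · intro t _
    refine Bdm.integrable (Bdm.mul (Bdm.finprod _ fun j _ => ?_) (Bdm.finprod _ fun i _ => ?_)) _
    · exact (hφ.bdm (t j)).comp (measurable_const.prodMk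
        ((measurable_pi_apply j).comp measurable_snd))
    · exact ⟨(measurable_pi_apply _).comp (hb.comp measurable_fst), 1,
        fun z => (abs_app_le _ _).trans (hb1 _)⟩

theorem lamT_pos {bb : 𝔹 → (Fin K → Bool) → ℝ} (hb : Measurable bb) (hb1 : ∀ b, ‖bb b‖ ≤ 1)
    (hn : FirstOrder β bb) :
    Pos bb β ((Measure.count : Measure Bool).prod PX0)
      fun z : 𝔹 × (Fin K → Bool × X0) => lamT K fun j => (z.2 j).1 := by
  intro ι _ _ φ hφ
  rw [integral_lamT (gen_bdm hb hb1 ι hφ), integral_gen_pat hb hb1 ι hφ,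
    integral_gen_pat hb hb1 ι hφ]
  simp_rw [integral_gen_pat hb hb1 ι hφ]
  have hk := hφ.avg PX0
  have h := hn ι (fun t => ∫ x, φ (true, x) t ∂PX0) (fun t => ∫ x, φ (false, x) t ∂PX0)
    (hk.nn true) (hk.sum true) (hk.nn false) (hk.sum false)
  refine h.trans_eq ?_
  congr 2
  refine Finset.sum_congr rfl fun l _ => ?_
  congr 1
  funext j
  by_cases hj : j = l
  · simp [hj]
  · simp [hj]

end Vale.Agent.N168I.PT
end
end

section

section

set_option autoImplicit false
set_option linter.unusedSectionVars false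

open MeasureTheory ProbabilityTheory Filter
open scoped NNReal Topology

namespace Vale.Agent.N168I.PT

/-- Expansion of a multilinear form. -/
theorem expand {K : ℕ} (q : Fin K → Bool → ℝ) (hq1 : ∀ j, ∑ e, q j e = 1)
    (t : (Fin K → Bool) → ℝ) :
    1 - mform t q = ∑ ε : Fin K → Bool, (∏ j, q j (ε j)) * (1 - t ε) := by
  simp_rw [mul_sub, Finset.sum_sub_distrib, mul_one, sum_prod_one hq1]
  rfl

variable {K : ℕ} {𝔹 : Type} [MeasurableSpace 𝔹] {X0 : Type} [MeasurableSpace X0]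
  {S : Type} [Fintype S] {W Y : Type} [MeasurableSpace W] [MeasurableSpace Y] {r : ℕ}

/-- The function `g` given by the weights. -/
def gq (q : Bool → X0 → (Fin r → Y) → S → Bool → ℝ) :
    Bool × X0 → (Fin r → Y) → S → Bool → ℝ := fun x v σ => q x.1 x.2 v σ

/-- The assumptions on the weights. -/
structure WData (q : Bool → X0 → (Fin r → Y) → S → Bool → ℝ) : Prop where
  qnn : ∀ t x v σ e, 0 ≤ q t x v σ e
  qsum : ∀ t x v σ, ∑ e, q t x v σ e = 1
  qmeas : ∀ t σ e, Measurable fun z : X0 × (Fin r → Y) => q t z.1 z.2 σ e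

variable {q : Bool → X0 → (Fin r → Y) → S → Bool → ℝ}

theorem WData.gle (h : WData q) : PV (gq q) := fun _ _ _ => ⟨h.qnn _ _ _ _, h.qsum _ _ _ _⟩

theorem WData.gmeas (h : WData q) (σ : S) :
    Measurable fun z : (Bool × X0) × (Fin r → Y) => gq q z.1 z.2 σ := by
  unfold gq
  refine measurable_pi_lambda _ fun e => ?_
  have e1 : (fun z : (Bool × X0) × (Fin r → Y) => q z.1.1 z.1.2 z.2 σ e) = fun z =>
      if z.1.1 = true then q true z.1.2 z.2 σ e else q false z.1.2 z.2 σ e := by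
    funext z
    rcases z with ⟨⟨t, x⟩, v⟩
    cases t <;> simp
  rw [e1]
  have hm : Measurable fun z : (Bool × X0) × (Fin r → Y) => (z.1.2, z.2) :=
    (measurable_snd.comp measurable_fst).prodMk measurable_snd
  refine Measurable.ite ?_ ((h.qmeas true σ e).comp hm) ((h.qmeas false σ e).comp hm)
  exact (measurableSet_singleton true).preimage (measurable_fst.comp measurable_fst)

/-- The values of the interaction. -/
def DD (t : (Fin K → Bool) → ℝ) (ε : Fin K → Bool) : ℝ := 1 - t ε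

theorem DD_pos {t : (Fin K → Bool) → ℝ} (ht : ‖t‖ < 1) (ε : Fin K → Bool) : 0 < DD t ε := by
  unfold DD
  have := (abs_le.1 (abs_app_le t ε)).2
  linarith

theorem numY_expand (h : WData q) (Z : (Fin r → W) → S → ℝ) (t : (Fin K → Bool) → ℝ)
    (τ : Fin K → Bool) (x0 : Fin K → X0) (v : Fin r → W × (Fin K → Y)) :
    numY Z (gq q) t (fun j => (τ j, x0 j)) v =
      ∑ σ, Z (fun p => (v p).1) σ * ∑ ε : Fin K → Bool,
        (∏ j, q (τ j) (x0 j) (fun p => (v p).2 j) σ (ε j)) * DD t ε := by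
  unfold numY
  refine Finset.sum_congr rfl fun σ _ => ?_
  congr 1
  exact expand (fun j e => q (τ j) (x0 j) (fun p => (v p).2 j) σ e)
    (fun j => h.qsum _ _ _ _) t

theorem norm_smul_lt {t : (Fin K → Bool) → ℝ} {s : ℝ} (ht : ‖t‖ < 1) (hs0 : 0 ≤ s) (hs1 : s ≤ 1) :
    ‖s • t‖ < 1 := by
  rw [norm_smul, Real.norm_eq_abs, abs_of_nonneg hs0]
  calc s * ‖t‖ ≤ 1 * ‖t‖ := mul_le_mul_of_nonneg_right hs1 (norm_nonneg _)
    _ < 1 := by linarith

theorem DD_smul (s : ℝ) (t : (Fin K → Bool) → ℝ) (ε : Fin K → Bool) :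
    DD (s • t) ε = 1 + s * (-t ε) := by
  unfold DD
  rw [Pi.smul_apply, smul_eq_mul]
  ring

theorem DD_neg (t : (Fin K → Bool) → ℝ) (ε : Fin K → Bool) : DD t ε = 1 + (-t ε) := by
  unfold DD
  ring

theorem numY_cmp (h : WData q) {Z : (Fin r → W) → S → ℝ} (hZ : ∀ v σ, 0 ≤ Z v σ)
    {t t' : (Fin K → Bool) → ℝ} {C : ℝ} (τ : Fin K → Bool) (x0 : Fin K → X0)
    (hC : ∀ ε, DD t ε ≤ C * DD t' ε) (v : Fin r → W × (Fin K → Y)) :
    numY Z (gq q) t (fun j => (τ j, x0 j)) v ≤
      C * numY Z (gq q) t' (fun j => (τ j, x0 j)) v := by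
  rw [numY_expand h, numY_expand h, Finset.mul_sum]
  refine Finset.sum_le_sum fun σ _ => ?_
  rw [mul_left_comm]
  refine mul_le_mul_of_nonneg_left ?_ (hZ _ _)
  rw [Finset.mul_sum]
  refine Finset.sum_le_sum fun ε _ => ?_
  rw [mul_left_comm]
  exact mul_le_mul_of_nonneg_left (hC ε) (Finset.prod_nonneg fun _ _ => h.qnn _ _ _ _ _)

variable {P : Measure W} {PY : Measure Y} [IsProbabilityMeasure P]
  [IsProbabilityMeasure PY] [Nonempty S] {m : Fin r → ℝ} {Z : (Fin r → W) → S → ℝ} {z0 z1 : ℝ}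

/-- Logarithm of the nested mean. -/
noncomputable def LN (P : Measure W) (PY : Measure Y) (m : Fin r → ℝ) (Z : (Fin r → W) → S → ℝ)
    (g : Bool × X0 → (Fin r → Y) → S → Bool → ℝ) (τ : Fin K → Bool) (t : (Fin K → Bool) → ℝ)
    (x0 : Fin K → X0) : ℝ :=
  Real.log (nest (P.prod (Measure.pi fun _ : Fin K => PY)) r m
    (numY Z g t fun j => (τ j, x0 j)))

theorem LN_cmp (h : WData q) (hz : 0 < z0) (hZ : ∀ σ, Bd z0 z1 fun v => Z v σ)
    (hm : ∀ p, 0 < m p) {t t' : (Fin K → Bool) → ℝ} {δ : ℝ} (ht : ‖t‖ < 1) (ht' : ‖t'‖ < 1) (τ : Fin K → Bool)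
    (x0 : Fin K → X0) (hδ : ∀ ε, DD t ε ≤ Real.exp δ * DD t' ε) :
    LN P PY m Z (gq q) τ t x0 ≤ δ + LN P PY m Z (gq q) τ t' x0 := by
  have hc : (0 : ℝ) < Fintype.card S := by exact_mod_cast Fintype.card_pos
  unfold LN
  have h1 : 0 < 1 - ‖t‖ := by linarith
  have h2 : 0 < 1 - ‖t'‖ := by linarith
  exact nest_log_close (by positivity) (by positivity) hm
    (numY_bd hz hZ h.gmeas h.gle le_rfl ht _) (numY_bd hz hZ h.gmeas h.gle le_rfl ht' _)
    (numY_cmp h (fun v σ => hz.le.trans ((hZ σ).lo v)) τ x0 hδ)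

/-- The combination. -/
noncomputable def CC (P : Measure W) (PY : Measure Y) (m : Fin r → ℝ) (Z : (Fin r → W) → S → ℝ)
    (g : Bool × X0 → (Fin r → Y) → S → Bool → ℝ) (t : (Fin K → Bool) → ℝ) (x0 : Fin K → X0) : ℝ :=
  LN P PY m Z g (fun _ => true) t x0 + ((K : ℝ) - 1) * LN P PY m Z g (fun _ => false) t x0 -
    ∑ l, LN P PY m Z g (fun j => decide (j = l)) t x0

theorem DD_zero (ε : Fin K → Bool) : DD 0 ε = 1 := by simp only [DD, Pi.zero_apply, sub_zero]

theorem LN_zero (τ τ' : Fin K → Bool) (x0 : Fin K → X0) :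
    LN P PY m Z (gq q) τ 0 x0 = LN P PY m Z (gq q) τ' 0 x0 := by
  unfold LN
  congr 2
  funext v
  simp only [numY, mform, Pi.zero_apply, mul_zero, Finset.sum_const_zero, sub_zero, mul_one]

/-- The error bound. -/
noncomputable def EE (t : (Fin K → Bool) → ℝ) : ℝ :=
  ∑ ε : Fin K → Bool, |Real.log (DD t ε) - Real.log (DD t fun _ => true)|

theorem log_ratio {a b s : ℝ} (ha : -1 < a) (hb : -1 < b) (hs0 : 0 ≤ s)
    (hs1 : s ≤ 1) : |Real.log (1 + s * a) - Real.log (1 + s * b)| ≤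
      |Real.log (1 + a) - Real.log (1 + b)| := by
  have key : ∀ a b : ℝ, -1 < a → -1 < b → b ≤ a →
      |Real.log (1 + s * a) - Real.log (1 + s * b)| ≤ |Real.log (1 + a) - Real.log (1 + b)| := by
    intro a b ha hb hab
    have p1 : 0 < 1 + a := by linarith
    have p2 : 0 < 1 + b := by linarith
    have pp : ∀ c : ℝ, 0 < 1 + c → 0 < 1 + s * c := by
      intro c hc
      rcases eq_or_lt_of_le hs1 with h | h
      · rw [h, one_mul]; exact hc
      · have := mul_nonneg hs0 hc.le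
        linarith
    have p3 : 0 < 1 + s * a := pp a p1
    have p4 : 0 < 1 + s * b := pp b p2
    have l1 : Real.log (1 + s * b) ≤ Real.log (1 + s * a) :=
      Real.log_le_log p4 (by nlinarith only [hs0, hab])
    have l2 : Real.log (1 + b) ≤ Real.log (1 + a) := Real.log_le_log p2 (by linarith)
    rw [abs_of_nonneg (by linarith), abs_of_nonneg (by linarith)]
    have l3 : Real.log ((1 + s * a) * (1 + b)) ≤ Real.log ((1 + a) * (1 + s * b)) :=
      Real.log_le_log (by (clear * - p3 p2; positivity)) (by nlinarith only [hs1, hab])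
    rw [Real.log_mul p3.ne' p2.ne', Real.log_mul p1.ne' p4.ne'] at l3
    linarith
  rcases le_total b a with hab | hab
  · exact key a b ha hb hab
  · rw [abs_sub_comm, abs_sub_comm (Real.log (1 + a))]
    exact key b a hb ha hab

theorem LN_bound (h : WData q) (hz : 0 < z0) (hZ : ∀ σ, Bd z0 z1 fun v => Z v σ)
    (hm : ∀ p, 0 < m p) {t : (Fin K → Bool) → ℝ} {s : ℝ} (ht : ‖t‖ < 1) (hs0 : 0 ≤ s) (hs1 : s ≤ 1) (τ : Fin K → Bool)
    (x0 : Fin K → X0) :
    |LN P PY m Z (gq q) τ (s • t) x0 - LN P PY m Z (gq q) τ 0 x0 -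
      Real.log (DD (s • t) fun _ => true)| ≤ EE t := by
  have hst : ‖s • t‖ < 1 := norm_smul_lt ht hs0 hs1
  have hq1 : ∀ ε : Fin K → Bool, -1 < -t ε := by
    intro ε
    have := DD_pos ht ε
    unfold DD at this
    linarith
  have hE : ∀ ε : Fin K → Bool, |Real.log (DD (s • t) ε) -
      Real.log (DD (s • t) fun _ => true)| ≤ EE t := by
    intro ε
    have h1 := log_ratio (hq1 ε) (hq1 fun _ => true) hs0 hs1
    have h2 : |Real.log (DD t ε) - Real.log (DD t fun _ => true)| ≤ EE t :=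
      Finset.single_le_sum (f := fun ε : Fin K → Bool =>
        |Real.log (DD t ε) - Real.log (DD t fun _ => true)|)
        (fun _ _ => abs_nonneg _) (Finset.mem_univ ε)
    rw [DD_neg, DD_neg] at h2
    rw [DD_smul, DD_smul]
    exact h1.trans h2
  have u1 := LN_cmp (P := P) (PY := PY) h hz hZ hm (t := s • t) (t' := 0)
    (δ := Real.log (DD (s • t) fun _ => true) + EE t) hst (by simp) τ x0 (by
      intro ε
      rw [DD_zero, mul_one]
      have p := DD_pos hst ε
      rw [← Real.log_le_iff_le_exp p]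
      have := (abs_le.1 (hE ε)).2
      linarith)
  have u2 := LN_cmp (P := P) (PY := PY) h hz hZ hm (t := 0) (t' := s • t)
    (δ := -Real.log (DD (s • t) fun _ => true) + EE t) (by simp) hst τ x0 (by
      intro ε
      rw [DD_zero]
      have p := DD_pos hst ε
      have := (abs_le.1 (hE ε)).1
      calc (1 : ℝ) = Real.exp (-Real.log (DD (s • t) ε)) * DD (s • t) ε := by
            rw [Real.exp_neg, Real.exp_log p, inv_mul_cancel₀ p.ne']
        _ ≤ _ := mul_le_mul_of_nonneg_right (Real.exp_le_exp.2 (by linarith)) p.le)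
  rw [abs_le]
  constructor <;> linarith

theorem CC_bound (hK : 1 ≤ K) (h : WData q) (hz : 0 < z0) (hZ : ∀ σ, Bd z0 z1 fun v => Z v σ)
    (hm : ∀ p, 0 < m p) {t : (Fin K → Bool) → ℝ} {s : ℝ} (ht : ‖t‖ < 1) (hs0 : 0 ≤ s) (hs1 : s ≤ 1)
    (x0 : Fin K → X0) :
    |CC P PY m Z (gq q) (s • t) x0| ≤ 2 * K * EE t := by
  have hK' : (1 : ℝ) ≤ K := by exact_mod_cast hK
  set d : (Fin K → Bool) → ℝ := fun τ => LN P PY m Z (gq q) τ (s • t) x0 -
    LN P PY m Z (gq q) τ 0 x0 - Real.log (DD (s • t) fun _ => true) with hd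
  have hb : ∀ τ, |d τ| ≤ EE t := fun τ => LN_bound h hz hZ hm ht hs0 hs1 τ x0
  have e : CC P PY m Z (gq q) (s • t) x0 = d (fun _ => true) + ((K : ℝ) - 1) *
      d (fun _ => false) - ∑ l, d fun j => decide (j = l) := by
    have h0 : ∀ τ, LN P PY m Z (gq q) τ 0 x0 = LN P PY m Z (gq q) (fun _ => true) 0 x0 :=
      fun τ => LN_zero _ _ _
    unfold CC
    simp only [hd, h0]
    rw [Finset.sum_sub_distrib, Finset.sum_sub_distrib]
    simp only [Finset.sum_const, Finset.card_univ, Fintype.card_fin, nsmul_eq_mul]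
    ring
  rw [e]
  have h1 := hb fun _ => true
  have h2 : |((K : ℝ) - 1) * d (fun _ => false)| ≤ ((K : ℝ) - 1) * EE t := by
    rw [abs_mul, abs_of_nonneg (by linarith only [hK'] : (0 : ℝ) ≤ (K : ℝ) - 1)]
    exact mul_le_mul_of_nonneg_left (hb _) (by linarith only [hK'])
  have h3 : |∑ l : Fin K, d fun j => decide (j = l)| ≤ K * EE t := by
    calc |∑ l : Fin K, d fun j => decide (j = l)| ≤ ∑ l : Fin K, |d fun j => decide (j = l)| :=
          Finset.abs_sum_le_sum_abs _ _
      _ ≤ ∑ _l : Fin K, EE t := Finset.sum_le_sum fun l _ => hb _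
      _ = K * EE t := by simp only [Finset.sum_const, Finset.card_univ, Fintype.card_fin, nsmul_eq_mul]
  have h4 := abs_sub (d (fun _ => true) + ((K : ℝ) - 1) * d (fun _ => false))
    (∑ l : Fin K, d fun j => decide (j = l))
  have h5 := abs_add_le (d fun _ => true) (((K : ℝ) - 1) * d fun _ => false)
  linarith only [h1, h2, h3, h4, h5]

theorem LN_tendsto (h : WData q) (hz : 0 < z0) (hZ : ∀ σ, Bd z0 z1 fun v => Z v σ)
    (hm : ∀ p, 0 < m p) {t : (Fin K → Bool) → ℝ} {s : ℝ} (ht : ‖t‖ < 1) (hs0 : 0 ≤ s)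
    (hs1 : s ≤ 1) (τ : Fin K → Bool) (x0 : Fin K → X0) :
    |LN P PY m Z (gq q) τ (s • t) x0 - LN P PY m Z (gq q) τ t x0| ≤
      (1 - s) * (‖t‖ / (1 - ‖t‖)) := by
  have hst : ‖s • t‖ < 1 := norm_smul_lt ht hs0 hs1
  have h1t : 0 < 1 - ‖t‖ := by linarith
  set κ := ‖t‖ / (1 - ‖t‖) with hκ
  have hκ0 : 0 ≤ κ := by positivity
  have hκe : κ * (1 - ‖t‖) = ‖t‖ := by rw [hκ]; field_simp
  have hQ : ∀ ε : Fin K → Bool, |-t ε| ≤ ‖t‖ := fun ε => by
    rw [abs_neg]
    exact abs_app_le t ε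
  have hexp : 1 + (1 - s) * κ ≤ Real.exp ((1 - s) * κ) := by
    have := Real.add_one_le_exp ((1 - s) * κ)
    linarith only [this]
  have hs1' : 0 ≤ 1 - s := by linarith
  have u1 := LN_cmp (P := P) (PY := PY) h hz hZ hm (t := s • t) (t' := t)
    (δ := (1 - s) * κ) hst ht τ x0 (by
      intro ε
      have p := DD_pos ht ε
      refine le_trans ?_ (mul_le_mul_of_nonneg_right hexp p.le)
      rw [DD_smul, DD_neg]
      have hq := abs_le.1 (hQ ε)
      set a := -t ε
      have h3 : -a ≤ κ * (1 + a) := by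
        have h4 : κ * (1 - ‖t‖) ≤ κ * (1 + a) :=
          mul_le_mul_of_nonneg_left (by linarith only [hq]) hκ0
        linarith only [hκe, hq, h4]
      have h5 := mul_le_mul_of_nonneg_left h3 hs1'
      linarith)
  have u2 := LN_cmp (P := P) (PY := PY) h hz hZ hm (t := t) (t' := s • t)
    (δ := (1 - s) * κ) ht hst τ x0 (by
      intro ε
      have p := DD_pos hst ε
      refine le_trans ?_ (mul_le_mul_of_nonneg_right hexp p.le)
      rw [DD_smul, DD_neg]
      have hq := abs_le.1 (hQ ε)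
      set a := -t ε
      have h3 : a ≤ κ * (1 + s * a) := by
        have h4 : κ * (1 - ‖t‖) ≤ κ * (1 + s * a) := by
          refine mul_le_mul_of_nonneg_left ?_ hκ0
          nlinarith only [hq, hs0, hs1]
        linarith only [hκe, hq, h4]
      have h5 := mul_le_mul_of_nonneg_left h3 hs1'
      nlinarith only [h5])
  rw [abs_le]
  constructor <;> linarith only [u1, u2]

end Vale.Agent.N168I.PT
end
end

section

section

set_option autoImplicit false
set_option linter.unusedSectionVars false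

open MeasureTheory ProbabilityTheory Filter
open scoped NNReal Topology

namespace Vale.Agent.N168I.PT

variable {K : ℕ} {𝔹 : Type} [MeasurableSpace 𝔹] {X0 : Type} [MeasurableSpace X0]
  {S : Type} [Fintype S] {W Y : Type} [MeasurableSpace W] [MeasurableSpace Y] {r : ℕ}
  {q : Bool → X0 → (Fin r → Y) → S → Bool → ℝ}
  {P : Measure W} {PY : Measure Y} [IsProbabilityMeasure P]
  [IsProbabilityMeasure PY] [Nonempty S] {m : Fin r → ℝ} {Z : (Fin r → W) → S → ℝ} {z0 z1 : ℝ}
  {β : Measure 𝔹} [IsProbabilityMeasure β] {PX0 : Measure X0} [IsProbabilityMeasure PX0]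
  {bb : 𝔹 → (Fin K → Bool) → ℝ}

theorem measurable_LN (h : WData q) (hZ : ∀ σ, Bd z0 z1 fun v => Z v σ)
    (τ : Fin K → Bool) :
    Measurable fun z : ((Fin K → Bool) → ℝ) × (Fin K → X0) => LN P PY m Z (gq q) τ z.1 z.2 := by
  unfold LN
  refine Real.measurable_log.comp (measurable_nest _ r m
    (fun (z : ((Fin K → Bool) → ℝ) × (Fin K → X0)) => numY Z (gq q) z.1 fun j => (τ j, z.2 j)) ?_)
  refine measurable_numY (Θ := ((Fin K → Bool) → ℝ) × (Fin K → X0)) (Z := fun _ => Z)
    (fun σ => (hZ σ).meas.comp measurable_snd) h.gmeas (t := fun z => z.1) measurable_fst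
    (x := fun z j => (τ j, z.2 j)) ?_
  exact measurable_pi_lambda _ fun j =>
    measurable_const.prodMk ((measurable_pi_apply j).comp measurable_snd)

theorem measurable_CC (h : WData q) (hZ : ∀ σ, Bd z0 z1 fun v => Z v σ) :
    Measurable fun z : ((Fin K → Bool) → ℝ) × (Fin K → X0) => CC P PY m Z (gq q) z.1 z.2 := by
  unfold CC
  exact ((measurable_LN h hZ _).add ((measurable_LN h hZ _).const_mul _)).sub
    (Finset.measurable_fun_sum _ fun l _ => measurable_LN h hZ _)

theorem measurable_CCs (h : WData q) (hZ : ∀ σ, Bd z0 z1 fun v => Z v σ)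
    {b' : 𝔹 → (Fin K → Bool) → ℝ} (hb : Measurable b') :
    Measurable fun z : 𝔹 × (Fin K → X0) => CC P PY m Z (gq q) (b' z.1) z.2 := by
  have h1 := measurable_CC (K := K) (P := P) (PY := PY) (m := m) h hZ
  have h2 : Measurable fun z : 𝔹 × (Fin K → X0) => (b' z.1, z.2) :=
    (hb.comp measurable_fst).prodMk measurable_snd
  have h3 := h1.comp h2
  exact h3

theorem D1 (h : WData q) (hz : 0 < z0) (hZ : ∀ σ, Bd z0 z1 fun v => Z v σ)
    (hm : ∀ p, 0 < m p) (hm1 : ∀ p, m p ≤ 1) (hmono : Monotone m) (hb : Measurable bb)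
    (hb1 : ∀ b, ‖bb b‖ ≤ 1) (hn : FirstOrder β bb) {s : ℝ} (hs0 : 0 ≤ s)
    (hs1 : s < 1) :
    ∫ z, CC P PY m Z (gq q) (s • bb z.1) z.2 ∂(mm K β PX0) ≤ 0 := by
  have hg := core_log (K := K) (β := β) (bb := bb) hb hb1 (P := P) (PY := PY) hz hs0 hs1 r m hm
    hm1 hmono ((Measure.count : Measure Bool).prod PX0) Z hZ (gq q) h.gmeas h.gle
  have h1 := hg.2 _ lamT_bdm (lamT_pos (PX0 := PX0) hb hb1 hn)
  rw [integral_lamT hg.1] at h1
  set LD : ℝ := Real.log (nest P r m fun v => ∑ σ, Z v σ) with hLD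
  have hI : ∀ τ : Fin K → Bool, Integrable (fun z : 𝔹 × (Fin K → X0) =>
      LD - LN P PY m Z (gq q) τ (s • bb z.1) z.2) (mm K β PX0) := fun τ =>
    (pat_bdm τ hg.1).integrable _
  have e : ∀ z : 𝔹 × (Fin K → X0), CC P PY m Z (gq q) (s • bb z.1) z.2 =
      -(((LD - LN P PY m Z (gq q) (fun _ => true) (s • bb z.1) z.2) -
        ∑ l, (LD - LN P PY m Z (gq q) (fun j => decide (j = l)) (s • bb z.1) z.2)) +
        ((K : ℝ) - 1) * (LD - LN P PY m Z (gq q) (fun _ => false) (s • bb z.1) z.2)) := by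
    intro z
    unfold CC
    rw [Finset.sum_sub_distrib]
    simp only [Finset.sum_const, Finset.card_univ, Fintype.card_fin, nsmul_eq_mul]
    ring
  simp_rw [e]
  have i1 : Integrable (fun z : 𝔹 × (Fin K → X0) =>
      ∑ l, (LD - LN P PY m Z (gq q) (fun j => decide (j = l)) (s • bb z.1) z.2))
      (mm K β PX0) := integrable_finsetSum _ fun l _ => hI _
  have i2 : Integrable (fun z : 𝔹 × (Fin K → X0) =>
      (LD - LN P PY m Z (gq q) (fun _ => true) (s • bb z.1) z.2) -
      ∑ l, (LD - LN P PY m Z (gq q) (fun j => decide (j = l)) (s • bb z.1) z.2))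
      (mm K β PX0) := (hI _).sub i1
  rw [integral_neg, integral_add i2 ((hI _).const_mul _), integral_sub (hI _) i1,
    integral_finsetSum _ fun l _ => hI _, integral_const_mul]
  have h2 : ∀ τ : Fin K → Bool, ∫ z : 𝔹 × (Fin K → X0), (LD -
      Real.log (num P PY r m Z (gq q) s bb (z.1, fun j => (τ j, z.2 j)))) ∂(mm K β PX0) =
      ∫ z, (LD - LN P PY m Z (gq q) τ (s • bb z.1) z.2) ∂(mm K β PX0) := fun τ => rfl
  simp only [h2] at h1
  linarith only [h1]

/-- Approximation of `1`. -/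
noncomputable def sq (n : ℕ) : ℝ := 1 - 1 / ((n : ℝ) + 1)

theorem sq_nonneg' (n : ℕ) : 0 ≤ sq n := by
  have : 1 / ((n : ℝ) + 1) ≤ 1 := by
    rw [div_le_one (by positivity)]
    have : (0 : ℝ) ≤ n := Nat.cast_nonneg n
    linarith
  unfold sq; linarith only [this]

theorem sq_lt (n : ℕ) : sq n < 1 := by
  have : 0 < 1 / ((n : ℝ) + 1) := by positivity
  unfold sq; linarith

theorem sq_lim : Tendsto (fun n => 1 - sq n) atTop (𝓝 0) := by
  simp only [sq, sub_sub_cancel]
  exact tendsto_one_div_add_atTop_nhds_zero_nat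

theorem LN_lim (h : WData q) (hz : 0 < z0) (hZ : ∀ σ, Bd z0 z1 fun v => Z v σ)
    (hm : ∀ p, 0 < m p) {t : (Fin K → Bool) → ℝ} (ht : ‖t‖ < 1) (τ : Fin K → Bool) (x0 : Fin K → X0) :
    Tendsto (fun n => LN P PY m Z (gq q) τ (sq n • t) x0) atTop
      (𝓝 (LN P PY m Z (gq q) τ t x0)) := by
  rw [tendsto_iff_dist_tendsto_zero]
  refine squeeze_zero (fun _ => dist_nonneg) (fun n => ?_) (g := fun n =>
    (1 - sq n) * (‖t‖ / (1 - ‖t‖))) ?_
  · rw [Real.dist_eq]
    exact LN_tendsto h hz hZ hm ht (sq_nonneg' n) (sq_lt n).le τ x0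
  · have := sq_lim.mul_const (‖t‖ / (1 - ‖t‖))
    simpa using this

theorem CC_lim (h : WData q) (hz : 0 < z0) (hZ : ∀ σ, Bd z0 z1 fun v => Z v σ)
    (hm : ∀ p, 0 < m p) {t : (Fin K → Bool) → ℝ} (ht : ‖t‖ < 1) (x0 : Fin K → X0) :
    Tendsto (fun n => CC P PY m Z (gq q) (sq n • t) x0) atTop
      (𝓝 (CC P PY m Z (gq q) t x0)) := by
  unfold CC
  exact ((LN_lim h hz hZ hm ht _ x0).add ((LN_lim h hz hZ hm ht _ x0).const_mul _)).sub
    (tendsto_finsetSum _ fun l _ => LN_lim h hz hZ hm ht _ x0)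

theorem CC_integrable (hK1 : 1 ≤ K) (h : WData q) (hz : 0 < z0)
    (hZ : ∀ σ, Bd z0 z1 fun v => Z v σ) (hm : ∀ p, 0 < m p) (hb : Measurable bb)
    (hbad : ∀ᵐ z ∂(mm K β PX0), ‖bb z.1‖ < 1)
    (hE : Integrable (fun z : 𝔹 × (Fin K → X0) => EE (bb z.1)) (mm K β PX0)) :
    Integrable (fun z : 𝔹 × (Fin K → X0) => CC P PY m Z (gq q) (bb z.1) z.2) (mm K β PX0) := by
  have hmeas := measurable_CCs (K := K) (P := P) (PY := PY) (m := m) h hZ hb
  refine Integrable.mono' (hE.const_mul (2 * K)) hmeas.aestronglyMeasurable ?_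
  refine hbad.mono fun z hzb => ?_
  have := CC_bound (P := P) (PY := PY) hK1 h hz hZ hm hzb zero_le_one le_rfl z.2
  rwa [one_smul] at this

theorem CC_lim_integral (hK1 : 1 ≤ K) (h : WData q) (hz : 0 < z0)
    (hZ : ∀ σ, Bd z0 z1 fun v => Z v σ) (hm : ∀ p, 0 < m p) (hb : Measurable bb)
    (hbad : ∀ᵐ z ∂(mm K β PX0), ‖bb z.1‖ < 1)
    (hE : Integrable (fun z : 𝔹 × (Fin K → X0) => EE (bb z.1)) (mm K β PX0)) :
    Tendsto (fun n => ∫ z, CC P PY m Z (gq q) (sq n • bb z.1) z.2 ∂(mm K β PX0)) atTop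
      (𝓝 (∫ z, CC P PY m Z (gq q) (bb z.1) z.2 ∂(mm K β PX0))) := by
  refine tendsto_integral_of_dominated_convergence
    (fun z => 2 * K * EE (bb z.1)) (fun n => ?_) (hE.const_mul (2 * K)) (fun n => ?_) ?_
  · exact (measurable_CCs (K := K) (P := P) (PY := PY) (m := m) h hZ
      (hb.const_smul (sq n))).aestronglyMeasurable
  · refine hbad.mono fun z hzb => ?_
    exact CC_bound (P := P) (PY := PY) hK1 h hz hZ hm hzb (sq_nonneg' n) (sq_lt n).le z.2
  · exact hbad.mono fun z hzb => CC_lim h hz hZ hm hzb z.2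

theorem D2 (hK1 : 1 ≤ K) (h : WData q) (hz : 0 < z0)
    (hZ : ∀ σ, Bd z0 z1 fun v => Z v σ)
    (hm : ∀ p, 0 < m p) (hm1 : ∀ p, m p ≤ 1) (hmono : Monotone m) (hb : Measurable bb)
    (hb1 : ∀ b, ‖bb b‖ ≤ 1) (hn : FirstOrder β bb)
    (hbad : ∀ᵐ b ∂β, ‖bb b‖ < 1)
    (hE : Integrable (fun z : 𝔹 × (Fin K → X0) => EE (bb z.1)) (mm K β PX0)) :
    Integrable (fun z : 𝔹 × (Fin K → X0) => CC P PY m Z (gq q) (bb z.1) z.2) (mm K β PX0) ∧
    ∫ z, CC P PY m Z (gq q) (bb z.1) z.2 ∂(mm K β PX0) ≤ 0 := by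
  have hbad' : ∀ᵐ z ∂(mm K β PX0), ‖bb z.1‖ < 1 :=
    Measure.quasiMeasurePreserving_fst.ae hbad
  refine ⟨CC_integrable hK1 h hz hZ hm hb hbad' hE, ?_⟩
  exact le_of_tendsto (CC_lim_integral hK1 h hz hZ hm hb hbad' hE) (Eventually.of_forall fun n =>
    D1 h hz hZ hm hm1 hmono hb hb1 hn (sq_nonneg' n) (sq_lt n))

end Vale.Agent.N168I.PT
end
end

section

section

set_option autoImplicit false

open MeasureTheory ProbabilityTheory Filter
open scoped NNReal Topology

namespace Vale.Agent.N168I.PT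

variable {K N r : ℕ}

/-- Static data of one variable of a clause. -/
abbrev XX (N : ℕ) : Type := Fin N × U01

/-- The weights. -/
noncomputable def qvv (xx : (Fin (r + 1) → U01) → ℝ) (t : Bool) (x : XX N) (v : Fin r → U01)
    (σ : Fin N → Bool) (e : Bool) : ℝ :=
  if t = true then (if e = σ x.1 then 1 else 0)
  else (1 + xx (Fin.cons x.2 v) * spin e) / 2

theorem wdata {xx : (Fin (r + 1) → U01) → ℝ} (hm : Measurable xx)
    (hx : ∀ w, xx w ∈ Set.Icc (-1 : ℝ) 1) : WData (qvv (N := N) xx) where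
  qnn t x v σ e := by
    unfold qvv
    split_ifs
    · exact zero_le_one
    · exact le_rfl
    · have h := hx (Fin.cons x.2 v)
      have h1 : -1 ≤ xx (Fin.cons x.2 v) := h.1
      have h2 : xx (Fin.cons x.2 v) ≤ 1 := h.2
      cases e <;> simp only [spin] <;> norm_num <;> linarith
  qsum t x v σ := by
    rw [Fintype.sum_bool]
    unfold qvv
    cases t
    · simp only [spin, Bool.false_eq_true, if_false, if_true]; ring
    · cases σ x.1 <;> simp
  qmeas t σ e := by
    unfold qvv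
    cases t
    · simp only [Bool.false_eq_true, if_false]
      refine (((measurable_const.add ((hm.comp ?_).mul_const _))).div_const _)
      exact measurable_cons.comp ((measurable_snd.comp measurable_fst).prodMk measurable_snd)
    · simp only [if_true]
      have h1 : Measurable fun i : Fin N => if e = σ i then (1 : ℝ) else 0 :=
        measurable_of_finite _
      exact h1.comp (measurable_fst.comp measurable_fst)

/-- Regrouping. -/
def Psi (y : (Clause K × (Fin K → Fin N)) × (Fin K → U01)) : Clause K × (Fin K → XX N) :=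
  zipp (y.1, y.2)

/-- The generalized factor. -/
noncomputable def genF (xx : (Fin (r + 1) → U01) → ℝ)
    (y : (Clause K × (Fin K → Fin N)) × (Fin K → U01)) (τ : Fin K → Bool)
    (v : Fin r → Fin K → U01) (σ : Fin N → Bool) : ℝ :=
  ∑ ε : Fin K → Bool, (∏ j, qvv xx (τ j) ((Psi y).2 j) (fun p => v p j) σ (ε j)) *
    Real.exp (theta y.1.1 ε)

theorem genF_true (xx : (Fin (r + 1) → U01) → ℝ)
    (y : (Clause K × (Fin K → Fin N)) × (Fin K → U01)) (v : Fin r → Fin K → U01)
    (σ : Fin N → Bool) : genF xx y (fun _ => true) v σ = intF y σ := by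
  unfold genF intF
  rw [Finset.sum_eq_single fun j => σ (y.1.2 j)]
  · have : ∏ j, qvv xx true ((Psi y).2 j) (fun p => v p j) σ (σ (y.1.2 j)) = 1 :=
      Finset.prod_eq_one fun j _ => by simp [qvv, Psi, zipp]
    rw [this, one_mul]
  · intro ε _ hε
    obtain ⟨j, hj⟩ := Function.ne_iff.1 hε
    have : ∏ j, qvv xx true ((Psi y).2 j) (fun p => v p j) σ (ε j) = 0 := by
      refine Finset.prod_eq_zero (Finset.mem_univ j) ?_
      simp only [qvv, Psi, zipp, if_true]
      exact if_neg hj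
    rw [this, zero_mul]
  · intro h; exact absurd (Finset.mem_univ _) h

theorem genF_false (xx : (Fin (r + 1) → U01) → ℝ)
    (y : (Clause K × (Fin K → Fin N)) × (Fin K → U01)) (v : Fin r → Fin K → U01)
    (σ : Fin N → Bool) : genF xx y (fun _ => false) v σ = edgF xx y v := by
  unfold genF edgF edgeFactor
  refine Finset.sum_congr rfl fun ε _ => ?_
  rw [mul_comm]
  congr 1

theorem genF_one (xx : (Fin (r + 1) → U01) → ℝ)
    (y : (Clause K × (Fin K → Fin N)) × (Fin K → U01)) (l : Fin K) (v : Fin r → Fin K → U01)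
    (σ : Fin N → Bool) : genF xx y (fun j => decide (j = l)) v σ = cavF xx y l v σ := by
  unfold genF cavF cavityFactor
  refine Finset.sum_congr rfl fun ε _ => ?_
  rw [← Finset.mul_prod_erase _ _ (Finset.mem_univ l)]
  have h1 : ∏ j ∈ Finset.univ.erase l, qvv xx (decide (j = l)) ((Psi y).2 j) (fun p => v p j) σ
      (ε j) = ∏ j ∈ Finset.univ.erase l, (1 + msgs xx y.2 v j * spin (ε j)) / 2 := by
    refine Finset.prod_congr rfl fun j hj => ?_
    have hjl : decide (j = l) = false := decide_eq_false (Finset.ne_of_mem_erase hj)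
    rw [hjl]
    rfl
  rw [h1]
  have h2 : qvv xx (decide (l = l)) ((Psi y).2 l) (fun p => v p l) σ (ε l) =
      if ε l = σ (y.1.2 l) then 1 else 0 := by
    by_cases hh : ε l = σ (y.1.2 l)
    · simp [qvv, Psi, zipp, hh]
    · simp [qvv, Psi, zipp, hh]
  rw [h2]
  split_ifs
  · ring
  · ring

end Vale.Agent.N168I.PT
end
end

section

section

set_option autoImplicit false
set_option linter.unusedSectionVars false

open MeasureTheory ProbabilityTheory Filter
open scoped NNReal Topology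

namespace Vale.Agent.N168I.PT

variable {K N r : ℕ}

theorem measurable_Psi : Measurable (Psi (K := K) (N := N)) := by
  unfold Psi
  exact measurable_zipp.comp (measurable_fst.prodMk measurable_snd)

/-- From the probability space of the interaction to the data of a clause. -/
def Phi {Ω : Type} (θ : Ω → Clause K) (z : Ω × (Fin K → XX N)) :
    (Clause K × (Fin K → Fin N)) × (Fin K → U01) :=
  ((θ z.1, fun j => (z.2 j).1), fun j => (z.2 j).2)

theorem Phi_mp {ρ : Measure (Clause K)} [IsProbabilityMeasure ρ] {Ω : Type} [MeasurableSpace Ω]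
    {P : Measure Ω} [IsProbabilityMeasure P] {θ : Ω → Clause K} (h : MeasurePreserving θ P ρ)
    [NeZero N] :
    MeasurePreserving (Phi (K := K) (N := N) θ) (mm K P ((unif N).prod volume)) (cl3 ρ N) := by
  have h1 := measurePreserving_arrowProdEquivProdArrow (Fin N) U01 (Fin K) (fun _ => unif N)
    (fun _ => (volume : Measure U01))
  have h2 := (measurePreserving_prodAssoc ρ (Measure.pi fun _ : Fin K => unif N)
    (Measure.pi fun _ : Fin K => (volume : Measure U01))).symm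
  have h3 := h.prod h1
  exact h2.comp h3

theorem sum_prod_q {X0 Y S : Type} [MeasurableSpace X0] [MeasurableSpace Y] 
    {q : Bool → X0 → (Fin r → Y) → S → Bool → ℝ} (h : WData q)
    (τ : Fin K → Bool) (x0 : Fin K → X0) (v : Fin r → Fin K → Y) (σ : S) :
    ∑ ε : Fin K → Bool, ∏ j, q (τ j) (x0 j) (fun p => v p j) σ (ε j) = 1 := by
  have := Finset.prod_univ_sum (fun _ : Fin K => (Finset.univ : Finset Bool))
    (fun j e => q (τ j) (x0 j) (fun p => v p j) σ e)
  rw [Fintype.piFinset_univ] at this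
  rw [← this]
  exact Finset.prod_eq_one fun j _ => h.qsum _ _ _ _

section GenF

variable {xx : (Fin (r + 1) → U01) → ℝ} (hm : Measurable xx)
  (hx : ∀ w, xx w ∈ Set.Icc (-1 : ℝ) 1)

include hm hx in
theorem genF_mem (y : (Clause K × (Fin K → Fin N)) × (Fin K → U01)) (τ : Fin K → Bool)
    (v : Fin r → Fin K → U01) (σ : Fin N → Bool) :
    Real.exp (-maxTheta y.1.1) ≤ genF xx y τ v σ ∧ genF xx y τ v σ ≤ Real.exp (maxTheta y.1.1) := by
  have hw := wdata (N := N) hm hx
  have h1 := sum_prod_q hw τ (Psi y).2 v σ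
  have h0 : ∀ ε : Fin K → Bool,
      0 ≤ ∏ j, qvv xx (τ j) ((Psi y).2 j) (fun p => v p j) σ (ε j) := fun ε =>
    Finset.prod_nonneg fun j _ => hw.qnn _ _ _ _ _
  have h2 : ∀ ε, -maxTheta y.1.1 ≤ theta y.1.1 ε ∧ theta y.1.1 ε ≤ maxTheta y.1.1 := fun ε =>
    abs_le.1 (abs_theta_le y.1.1 ε)
  unfold genF
  constructor
  · calc Real.exp (-maxTheta y.1.1) = (∑ ε : Fin K → Bool,
          ∏ j, qvv xx (τ j) ((Psi y).2 j) (fun p => v p j) σ (ε j)) *
            Real.exp (-maxTheta y.1.1) := by rw [h1, one_mul]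
      _ ≤ _ := by
          rw [Finset.sum_mul]
          exact Finset.sum_le_sum fun ε _ =>
            mul_le_mul_of_nonneg_left (Real.exp_le_exp.2 (h2 ε).1) (h0 ε)
  · have h3 : (∑ ε : Fin K → Bool,
        ∏ j, qvv xx (τ j) ((Psi y).2 j) (fun p => v p j) σ (ε j)) *
          Real.exp (maxTheta y.1.1) = Real.exp (maxTheta y.1.1) := by rw [h1, one_mul]
    rw [← h3, Finset.sum_mul]
    exact Finset.sum_le_sum fun ε _ =>
      mul_le_mul_of_nonneg_left (Real.exp_le_exp.2 (h2 ε).2) (h0 ε)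

include hm hx in
theorem measurable_genF (τ : Fin K → Bool) (σ : Fin N → Bool) :
    Measurable fun z : ((Clause K × (Fin K → Fin N)) × (Fin K → U01)) ×
      (Fin r → Fin K → U01) => genF xx z.1 τ z.2 σ := by
  have hw := wdata (N := N) hm hx
  unfold genF
  refine Finset.measurable_fun_sum _ fun ε _ => Measurable.mul
    (Finset.measurable_fun_prod _ fun j _ => ?_) ?_
  · refine (hw.qmeas (τ j) σ (ε j)).comp (Measurable.prodMk ?_ ?_)
    · exact (measurable_pi_apply j).comp (measurable_snd.comp (measurable_Psi.comp measurable_fst))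
    · exact measurable_pi_lambda _ fun p =>
        (measurable_pi_apply j).comp ((measurable_pi_apply p).comp measurable_snd)
  · exact ((measurable_theta ε).comp (measurable_fst.comp
      (measurable_fst.comp measurable_fst))).exp

variable {W : Type} [MeasurableSpace W] {Z : (Fin r → W) → (Fin N → Bool) → ℝ} {z0 z1 : ℝ}

/-- The weight with one more factor. -/
noncomputable def SG (xx : (Fin (r + 1) → U01) → ℝ) (Z : (Fin r → W) → (Fin N → Bool) → ℝ)
    (τ : Fin K → Bool) (y : (Clause K × (Fin K → Fin N)) × (Fin K → U01))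
    (v : Fin r → W × (Fin K → U01)) : ℝ :=
  ∑ σ, Z (fun p => (v p).1) σ * genF xx y τ (fun p => (v p).2) σ

include hm hx in
theorem measurable_SG (hZ : ∀ σ, Bd z0 z1 fun v => Z v σ) (τ : Fin K → Bool) :
    Measurable fun z : ((Clause K × (Fin K → Fin N)) × (Fin K → U01)) ×
      (Fin r → W × (Fin K → U01)) => SG xx Z τ z.1 z.2 := by
  unfold SG
  refine Finset.measurable_fun_sum _ fun σ _ => Measurable.mul ?_ ?_
  · exact (hZ σ).meas.comp (measurable_pi_lambda _ fun p =>
      measurable_fst.comp ((measurable_pi_apply p).comp measurable_snd))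
  · have h1 := measurable_genF (K := K) (N := N) hm hx τ σ
    have h2 : Measurable fun z : ((Clause K × (Fin K → Fin N)) × (Fin K → U01)) ×
        (Fin r → W × (Fin K → U01)) => (z.1, fun p => (z.2 p).2) :=
      measurable_fst.prodMk (measurable_pi_lambda _ fun p =>
        measurable_snd.comp ((measurable_pi_apply p).comp measurable_snd))
    have h3 := h1.comp h2
    exact h3

include hm hx in
theorem SG_bd (hz : 0 < z0) (hZ : ∀ σ, Bd z0 z1 fun v => Z v σ) (τ : Fin K → Bool)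
    (y : (Clause K × (Fin K → Fin N)) × (Fin K → U01)) :
    Bd (Real.exp (-maxTheta y.1.1) * (Fintype.card (Fin N → Bool) * z0))
      (Real.exp (maxTheta y.1.1) * (Fintype.card (Fin N → Bool) * z1)) (SG xx Z τ y) := by
  have hs := sum_bd hZ
  have h0 : ∀ v σ, 0 ≤ Z v σ := fun v σ => hz.le.trans ((hZ σ).lo v)
  have hmm := measurable_SG (K := K) hm hx hZ τ
  have hpm : Measurable fun v : Fin r → W × (Fin K → U01) => (y, v) :=
    measurable_const.prodMk measurable_id
  have hmm2 := hmm.comp hpm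
  refine ⟨hmm2, fun v => ?_, fun v => ?_⟩
  · calc _ ≤ Real.exp (-maxTheta y.1.1) * ∑ σ, Z (fun p => (v p).1) σ :=
          mul_le_mul_of_nonneg_left (hs.lo _) (Real.exp_nonneg _)
      _ ≤ _ := by
          unfold SG
          rw [Finset.mul_sum]
          refine Finset.sum_le_sum fun σ _ => ?_
          rw [mul_comm]
          exact mul_le_mul_of_nonneg_left (genF_mem hm hx y τ _ σ).1 (h0 _ _)
  · calc _ ≤ Real.exp (maxTheta y.1.1) * ∑ σ, Z (fun p => (v p).1) σ := by
          unfold SG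
          rw [Finset.mul_sum]
          refine Finset.sum_le_sum fun σ _ => ?_
          rw [mul_comm (Real.exp _)]
          exact mul_le_mul_of_nonneg_left (genF_mem hm hx y τ _ σ).2 (h0 _ _)
      _ ≤ _ := mul_le_mul_of_nonneg_left (hs.hi _) (Real.exp_nonneg _)

/-- Its log nested mean. -/
noncomputable def LG (P : Measure W) (m : Fin r → ℝ) (xx : (Fin (r + 1) → U01) → ℝ)
    (Z : (Fin r → W) → (Fin N → Bool) → ℝ) (τ : Fin K → Bool)
    (y : (Clause K × (Fin K → Fin N)) × (Fin K → U01)) : ℝ :=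
  Real.log (nest (P.prod (Measure.pi fun _ : Fin K => volume)) r m (SG xx Z τ y))

variable {P : Measure W} [IsProbabilityMeasure P] {m : Fin r → ℝ}

include hm hx in
theorem measurable_LG (hZ : ∀ σ, Bd z0 z1 fun v => Z v σ) (τ : Fin K → Bool) :
    Measurable (LG P m xx Z τ) :=
  Real.measurable_log.comp (measurable_nest _ r m _ (measurable_SG hm hx hZ τ))

include hm hx in
theorem LG_abs (hz : 0 < z0) (hz1 : 0 < z1) (hmp : ∀ p, 0 < m p)
    (hZ : ∀ σ, Bd z0 z1 fun v => Z v σ) (τ : Fin K → Bool)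
    (y : (Clause K × (Fin K → Fin N)) × (Fin K → U01)) :
    |LG P m xx Z τ y| ≤ maxTheta y.1.1 + (|Real.log (Fintype.card (Fin N → Bool) * z0)| +
      |Real.log (Fintype.card (Fin N → Bool) * z1)|) := by
  have hc : (0 : ℝ) < Fintype.card (Fin N → Bool) := by exact_mod_cast Fintype.card_pos
  have h := nest_mem (P := P.prod (Measure.pi fun _ : Fin K => volume)) (by positivity) r m hmp _
    (SG_bd hm hx hz hZ τ y)
  have hp : 0 < nest (P.prod (Measure.pi fun _ : Fin K => volume)) r m (SG xx Z τ y) :=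
    lt_of_lt_of_le (by positivity) h.1
  have h1 := Real.log_le_log (by positivity) h.1
  have h2 := Real.log_le_log hp h.2
  rw [Real.log_mul (Real.exp_pos _).ne' (by positivity), Real.log_exp] at h1 h2
  have a1 := neg_abs_le (Real.log (Fintype.card (Fin N → Bool) * z0))
  have a2 := le_abs_self (Real.log (Fintype.card (Fin N → Bool) * z1))
  have a3 := abs_nonneg (Real.log (Fintype.card (Fin N → Bool) * z0))
  have a4 := abs_nonneg (Real.log (Fintype.card (Fin N → Bool) * z1))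
  unfold LG
  rw [abs_le]
  constructor <;> linarith only [h1, a1, a4, h2, a2, a3]

include hm hx in
theorem LG_integrable {ρ : Measure (Clause K)} [IsProbabilityMeasure ρ] [NeZero N]
    (hρ : Integrable (maxTheta : Clause K → ℝ) ρ) (hz : 0 < z0) (hz1 : 0 < z1)
    (hmp : ∀ p, 0 < m p)
    (hZ : ∀ σ, Bd z0 z1 fun v => Z v σ) (τ : Fin K → Bool) :
    Integrable (LG P m xx Z τ) (cl3 ρ N) := by
  have h1 : Integrable (fun y : (Clause K × (Fin K → Fin N)) × (Fin K → U01) =>
      maxTheta y.1.1) (cl3 ρ N) :=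
    (hρ.comp_fst (Measure.pi fun _ : Fin K => unif N)).comp_fst
      (Measure.pi fun _ : Fin K => (volume : Measure U01))
  have : IsProbabilityMeasure (cl3 ρ N) := by unfold cl3; infer_instance
  refine Integrable.mono' (h1.add (integrable_const (|Real.log (Fintype.card (Fin N → Bool) * z0)| +
      |Real.log (Fintype.card (Fin N → Bool) * z1)|)))
    (measurable_LG hm hx hZ τ).aestronglyMeasurable (Eventually.of_forall fun y => ?_)
  exact LG_abs hm hx hz hz1 hmp hZ τ y

include hm hx in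
theorem LG_eq (hz : 0 < z0) (hmp : ∀ p, 0 < m p) (hZ : ∀ σ, Bd z0 z1 fun v => Z v σ)
    (τ : Fin K → Bool) {Ω : Type} (θ : Ω → Clause K) (z : Ω × (Fin K → XX N)) {a : ℝ}
    {t : (Fin K → Bool) → ℝ} (ha : 0 < a) (ht : ‖t‖ < 1)
    (he : ∀ σ, Real.exp (θ z.1 σ) = a * (1 - t σ)) :
    LG P m xx Z τ (Phi θ z) = Real.log a + LN P volume m Z (gq (qvv xx)) τ t z.2 := by
  have hw := wdata (N := N) hm hx
  have hc : (0 : ℝ) < Fintype.card (Fin N → Bool) := by exact_mod_cast Fintype.card_pos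
  have e1 : SG xx Z τ (Phi θ z) = fun v => a * numY Z (gq (qvv xx)) t
      (fun j => (τ j, z.2 j)) v := by
    funext v
    rw [numY_expand hw, Finset.mul_sum]
    unfold SG genF
    refine Finset.sum_congr rfl fun σ _ => ?_
    rw [mul_left_comm, Finset.mul_sum (a := a)]
    congr 1
    refine Finset.sum_congr rfl fun ε _ => ?_
    have e2 : Real.exp (theta (Phi θ z).1.1 ε) = a * DD t ε := he ε
    have e3 : ∀ j, (Psi (Phi θ z)).2 j = z.2 j := fun j => rfl
    simp only [e2, e3]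
    ring
  have hbd := numY_bd (K := K) hz hZ hw.gmeas hw.gle le_rfl ht fun j => (τ j, z.2 j)
  have h1t : 0 < 1 - ‖t‖ := by linarith
  have hmem := nest_mem (P := P.prod (Measure.pi fun _ : Fin K => (volume : Measure U01)))
    (by positivity) r m hmp _ hbd
  have hpos := lt_of_lt_of_le (by positivity) hmem.1
  unfold LG LN
  rw [e1, nest_smul ha.le r m hmp _ fun v => le_trans (by positivity) (hbd.lo v),
    Real.log_mul ha.ne' hpos.ne']

end GenF

theorem maxTheta_int {ρ : Measure (Clause K)} {ν : Measure ℝ} (h : InClass K ρ ν) :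
    Integrable (maxTheta : Clause K → ℝ) ρ := by
  refine Integrable.mono' (integrable_finsetSum Finset.univ fun σ _ => (h.theta_int σ).abs)
    measurable_maxTheta.aestronglyMeasurable (Eventually.of_forall fun c => ?_)
  rw [Real.norm_eq_abs, abs_of_nonneg (maxTheta_nonneg c)]
  exact maxTheta_le_sum c

theorem measurable_EE : Measurable (EE (K := K)) := by
  unfold EE
  have hD : ∀ ε : Fin K → Bool, Measurable fun t : (Fin K → Bool) → ℝ => Real.log (DD t ε) :=
    fun ε => Real.measurable_log.comp (measurable_const.sub (measurable_pi_apply ε))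
  exact Finset.measurable_fun_sum _ fun ε _ => ((hD ε).sub (hD _)).abs

theorem EE_le {c : Clause K} {a : ℝ} {t : (Fin K → Bool) → ℝ} (ha : 0 < a) (ht : ‖t‖ < 1)
    (he : ∀ σ, Real.exp (c σ) = a * (1 - t σ)) :
    ‖EE t‖ ≤ (Fintype.card (Fin K → Bool) * 2) * maxTheta c := by
  have e : ∀ ε : Fin K → Bool, Real.log (DD t ε) = theta c ε - Real.log a := by
    intro ε
    have h1 : Real.exp (theta c ε) = a * DD t ε := he ε
    have h2 := congrArg Real.log h1
    rw [Real.log_exp, Real.log_mul ha.ne' (DD_pos ht ε).ne'] at h2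
    linarith
  have h2 : 0 ≤ EE t := Finset.sum_nonneg fun _ _ => abs_nonneg _
  rw [Real.norm_eq_abs, abs_of_nonneg h2]
  unfold EE
  calc ∑ ε : Fin K → Bool, |Real.log (DD t ε) - Real.log (DD t fun _ => true)|
      ≤ ∑ _ε : Fin K → Bool, 2 * maxTheta c := by
        refine Finset.sum_le_sum fun ε _ => ?_
        rw [e, e, sub_sub_sub_cancel_right]
        have a1 := abs_theta_le c ε
        have a2 := abs_theta_le c fun _ => true
        have a3 := abs_sub (theta c ε) (theta c fun _ => true)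
        linarith only [a1, a2, a3]
    _ = _ := by
        rw [Finset.sum_const, Finset.card_univ, nsmul_eq_mul]
        ring

theorem star {ρ : Measure (Clause K)} {ν : Measure ℝ} (h : InClass K ρ ν)
    {m : Fin r → ℝ} {x : (Fin (r + 1) → U01) → ℝ} (hx : IsTrial r m x) [NeZero N]
    {W : Type} [MeasurableSpace W] {P : Measure W} [IsProbabilityMeasure P]
    {z0 z1 : ℝ} (hz : 0 < z0) {Z : (Fin r → W) → (Fin N → Bool) → ℝ}
    (hZ : ∀ σ, Bd z0 z1 fun v => Z v σ) :
    (∫ y, Real.log (nest P r m fun v => ∑ σ, Z v σ * intF y σ) ∂(cl3 ρ N)) +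
      ((K : ℝ) - 1) * (∫ y, Real.log (nest (P.prod (Measure.pi fun _ : Fin K => volume)) r m
        fun v => ∑ σ, Z (fun p => (v p).1) σ * edgF x y fun p => (v p).2) ∂(cl3 ρ N)) ≤
      ∑ l : Fin K, ∫ y, Real.log (nest (P.prod (Measure.pi fun _ : Fin K => volume)) r m
        fun v => ∑ σ, Z (fun p => (v p).1) σ * cavF x y l (fun p => (v p).2) σ) ∂(cl3 ρ N) := by
  have := h.prob_clause
  obtain ⟨Ω, _, Q, _, θ, a, ψ, hθ, hψm, hψ1, hae, hfo⟩ := h.conv
  have hψ : Measurable ψ := measurable_pi_lambda _ hψm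
  have hψn : ∀ ω, ‖ψ ω‖ ≤ 1 := fun ω => (pi_norm_le_iff_of_nonneg zero_le_one).2 (hψ1 ω)
  have hae1 : ∀ᵐ ω ∂Q, 0 < a ω ∧ ‖ψ ω‖ < 1 ∧ ∀ σ, Real.exp (θ ω σ) = a ω * (1 - ψ ω σ) :=
    hae.mono fun ω hω => ⟨hω.1, (pi_norm_lt_iff one_pos).2 fun σ => (hω.2 σ).1,
      fun σ => (hω.2 σ).2⟩
  have hae2 : ∀ᵐ z ∂(mm K Q ((unif N).prod (volume : Measure U01))), 0 < a z.1 ∧ ‖ψ z.1‖ < 1 ∧
      ∀ σ, Real.exp (θ z.1 σ) = a z.1 * (1 - ψ z.1 σ) :=
    Measure.quasiMeasurePreserving_fst.ae hae1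
  obtain ⟨hmono, hm, hxm, hx1⟩ := hx
  have hmp : ∀ p, 0 < m p := fun p => (hm p).1
  have hK1 : 1 ≤ K := h.one_le
  have hρ := maxTheta_int h
  have hz1 : 0 < z1 := by
    obtain ⟨w⟩ : Nonempty W := P.nonempty_of_neZero
    have h1 := (hZ fun _ => true).lo fun _ => w
    have h2 := (hZ fun _ => true).hi fun _ => w
    linarith only [hz, h1, h2]
  have hΨ := Phi_mp (N := N) hθ
  have hE : Integrable (fun z : Ω × (Fin K → XX N) => EE (ψ z.1))
      (mm K Q ((unif N).prod (volume : Measure U01))) := by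
    have h1 : Integrable (fun ω => maxTheta (θ ω)) Q := hθ.integrable_comp_of_integrable hρ
    refine Integrable.mono' ((h1.comp_fst _).const_mul (Fintype.card (Fin K → Bool) * 2))
      (measurable_EE.comp (hψ.comp measurable_fst)).aestronglyMeasurable
      (hae2.mono fun z hz => EE_le hz.1 hz.2.1 hz.2.2)
  obtain ⟨hCi, hC⟩ := D2 (K := K) (P := P) (PY := (volume : Measure U01)) (β := Q)
    (PX0 := (unif N).prod (volume : Measure U01)) (bb := ψ) hK1
    (wdata (N := N) hxm hx1) hz hZ hmp (fun p => (hm p).2.le) hmono.monotone hψ hψn hfo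
    (hae1.mono fun ω hω => hω.2.1) hE
  have hI : ∀ τ : Fin K → Bool, Integrable (LG P m x Z τ) (cl3 ρ N) := fun τ =>
    LG_integrable hxm hx1 hρ hz hz1 hmp hZ τ
  have hcomb : (∫ y, LG P m x Z (fun _ => true) y ∂(cl3 ρ N)) + ((K : ℝ) - 1) *
      (∫ y, LG P m x Z (fun _ => false) y ∂(cl3 ρ N)) -
      ∑ l : Fin K, ∫ y, LG P m x Z (fun j => decide (j = l)) y ∂(cl3 ρ N) ≤ 0 := by
    rw [← integral_const_mul, ← integral_finsetSum _ fun l _ => hI _,
      ← integral_add (hI _) ((hI _).const_mul _)]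
    have i1 : Integrable (fun y => LG P m x Z (fun _ => true) y +
        ((K : ℝ) - 1) * LG P m x Z (fun _ => false) y) (cl3 ρ N) :=
      (hI _).add ((hI _).const_mul _)
    rw [← integral_sub i1 (integrable_finsetSum _ fun l _ => hI _)]
    refine le_trans (le_of_eq ?_) hC
    have hLm : Measurable fun y => LG P m x Z (fun _ => true) y +
        ((K : ℝ) - 1) * LG P m x Z (fun _ => false) y -
        ∑ l : Fin K, LG P m x Z (fun j => decide (j = l)) y :=
      ((measurable_LG hxm hx1 hZ _).add ((measurable_LG hxm hx1 hZ _).const_mul _)).sub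
        (Finset.measurable_fun_sum _ fun l _ => measurable_LG hxm hx1 hZ _)
    rw [← hΨ.map_eq, integral_map hΨ.measurable.aemeasurable hLm.aestronglyMeasurable]
    refine integral_congr_ae (hae2.mono fun y hy => ?_)
    have e := fun τ => LG_eq hxm hx1 hz (P := P) hmp hZ τ θ y hy.1 hy.2.1 hy.2.2
    simp only [e, CC, Finset.sum_add_distrib, Finset.sum_const, Finset.card_univ,
      Fintype.card_fin, nsmul_eq_mul]
    ring
  have f1 : ∀ y : (Clause K × (Fin K → Fin N)) × (Fin K → U01), LG P m x Z (fun _ => true) y =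
      Real.log (nest P r m fun v => ∑ σ, Z v σ * intF y σ) := by
    intro y
    unfold LG
    have h1 : SG x Z (fun _ => true) y = fun v : Fin r → W × (Fin K → U01) =>
        (fun u : Fin r → W => ∑ σ, Z u σ * intF y σ) fun p => (v p).1 := by
      funext v
      unfold SG
      simp only [genF_true]
    rw [h1, nest_comp fst_mp r m (fun u : Fin r → W => ∑ σ, Z u σ * intF y σ)]
    exact Finset.measurable_fun_sum _ fun σ _ => (hZ σ).meas.mul_const _
  have f2 : ∀ y : (Clause K × (Fin K → Fin N)) × (Fin K → U01), LG P m x Z (fun _ => false) y =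
      Real.log (nest (P.prod (Measure.pi fun _ : Fin K => volume)) r m
        fun v => ∑ σ, Z (fun p => (v p).1) σ * edgF x y fun p => (v p).2) := by
    intro y
    unfold LG SG
    simp only [genF_false]
  have f3 : ∀ (l : Fin K) (y : (Clause K × (Fin K → Fin N)) × (Fin K → U01)), LG P m x Z (fun j => decide (j = l)) y =
      Real.log (nest (P.prod (Measure.pi fun _ : Fin K => volume)) r m
        fun v => ∑ σ, Z (fun p => (v p).1) σ * cavF x y l (fun p => (v p).2) σ) := by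
    intro l y
    unfold LG SG
    simp only [genF_one]
  simp only [f1, f2, f3] at hcomb
  linarith only [hcomb]

end Vale.Agent.N168I.PT
end
end
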