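import Vale.Agent.P168.MathlibUsed

/-! The objects of the problem, for an arbitrary random function on `{-1,1}^K`. -/

open MeasureTheory ProbabilityTheory
open scoped NNReal

namespace Vale.Agent.N168

/-- The two spin values: `true` stands for `+1`, `false` for `-1`. -/
def spin (s : Bool) : ℝ := if s then 1 else -1

/-- Real functions on `{-1,1}^K`. -/
abbrev Fn (K : ℕ) : Type := (Fin K → Bool) → ℝ

/-- The uniform probability measure on `{1, …, N}`. -/
noncomputable def unif (N : ℕ) : Measure (Fin N) := uniformOn Set.univ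

/-- `∑_σ exp H_N(σ)` for `n` interactions, the `k`-th one being the function `(ω k).1` of the spins
at the sites `(ω k).2 j`, and the external fields `h v`. -/
noncomputable def partitionFn {K N n : ℕ} (ω : Fin n → Fn K × (Fin K → Fin N))
    (h : Fin N → ℝ) : ℝ :=
  ∑ σ : Fin N → Bool, Real.exp (∑ k, (ω k).1 (fun j => σ ((ω k).2 j)) + ∑ v, h v * spin (σ v))

/-- The pressure `F_N = (1/N) E log ∑_σ exp H_N(σ)`: the number of interactions is Poisson of mean
`λ N`, they are i.i.d. of law `ρ` with i.i.d. uniform sites, the fields are i.i.d. of law `ν`. -/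
noncomputable def pressure {K : ℕ} (lam : ℝ≥0) (ρ : Measure (Fn K)) (ν : Measure ℝ)
    (N : ℕ) : ℝ :=
  (1 / (N : ℝ)) * ∫ n : ℕ, (∫ ω : Fin n → Fn K × (Fin K → Fin N), (∫ h : Fin N → ℝ,
      Real.log (partitionFn ω h) ∂(Measure.pi fun _ => ν))
      ∂(Measure.pi fun _ => ρ.prod (Measure.pi fun _ => unif N)))
    ∂(poissonMeasure (lam * N))

/-- The number `Y_0` obtained from `Y_r = Y` by `Y_{p-1} = (E_p Y_p^{m_p})^{1/m_p}`, `p = r, …, 1`.
Here `Y` is a function of `r` independent levels of randomness, each of law `P`; `m 0 = m_1`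
belongs to the first level, and the recursion peels off the first level. -/
noncomputable def nest {W : Type} [MeasurableSpace W] (P : Measure W) (r : ℕ) :
    (Fin r → ℝ) → ((Fin r → W) → ℝ) → ℝ :=
  Nat.rec (fun _ Y => Y Fin.elim0) (fun _ ih m Y =>
    (∫ u, (ih (Fin.tail m) fun v => Y (Fin.cons u v)) ^ m 0 ∂P) ^ (1 / m 0)) r

/-- `∑_{σ_ℓ = ε} e^{θ(σ)} ∏_{j ≠ ℓ} (1 + y_j σ_j) / 2`. -/
noncomputable def cavityFactor {K : ℕ} (θ : Fn K) (l : Fin K) (y : Fin K → ℝ) (e : Bool) : ℝ :=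
  ∑ σ : Fin K → Bool, if σ l = e then
    Real.exp (θ σ) * ∏ j ∈ Finset.univ.erase l, (1 + y j * spin (σ j)) / 2 else 0

/-- `∑_σ e^{θ(σ)} ∏_j (1 + y_j σ_j) / 2`. -/
noncomputable def edgeFactor {K : ℕ} (θ : Fn K) (y : Fin K → ℝ) : ℝ :=
  ∑ σ : Fin K → Bool, Real.exp (θ σ) * ∏ j, (1 + y j * spin (σ j)) / 2

/-- The message with index `i`, as a function of its level-`0` variable `w i` and its variables
`v p i` of the levels `p = 1, …, r`. -/
def message {r : ℕ} {ι : Type} (x : (Fin (r + 1) → unitInterval) → ℝ) (w : ι → unitInterval)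
    (v : Fin r → ι → unitInterval) (i : ι) : ℝ :=
  x (Fin.cons (w i) fun p => v p i)

/-- `E log Y_0` for `Y` built from messages with index set `ι`, given the further randomness:
`w` are the level-`0` variables of the messages, `v p` their level-`p` variables. -/
noncomputable def hierLog {ι : Type} [Fintype ι] (r : ℕ) (m : Fin r → ℝ)
    (Y : (ι → unitInterval) → (Fin r → ι → unitInterval) → ℝ) : ℝ :=
  ∫ w, Real.log (nest volume r m (Y w))

/-- `𝒯 U`, with messages indexed by `Fin n × Fin K`, `n` being the number of interactions. -/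
noncomputable def trialU {K : ℕ} (lam : ℝ≥0) (ρ : Measure (Fn K)) (ν : Measure ℝ) (r : ℕ)
    (m : Fin r → ℝ) (x : (Fin (r + 1) → unitInterval) → ℝ) : ℝ :=
  ∫ n : ℕ, (∫ ω : Fin n → Fn K × Fin K, (∫ h : ℝ,
      hierLog r m (fun w v => ∑ e : Bool, Real.exp (h * spin e) *
        ∏ k, cavityFactor (ω k).1 (ω k).2 (fun j => message x w v (k, j)) e)
      ∂ν) ∂(Measure.pi fun _ => ρ.prod (unif K)))
    ∂(poissonMeasure (K * lam))

/-- `𝒯 V`. -/
noncomputable def trialV {K : ℕ} (lam : ℝ≥0) (ρ : Measure (Fn K)) (r : ℕ)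
    (m : Fin r → ℝ) (x : (Fin (r + 1) → unitInterval) → ℝ) : ℝ :=
  ∫ n : ℕ, (∫ ω : Fin n → Fn K,
      hierLog r m (fun w v => ∏ k, edgeFactor (ω k) fun j => message x w v (k, j))
      ∂(Measure.pi fun _ => ρ))
    ∂(poissonMeasure (((K - 1 : ℕ) : ℝ≥0) * lam))

/-- Admissible parameters of depth `r`: `0 < m_1 < ⋯ < m_r < 1` and `x : [0,1]^{r+1} → [-1,1]`
measurable. -/
def IsTrial (r : ℕ) (m : Fin r → ℝ) (x : (Fin (r + 1) → unitInterval) → ℝ) : Prop :=
  StrictMono m ∧ (∀ p, m p ∈ Set.Ioo (0 : ℝ) 1) ∧ Measurable x ∧ ∀ w, x w ∈ Set.Icc (-1 : ℝ) 1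

/-- `Φ_r`, the infimum of `𝒯 U - 𝒯 V` over the admissible parameters of depth `r`. -/
noncomputable def phi {K : ℕ} (lam : ℝ≥0) (ρ : Measure (Fn K)) (ν : Measure ℝ) (r : ℕ) : EReal :=
  ⨅ (m : Fin r → ℝ) (x : (Fin (r + 1) → unitInterval) → ℝ) (_ : IsTrial r m x),
    ((trialU lam ρ ν r m x - trialV lam ρ r m x : ℝ) : EReal)

/-- The convexity condition of the interpolation method for a random function `ψ` on `{-1,1}^K`:
for every `n`, the mean of `∏_{i ≤ n} ψ(τ_1(i), …, τ_K(i))`, for `τ_1, …, τ_K` i.i.d. of law `μ`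
on `{-1,1}^n` and independent of `ψ`, is a convex function of the probability vector `μ`. -/
def ReplicaConvex {K : ℕ} {Ω : Type} [MeasurableSpace Ω] (P : Measure Ω) (ψ : Ω → Fn K) : Prop :=
  ∀ n : ℕ, ConvexOn ℝ (stdSimplex ℝ (Fin n → Bool)) fun μ =>
    ∑ τ : Fin K → Fin n → Bool, (∏ j, μ (τ j)) * ∫ ω, ∏ i, ψ ω (fun j => τ j i) ∂P

/-- The number of constraints violated by `σ`: constraint `k` has type `(ω k).1` and variables
`(ω k).2 j`, and `viol t s` says that the values `s` violate a constraint of type `t`. -/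
def violated {K N M : ℕ} {T : Type} (viol : T → (Fin K → Bool) → Prop) [DecidableRel viol]
    (ω : Fin M → T × (Fin K → Fin N)) (σ : Fin N → Bool) : ℕ :=
  (Finset.univ.filter fun k => viol (ω k).1 fun j => σ ((ω k).2 j)).card

end Vale.Agent.N168
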