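import Vale.Agent.N168.Low2
import Vale.Agent.N168.Cone

/-!
The interpolation: from the one-step inequality `star` to the upper bound (text of the
starting file `Bdl/B1` of this problem, over the larger class).
-/

set_option linter.all false

section

section

/-!
Measurability and bounds for the interpolating system.
-/

set_option autoImplicit false
set_option linter.unusedSectionVars false

open MeasureTheory ProbabilityTheory
open scoped NNReal

namespace Vale.Agent.N168I.PT

variable {K N r : ℕ}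

theorem measurable_intF (σ : Fin N → Bool) : Measurable fun y : Y3 K N => intF y σ :=
  Real.measurable_exp.comp ((measurable_clauseE σ).comp measurable_fst)

theorem intF_mem (y : Y3 K N) (σ : Fin N → Bool) :
    Real.exp (-maxTheta y.1.1) ≤ intF y σ ∧ intF y σ ≤ Real.exp (maxTheta y.1.1) :=
  ⟨Real.exp_le_exp.2 (theta_mem _ _).1, Real.exp_le_exp.2 (theta_mem _ _).2⟩

theorem measurable_msgs {x : (Fin (r + 1) → U01) → ℝ} (hx : Measurable x) :
    Measurable fun q : (Fin K → U01) × (Fin r → Lv K) => msgs x q.1 q.2 := by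
  refine measurable_pi_lambda _ fun j => ?_
  refine hx.comp ?_
  rw [measurable_pi_iff]
  intro i
  refine Fin.cases ?_ (fun i => ?_) i
  · have h : Measurable fun q : (Fin K → U01) × (Fin r → Lv K) => q.1 j :=
      (measurable_pi_apply j).comp measurable_fst
    simpa only [Fin.cons_zero] using h
  · have h : Measurable fun q : (Fin K → U01) × (Fin r → Lv K) => q.2 i j :=
      (measurable_pi_apply j).comp ((measurable_pi_apply i).comp measurable_snd)
    simpa only [Fin.cons_succ] using h

theorem msgs_abs {x : (Fin (r + 1) → U01) → ℝ} (hx : ∀ w, x w ∈ Set.Icc (-1 : ℝ) 1)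
    (w : Fin K → U01) (v : Fin r → Lv K) (j : Fin K) : |msgs x w v j| ≤ 1 :=
  abs_le.2 (hx _)

theorem measurable_cavityFactor (l : Fin K) (e : Bool) :
    Measurable fun q : Clause K × (Fin K → ℝ) => cavityFactor q.1 l q.2 e := by
  unfold cavityFactor
  refine Finset.measurable_fun_sum _ fun σ _ => ?_
  by_cases h : σ l = e
  · simp only [h, if_true]
    refine (Real.measurable_exp.comp ((measurable_theta σ).comp measurable_fst)).mul ?_
    refine Finset.measurable_fun_prod _ fun j _ => ?_
    have : Measurable fun q : Clause K × (Fin K → ℝ) => q.2 j :=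
      (measurable_pi_apply j).comp measurable_snd
    fun_prop
  · simp only [h, if_false]
    exact measurable_const

theorem measurable_edgeFactor :
    Measurable fun q : Clause K × (Fin K → ℝ) => edgeFactor q.1 q.2 := by
  unfold edgeFactor
  refine Finset.measurable_fun_sum _ fun σ _ => ?_
  refine (Real.measurable_exp.comp ((measurable_theta σ).comp measurable_fst)).mul ?_
  refine Finset.measurable_fun_prod _ fun j _ => ?_
  have : Measurable fun q : Clause K × (Fin K → ℝ) => q.2 j :=
    (measurable_pi_apply j).comp measurable_snd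
  fun_prop

theorem measurable_cavC {x : (Fin (r + 1) → U01) → ℝ} (hx : Measurable x) (σ : Fin N → Bool) :
    Measurable fun q : C4 K N × (Fin r → Lv K) => cavC x q.1 q.2 σ := by
  have e : (fun q : C4 K N × (Fin r → Lv K) => cavC x q.1 q.2 σ) = fun q =>
      ∑ l : Fin K, ∑ e : Bool, if q.1.1.1.2 = l ∧ σ q.1.2 = e then
        cavityFactor q.1.1.1.1 l (msgs x q.1.1.2 q.2) e else 0 := by
    funext q
    rw [Finset.sum_eq_single q.1.1.1.2, Finset.sum_eq_single (σ q.1.2)]
    · simp [cavC]
    · intro e _ he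
      rw [if_neg]
      exact fun h => he h.2.symm
    · intro h; exact absurd (Finset.mem_univ _) h
    · intro l _ hl
      refine Finset.sum_eq_zero fun e _ => ?_
      rw [if_neg]
      exact fun h => hl h.1.symm
    · intro h; exact absurd (Finset.mem_univ _) h
  rw [e]
  refine Finset.measurable_fun_sum _ fun l _ => Finset.measurable_fun_sum _ fun e _ => ?_
  refine Measurable.ite ?_ ?_ measurable_const
  · refine MeasurableSet.inter ?_ ?_
    · have h1 : Measurable fun q : C4 K N × (Fin r → Lv K) => q.1.1.1.2 :=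
        measurable_snd.comp (measurable_fst.comp (measurable_fst.comp measurable_fst))
      exact h1 (measurableSet_singleton l)
    · have h1 : Measurable fun q : C4 K N × (Fin r → Lv K) => σ q.1.2 :=
        (measurable_of_countable σ).comp (measurable_snd.comp measurable_fst)
      exact h1 (measurableSet_singleton e)
  · refine (measurable_cavityFactor l e).comp (f := fun q : C4 K N × (Fin r → Lv K) =>
      (q.1.1.1.1, msgs x q.1.1.2 q.2)) ?_
    refine Measurable.prodMk ?_ ?_
    · exact measurable_fst.comp (measurable_fst.comp (measurable_fst.comp measurable_fst))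
    · exact (measurable_msgs hx).comp ((measurable_snd.comp (measurable_fst.comp
        measurable_fst)).prodMk measurable_snd)

theorem cavC_mem {x : (Fin (r + 1) → U01) → ℝ} (hx : ∀ w, x w ∈ Set.Icc (-1 : ℝ) 1)
    (q : C4 K N) (v : Fin r → Lv K) (σ : Fin N → Bool) :
    Real.exp (-maxTheta q.1.1.1) ≤ cavC x q v σ ∧ cavC x q v σ ≤ Real.exp (maxTheta q.1.1.1) :=
  cavityFactor_mem _ _ _ (fun j => msgs_abs hx _ _ j) _

variable {a n : ℕ}

/-- the bound. -/
noncomputable def Bw (ω : Om K N a n) : ℝ :=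
  (∑ k, maxTheta (ω.1 k).1.1) + ((∑ s, |ω.2.2 s|) + ∑ k, maxTheta (ω.2.1 k).1.1.1)

theorem measurable_wt {x : (Fin (r + 1) → U01) → ℝ} (hx : Measurable x) (σ : Fin N → Bool) :
    Measurable fun z : Om K N a n × (Fin r → Fin n → Lv K) => wt x z.1 z.2 σ := by
  unfold wt
  refine Measurable.mul ?_ (Measurable.mul ?_ ?_)
  · refine Finset.measurable_fun_prod _ fun k _ => ?_
    exact (measurable_intF σ).comp ((measurable_pi_apply k).comp
      (measurable_fst.comp measurable_fst))
  · refine Real.measurable_exp.comp (Finset.measurable_fun_sum _ fun s _ => ?_)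
    have : Measurable fun z : Om K N a n × (Fin r → Fin n → Lv K) => z.1.2.2 s :=
      (measurable_pi_apply s).comp (measurable_snd.comp (measurable_snd.comp measurable_fst))
    exact this.mul_const _
  · refine Finset.measurable_fun_prod _ fun k _ => ?_
    refine (measurable_cavC hx σ).comp (f := fun z : Om K N a n × (Fin r → Fin n → Lv K) =>
      (z.1.2.1 k, fun p => z.2 p k)) ?_
    refine Measurable.prodMk ?_ (measurable_pi_lambda _ fun p => ?_)
    · exact (measurable_pi_apply k).comp (measurable_fst.comp (measurable_snd.comp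
        measurable_fst))
    · exact (measurable_pi_apply k).comp ((measurable_pi_apply p).comp measurable_snd)

theorem prod_mem_exp {ι : Type*} (t : Finset ι) (f B : ι → ℝ)
    (h : ∀ i ∈ t, Real.exp (-B i) ≤ f i ∧ f i ≤ Real.exp (B i)) :
    Real.exp (-∑ i ∈ t, B i) ≤ ∏ i ∈ t, f i ∧ ∏ i ∈ t, f i ≤ Real.exp (∑ i ∈ t, B i) := by
  constructor
  · rw [← Finset.sum_neg_distrib, Real.exp_sum]
    exact Finset.prod_le_prod (fun i _ => (Real.exp_pos _).le) fun i hi => (h i hi).1
  · rw [Real.exp_sum]
    exact Finset.prod_le_prod (fun i hi => (Real.exp_pos _).le.trans (h i hi).1)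
      fun i hi => (h i hi).2

theorem mul_mem_exp {f g A B : ℝ} (h : Real.exp (-A) ≤ f ∧ f ≤ Real.exp A)
    (h' : Real.exp (-B) ≤ g ∧ g ≤ Real.exp B) :
    Real.exp (-(A + B)) ≤ f * g ∧ f * g ≤ Real.exp (A + B) := by
  rw [neg_add, Real.exp_add, Real.exp_add]
  exact ⟨mul_le_mul h.1 h'.1 (Real.exp_pos _).le ((Real.exp_pos _).le.trans h.1),
    mul_le_mul h.2 h'.2 ((Real.exp_pos _).le.trans h'.1) (Real.exp_pos _).le⟩

theorem wt_mem {x : (Fin (r + 1) → U01) → ℝ} (hx : ∀ w, x w ∈ Set.Icc (-1 : ℝ) 1)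
    (ω : Om K N a n) (v : Fin r → Fin n → Lv K) (σ : Fin N → Bool) :
    Real.exp (-Bw ω) ≤ wt x ω v σ ∧ wt x ω v σ ≤ Real.exp (Bw ω) := by
  unfold wt Bw
  refine mul_mem_exp ?_ (mul_mem_exp ?_ ?_)
  · exact prod_mem_exp _ _ _ fun k _ => intF_mem _ _
  · have h1 : |∑ s, ω.2.2 s * spin (σ s)| ≤ ∑ s, |ω.2.2 s| := by
      refine (Finset.abs_sum_le_sum_abs _ _).trans (Finset.sum_le_sum fun s _ => ?_)
      rw [abs_mul, KS.spin_abs, mul_one]
    exact ⟨Real.exp_le_exp.2 (abs_le.1 h1).1, Real.exp_le_exp.2 (abs_le.1 h1).2⟩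
  · exact prod_mem_exp _ _ _ fun k _ => cavC_mem hx _ _ _

theorem wt_bd {x : (Fin (r + 1) → U01) → ℝ} (hxm : Measurable x)
    (hx : ∀ w, x w ∈ Set.Icc (-1 : ℝ) 1) (ω : Om K N a n) (σ : Fin N → Bool) :
    Bd (Real.exp (-Bw ω)) (Real.exp (Bw ω)) fun v : Fin r → Fin n → Lv K => wt x ω v σ := by
  have h1 : Measurable fun v : Fin r → Fin n → Lv K => (ω, v) := measurable_prodMk_left
  have h2 := (measurable_wt (a := a) hxm σ).comp h1
  exact ⟨h2, fun v => (wt_mem hx ω v σ).1, fun v => (wt_mem hx ω v σ).2⟩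

theorem measurable_FF (m : Fin r → ℝ) {x : (Fin (r + 1) → U01) → ℝ} (hx : Measurable x) :
    Measurable fun ω : Om K N a n => FF m x ω := by
  unfold FF
  refine Real.measurable_log.comp (measurable_nest _ r m _ ?_)
  exact Finset.measurable_fun_sum _ fun σ _ => measurable_wt hx σ

/-- log of a nested sum. -/
theorem abs_log_nest_sum_le {W S : Type} [MeasurableSpace W] [Fintype S] [Nonempty S]
    {P : Measure W} [IsProbabilityMeasure P] {m : Fin r → ℝ} (hm : ∀ p, 0 < m p)
    {Z : (Fin r → W) → S → ℝ} {B : ℝ}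
    (hZ : ∀ σ, Bd (Real.exp (-B)) (Real.exp B) fun v => Z v σ) :
    |Real.log (nest P r m fun v => ∑ σ, Z v σ)| ≤ B + Real.log (Fintype.card S) := by
  have hc : (0 : ℝ) < Fintype.card S := by exact_mod_cast Fintype.card_pos
  have hc1 : (1 : ℝ) ≤ Fintype.card S := by exact_mod_cast Fintype.card_pos
  have h1 := nest_mem (P := P) (by positivity) r m hm _ (sum_bd hZ)
  have hpos : 0 < nest P r m fun v => ∑ σ, Z v σ :=
    lt_of_lt_of_le (by positivity) h1.1
  have hl : 0 ≤ Real.log (Fintype.card S) := Real.log_nonneg hc1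
  rw [abs_le]
  constructor
  · have h2 := Real.log_le_log (by positivity) h1.1
    rw [Real.log_mul hc.ne' (Real.exp_pos _).ne', Real.log_exp] at h2
    linarith only [hl, h2]
  · have h2 := Real.log_le_log hpos h1.2
    rw [Real.log_mul hc.ne' (Real.exp_pos _).ne', Real.log_exp] at h2
    linarith

theorem abs_FF_le {m : Fin r → ℝ} {x : (Fin (r + 1) → U01) → ℝ} (hx : IsTrial r m x)
    (ω : Om K N a n) : |FF m x ω| ≤ Bw ω + N * Real.log 2 := by
  have h := abs_log_nest_sum_le (P := Measure.pi fun _ : Fin n => lvM K) (m := m)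
    (fun p => (hx.2.1 p).1) (wt_bd hx.2.2.1 hx.2.2.2 ω)
  unfold FF
  simpa only [ge_iff_le, Fintype.card_pi, Fintype.card_bool, Finset.prod_const, Finset.card_univ,     Fintype.card_fin, Nat.cast_pow, Nat.cast_ofNat, Real.log_pow] using h

section Int

theorem mp_integral {α β : Type} [MeasurableSpace α] [MeasurableSpace β] {μ : Measure α}
    {μ' : Measure β} {φ : α → β} (h : MeasurePreserving φ μ μ') {f : β → ℝ}
    (hf : AEStronglyMeasurable f μ') : ∫ a, f (φ a) ∂μ = ∫ b, f b ∂μ' := by
  have h2 := integral_map (μ := μ) (φ := φ) (f := f) h.measurable.aemeasurable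
    (by rwa [h.map_eq])
  rw [h.map_eq] at h2
  exact h2.symm

theorem neZero_of {ρ : Measure (Clause K)} {ν : Measure ℝ} (h : InClass K ρ ν) : NeZero K :=
  ⟨by have := h.one_le; omega⟩

theorem maxTheta_int_bd420 {ρ : Measure (Clause K)} {ν : Measure ℝ} (h : InClass K ρ ν) :
    Integrable (maxTheta : Clause K → ℝ) ρ := by
  have := h.prob_clause
  exact integrable_maxTheta_of ρ h.theta_int

variable (ρ : Measure (Clause K)) (ν : Measure ℝ) [IsProbabilityMeasure ρ]
  [IsProbabilityMeasure ν] [NeZero N] [NeZero K]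

theorem mpA (k : Fin a) :
    MeasurePreserving (fun ω : Om K N a n => (ω.1 k).1.1) (om ρ ν N a n) ρ :=
  (measurePreserving_fst (μ := ρ) (ν := Measure.pi fun _ : Fin K => unif N)).comp
    ((measurePreserving_fst (μ := ρ.prod (Measure.pi fun _ : Fin K => unif N))
      (ν := Measure.pi fun _ : Fin K => (volume : Measure U01))).comp
    ((measurePreserving_eval (fun _ : Fin a => cl3 ρ N) k).comp measurePreserving_fst))

theorem mpH (s : Fin N) :
    MeasurePreserving (fun ω : Om K N a n => ω.2.2 s) (om ρ ν N a n) ν :=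
  (measurePreserving_eval (fun _ : Fin N => ν) s).comp
    (measurePreserving_snd.comp measurePreserving_snd)

theorem mpC (k : Fin n) :
    MeasurePreserving (fun ω : Om K N a n => (ω.2.1 k).1.1.1) (om ρ ν N a n) ρ :=
  (measurePreserving_fst (μ := ρ) (ν := unif K)).comp
    ((measurePreserving_fst (μ := ρ.prod (unif K)) (ν := lvM K)).comp
    ((measurePreserving_fst (μ := (ρ.prod (unif K)).prod (lvM K)) (ν := unif N)).comp
    ((measurePreserving_eval (fun _ : Fin n => c4 ρ N) k).comp
      (measurePreserving_fst.comp measurePreserving_snd))))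

variable {ρ} {ν}

theorem integrable_Bw (hρ : Integrable (maxTheta : Clause K → ℝ) ρ)
    (hν : Integrable (fun h => h) ν) :
    Integrable (Bw : Om K N a n → ℝ) (om ρ ν N a n) := by
  unfold Bw
  refine Integrable.add ?_ (Integrable.add ?_ ?_)
  · exact integrable_finsetSum _ fun k _ => (mpA ρ ν k).integrable_comp_of_integrable hρ
  · exact integrable_finsetSum _ fun s _ => (mpH ρ ν s).integrable_comp_of_integrable hν.abs
  · exact integrable_finsetSum _ fun k _ => (mpC ρ ν k).integrable_comp_of_integrable hρ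

theorem integral_Bw (hρ : Integrable (maxTheta : Clause K → ℝ) ρ)
    (hν : Integrable (fun h => h) ν) :
    ∫ ω : Om K N a n, Bw ω ∂(om ρ ν N a n) =
      a * ∫ c, maxTheta c ∂ρ + (N * ∫ h, |h| ∂ν + n * ∫ c, maxTheta c ∂ρ) := by
  unfold Bw
  have i1 : ∀ k : Fin a, Integrable (fun ω : Om K N a n => maxTheta (ω.1 k).1.1)
      (om ρ ν N a n) := fun k => (mpA ρ ν k).integrable_comp_of_integrable hρ
  have i2 : ∀ s : Fin N, Integrable (fun ω : Om K N a n => |ω.2.2 s|)
      (om ρ ν N a n) := fun s => (mpH ρ ν s).integrable_comp_of_integrable hν.abs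
  have i3 : ∀ k : Fin n, Integrable (fun ω : Om K N a n => maxTheta (ω.2.1 k).1.1.1)
      (om ρ ν N a n) := fun k => (mpC ρ ν k).integrable_comp_of_integrable hρ
  have s1 : Integrable (fun ω : Om K N a n => ∑ k, maxTheta (ω.1 k).1.1) (om ρ ν N a n) :=
    integrable_finsetSum _ fun k _ => i1 k
  have s2 : Integrable (fun ω : Om K N a n => ∑ s, |ω.2.2 s|) (om ρ ν N a n) :=
    integrable_finsetSum _ fun k _ => i2 k
  have s3 : Integrable (fun ω : Om K N a n => ∑ k, maxTheta (ω.2.1 k).1.1.1) (om ρ ν N a n) :=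
    integrable_finsetSum _ fun k _ => i3 k
  have s4 : Integrable (fun ω : Om K N a n => (∑ s, |ω.2.2 s|) +
    ∑ k, maxTheta (ω.2.1 k).1.1.1) (om ρ ν N a n) := s2.add s3
  rw [integral_add s1 s4, integral_add s2 s3,
    integral_finsetSum _ fun k _ => i1 k, integral_finsetSum _ fun k _ => i2 k,
    integral_finsetSum _ fun k _ => i3 k]
  have j1 : ∀ k : Fin a, ∫ ω : Om K N a n, maxTheta (ω.1 k).1.1 ∂(om ρ ν N a n) =
      ∫ c, maxTheta c ∂ρ := fun k => mp_integral (mpA ρ ν k) hρ.aestronglyMeasurable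
  have j2 : ∀ s : Fin N, ∫ ω : Om K N a n, |ω.2.2 s| ∂(om ρ ν N a n) = ∫ h, |h| ∂ν :=
    fun s => mp_integral (mpH ρ ν s) hν.abs.aestronglyMeasurable
  have j3 : ∀ k : Fin n, ∫ ω : Om K N a n, maxTheta (ω.2.1 k).1.1.1 ∂(om ρ ν N a n) =
      ∫ c, maxTheta c ∂ρ := fun k => mp_integral (mpC ρ ν k) hρ.aestronglyMeasurable
  simp only [j1, j2, j3]
  simp only [Finset.sum_const, Finset.card_univ, Fintype.card_fin, nsmul_eq_mul]

theorem integrable_FF (h : InClass K ρ ν) {m : Fin r → ℝ} {x : (Fin (r + 1) → U01) → ℝ}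
    (hx : IsTrial r m x) : Integrable (fun ω : Om K N a n => FF m x ω) (om ρ ν N a n) := by
  refine ((integrable_Bw (maxTheta_int_bd420 h) h.field_int).add
    (integrable_const (N * Real.log 2))).mono' (measurable_FF m hx.2.2.1).aestronglyMeasurable ?_
  exact Filter.Eventually.of_forall fun ω => abs_FF_le hx ω

theorem abs_TT_le (h : InClass K ρ ν) {m : Fin r → ℝ} {x : (Fin (r + 1) → U01) → ℝ}
    (hx : IsTrial r m x) (a n : ℕ) :
    |TT ρ ν m x N a n| ≤ (a + n) * (∫ c, maxTheta c ∂ρ) +
      N * (∫ h, |h| ∂ν + Real.log 2) := by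
  unfold TT
  have h1 : |∫ ω : Om K N a n, FF m x ω ∂(om ρ ν N a n)| ≤
      ∫ ω : Om K N a n, |FF m x ω| ∂(om ρ ν N a n) := abs_integral_le_integral_abs
  have h2 : ∫ ω : Om K N a n, |FF m x ω| ∂(om ρ ν N a n) ≤
      ∫ ω : Om K N a n, (Bw ω + N * Real.log 2) ∂(om ρ ν N a n) :=
    integral_mono (integrable_FF h hx).abs ((integrable_Bw (maxTheta_int_bd420 h) h.field_int).add
      (integrable_const _)) fun ω => abs_FF_le hx ω
  rw [integral_add (integrable_Bw (maxTheta_int_bd420 h) h.field_int) (integrable_const _),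
    integral_Bw (maxTheta_int_bd420 h) h.field_int, integral_const, probReal_univ, one_smul] at h2
  linarith

end Int

end Vale.Agent.N168I.PT
end
end

section

section

/-!
The interpolation inequality for `TT`.
-/

set_option autoImplicit false
set_option linter.unusedSectionVars false

open MeasureTheory ProbabilityTheory
open scoped NNReal

namespace Vale.Agent.N168I.PT

variable {K N r a n : ℕ}

theorem wt_insA (x : (Fin (r + 1) → U01) → ℝ) (ω : Om K N a n) (y : Y3 K N)
    (v : Fin r → Fin n → Lv K) (σ : Fin N → Bool) :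
    wt x (insA (ω, y)) v σ = wt x ω v σ * intF y σ := by
  unfold wt insA
  simp only [Fin.prod_univ_succ, Fin.cons_zero, Fin.cons_succ]
  ring

theorem wt_insC (x : (Fin (r + 1) → U01) → ℝ) (ω : Om K N a n) (q : C4 K N)
    (v : Fin r → (Fin n → Lv K) × Lv K) (σ : Fin N → Bool) :
    wt x (insC (ω, q)) (fun p => (Fin.cons (v p).2 (v p).1 : Fin (n + 1) → Lv K)) σ =
      wt x ω (fun p => (v p).1) σ * cavC x q (fun p => (v p).2) σ := by
  unfold wt insC
  simp only [Fin.prod_univ_succ, Fin.cons_zero, Fin.cons_succ]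
  ring

theorem FF_insA (m : Fin r → ℝ) (x : (Fin (r + 1) → U01) → ℝ) (ω : Om K N a n) (y : Y3 K N) :
    FF m x (insA (ω, y)) = Real.log (nest (Measure.pi fun _ : Fin n => lvM K) r m fun v =>
      ∑ σ, wt x ω v σ * intF y σ) := by
  unfold FF
  simp only [wt_insA]

theorem FF_insC (m : Fin r → ℝ) {x : (Fin (r + 1) → U01) → ℝ} (hx : Measurable x)
    (ω : Om K N a n) (q : C4 K N) :
    FF m x (insC (ω, q)) = Real.log (nest ((Measure.pi fun _ : Fin n => lvM K).prod (lvM K)) r m
      fun v => ∑ σ, wt x ω (fun p => (v p).1) σ * cavC x q (fun p => (v p).2) σ) := by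
  unfold FF
  have h1 := nest_comp (cons_mp' (lvM K) n) r m
    (fun v => ∑ σ, wt x (insC (ω, q)) v σ) ?_
  · rw [← h1]
    simp only [wt_insC]
  · refine Finset.measurable_fun_sum _ fun σ _ => ?_
    have h2 : Measurable fun v : Fin r → Fin (n + 1) → Lv K =>
        ((insC (ω, q) : Om K N a (n + 1)), v) := measurable_prodMk_left
    have h3 := (measurable_wt (a := a) (n := n + 1) hx σ).comp h2
    exact h3

section Int

variable {ρ : Measure (Clause K)} {ν : Measure ℝ} [IsProbabilityMeasure ρ]
  [IsProbabilityMeasure ν] [NeZero N] [NeZero K]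

/-- adding one interaction. -/
theorem TT_succ_left (h : InClass K ρ ν) {m : Fin r → ℝ} {x : (Fin (r + 1) → U01) → ℝ}
    (hx : IsTrial r m x) :
    TT ρ ν m x N (a + 1) n = ∫ ω : Om K N a n, (∫ y, Real.log
      (nest (Measure.pi fun _ : Fin n => lvM K) r m fun v =>
        ∑ σ, wt x ω v σ * intF y σ) ∂(cl3 ρ N)) ∂(om ρ ν N a n) := by
  unfold TT
  have hmp := insA_mp (K := K) (N := N) ρ ν a n
  rw [← mp_integral hmp (measurable_FF m hx.2.2.1).aestronglyMeasurable, integral_prod]
  · simp only [FF_insA]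
  · exact hmp.integrable_comp_of_integrable (integrable_FF h hx)

theorem TT_succ_left_int (h : InClass K ρ ν) {m : Fin r → ℝ} {x : (Fin (r + 1) → U01) → ℝ}
    (hx : IsTrial r m x) :
    Integrable (fun ω : Om K N a n => (∫ y, Real.log
      (nest (Measure.pi fun _ : Fin n => lvM K) r m fun v =>
        ∑ σ, wt x ω v σ * intF y σ) ∂(cl3 ρ N))) (om ρ ν N a n) := by
  have hmp := insA_mp (K := K) (N := N) ρ ν a n
  have h1 := (hmp.integrable_comp_of_integrable (integrable_FF (m := m) (x := x) h hx))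
  have h2 := h1.integral_prod_left
  simpa only [Function.comp, FF_insA] using h2

/-- adding one cavity clause. -/
theorem TT_succ_right (h : InClass K ρ ν) {m : Fin r → ℝ} {x : (Fin (r + 1) → U01) → ℝ}
    (hx : IsTrial r m x) :
    TT ρ ν m x N a (n + 1) = ∫ ω : Om K N a n, (∫ q : Y3 K N × Fin K, Real.log
      (nest ((Measure.pi fun _ : Fin n => lvM K).prod (lvM K)) r m fun v =>
        ∑ σ, wt x ω (fun p => (v p).1) σ * cavF x q.1 q.2 (fun p => (v p).2) σ)
        ∂((cl3 ρ N).prod (unif K))) ∂(om ρ ν N a n) := by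
  unfold TT
  have hmp := insC_mp (K := K) (N := N) ρ ν a n
  have hmp2 := (MeasurePreserving.id (om ρ ν N a n)).prod (toC4_mp (N := N) ρ)
  have hmp3 := hmp.comp hmp2
  rw [← mp_integral hmp3 (measurable_FF m hx.2.2.1).aestronglyMeasurable, integral_prod]
  · simp only [Function.comp, Prod.map, id]
    simp only [FF_insC m hx.2.2.1]
    rfl
  · exact hmp3.integrable_comp_of_integrable (integrable_FF h hx)

theorem TT_succ_right_int (h : InClass K ρ ν) {m : Fin r → ℝ} {x : (Fin (r + 1) → U01) → ℝ}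
    (hx : IsTrial r m x) :
    Integrable (fun ω : Om K N a n => (∫ q : Y3 K N × Fin K, Real.log
      (nest ((Measure.pi fun _ : Fin n => lvM K).prod (lvM K)) r m fun v =>
        ∑ σ, wt x ω (fun p => (v p).1) σ * cavF x q.1 q.2 (fun p => (v p).2) σ)
        ∂((cl3 ρ N).prod (unif K)))) (om ρ ν N a n) := by
  have hmp := insC_mp (K := K) (N := N) ρ ν a n
  have hmp2 := (MeasurePreserving.id (om ρ ν N a n)).prod (toC4_mp (N := N) ρ)
  have hmp3 := hmp.comp hmp2
  have h1 := (hmp3.integrable_comp_of_integrable (integrable_FF (m := m) (x := x) h hx))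
  have h2 := h1.integral_prod_left
  simp only [Function.comp, Prod.map, id, FF_insC m hx.2.2.1] at h2
  exact h2

theorem Bw_insC (ω : Om K N a n) (q : C4 K N) : Bw (insC (ω, q)) = Bw ω + maxTheta q.1.1.1 := by
  unfold Bw insC
  simp only [Fin.sum_univ_succ, Fin.cons_zero, Fin.cons_succ]
  ring

/-- for a fixed environment, the average over the distinguished index. -/
theorem right_fixed (h : InClass K ρ ν) {m : Fin r → ℝ} {x : (Fin (r + 1) → U01) → ℝ}
    (hx : IsTrial r m x) (ω : Om K N a n) :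
    (K : ℝ) * ∫ q : Y3 K N × Fin K, Real.log
      (nest ((Measure.pi fun _ : Fin n => lvM K).prod (lvM K)) r m fun v =>
        ∑ σ, wt x ω (fun p => (v p).1) σ * cavF x q.1 q.2 (fun p => (v p).2) σ)
        ∂((cl3 ρ N).prod (unif K)) =
    ∑ l : Fin K, ∫ y, Real.log (nest ((Measure.pi fun _ : Fin n => lvM K).prod
        (Measure.pi fun _ : Fin K => volume)) r m
        fun v => ∑ σ, wt x ω (fun p => (v p).1) σ * cavF x y l (fun p => (v p).2) σ)
        ∂(cl3 ρ N) := by
  have hG : Integrable (fun q : C4 K N => FF m x (insC (ω, q))) (c4 ρ N) := by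
    have h1 : Integrable (fun q : C4 K N => (Bw ω + N * Real.log 2) + maxTheta q.1.1.1)
        (c4 ρ N) :=
      (integrable_const _).add ((((maxTheta_int h).comp_fst _).comp_fst _).comp_fst _)
    have hm : Measurable fun q : C4 K N => FF m x (insC (ω, q)) := by
      have h2 : Measurable fun q : C4 K N => (insC (ω, q) : Om K N a (n + 1)) := by
        change Measurable fun q : C4 K N => ((ω.1, ((Fin.cons q ω.2.1 : Fin (n + 1) → C4 K N),
          ω.2.2)) : Om K N a (n + 1))
        refine measurable_const.prodMk (Measurable.prodMk ?_ measurable_const)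
        exact measurable_cons.comp (measurable_id.prodMk measurable_const)
      exact (measurable_FF m hx.2.2.1).comp h2
    refine h1.mono' hm.aestronglyMeasurable (Filter.Eventually.of_forall fun q => ?_)
    have h3 := abs_FF_le hx (insC (ω, q))
    rw [Bw_insC] at h3
    rw [Real.norm_eq_abs]
    linarith
  have hG2 := (toC4_mp (N := N) ρ).integrable_comp_of_integrable hG
  simp only [Function.comp_def, FF_insC m hx.2.2.1] at hG2
  have hK : (K : ℝ) ≠ 0 := by exact_mod_cast NeZero.ne K
  have e1 := integral_prod_symm _ hG2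
  have e2 : ∀ (q : Y3 K N × Fin K) (v : Fin r → Lv K) (σ : Fin N → Bool),
      cavC x (toC4 q) v σ = cavF x q.1 q.2 v σ := fun q v σ => rfl
  simp only [e2] at e1
  rw [e1, KS.integral_unif]
  field_simp

/-- bounds of the edge factor. -/
theorem edgF_bd {x : (Fin (r + 1) → U01) → ℝ} (hxm : Measurable x)
    (hx : ∀ w, x w ∈ Set.Icc (-1 : ℝ) 1) (y : Y3 K N) :
    Bd (Real.exp (-maxTheta y.1.1)) (Real.exp (maxTheta y.1.1))
      fun v : Fin r → Lv K => edgF x y v := by
  refine ⟨?_, fun v => ?_, fun v => ?_⟩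
  · have h5 : Measurable fun v : Fin r → Lv K => (y.2, v) := measurable_prodMk_left
    have h4 := (measurable_msgs hxm).comp h5
    have h6 : Measurable fun z : Fin K → ℝ => (y.1.1, z) := measurable_prodMk_left
    exact (measurable_edgeFactor.comp h6).comp h4
  · exact (edgeFactor_mem y.1.1 (msgs x y.2 v) fun j => msgs_abs hx _ _ j).1
  · exact (edgeFactor_mem y.1.1 (msgs x y.2 v) fun j => msgs_abs hx _ _ j).2

theorem integrable_edge (h : InClass K ρ ν) {m : Fin r → ℝ} {x : (Fin (r + 1) → U01) → ℝ}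
    (hx : IsTrial r m x) :
    Integrable (fun y : Y3 K N => Real.log (nest (lvM K) r m fun v => edgF x y v))
      (cl3 ρ N) := by
  have h1 : Integrable (fun y : Y3 K N => maxTheta y.1.1) (cl3 ρ N) :=
    ((maxTheta_int h).comp_fst _).comp_fst _
  refine h1.mono' ?_ (Filter.Eventually.of_forall fun y => ?_)
  · refine (Real.measurable_log.comp (measurable_nest (lvM K) r m
      (fun (y : Y3 K N) v => edgF x y v) ?_)).aestronglyMeasurable
    refine measurable_edgeFactor.comp (f := fun z : Y3 K N × (Fin r → Lv K) =>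
      (z.1.1.1, msgs x z.1.2 z.2)) (Measurable.prodMk ?_ ?_)
    · exact measurable_fst.comp (measurable_fst.comp measurable_fst)
    · exact (measurable_msgs hx.2.2.1).comp ((measurable_snd.comp measurable_fst).prodMk
        measurable_snd)
  · have h2 := nest_mem (P := lvM K) (Real.exp_pos _) r m (fun p => (hx.2.1 p).1) _
      (edgF_bd hx.2.2.1 hx.2.2.2 y)
    exact log_abs_of_mem h2.1 h2.2

/-- edge factors. -/
theorem edge_fixed (h : InClass K ρ ν) {m : Fin r → ℝ} {x : (Fin (r + 1) → U01) → ℝ}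
    (hx : IsTrial r m x) (ω : Om K N a n) :
    (∫ y, Real.log (nest ((Measure.pi fun _ : Fin n => lvM K).prod
        (Measure.pi fun _ : Fin K => volume)) r m
        fun v => ∑ σ, wt x ω (fun p => (v p).1) σ * edgF x y fun p => (v p).2) ∂(cl3 ρ N)) =
      FF m x ω + tV ρ m x N := by
  have hm : ∀ p, 0 < m p := fun p => (hx.2.1 p).1
  have e1 : ∀ y : Y3 K N, Real.log (nest ((Measure.pi fun _ : Fin n => lvM K).prod
        (Measure.pi fun _ : Fin K => volume)) r m
        fun v => ∑ σ, wt x ω (fun p => (v p).1) σ * edgF x y fun p => (v p).2) =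
      FF m x ω + Real.log (nest (lvM K) r m fun v => edgF x y v) := by
    intro y
    have hpos : ∀ v, 0 < edgF x y v := fun v => (Real.exp_pos _).trans_le
      (edgeFactor_mem y.1.1 (msgs x y.2 v) fun j => msgs_abs hx.2.2.2 _ _ j).1
    have hbd := sum_bd (wt_bd hx.2.2.1 hx.2.2.2 ω)
    have h1 := nest_mul (P := Measure.pi fun _ : Fin n => lvM K) (P' := lvM K) r m hm
      (fun v => ∑ σ, wt x ω v σ)
      (fun v => (mul_nonneg (Nat.cast_nonneg _) (Real.exp_pos _).le).trans (hbd.lo v))
      (fun v => edgF x y v) (fun v => (hpos v).le)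
    simp only [← Finset.sum_mul]
    rw [h1, Real.log_mul]
    · rfl
    · have h2 := nest_mem (P := Measure.pi fun _ : Fin n => lvM K)
        (mul_pos (by exact_mod_cast Fintype.card_pos) (Real.exp_pos _)) r m hm _ hbd
      exact (lt_of_lt_of_le (mul_pos (by exact_mod_cast Fintype.card_pos) (Real.exp_pos _))
        h2.1).ne'
    · have h2 := nest_mem (P := lvM K) (Real.exp_pos _) r m hm _
        (edgF_bd hx.2.2.1 hx.2.2.2 y)
      exact ((Real.exp_pos _).trans_le h2.1).ne'
  simp only [e1]
  rw [integral_add (integrable_const _) (integrable_edge h hx), integral_const, probReal_univ,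
    one_smul]
  rfl

/-- the interpolation inequality. -/
theorem TT_step (h : InClass K ρ ν) {m : Fin r → ℝ} {x : (Fin (r + 1) → U01) → ℝ}
    (hx : IsTrial r m x) (a n : ℕ) :
    TT ρ ν m x N (a + 1) n + ((K : ℝ) - 1) * (TT ρ ν m x N a n + tV ρ m x N) ≤
      K * TT ρ ν m x N a (n + 1) := by
  rw [TT_succ_left h hx, TT_succ_right h hx, ← integral_const_mul]
  simp only [right_fixed h hx]
  have e1 : TT ρ ν m x N a n + tV ρ m x N =
      ∫ ω : Om K N a n, (FF m x ω + tV ρ m x N) ∂(om ρ ν N a n) := by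
    rw [integral_add (integrable_FF h hx) (integrable_const _), integral_const, probReal_univ,
      one_smul]
    rfl
  have i1 := TT_succ_left_int (a := a) (n := n) (N := N) h hx
  have i2 : Integrable (fun ω : Om K N a n => ((K : ℝ) - 1) * (FF m x ω + tV ρ m x N))
      (om ρ ν N a n) := ((integrable_FF h hx).add (integrable_const _)).const_mul _
  rw [e1, ← integral_const_mul, ← integral_add i1 i2]
  have i3 := (TT_succ_right_int (a := a) (n := n) (N := N) h hx).const_mul (K : ℝ)
  simp only [right_fixed h hx] at i3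
  refine integral_mono (i1.add i2) i3 fun ω => ?_
  have hs := star h hx (P := Measure.pi fun _ : Fin n => lvM K) (Real.exp_pos _)
    (wt_bd hx.2.2.1 hx.2.2.2 ω)
  rw [edge_fixed h hx ω] at hs
  exact hs

end Int

end Vale.Agent.N168I.PT
end
end

section

section

/-!
Iteration of the interpolation inequality, Poisson averages, and the pressure.
-/

set_option autoImplicit false
set_option linter.unusedSectionVars false

open MeasureTheory ProbabilityTheory
open scoped NNReal

namespace Vale.Agent.N168I.PT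

variable {K N r a n : ℕ} {ρ : Measure (Clause K)} {ν : Measure ℝ} [IsProbabilityMeasure ρ]
  [IsProbabilityMeasure ν] [NeZero N] [NeZero K]

theorem TT_growth2 (h : InClass K ρ ν) {m : Fin r → ℝ} {x : (Fin (r + 1) → U01) → ℝ}
    (hx : IsTrial r m x) : ExpGrowth2 fun k l => TT ρ ν m x N k 0 + l * tV ρ m x N := by
  set L := ∫ c, maxTheta c ∂ρ with hL
  set C := (N : ℝ) * (∫ h, |h| ∂ν + Real.log 2) with hC
  have hL0 : 0 ≤ L := integral_nonneg fun c => maxTheta_nonneg c
  have hC0 : 0 ≤ C := by
    have : 0 ≤ ∫ h, |h| ∂ν := integral_nonneg fun h => abs_nonneg h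
    have h2 : 0 ≤ Real.log 2 := Real.log_nonneg (by norm_num)
    positivity
  refine ⟨L + C + |tV ρ m x N|, 2, by positivity, by norm_num, fun k l => ?_⟩
  have h1 := abs_TT_le (N := N) h hx k 0
  have h2 := abs_add_le (TT ρ ν m x N k 0) (l * tV ρ m x N)
  rw [abs_mul, Nat.abs_cast] at h2
  have hk := nat_le_two_pow_real k
  have hl := nat_le_two_pow_real l
  have hk1 : (1 : ℝ) ≤ 2 ^ k := one_le_pow₀ (by norm_num)
  have hl1 : (1 : ℝ) ≤ 2 ^ l := one_le_pow₀ (by norm_num)
  have hkl : (k : ℝ) ≤ 2 ^ k * 2 ^ l := by nlinarith only [hl1, hk]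
  have hkl2 : (l : ℝ) ≤ 2 ^ k * 2 ^ l := by nlinarith only [hl, hk1]
  have hkl1 : (1 : ℝ) ≤ 2 ^ k * 2 ^ l := by nlinarith only [hk1, hl1]
  push_cast at h1
  have h3 : |TT ρ ν m x N k 0| ≤ (L + C) * (2 ^ k * 2 ^ l) := by
    refine h1.trans ?_
    have := mul_le_mul_of_nonneg_right hkl hL0
    have := mul_le_mul_of_nonneg_left hkl1 hC0
    nlinarith
  have h4 : (l : ℝ) * |tV ρ m x N| ≤ |tV ρ m x N| * (2 ^ k * 2 ^ l) := by
    rw [mul_comm]
    exact mul_le_mul_of_nonneg_left hkl2 (abs_nonneg _)
  calc _ ≤ |TT ρ ν m x N k 0| + l * |tV ρ m x N| := h2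
    _ ≤ (L + C) * (2 ^ k * 2 ^ l) + |tV ρ m x N| * (2 ^ k * 2 ^ l) := add_le_add h3 h4
    _ = _ := by ring

theorem TT_growth_left (h : InClass K ρ ν) {m : Fin r → ℝ} {x : (Fin (r + 1) → U01) → ℝ}
    (hx : IsTrial r m x) : ExpGrowth fun k => TT ρ ν m x N k 0 := by
  obtain ⟨C, A, hC, hA, hb⟩ := TT_growth2 (N := N) h hx
  refine ⟨C, A, hC, hA, fun k => ?_⟩
  simpa only [CharP.cast_eq_zero, zero_mul, add_zero, pow_zero, mul_one] using hb k 0

theorem TT_growth_right (h : InClass K ρ ν) {m : Fin r → ℝ} {x : (Fin (r + 1) → U01) → ℝ}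
    (hx : IsTrial r m x) : ExpGrowth fun n => TT ρ ν m x N 0 n := by
  have hL0 : 0 ≤ ∫ c, maxTheta c ∂ρ := integral_nonneg fun c => maxTheta_nonneg c
  refine expGrowth_of_linear (c := N * (∫ h, |h| ∂ν + Real.log 2))
    (d := ∫ c, maxTheta c ∂ρ) (fun n => ?_) ?_ hL0
  · have h1 := abs_TT_le (N := N) h hx 0 n
    push_cast at h1
    linarith
  · have : 0 ≤ ∫ h, |h| ∂ν := integral_nonneg fun h => abs_nonneg h
    have h2 : 0 ≤ Real.log 2 := Real.log_nonneg (by norm_num)
    positivity

theorem TT_iter (h : InClass K ρ ν) {m : Fin r → ℝ} {x : (Fin (r + 1) → U01) → ℝ}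
    (hx : IsTrial r m x) (lam : ℝ≥0) :
    (∫ k, TT ρ ν m x N k 0 ∂(poissonMeasure (lam * N))) +
      ((K : ℝ) - 1) * lam * N * tV ρ m x N ≤
      ∫ n, TT ρ ν m x N 0 n ∂(poissonMeasure (K * lam * N)) := by
  have hK0 : (0 : ℝ) < K := by exact_mod_cast NeZero.pos K
  have hK1 : 1 ≤ K := NeZero.pos K
  set p : ℝ≥0 := 1 / K with hp
  set q : ℝ≥0 := ((K - 1 : ℕ) : ℝ≥0) / K with hq
  have hKn : (K : ℝ≥0) ≠ 0 := by exact_mod_cast NeZero.ne K
  have hpq : p + q = 1 := by
    rw [hp, hq, ← add_div, div_eq_one_iff_eq hKn]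
    norm_cast
    omega
  have hpr : (p : ℝ) = 1 / K := by rw [hp]; push_cast; rfl
  have hqr : (q : ℝ) = ((K : ℝ) - 1) / K := by
    rw [hq, NNReal.coe_div, NNReal.coe_natCast, NNReal.coe_natCast, Nat.cast_sub hK1,
      Nat.cast_one]
  have hB := TT_growth2 (N := N) h hx
  have h1 : ∀ n, bmix p q (fun k l => TT ρ ν m x N k 0 + l * tV ρ m x N) n 0 0 ≤
      TT ρ ν m x N 0 n := by
    intro n
    have h2 := binom_iter_ge (fun n k l => TT ρ ν m x N k n + l * tV ρ m x N) p q
      (NNReal.coe_nonneg _) (NNReal.coe_nonneg _) ?_ n 0 0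
    · simpa only [ge_iff_le, CharP.cast_eq_zero, zero_mul, add_zero] using h2
    · intro n k l
      have h3 := TT_step (N := N) h hx k n
      rw [hpr, hqr]
      have h4 : 1 / (K : ℝ) * (TT ρ ν m x N (k + 1) n + l * tV ρ m x N) +
          ((K : ℝ) - 1) / K * (TT ρ ν m x N k n + ((l + 1 : ℕ) : ℝ) * tV ρ m x N) =
          1 / K * (TT ρ ν m x N (k + 1) n + ((K : ℝ) - 1) *
            (TT ρ ν m x N k n + tV ρ m x N)) + l * tV ρ m x N := by
        push_cast
        field_simp
        ring
      rw [h4]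
      have h5 : 1 / (K : ℝ) * (TT ρ ν m x N (k + 1) n + ((K : ℝ) - 1) *
            (TT ρ ν m x N k n + tV ρ m x N)) ≤ TT ρ ν m x N k (n + 1) := by
        rw [one_div_mul_eq_div, div_le_iff₀ hK0]
        linarith only [h3]
      linarith only [h5]
  have h2 := pois_mono (bmix_growth hB p q (NNReal.coe_nonneg _) (NNReal.coe_nonneg _)
    (by exact_mod_cast hpq)) (TT_growth_right (N := N) h hx) (K * lam * N) h1
  rw [pois_bmix hB _ p q hpq] at h2
  have e1 : p * (K * lam * N) = lam * N := by
    rw [hp]; field_simp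
  have e2 : ((q * (K * lam * N) : ℝ≥0) : ℝ) = ((K : ℝ) - 1) * lam * N := by
    push_cast
    rw [hqr]
    (clear * - hK1; field_simp)
  have h3 : ∀ k, ∫ l : ℕ, (TT ρ ν m x N k 0 + l * tV ρ m x N)
      ∂(poissonMeasure (q * (K * lam * N))) =
      TT ρ ν m x N k 0 + ((K : ℝ) - 1) * lam * N * tV ρ m x N := by
    intro k
    have g1 : ExpGrowth fun l : ℕ => (l : ℝ) :=
      expGrowth_of_linear (c := 0) (d := 1) (fun n => by simp) le_rfl zero_le_one
    rw [integral_add (integrable_const _) ((g1.integrable _).mul_const _), integral_const,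
      probReal_univ, one_smul, integral_mul_const, pois_mean, e2]
  simp only [h3] at h2
  rw [e1, integral_add ((TT_growth_left (N := N) h hx).integrable _) (integrable_const _),
    integral_const, probReal_univ, one_smul] at h2
  exact h2

theorem wt_zero (x : (Fin (r + 1) → U01) → ℝ) (ω : Om K N a 0) (v : Fin r → Fin 0 → Lv K)
    (σ : Fin N → Bool) :
    wt x ω v σ = Real.exp (∑ k, theta (ω.1 k).1.1 (fun j => σ ((ω.1 k).1.2 j)) +
      ∑ s, ω.2.2 s * spin (σ s)) := by
  unfold wt intF
  rw [Finset.univ_eq_empty (α := Fin 0), Finset.prod_empty, mul_one, ← Real.exp_sum,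
    ← Real.exp_add]

theorem FF_zero {m : Fin r → ℝ} {x : (Fin (r + 1) → U01) → ℝ} (hx : IsTrial r m x)
    (ω : Om K N a 0) :
    FF m x ω = Real.log (partitionFn (fun k => (ω.1 k).1) ω.2.2) := by
  unfold FF
  simp only [wt_zero]
  rw [nest_const (P := Measure.pi fun _ : Fin 0 => lvM K) _ r m fun p => (hx.2.1 p).1]
  · rfl
  · exact Finset.sum_pos (fun σ _ => Real.exp_pos _) Finset.univ_nonempty

/-- forget the level-`0` variables. -/
def toPF (ω : Om K N a 0) : (Fin a → Clause K × (Fin K → Fin N)) × (Fin N → ℝ) :=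
  (fun k => (ω.1 k).1, ω.2.2)

theorem toPF_mp : MeasurePreserving (toPF (K := K) (N := N) (a := a)) (om ρ ν N a 0)
    ((Measure.pi fun _ : Fin a => ρ.prod (Measure.pi fun _ : Fin K => unif N)).prod
      (Measure.pi fun _ : Fin N => ν)) := by
  have h1 := measurePreserving_pi (fun _ : Fin a => cl3 ρ N)
    (fun _ : Fin a => ρ.prod (Measure.pi fun _ : Fin K => unif N))
    (f := fun _ => Prod.fst) fun _ => measurePreserving_fst
  have h2 : MeasurePreserving (Prod.snd : (Fin 0 → C4 K N) × (Fin N → ℝ) → (Fin N → ℝ))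
      ((Measure.pi fun _ : Fin 0 => c4 ρ N).prod (Measure.pi fun _ : Fin N => ν))
      (Measure.pi fun _ : Fin N => ν) := measurePreserving_snd
  exact h1.prod h2

theorem TT_zero_right (h : InClass K ρ ν) {m : Fin r → ℝ} {x : (Fin (r + 1) → U01) → ℝ}
    (hx : IsTrial r m x) :
    TT ρ ν m x N a 0 = ∫ ω : Fin a → Clause K × (Fin K → Fin N), (∫ h : Fin N → ℝ,
      Real.log (partitionFn ω h) ∂(Measure.pi fun _ => ν))
      ∂(Measure.pi fun _ => ρ.prod (Measure.pi fun _ => unif N)) := by
  have hmp := toPF_mp (K := K) (N := N) (a := a) (ρ := ρ) (ν := ν)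
  have hmeas : Measurable fun q : (Fin a → Clause K × (Fin K → Fin N)) × (Fin N → ℝ) =>
      Real.log (partitionFn q.1 q.2) := by
    refine Real.measurable_log.comp ?_
    unfold partitionFn
    refine Finset.measurable_fun_sum _ fun σ _ => Real.measurable_exp.comp ?_
    refine Measurable.add (Finset.measurable_fun_sum _ fun k _ => ?_)
      (Finset.measurable_fun_sum _ fun s _ => ?_)
    · exact (measurable_clauseE σ).comp ((measurable_pi_apply k).comp measurable_fst)
    · have : Measurable fun q : (Fin a → Clause K × (Fin K → Fin N)) × (Fin N → ℝ) => q.2 s :=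
        (measurable_pi_apply s).comp measurable_snd
      exact this.mul_const _
  have e1 : ∀ ω : Om K N a 0, FF m x ω =
      (fun q : (Fin a → Clause K × (Fin K → Fin N)) × (Fin N → ℝ) =>
        Real.log (partitionFn q.1 q.2)) (toPF ω) := fun ω => FF_zero hx ω
  have hint : Integrable (fun q : (Fin a → Clause K × (Fin K → Fin N)) × (Fin N → ℝ) =>
      Real.log (partitionFn q.1 q.2))
      ((Measure.pi fun _ : Fin a => ρ.prod (Measure.pi fun _ : Fin K => unif N)).prod
      (Measure.pi fun _ : Fin N => ν)) := by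
    rw [← hmp.integrable_comp hmeas.aestronglyMeasurable]
    have h2 := integrable_FF (N := N) (a := a) (n := 0) (m := m) (x := x) h hx
    simp only [e1] at h2
    exact h2
  unfold TT
  simp only [e1]
  rw [mp_integral hmp hmeas.aestronglyMeasurable, integral_prod _ hint]

theorem pressure_eq (h : InClass K ρ ν) {m : Fin r → ℝ} {x : (Fin (r + 1) → U01) → ℝ}
    (hx : IsTrial r m x) (lam : ℝ≥0) :
    ∫ k, TT ρ ν m x N k 0 ∂(poissonMeasure (lam * N)) = N * pressure lam ρ ν N := by
  unfold pressure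
  have hN : (N : ℝ) ≠ 0 := by exact_mod_cast NeZero.ne N
  rw [← mul_assoc, mul_one_div_cancel hN, one_mul]
  refine integral_congr_ae (Filter.Eventually.of_forall fun k => ?_)
  exact TT_zero_right h hx

end Vale.Agent.N168I.PT
end
end

section

section

/-!
The Panchenko–Talagrand upper bound.
-/

set_option autoImplicit false

open MeasureTheory ProbabilityTheory
open scoped NNReal

namespace Vale.Agent.N168I.PT

variable {K r : ℕ} {ρ : Measure (Clause K)} {ν : Measure ℝ}

/-- The upper bound for every number of sites, every depth and all admissible parameters. -/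
theorem pt_upper (h : InClass K ρ ν) {m : Fin r → ℝ} {x : (Fin (r + 1) → U01) → ℝ}
    (hx : IsTrial r m x) (lam : ℝ≥0) {N : ℕ} (hN : 1 ≤ N) :
    pressure lam ρ ν N ≤ trialU lam ρ ν r m x - trialV lam ρ r m x := by
  have := h.prob_clause
  have := h.prob_field
  have : NeZero N := ⟨by omega⟩
  have : NeZero K := neZero_of h
  have hN0 : (0 : ℝ) < N := by exact_mod_cast hN
  have h1 := TT_iter (N := N) h hx lam
  rw [pressure_eq h hx lam, TU.TT0_pois h hx lam N] at h1
  have h2 := trialV_eq h hx lam N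
  have hK : ((K - 1 : ℕ) : ℝ) = (K : ℝ) - 1 := by
    have := h.one_le
    rw [Nat.cast_sub (by omega), Nat.cast_one]
  rw [hK] at h2
  have h3 : (N : ℝ) * pressure lam ρ ν N ≤
      N * (trialU lam ρ ν r m x - trialV lam ρ r m x) := by
    rw [h2]
    linarith only [h1]
  exact le_of_mul_le_mul_left h3 hN0

end Vale.Agent.N168I.PT
end
end


/-!
Concentration of the pressure and fixed numbers of interactions (text of the starting files
`H45/Var`, `H45/DisDefs`, `H45/Dev`, `H45/Lim` of this problem, over the larger type).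
-/

set_option linter.all false

section

/-! Variance bounds for functions with bounded differences on product spaces. -/

set_option autoImplicit false

open MeasureTheory ProbabilityTheory Filter
open scoped NNReal Topology

namespace Vale.Agent.N168I.Cc

open Vale.Agent.N168I.PT (Bdm cons_mp)

/-- The variance, written with integrals. -/
noncomputable def V {Ω : Type} [MeasurableSpace Ω] (P : Measure Ω) (f : Ω → ℝ) : ℝ :=
  ∫ x, f x ^ 2 ∂P - (∫ x, f x ∂P) ^ 2

section

variable {Ω : Type} [MeasurableSpace Ω] {P : Measure Ω} [IsProbabilityMeasure P] {f : Ω → ℝ}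

theorem V_eq (hf : Bdm f) : V P f = ∫ x, (f x - ∫ y, f y ∂P) ^ 2 ∂P := by
  set m := ∫ y, f y ∂P with hm
  have h2 : Integrable (fun x => f x ^ 2) P := (hf.pow 2).integrable P
  have h1 : Integrable (fun x => 2 * m * f x) P := (hf.smul (2 * m)).integrable P
  have e : ∀ x, (f x - m) ^ 2 = f x ^ 2 - 2 * m * f x + m ^ 2 := fun x => by ring
  have h3 : Integrable (fun x => f x ^ 2 - 2 * m * f x) P := h2.sub h1
  simp_rw [e]
  rw [integral_add h3 (integrable_const _), integral_sub h2 h1, integral_const_mul,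
    integral_const, probReal_univ, one_smul, ← hm]
  unfold V
  ring

theorem V_one (hf : Bdm f) {c : ℝ} (h : ∀ x y, |f x - f y| ≤ c) : V P f ≤ c ^ 2 := by
  rw [V_eq hf]
  obtain ⟨ω⟩ : Nonempty Ω := P.nonempty_of_neZero
  have hc : 0 ≤ c := (abs_nonneg _).trans (h ω ω)
  have h1 : ∀ x, |f x - ∫ y, f y ∂P| ≤ c := by
    intro x
    have e : f x - ∫ y, f y ∂P = ∫ y, (f x - f y) ∂P := by
      rw [integral_sub (integrable_const _) (hf.integrable P), integral_const, probReal_univ,
        one_smul]
    rw [e]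
    have := norm_integral_le_of_norm_le_const (μ := P) (f := fun y => f x - f y) (C := c)
      (Eventually.of_forall fun y => h x y)
    simpa using this
  calc ∫ x, (f x - ∫ y, f y ∂P) ^ 2 ∂P ≤ ∫ _x, c ^ 2 ∂P := by
        refine integral_mono_of_nonneg (Eventually.of_forall fun x => sq_nonneg _)
          (integrable_const _) (Eventually.of_forall fun x => ?_)
        exact sq_le_sq' (abs_le.1 (h1 x)).1 (abs_le.1 (h1 x)).2
    _ = c ^ 2 := by simp

theorem abs_dev_sq_le (hf : Bdm f) : (∫ x, |f x - ∫ y, f y ∂P| ∂P) ^ 2 ≤ V P f := by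
  rw [V_eq hf]
  set g : Ω → ℝ := fun x => |f x - ∫ y, f y ∂P| with hg
  have hgb : Bdm g := by
    obtain ⟨hm, C, hC⟩ := hf.sub (Bdm.const (∫ y, f y ∂P))
    exact ⟨hm.abs, C, fun z => by rw [hg]; simpa using hC z⟩
  have h1 := V_eq (P := P) hgb
  have h2 : 0 ≤ V P g := by
    rw [h1]
    exact integral_nonneg fun x => sq_nonneg _
  unfold V at h2
  have e : ∀ x, g x ^ 2 = (f x - ∫ y, f y ∂P) ^ 2 := fun x => sq_abs _
  simp_rw [e] at h2
  linarith

end

section Prod

variable {A B : Type} [MeasurableSpace A] [MeasurableSpace B] {μ : Measure A}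
  [IsProbabilityMeasure μ] {ν : Measure B} [IsProbabilityMeasure ν] {f : A × B → ℝ}

theorem bdm_avg (hf : Bdm f) : Bdm fun y => ∫ x, f (x, y) ∂μ := by
  obtain ⟨hm, C, hC⟩ := hf
  refine ⟨?_, C, fun y => ?_⟩
  · exact (StronglyMeasurable.integral_prod_right (f := fun (y : B) (x : A) => f (x, y))
      (hm.comp measurable_swap).stronglyMeasurable).measurable
  · have := norm_integral_le_of_norm_le_const (μ := μ) (f := fun x => f (x, y)) (C := C)
      (Eventually.of_forall fun x => hC _)
    simpa using this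

theorem V_prod_le (hf : Bdm f) {a b : ℝ} (ha : ∀ y, V μ (fun x => f (x, y)) ≤ a)
    (hb : V ν (fun y => ∫ x, f (x, y) ∂μ) ≤ b) : V (μ.prod ν) f ≤ a + b := by
  have h2 : Integrable (fun z => f z ^ 2) (μ.prod ν) := (hf.pow 2).integrable _
  have h1 : Integrable f (μ.prod ν) := hf.integrable _
  have hF := bdm_avg (μ := μ) hf
  have hF2 : Bdm fun y => ∫ x, f (x, y) ^ 2 ∂μ := bdm_avg (μ := μ) (hf.pow 2)
  unfold V at ha hb ⊢
  rw [integral_prod_symm _ h2, integral_prod_symm _ h1]
  have h3 : ∫ y, (∫ x, f (x, y) ^ 2 ∂μ) ∂ν ≤ ∫ y, (a + (∫ x, f (x, y) ∂μ) ^ 2) ∂ν := by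
    refine integral_mono (hF2.integrable ν) ((Bdm.const a).add (hF.pow 2) |>.integrable ν)
      fun y => ?_
    have := ha y
    dsimp only at this ⊢
    linarith
  rw [integral_add (integrable_const _) ((hF.pow 2).integrable ν), integral_const, probReal_univ,
    one_smul] at h3
  linarith

end Prod

theorem V_map {A B : Type} [MeasurableSpace A] [MeasurableSpace B] {μ : Measure A} {ν : Measure B}
    {φ : A → B} (h : MeasurePreserving φ μ ν) {f : B → ℝ} (hf : Measurable f) :
    V ν f = V μ fun x => f (φ x) := by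
  unfold V
  rw [← h.map_eq, integral_map h.measurable.aemeasurable (hf.pow_const 2).aestronglyMeasurable,
    integral_map h.measurable.aemeasurable hf.aestronglyMeasurable]

theorem V_pi_le {A : Type} [MeasurableSpace A] (μ : Measure A) [IsProbabilityMeasure μ] {c : ℝ}
    (n : ℕ) : ∀ f : (Fin n → A) → ℝ, Bdm f →
      (∀ x i a, |f (Function.update x i a) - f x| ≤ c) →
      V (Measure.pi fun _ : Fin n => μ) f ≤ n * c ^ 2 := by
  induction n with
  | zero =>
    intro f hf _
    have := V_one (P := Measure.pi fun _ : Fin 0 => μ) hf (c := 0) fun x y => by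
      rw [Subsingleton.elim x y, sub_self, abs_zero]
    simpa using this
  | succ n ih =>
    intro f hf h
    have hcm := cons_mp μ n
    rw [V_map hcm hf.1]
    have hf' : Bdm fun p : A × (Fin n → A) => f (Fin.cons p.1 p.2) := hf.comp hcm.measurable
    have h1 := V_prod_le (μ := μ) (ν := Measure.pi fun _ : Fin n => μ) hf' (a := c ^ 2)
      (b := n * c ^ 2) (fun y => ?_) (ih _ (bdm_avg hf') fun y i a => ?_)
    · refine h1.trans_eq ?_
      push_cast
      ring
    · refine V_one (hf'.comp (f := fun x => (x, y)) measurable_prodMk_right) fun x x' => ?_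
      have e : (Fin.cons x y : Fin (n + 1) → A) =
          Function.update (Fin.cons x' y : Fin (n + 1) → A) 0 x := by
        rw [Fin.update_cons_zero]
      dsimp only
      rw [e]
      exact h _ _ _
    · have e : (∫ x, f (Fin.cons x (Function.update y i a)) ∂μ) - ∫ x, f (Fin.cons x y) ∂μ =
          ∫ x, (f (Fin.cons x (Function.update y i a)) - f (Fin.cons x y)) ∂μ := by
        rw [integral_sub]
        · exact (hf'.comp (f := fun x => (x, Function.update y i a))
            measurable_prodMk_right).integrable μ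
        · exact (hf'.comp (f := fun x => (x, y)) measurable_prodMk_right).integrable μ
      rw [e]
      have := norm_integral_le_of_norm_le_const (μ := μ)
        (f := fun x => f (Fin.cons x (Function.update y i a)) - f (Fin.cons x y)) (C := c)
        (Eventually.of_forall fun x => by
          rw [Fin.cons_update]
          exact h _ _ _)
      simpa using this

end Vale.Agent.N168I.Cc

end

section

/-! The law of the disorder with a given number of interactions. -/

open MeasureTheory ProbabilityTheory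
open scoped NNReal

namespace Vale.Agent.N168I

/-- The disorder of the system with `N` sites and `M` interactions: the data and the sites of the
interactions, and the external fields. -/
abbrev Disorder (K N M : ℕ) : Type := (Fin M → Clause K × (Fin K → Fin N)) × (Fin N → ℝ)

/-- The law of the disorder: `M` i.i.d. interactions of law `ρ` with i.i.d. uniform sites, and
`N` i.i.d. fields of law `ν`, all independent. -/
noncomputable def disorder {K : ℕ} (ρ : Measure (Clause K)) (ν : Measure ℝ) (N M : ℕ) :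
    Measure (Disorder K N M) :=
  (Measure.pi fun _ => ρ.prod (Measure.pi fun _ => unif N)).prod (Measure.pi fun _ => ν)

/-- The random pressure `(1/N) log ∑_σ exp H_N(σ)`. -/
noncomputable def randomPressure {K N M : ℕ} (ω : Disorder K N M) : ℝ :=
  1 / (N : ℝ) * Real.log (partitionFn ω.1 ω.2)

end Vale.Agent.N168I

end

section

/-! The `L¹` deviation of the log partition function from its mean. -/

set_option autoImplicit false
set_option linter.unusedSectionVars false

open MeasureTheory ProbabilityTheory Filter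
open scoped NNReal Topology

namespace Vale.Agent.N168I.Cc

open Vale.Agent.N168I.PT (Bdm cons_mp)

variable {K N M : ℕ}

/-- The log partition function. -/
noncomputable def X (ω : Disorder K N M) : ℝ := Real.log (partitionFn ω.1 ω.2)

theorem X_eq (ω : Disorder K N M) : X ω = logZ (∑ k, clauseE (ω.1 k) + fieldE ω.2) :=
  log_partitionFn _ _

theorem logZ_sub_le (H H' : Egy N) : |logZ H - logZ H'| ≤ ‖H - H'‖ := by
  have := logZ_lip.dist_le_mul H H'
  rwa [NNReal.coe_one, one_mul, Real.dist_eq, dist_eq_norm] at this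

theorem logZ_zero : logZ (0 : Egy N) = N * Real.log 2 := by
  unfold logZ
  simp

theorem fieldE_sub_le (h h' : Fin N → ℝ) :
    ‖(fieldE h : Egy N) - fieldE h'‖ ≤ ∑ v, |h v - h' v| := by
  have e : (fieldE h : Egy N) - fieldE h' = fieldE fun v => h v - h' v := by
    funext σ
    unfold fieldE
    simp only [Pi.sub_apply, ← Finset.sum_sub_distrib, sub_mul]
  rw [e]
  exact norm_fieldE_le _

/-- Truncated interaction. -/
noncomputable def trC (A : ℝ) (x : Clause K × (Fin K → Fin N)) : Egy N :=
  if maxTheta x.1 ≤ A then clauseE x else 0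

/-- Truncated field. -/
noncomputable def trF (A t : ℝ) : ℝ := max (-A) (min A t)

/-- Tail of an interaction. -/
noncomputable def tlC (A : ℝ) (c : Clause K) : ℝ := if maxTheta c ≤ A then 0 else maxTheta c

/-- Tail of a field. -/
noncomputable def tlF (A t : ℝ) : ℝ := if |t| ≤ A then 0 else |t|

theorem trC_norm {A : ℝ} (hA : 0 ≤ A) (x : Clause K × (Fin K → Fin N)) : ‖trC A x‖ ≤ A := by
  unfold trC
  split_ifs with h
  · exact (norm_clauseE_le x).trans h
  · simpa using hA

theorem trC_sub (A : ℝ) (x : Clause K × (Fin K → Fin N)) :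
    ‖(clauseE x : Egy N) - trC A x‖ ≤ tlC A x.1 := by
  unfold trC tlC
  split_ifs with h
  · rw [sub_self, norm_zero]
  · rw [sub_zero]; exact norm_clauseE_le x

theorem trF_abs {A : ℝ} (hA : 0 ≤ A) (t : ℝ) : |trF A t| ≤ A := by
  unfold trF
  rw [abs_le]
  exact ⟨le_max_left _ _, max_le (by linarith) (min_le_left _ _)⟩

theorem trF_sub {A : ℝ} (hA : 0 ≤ A) (t : ℝ) : |t - trF A t| ≤ tlF A t := by
  unfold trF tlF
  split_ifs with h
  · rw [abs_le] at h
    rw [min_eq_right h.2, max_eq_right h.1, sub_self, abs_zero]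
  · rcases le_total 0 t with h0 | h0
    · rw [abs_of_nonneg h0] at h ⊢
      rw [min_eq_left (by linarith), max_eq_right (by linarith), abs_le]
      constructor <;> linarith
    · rw [abs_of_nonpos h0] at h ⊢
      rw [min_eq_right (by linarith), max_eq_left (by linarith), abs_le]
      constructor <;> linarith

/-- The truncated log partition function. -/
noncomputable def XA (A : ℝ) (ω : Disorder K N M) : ℝ :=
  logZ (∑ k, trC A (ω.1 k) + fieldE fun v => trF A (ω.2 v))

theorem X_sub_XA {A : ℝ} (hA : 0 ≤ A) (ω : Disorder K N M) :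
    |X ω - XA A ω| ≤ ∑ k, tlC A (ω.1 k).1 + ∑ v, tlF A (ω.2 v) := by
  rw [X_eq]
  unfold XA
  refine (logZ_sub_le _ _).trans ?_
  rw [add_sub_add_comm]
  refine (norm_add_le _ _).trans (add_le_add ?_ ?_)
  · rw [← Finset.sum_sub_distrib]
    exact (norm_sum_le _ _).trans (Finset.sum_le_sum fun k _ => trC_sub A _)
  · exact (fieldE_sub_le _ _).trans (Finset.sum_le_sum fun v _ => trF_sub hA _)

theorem measurable_trC (A : ℝ) : Measurable (trC A : Clause K × (Fin K → Fin N) → Egy N) := by
  unfold trC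
  exact Measurable.ite (measurableSet_le (measurable_maxTheta.comp measurable_fst)
    measurable_const) measurable_clauseE' measurable_const

theorem measurable_trF (A : ℝ) : Measurable (trF A) :=
  measurable_const.max (measurable_const.min measurable_id)

theorem measurable_logZ : Measurable (logZ : Egy N → ℝ) := logZ_lip.continuous.measurable

theorem measurable_X : Measurable (X : Disorder K N M → ℝ) := by
  have e : (X : Disorder K N M → ℝ) =
      fun ω => logZ (∑ k, clauseE (ω.1 k) + fieldE ω.2) := funext X_eq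
  rw [e]
  refine measurable_logZ.comp (Measurable.add (Finset.measurable_fun_sum _ fun k _ => ?_) ?_)
  · exact measurable_clauseE'.comp ((measurable_pi_apply k).comp measurable_fst)
  · exact measurable_fieldE.comp measurable_snd

theorem bdm_XA {A : ℝ} (hA : 0 ≤ A) : Bdm (XA A : Disorder K N M → ℝ) := by
  refine ⟨?_, N * Real.log 2 + (M * A + N * A), fun ω => ?_⟩
  · unfold XA
    refine measurable_logZ.comp (Measurable.add (Finset.measurable_fun_sum _ fun k _ => ?_) ?_)
    · exact (measurable_trC A).comp ((measurable_pi_apply k).comp measurable_fst)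
    · exact measurable_fieldE.comp (measurable_pi_lambda _ fun v =>
        (measurable_trF A).comp ((measurable_pi_apply v).comp measurable_snd))
  · unfold XA
    set H : Egy N := ∑ k, trC A (ω.1 k) + fieldE fun v => trF A (ω.2 v) with hH
    have h1 := logZ_sub_le H 0
    rw [sub_zero, logZ_zero] at h1
    have h2 : ‖H‖ ≤ M * A + N * A := by
      refine (norm_add_le _ _).trans (add_le_add ?_ ?_)
      · refine (norm_sum_le _ _).trans ((Finset.sum_le_sum fun k _ => trC_norm hA _).trans ?_)
        simp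
      · refine (norm_fieldE_le _).trans ((Finset.sum_le_sum fun v _ => trF_abs hA _).trans ?_)
        simp
    have h3 : 0 ≤ (N : ℝ) * Real.log 2 := mul_nonneg (Nat.cast_nonneg _) (Real.log_nonneg one_le_two)
    have h4 := abs_add_le (logZ H - N * Real.log 2) (N * Real.log 2)
    rw [sub_add_cancel, abs_of_nonneg h3] at h4
    linarith

theorem XA_diff_left {A : ℝ} (hA : 0 ≤ A) (ω : Fin M → Clause K × (Fin K → Fin N))
    (h : Fin N → ℝ) (k : Fin M) (x : Clause K × (Fin K → Fin N)) :
    |XA A (Function.update ω k x, h) - XA A (ω, h)| ≤ 2 * A := by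
  unfold XA
  refine (logZ_sub_le _ _).trans ?_
  dsimp only
  rw [add_sub_add_right_eq_sub, ← Finset.sum_sub_distrib]
  rw [Finset.sum_eq_single k]
  · rw [Function.update_self]
    refine (norm_sub_le _ _).trans ?_
    have h1 := trC_norm hA x
    have h2 := trC_norm hA (ω k)
    linarith
  · intro j _ hj
    rw [Function.update_of_ne hj, sub_self]
  · intro hk; exact absurd (Finset.mem_univ _) hk

theorem XA_diff_right {A : ℝ} (hA : 0 ≤ A) (ω : Fin M → Clause K × (Fin K → Fin N))
    (h : Fin N → ℝ) (v : Fin N) (t : ℝ) :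
    |XA A (ω, Function.update h v t) - XA A (ω, h)| ≤ 2 * A := by
  unfold XA
  refine (logZ_sub_le _ _).trans ?_
  dsimp only
  rw [add_sub_add_left_eq_sub]
  refine (fieldE_sub_le _ _).trans ?_
  rw [Finset.sum_eq_single v]
  · rw [Function.update_self]
    have h1 := abs_le.1 (trF_abs hA t)
    have h2 := abs_le.1 (trF_abs hA (h v))
    rw [abs_le]
    constructor <;> linarith [h1.1, h1.2, h2.1, h2.2]
  · intro j _ hj
    rw [Function.update_of_ne hj, sub_self, abs_zero]
  · intro hk; exact absurd (Finset.mem_univ _) hk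

section

variable (ρ : Measure (Clause K)) [IsProbabilityMeasure ρ] (ν : Measure ℝ)
  [IsProbabilityMeasure ν] [NeZero N]

instance disorder_prob : IsProbabilityMeasure (disorder ρ ν N M) := by
  unfold disorder; infer_instance

theorem V_XA_le {A : ℝ} (hA : 0 ≤ A) :
    V (disorder ρ ν N M) (XA A) ≤ M * (2 * A) ^ 2 + N * (2 * A) ^ 2 := by
  have hb := bdm_XA (K := K) (N := N) (M := M) hA
  unfold disorder
  refine V_prod_le hb (fun h => ?_) ?_
  · refine V_pi_le _ M _ (hb.comp measurable_prodMk_right) fun ω k x => ?_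
    exact XA_diff_left hA ω h k x
  · refine V_pi_le ν N _ (bdm_avg hb) fun h v t => ?_
    have e : (∫ ω, XA A (ω, Function.update h v t)
        ∂(Measure.pi fun _ : Fin M => ρ.prod (Measure.pi fun _ : Fin K => unif N))) -
        ∫ ω, XA A (ω, h)
        ∂(Measure.pi fun _ : Fin M => ρ.prod (Measure.pi fun _ : Fin K => unif N)) =
        ∫ ω, (XA A (ω, Function.update h v t) - XA A (ω, h))
        ∂(Measure.pi fun _ : Fin M => ρ.prod (Measure.pi fun _ : Fin K => unif N)) := by
      rw [integral_sub]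
      · exact (hb.comp measurable_prodMk_right).integrable _
      · exact (hb.comp measurable_prodMk_right).integrable _
    rw [e]
    have := norm_integral_le_of_norm_le_const
      (μ := Measure.pi fun _ : Fin M => ρ.prod (Measure.pi fun _ : Fin K => unif N))
      (f := fun ω => XA A (ω, Function.update h v t) - XA A (ω, h)) (C := 2 * A)
      (Eventually.of_forall fun ω => XA_diff_right hA ω h v t)
    simpa using this

/-- `d ≤ ε s + A²/ε` from `d² ≤ 4 A² s`. -/
theorem le_of_sq {d A s ε : ℝ} (hε : 0 < ε) (hs : 0 ≤ s) (h : d ^ 2 ≤ 4 * A ^ 2 * s) :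
    d ≤ ε * s + A ^ 2 / ε := by
  have h1 : 4 * A ^ 2 * s ≤ (ε * s + A ^ 2 / ε) ^ 2 := by
    have e : (ε * s + A ^ 2 / ε) ^ 2 - 4 * A ^ 2 * s = (ε * s - A ^ 2 / ε) ^ 2 := by
      field_simp
      ring
    nlinarith [sq_nonneg (ε * s - A ^ 2 / ε)]
  have h2 : 0 ≤ ε * s + A ^ 2 / ε := by positivity
  exact le_trans (le_abs_self d) (abs_le_of_sq_le_sq (h.trans h1) h2)

theorem mpC' (k : Fin M) : MeasurePreserving (fun ω : Disorder K N M => (ω.1 k).1)
    (disorder ρ ν N M) ρ :=
  (measurePreserving_fst (μ := ρ) (ν := Measure.pi fun _ : Fin K => unif N)).comp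
    ((measurePreserving_eval (fun _ : Fin M => ρ.prod (Measure.pi fun _ : Fin K => unif N)) k).comp
      measurePreserving_fst)

theorem mpF' (v : Fin N) : MeasurePreserving (fun ω : Disorder K N M => ω.2 v)
    (disorder ρ ν N M) ν :=
  (measurePreserving_eval (fun _ : Fin N => ν) v).comp measurePreserving_snd

variable {ρ} {ν}

theorem integral_sumC {g : Clause K → ℝ} (hg : Integrable g ρ) :
    ∫ ω : Disorder K N M, ∑ k, g (ω.1 k).1 ∂(disorder ρ ν N M) = M * ∫ c, g c ∂ρ := by
  have hi : ∀ k : Fin M, Integrable (fun ω : Disorder K N M => g (ω.1 k).1) (disorder ρ ν N M) :=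
    fun k => (mpC' ρ ν k).integrable_comp_of_integrable hg
  rw [integral_finsetSum _ fun k _ => hi k]
  have : ∀ k : Fin M, ∫ ω : Disorder K N M, g (ω.1 k).1 ∂(disorder ρ ν N M) = ∫ c, g c ∂ρ :=
    fun k => PT.mp_integral (mpC' ρ ν k) hg.aestronglyMeasurable
  simp [this]

theorem integral_sumF {g : ℝ → ℝ} (hg : Integrable g ν) :
    ∫ ω : Disorder K N M, ∑ v, g (ω.2 v) ∂(disorder ρ ν N M) = N * ∫ t, g t ∂ν := by
  have hi : ∀ v : Fin N, Integrable (fun ω : Disorder K N M => g (ω.2 v)) (disorder ρ ν N M) :=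
    fun v => (mpF' ρ ν v).integrable_comp_of_integrable hg
  rw [integral_finsetSum _ fun v _ => hi v]
  have : ∀ v : Fin N, ∫ ω : Disorder K N M, g (ω.2 v) ∂(disorder ρ ν N M) = ∫ t, g t ∂ν :=
    fun v => PT.mp_integral (mpF' ρ ν v) hg.aestronglyMeasurable
  simp [this]

theorem integrable_sumC {g : Clause K → ℝ} (hg : Integrable g ρ) :
    Integrable (fun ω : Disorder K N M => ∑ k, g (ω.1 k).1) (disorder ρ ν N M) :=
  integrable_finsetSum _ fun k _ => (mpC' ρ ν k).integrable_comp_of_integrable hg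

theorem integrable_sumF {g : ℝ → ℝ} (hg : Integrable g ν) :
    Integrable (fun ω : Disorder K N M => ∑ v, g (ω.2 v)) (disorder ρ ν N M) :=
  integrable_finsetSum _ fun k _ => (mpF' ρ ν k).integrable_comp_of_integrable hg

theorem measurable_tlC (A : ℝ) : Measurable (tlC A : Clause K → ℝ) := by
  unfold tlC
  exact Measurable.ite (measurableSet_le measurable_maxTheta measurable_const) measurable_const
    measurable_maxTheta

theorem measurable_tlF (A : ℝ) : Measurable (tlF A) := by
  unfold tlF
  exact Measurable.ite (measurableSet_le measurable_id.abs measurable_const) measurable_const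
    measurable_id.abs

theorem tlC_nonneg (A : ℝ) (c : Clause K) : 0 ≤ tlC A c := by
  unfold tlC; split_ifs
  · exact le_rfl
  · exact maxTheta_nonneg c

theorem tlC_le (A : ℝ) (c : Clause K) : tlC A c ≤ maxTheta c := by
  unfold tlC; split_ifs
  · exact maxTheta_nonneg c
  · exact le_rfl

theorem tlF_nonneg (A t : ℝ) : 0 ≤ tlF A t := by
  unfold tlF; split_ifs
  · exact le_rfl
  · exact abs_nonneg t

theorem tlF_le (A t : ℝ) : tlF A t ≤ |t| := by
  unfold tlF; split_ifs
  · exact abs_nonneg t
  · exact le_rfl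

theorem tlC_lim (hρ : Integrable (maxTheta : Clause K → ℝ) ρ) :
    Tendsto (fun n : ℕ => ∫ c, tlC (n : ℝ) c ∂ρ) atTop (𝓝 0) := by
  have h := tendsto_integral_of_dominated_convergence (μ := ρ)
    (F := fun (n : ℕ) c => tlC (n : ℝ) c) (f := fun _ => 0) maxTheta
    (fun n => (measurable_tlC _).aestronglyMeasurable) hρ
    (fun n => Eventually.of_forall fun c => by
      rw [Real.norm_eq_abs, abs_of_nonneg (tlC_nonneg _ _)]; exact tlC_le _ _)
    (Eventually.of_forall fun c => ?_)
  · simpa using h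
  · refine tendsto_const_nhds.congr' ?_
    filter_upwards [eventually_ge_atTop ⌈maxTheta c⌉₊] with n hn
    unfold tlC
    rw [if_pos ((Nat.le_ceil _).trans (by exact_mod_cast hn))]

theorem tlF_lim (hν : Integrable (fun h => h) ν) :
    Tendsto (fun n : ℕ => ∫ t, tlF (n : ℝ) t ∂ν) atTop (𝓝 0) := by
  have h := tendsto_integral_of_dominated_convergence (μ := ν)
    (F := fun (n : ℕ) t => tlF (n : ℝ) t) (f := fun _ => 0) (fun t => |t|)
    (fun n => (measurable_tlF _).aestronglyMeasurable) hν.abs
    (fun n => Eventually.of_forall fun c => by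
      rw [Real.norm_eq_abs, abs_of_nonneg (tlF_nonneg _ _)]; exact tlF_le _ _)
    (Eventually.of_forall fun c => ?_)
  · simpa using h
  · refine tendsto_const_nhds.congr' ?_
    filter_upwards [eventually_ge_atTop ⌈|c|⌉₊] with n hn
    unfold tlF
    rw [if_pos ((Nat.le_ceil _).trans (by exact_mod_cast hn))]

theorem integrable_X (hρ : Integrable (maxTheta : Clause K → ℝ) ρ)
    (hν : Integrable (fun h => h) ν) :
    Integrable (X : Disorder K N M → ℝ) (disorder ρ ν N M) := by
  refine (((integrable_sumC (ν := ν) (N := N) (M := M) hρ).add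
    (integrable_sumF (ρ := ρ) (K := K) (M := M) (N := N) hν.abs)).add
    (integrable_const (N * Real.log 2))).mono' measurable_X.aestronglyMeasurable
    (Eventually.of_forall fun ω => ?_)
  rw [Real.norm_eq_abs, X_eq]
  set H : Egy N := ∑ k, clauseE (ω.1 k) + fieldE ω.2 with hH
  have h1 := logZ_sub_le H 0
  rw [sub_zero, logZ_zero] at h1
  have h2 : ‖H‖ ≤ ∑ k, maxTheta (ω.1 k).1 + ∑ v, |ω.2 v| := by
    refine (norm_add_le _ _).trans (add_le_add ?_ (norm_fieldE_le _))
    exact (norm_sum_le _ _).trans (Finset.sum_le_sum fun k _ => norm_clauseE_le _)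
  have h3 : 0 ≤ (N : ℝ) * Real.log 2 := mul_nonneg (Nat.cast_nonneg _) (Real.log_nonneg one_le_two)
  have h4 := abs_add_le (logZ H - N * Real.log 2) (N * Real.log 2)
  rw [sub_add_cancel, abs_of_nonneg h3] at h4
  simp only [Pi.add_apply]
  linarith

end

/-- **`L¹` deviation of `log Z` from its mean.** -/
theorem dev {ρ : Measure (Clause K)} [IsProbabilityMeasure ρ] {ν : Measure ℝ}
    [IsProbabilityMeasure ν] (hρ : Integrable (maxTheta : Clause K → ℝ) ρ)
    (hν : Integrable (fun h => h) ν) {ε : ℝ} (hε : 0 < ε) :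
    ∃ B : ℝ, 0 ≤ B ∧ ∀ (N M : ℕ) (_ : NeZero N),
      ∫ ω, |X ω - ∫ ω', X ω' ∂(disorder ρ ν N M)| ∂(disorder ρ ν N M) ≤ ε * (M + N) + B := by
  have hε4 : 0 < ε / 4 := by positivity
  obtain ⟨n, hn1, hn2⟩ := (((tlC_lim hρ).eventually (gt_mem_nhds hε4)).and
    ((tlF_lim hν).eventually (gt_mem_nhds hε4))).exists
  set A : ℝ := (n : ℝ) with hAd
  have hA : 0 ≤ A := Nat.cast_nonneg n
  refine ⟨A ^ 2 / (ε / 2), by positivity, fun N M _ => ?_⟩
  set D := disorder ρ ν N M with hD
  have hX : Integrable (X : Disorder K N M → ℝ) D := integrable_X hρ hν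
  have hXA : Integrable (XA A : Disorder K N M → ℝ) D := (bdm_XA hA).integrable _
  have i1 : Integrable (tlC A : Clause K → ℝ) ρ := hρ.mono' (measurable_tlC A).aestronglyMeasurable
    (Eventually.of_forall fun c => by
      rw [Real.norm_eq_abs, abs_of_nonneg (tlC_nonneg _ _)]; exact tlC_le _ _)
  have i2 : Integrable (tlF A) ν := hν.abs.mono' (measurable_tlF A).aestronglyMeasurable
    (Eventually.of_forall fun c => by
      rw [Real.norm_eq_abs, abs_of_nonneg (tlF_nonneg _ _)]; exact tlF_le _ _)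
  have h1 : ∫ ω, |X ω - XA A ω| ∂D ≤ ε / 4 * (M + N) := by
    have h2 : ∫ ω, |X ω - XA A ω| ∂D ≤
        ∫ ω : Disorder K N M, (∑ k, tlC A (ω.1 k).1 + ∑ v, tlF A (ω.2 v)) ∂D :=
      integral_mono (hX.sub hXA).abs ((integrable_sumC i1).add (integrable_sumF i2))
        fun ω => X_sub_XA hA ω
    rw [integral_add (integrable_sumC i1) (integrable_sumF i2), integral_sumC i1,
      integral_sumF i2] at h2
    have h3 : (M : ℝ) * ∫ c, tlC A c ∂ρ ≤ M * (ε / 4) :=
      mul_le_mul_of_nonneg_left hn1.le (Nat.cast_nonneg _)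
    have h4 : (N : ℝ) * ∫ t, tlF A t ∂ν ≤ N * (ε / 4) :=
      mul_le_mul_of_nonneg_left hn2.le (Nat.cast_nonneg _)
    linarith
  have h5 : ∫ ω, |XA A ω - ∫ ω', XA A ω' ∂D| ∂D ≤ ε / 2 * (M + N) + A ^ 2 / (ε / 2) := by
    refine le_of_sq (by positivity) (by positivity) ?_
    refine (abs_dev_sq_le (bdm_XA hA)).trans ((V_XA_le ρ ν hA).trans_eq ?_)
    ring
  have h6 : |(∫ ω, XA A ω ∂D) - ∫ ω, X ω ∂D| ≤ ε / 4 * (M + N) := by
    rw [← integral_sub hXA hX]
    refine abs_integral_le_integral_abs.trans (le_trans (le_of_eq ?_) h1)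
    exact integral_congr_ae (Eventually.of_forall fun ω => abs_sub_comm _ _)
  have h7 : ∫ ω, |X ω - ∫ ω', X ω' ∂D| ∂D ≤
      ∫ ω, (|X ω - XA A ω| + |XA A ω - ∫ ω', XA A ω' ∂D| +
        |(∫ ω, XA A ω ∂D) - ∫ ω, X ω ∂D|) ∂D := by
    refine integral_mono (hX.sub (integrable_const _)).abs
      (((hX.sub hXA).abs.add (hXA.sub (integrable_const _)).abs).add (integrable_const _))
      fun ω => ?_
    have a1 := abs_sub_le (X ω) (XA A ω) (∫ ω', X ω' ∂D)
    have a2 := abs_sub_le (XA A ω) (∫ ω', XA A ω' ∂D) (∫ ω', X ω' ∂D)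
    dsimp only
    linarith
  have j1 : Integrable (fun ω : Disorder K N M => |X ω - XA A ω|) D := (hX.sub hXA).abs
  have j2 : Integrable (fun ω : Disorder K N M => |XA A ω - ∫ ω', XA A ω' ∂D|) D :=
    (hXA.sub (integrable_const _)).abs
  have j3 : Integrable (fun ω : Disorder K N M =>
      |X ω - XA A ω| + |XA A ω - ∫ ω', XA A ω' ∂D|) D := j1.add j2
  rw [integral_add j3 (integrable_const _), integral_add j1 j2, integral_const, probReal_univ,
    one_smul] at h7
  have h8 : (0 : ℝ) ≤ M + N := by positivity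
  linarith

end Vale.Agent.N168I.Cc

end

section

/-! Convergence in `L¹` of the random pressure, for a Poisson and for a deterministic number of
interactions. -/

set_option autoImplicit false
set_option linter.unusedSectionVars false

open MeasureTheory ProbabilityTheory Filter
open scoped NNReal Topology

namespace Vale.Agent.N168I.Cc

open Vale.Agent.N168I.PT (Bdm cons_mp)

variable {K N M : ℕ}

/-- The mean of the log partition function. -/
noncomputable def mn (ρ : Measure (Clause K)) (ν : Measure ℝ) (N M : ℕ) : ℝ :=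
  ∫ ω, X ω ∂(disorder ρ ν N M)

section

variable {ρ : Measure (Clause K)} [IsProbabilityMeasure ρ] {ν : Measure ℝ}
  [IsProbabilityMeasure ν] [NeZero N] (hρ : Integrable (maxTheta : Clause K → ℝ) ρ)
  (hν : Integrable (fun h => h) ν)

theorem X_cons (x : Clause K × (Fin K → Fin N)) (ω : Fin M → Clause K × (Fin K → Fin N))
    (h : Fin N → ℝ) : |X ((Fin.cons x ω, h) : Disorder K N (M + 1)) - X ((ω, h) : Disorder K N M)| ≤
      maxTheta x.1 := by
  rw [X_eq, X_eq]
  refine (logZ_sub_le _ _).trans ?_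
  simp only [Fin.sum_univ_succ, Fin.cons_zero, Fin.cons_succ]
  have e : (clauseE x + ∑ i, clauseE (ω i) + fieldE h : Egy N) -
      (∑ k, clauseE (ω k) + fieldE h) = clauseE x := by abel
  rw [e]
  exact norm_clauseE_le x

/-- Adding one interaction, as a measure preserving map. -/
theorem consD_mp : MeasurePreserving
    (fun p : (Clause K × (Fin K → Fin N)) × Disorder K N M =>
      ((Fin.cons p.1 p.2.1, p.2.2) : Disorder K N (M + 1)))
    ((ρ.prod (Measure.pi fun _ : Fin K => unif N)).prod (disorder ρ ν N M))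
    (disorder ρ ν N (M + 1)) := by
  have h1 := (measurePreserving_prodAssoc (ρ.prod (Measure.pi fun _ : Fin K => unif N))
    (Measure.pi fun _ : Fin M => ρ.prod (Measure.pi fun _ : Fin K => unif N))
    (Measure.pi fun _ : Fin N => ν)).symm
  have h2 := (cons_mp (ρ.prod (Measure.pi fun _ : Fin K => unif N)) M).prod
    (MeasurePreserving.id (Measure.pi fun _ : Fin N => ν))
  exact h2.comp h1

include hρ hν in
theorem mn_succ : |mn ρ ν N (M + 1) - mn ρ ν N M| ≤ ∫ c, maxTheta c ∂ρ := by
  have hmp := consD_mp (K := K) (N := N) (M := M) (ρ := ρ) (ν := ν)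
  have hX1 : Integrable (X : Disorder K N (M + 1) → ℝ) (disorder ρ ν N (M + 1)) :=
    integrable_X hρ hν
  have hX0 : Integrable (X : Disorder K N M → ℝ) (disorder ρ ν N M) := integrable_X hρ hν
  have h1 : mn ρ ν N (M + 1) = ∫ p : (Clause K × (Fin K → Fin N)) × Disorder K N M,
      X ((Fin.cons p.1 p.2.1, p.2.2) : Disorder K N (M + 1))
      ∂((ρ.prod (Measure.pi fun _ : Fin K => unif N)).prod (disorder ρ ν N M)) :=
    (PT.mp_integral hmp measurable_X.aestronglyMeasurable).symm
  have hX0' : Integrable (fun p : (Clause K × (Fin K → Fin N)) × Disorder K N M => X p.2)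
      ((ρ.prod (Measure.pi fun _ : Fin K => unif N)).prod (disorder ρ ν N M)) :=
    hX0.comp_snd _
  have hX1' : Integrable (fun p : (Clause K × (Fin K → Fin N)) × Disorder K N M =>
      X ((Fin.cons p.1 p.2.1, p.2.2) : Disorder K N (M + 1)))
      ((ρ.prod (Measure.pi fun _ : Fin K => unif N)).prod (disorder ρ ν N M)) :=
    hmp.integrable_comp_of_integrable hX1
  have h0 : mn ρ ν N M = ∫ p : (Clause K × (Fin K → Fin N)) × Disorder K N M, X p.2
      ∂((ρ.prod (Measure.pi fun _ : Fin K => unif N)).prod (disorder ρ ν N M)) := by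
    rw [integral_prod _ hX0']
    change mn ρ ν N M = ∫ _x : Clause K × (Fin K → Fin N), mn ρ ν N M
      ∂(ρ.prod (Measure.pi fun _ : Fin K => unif N))
    rw [integral_const, probReal_univ, one_smul]
  have hm' : Integrable (fun p : (Clause K × (Fin K → Fin N)) × Disorder K N M =>
      maxTheta p.1.1)
      ((ρ.prod (Measure.pi fun _ : Fin K => unif N)).prod (disorder ρ ν N M)) :=
    (hρ.comp_fst (Measure.pi fun _ : Fin K => unif N)).comp_fst (disorder ρ ν N M)
  have e2 : ∫ p : (Clause K × (Fin K → Fin N)) × Disorder K N M, maxTheta p.1.1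
      ∂((ρ.prod (Measure.pi fun _ : Fin K => unif N)).prod (disorder ρ ν N M)) =
      ∫ c, maxTheta c ∂ρ := by
    have hmp2 : MeasurePreserving
        (fun p : (Clause K × (Fin K → Fin N)) × Disorder K N M => p.1.1)
        ((ρ.prod (Measure.pi fun _ : Fin K => unif N)).prod (disorder ρ ν N M)) ρ :=
      (measurePreserving_fst (μ := ρ) (ν := Measure.pi fun _ : Fin K => unif N)).comp
        measurePreserving_fst
    exact PT.mp_integral hmp2 hρ.aestronglyMeasurable
  rw [h1, h0, ← integral_sub hX1' hX0', ← e2]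
  refine abs_integral_le_integral_abs.trans (integral_mono (hX1'.sub hX0').abs hm' fun p => ?_)
  exact X_cons _ _ _

include hρ hν in
theorem mn_lip (m n : ℕ) : |mn ρ ν N m - mn ρ ν N n| ≤ (∫ c, maxTheta c ∂ρ) * |(m : ℝ) - n| := by
  have key : ∀ m k : ℕ, |mn ρ ν N (m + k) - mn ρ ν N m| ≤ (∫ c, maxTheta c ∂ρ) * k := by
    intro m k
    induction k with
    | zero => simp
    | succ k ih =>
      have h1 := mn_succ (K := K) (N := N) (M := m + k) (ρ := ρ) (ν := ν) hρ hν
      have h2 := abs_sub_le (mn ρ ν N (m + k + 1)) (mn ρ ν N (m + k)) (mn ρ ν N m)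
      rw [← add_assoc]
      push_cast
      linarith
  rcases le_total m n with h | h
  · obtain ⟨k, rfl⟩ := Nat.exists_eq_add_of_le h
    have := key m k
    rw [abs_sub_comm]
    refine this.trans_eq ?_
    push_cast
    rw [show (m : ℝ) - (m + k) = -k by ring, abs_neg, Nat.abs_cast]
  · obtain ⟨k, rfl⟩ := Nat.exists_eq_add_of_le h
    have := key n k
    refine this.trans_eq ?_
    push_cast
    rw [show (n : ℝ) + k - n = k by ring, Nat.abs_cast]

include hρ hν in
theorem pressure_mn (lam : ℝ≥0) :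
    pressure lam ρ ν N = 1 / (N : ℝ) * ∫ n, mn ρ ν N n ∂(poissonMeasure (lam * N)) := by
  unfold pressure
  congr 2
  funext n
  unfold mn X disorder
  have h := integrable_X (K := K) (N := N) (M := n) (ρ := ρ) (ν := ν) hρ hν
  unfold X disorder at h
  rw [integral_prod _ h]

end

/-- The second moment of the centred Poisson law. -/
theorem pois_var (a : ℝ≥0) : ∫ n : ℕ, ((n : ℝ) - a) ^ 2 ∂(poissonMeasure a) = a := by
  have h2 := pois_descFactorial a 2 1
  have e2 : ∀ n : ℕ, ((n.descFactorial 2 : ℕ) : ℝ) * 1 ^ (n - 2) = (n : ℝ) ^ 2 - n := by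
    intro n
    rw [one_pow, mul_one, Nat.descFactorial_succ, Nat.descFactorial_one]
    rcases Nat.eq_zero_or_pos n with h | h
    · subst h; simp
    · push_cast [Nat.cast_sub (show 1 ≤ n from h)]
      ring
  simp_rw [e2] at h2
  rw [sub_self, mul_zero, Real.exp_zero, mul_one] at h2
  have g1 : ExpGrowth fun l : ℕ => (l : ℝ) :=
    expGrowth_of_linear (c := 0) (d := 1) (fun n => by simp) le_rfl zero_le_one
  have g2 : ExpGrowth fun l : ℕ => (l : ℝ) ^ 2 := by
    refine ⟨1, 4, zero_le_one, by norm_num, fun n => ?_⟩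
    have := nat_le_two_pow_real n
    rw [abs_of_nonneg (by positivity), one_mul]
    calc (n : ℝ) ^ 2 ≤ (2 ^ n) ^ 2 := pow_le_pow_left₀ (Nat.cast_nonneg _) this 2
      _ = 4 ^ n := by rw [← pow_mul, mul_comm, pow_mul]; norm_num
  have i1 := g1.integrable a
  have i2 := g2.integrable a
  have e : ∀ n : ℕ, ((n : ℝ) - a) ^ 2 = ((n : ℝ) ^ 2 - n) + ((1 - 2 * a) * n + (a : ℝ) ^ 2) :=
    fun n => by ring
  simp_rw [e]
  have i3 : Integrable (fun n : ℕ => (n : ℝ) ^ 2 - n) (poissonMeasure a) := i2.sub i1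
  have i4 : Integrable (fun n : ℕ => (1 - 2 * (a : ℝ)) * n) (poissonMeasure a) := i1.const_mul _
  have i5 : Integrable (fun n : ℕ => (1 - 2 * (a : ℝ)) * n + (a : ℝ) ^ 2) (poissonMeasure a) :=
    i4.add (integrable_const _)
  rw [integral_add i3 i5, integral_add i4 (integrable_const _), h2, integral_const_mul,
    pois_mean, integral_const, probReal_univ, one_smul]
  ring

theorem pois_abs_int (a : ℝ≥0) (b : ℝ) :
    Integrable (fun n : ℕ => |(n : ℝ) - b|) (poissonMeasure a) := by
  have g1 : ExpGrowth fun l : ℕ => (l : ℝ) :=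
    expGrowth_of_linear (c := 0) (d := 1) (fun n => by simp) le_rfl zero_le_one
  exact ((g1.integrable a).sub (integrable_const _)).abs

/-- The mean absolute deviation of the Poisson law. -/
theorem pois_dev (a : ℝ≥0) {ε : ℝ} (hε : 0 < ε) :
    ∫ n : ℕ, |(n : ℝ) - a| ∂(poissonMeasure a) ≤ ε * a + 1 / (4 * ε) := by
  have h1 : ∀ n : ℕ, |(n : ℝ) - a| ≤ ε * ((n : ℝ) - a) ^ 2 + 1 / (4 * ε) := by
    intro n
    rw [← sq_abs ((n : ℝ) - a)]
    set y := |(n : ℝ) - a|
    have e : ε * y ^ 2 + 1 / (4 * ε) - y = (2 * ε * y - 1) ^ 2 / (4 * ε) := by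
      field_simp
      ring
    have h : 0 ≤ (2 * ε * y - 1) ^ 2 / (4 * ε) := by positivity
    linarith
  have g2 : ExpGrowth fun n : ℕ => ((n : ℝ) - a) ^ 2 := by
    refine ⟨(1 + a) ^ 2, 4, by positivity, by norm_num, fun n => ?_⟩
    have h2 := nat_le_two_pow_real n
    have h3 : (1 : ℝ) ≤ 2 ^ n := one_le_pow₀ (by norm_num)
    have ha : (0 : ℝ) ≤ a := a.2
    have h4 : |(n : ℝ) - a| ≤ (1 + a) * 2 ^ n := by
      rw [abs_le]
      have hn : (0 : ℝ) ≤ n := Nat.cast_nonneg n
      constructor <;> nlinarith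
    have h5 : |((n : ℝ) - a) ^ 2| = |(n : ℝ) - a| ^ 2 := abs_pow _ 2
    change |((n : ℝ) - a) ^ 2| ≤ _
    rw [h5]
    calc |(n : ℝ) - a| ^ 2 ≤ ((1 + a) * 2 ^ n) ^ 2 := pow_le_pow_left₀ (abs_nonneg _) h4 2
      _ = (1 + a) ^ 2 * 4 ^ n := by
        rw [mul_pow, ← pow_mul, mul_comm n 2, pow_mul]; norm_num
  have i2 := g2.integrable a
  have i3 : Integrable (fun n : ℕ => ε * ((n : ℝ) - a) ^ 2 + 1 / (4 * ε)) (poissonMeasure a) :=
    (i2.const_mul ε).add (integrable_const _)
  have h2 := integral_mono (pois_abs_int a a) i3 h1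
  rw [integral_add (i2.const_mul ε) (integrable_const _), integral_const_mul, pois_var,
    integral_const, probReal_univ, one_smul] at h2
  exact h2

section

variable {ρ : Measure (Clause K)} [IsProbabilityMeasure ρ] {ν : Measure ℝ}
  [IsProbabilityMeasure ν] (hρ : Integrable (maxTheta : Clause K → ℝ) ρ)
  (hν : Integrable (fun h => h) ν)

include hρ hν in
theorem mn_int [NeZero N] (a : ℝ≥0) : Integrable (fun n => mn ρ ν N n) (poissonMeasure a) := by
  have h0 : 0 ≤ ∫ c, maxTheta c ∂ρ := integral_nonneg maxTheta_nonneg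
  refine (expGrowth_of_linear (c := |mn ρ ν N 0|) (d := ∫ c, maxTheta c ∂ρ) (fun n => ?_)
    (abs_nonneg _) h0).integrable a
  have h1 := mn_lip (N := N) hρ hν n 0
  rw [Nat.cast_zero, sub_zero, Nat.abs_cast] at h1
  have h2 := abs_add_le (mn ρ ν N n - mn ρ ν N 0) (mn ρ ν N 0)
  rw [sub_add_cancel] at h2
  linarith

include hρ hν in
/-- Comparison of the mean for `m` interactions with the pressure. -/
theorem mn_pressure [NeZero N] (lam : ℝ≥0) (m : ℕ) {ε : ℝ} (hε : 0 < ε) :
    |mn ρ ν N m / N - pressure lam ρ ν N| ≤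
      (∫ c, maxTheta c ∂ρ) * (|(m : ℝ) - lam * N| / N + ε * lam + 1 / (4 * ε) / N) := by
  have hN : (0 : ℝ) < N := by exact_mod_cast NeZero.pos N
  have hT0 : 0 ≤ ∫ c, maxTheta c ∂ρ := integral_nonneg maxTheta_nonneg
  have h1 : |mn ρ ν N m - ∫ n, mn ρ ν N n ∂(poissonMeasure (lam * N))| ≤
      (∫ c, maxTheta c ∂ρ) * (|(m : ℝ) - lam * N| + (ε * (lam * N) + 1 / (4 * ε))) := by
    have e : mn ρ ν N m - ∫ n, mn ρ ν N n ∂(poissonMeasure (lam * N)) =
        ∫ n, (mn ρ ν N m - mn ρ ν N n) ∂(poissonMeasure (lam * N)) := by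
      rw [integral_sub (integrable_const _) (mn_int hρ hν _), integral_const, probReal_univ,
        one_smul]
    rw [e]
    have hd := pois_dev (lam * N) hε
    have i0 := pois_abs_int (lam * N) ((lam * N : ℝ≥0) : ℝ)
    calc |∫ n, (mn ρ ν N m - mn ρ ν N n) ∂(poissonMeasure (lam * N))|
        ≤ ∫ n, |mn ρ ν N m - mn ρ ν N n| ∂(poissonMeasure (lam * N)) :=
          abs_integral_le_integral_abs
      _ ≤ ∫ n : ℕ, (∫ c, maxTheta c ∂ρ) * (|(m : ℝ) - lam * N| +
            |(n : ℝ) - ((lam * N : ℝ≥0) : ℝ)|) ∂(poissonMeasure (lam * N)) := by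
          refine integral_mono (((integrable_const _).sub (mn_int hρ hν _)).abs)
            (((integrable_const _).add i0).const_mul _) fun n => ?_
          refine (mn_lip hρ hν m n).trans (mul_le_mul_of_nonneg_left ?_ hT0)
          have := abs_sub_le (m : ℝ) (lam * N) n
          rw [abs_sub_comm ((lam : ℝ) * N) n] at this
          push_cast
          exact this
      _ = (∫ c, maxTheta c ∂ρ) * (|(m : ℝ) - lam * N| +
            ∫ n : ℕ, |(n : ℝ) - ((lam * N : ℝ≥0) : ℝ)| ∂(poissonMeasure (lam * N))) := by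
          rw [integral_const_mul, integral_add (integrable_const _) i0, integral_const,
            probReal_univ, one_smul]
      _ ≤ _ := by
          refine mul_le_mul_of_nonneg_left ?_ hT0
          push_cast at hd ⊢
          linarith
  rw [pressure_mn hρ hν]
  have e2 : mn ρ ν N m / N - 1 / (N : ℝ) * ∫ n, mn ρ ν N n ∂(poissonMeasure (lam * N)) =
      (mn ρ ν N m - ∫ n, mn ρ ν N n ∂(poissonMeasure (lam * N))) / N := by ring
  rw [e2, abs_div, abs_of_pos hN, div_le_iff₀ hN]
  refine h1.trans_eq ?_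
  field_simp
  ring

/-- A real function of `N` tends to `0` if it is eventually at most `C ε + g_ε N`, `g_ε → 0`. -/
theorem tendsto_zero_of {f : ℕ → ℝ} (hf : ∀ N, 0 ≤ f N) {C : ℝ} (hC : 0 ≤ C)
    (h : ∀ ε : ℝ, 0 < ε → ∃ g : ℕ → ℝ, Tendsto g atTop (𝓝 0) ∧ ∀ᶠ N in atTop, f N ≤ C * ε + g N) :
    Tendsto f atTop (𝓝 0) := by
  rw [Metric.tendsto_atTop']
  intro η hη
  obtain ⟨g, hg, hle⟩ := h (η / (2 * (C + 1))) (by positivity)
  have h1 : C * (η / (2 * (C + 1))) ≤ η / 2 := by
    have e : C * (η / (2 * (C + 1))) = η / 2 * (C / (C + 1)) := by field_simp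
    rw [e]
    have : C / (C + 1) ≤ 1 := by
      rw [div_le_one (by positivity)]; linarith
    have h3 : 0 ≤ η / 2 := by positivity
    nlinarith
  obtain ⟨n0, hn0⟩ := eventually_atTop.1 (hle.and (hg.eventually (gt_mem_nhds (half_pos hη))))
  refine ⟨n0, fun n hn => ?_⟩
  obtain ⟨a1, a2⟩ := hn0 n hn.le
  rw [Real.dist_eq, sub_zero, abs_of_nonneg (hf n)]
  linarith

include hρ hν in
/-- **`L¹` convergence for a deterministic number of interactions.** -/
theorem det_L1 {lam : ℝ≥0} {L : ℝ} (hL : Tendsto (fun N => pressure lam ρ ν N) atTop (𝓝 L))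
    {M : ℕ → ℕ} (hM : Tendsto (fun N => (M N : ℝ) / N) atTop (𝓝 (lam : ℝ))) :
    Tendsto (fun N => ∫ ω, |randomPressure ω - L| ∂(disorder ρ ν N (M N))) atTop (𝓝 0) := by
  set T := ∫ c, maxTheta c ∂ρ with hT
  have hT0 : 0 ≤ T := integral_nonneg maxTheta_nonneg
  refine tendsto_zero_of (fun N => integral_nonneg fun ω => abs_nonneg _)
    (C := (lam + 1 + T * lam)) (by positivity) fun ε hε => ?_
  obtain ⟨B, hB, hdev⟩ := dev hρ hν hε
  refine ⟨fun N => ε * ((M N : ℝ) / N - lam) + B / N +
    T * (|(M N : ℝ) / N - lam| + 1 / (4 * ε) / N) + |pressure lam ρ ν N - L|, ?_, ?_⟩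
  · have h1 : Tendsto (fun N : ℕ => (M N : ℝ) / N - lam) atTop (𝓝 0) := by
      simpa using hM.sub_const (lam : ℝ)
    have h2 : Tendsto (fun N : ℕ => B / (N : ℝ)) atTop (𝓝 0) := tendsto_const_div_atTop_nhds_zero_nat B
    have h3 : Tendsto (fun N : ℕ => 1 / (4 * ε) / (N : ℝ)) atTop (𝓝 0) :=
      tendsto_const_div_atTop_nhds_zero_nat _
    have h4 : Tendsto (fun N : ℕ => |pressure lam ρ ν N - L|) atTop (𝓝 0) := by
      have := (hL.sub_const L).abs
      simpa using this
    have h5 := (((h1.const_mul ε).add h2).add ((h1.abs.add h3).const_mul T)).add h4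
    simpa using h5
  · filter_upwards [eventually_ge_atTop 1] with N hN
    have hNz : NeZero N := ⟨by omega⟩
    have hNp : (0 : ℝ) < N := by exact_mod_cast hN
    set D := disorder ρ ν N (M N) with hD
    have hX : Integrable (X : Disorder K N (M N) → ℝ) D := integrable_X hρ hν
    have h1 := hdev N (M N) hNz
    have h2 := mn_pressure (N := N) hρ hν lam (M N) hε
    have h3 : ∀ ω : Disorder K N (M N), |randomPressure ω - L| ≤
        |X ω - ∫ ω', X ω' ∂D| / N + (|mn ρ ν N (M N) / N - pressure lam ρ ν N| +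
          |pressure lam ρ ν N - L|) := by
      intro ω
      have e : randomPressure ω - L = (X ω - ∫ ω', X ω' ∂D) / N +
          ((mn ρ ν N (M N) / N - pressure lam ρ ν N) + (pressure lam ρ ν N - L)) := by
        have e1 : randomPressure ω = X ω / N := by
          unfold randomPressure X
          ring
        have e2 : mn ρ ν N (M N) = ∫ ω', X ω' ∂D := rfl
        rw [e1, e2]
        ring
      rw [e]
      refine (abs_add_le _ _).trans (add_le_add ?_ (abs_add_le _ _))
      rw [abs_div, abs_of_pos hNp]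
    have h4 : ∫ ω, |randomPressure ω - L| ∂D ≤ (∫ ω, |X ω - ∫ ω', X ω' ∂D| ∂D) / N +
        (|mn ρ ν N (M N) / N - pressure lam ρ ν N| + |pressure lam ρ ν N - L|) := by
      have hi : Integrable (fun ω : Disorder K N (M N) => |X ω - ∫ ω', X ω' ∂D| / N) D :=
        (hX.sub (integrable_const _)).abs.div_const _
      have h5 : ∫ ω, |randomPressure ω - L| ∂D ≤
          ∫ ω, (|X ω - ∫ ω', X ω' ∂D| / N + (|mn ρ ν N (M N) / N - pressure lam ρ ν N| +
          |pressure lam ρ ν N - L|)) ∂D :=
        integral_mono_of_nonneg (Eventually.of_forall fun ω => abs_nonneg _)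
          (hi.add (integrable_const _)) (Eventually.of_forall h3)
      rw [integral_add hi (integrable_const _), integral_div, integral_const, probReal_univ,
        one_smul] at h5
      exact h5
    have h6 : (∫ ω, |X ω - ∫ ω', X ω' ∂D| ∂D) / N ≤ ε * ((M N : ℝ) / N + 1) + B / N := by
      rw [div_le_iff₀ hNp]
      refine h1.trans_eq ?_
      field_simp
    have h7 : |(M N : ℝ) - lam * N| / N = |(M N : ℝ) / N - lam| := by
      rw [← abs_of_pos hNp, ← abs_div, abs_of_pos hNp]
      congr 1
      field_simp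
    rw [h7] at h2
    have h8 : T * (|(M N : ℝ) / N - lam| + ε * lam + 1 / (4 * ε) / N) =
        T * lam * ε + T * (|(M N : ℝ) / N - lam| + 1 / (4 * ε) / N) := by ring
    rw [h8] at h2
    linarith

include hρ hν in
/-- **`L¹` convergence for a Poisson number of interactions.** -/
theorem pois_L1 {lam : ℝ≥0} {L : ℝ} (hL : Tendsto (fun N => pressure lam ρ ν N) atTop (𝓝 L)) :
    Tendsto (fun N : ℕ => ∫ n, (∫ ω, |randomPressure ω - L| ∂(disorder ρ ν N n))
      ∂(poissonMeasure (lam * N))) atTop (𝓝 0) := by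
  set T := ∫ c, maxTheta c ∂ρ with hT
  have hT0 : 0 ≤ T := integral_nonneg maxTheta_nonneg
  refine tendsto_zero_of (fun N => integral_nonneg fun n => integral_nonneg fun ω => abs_nonneg _)
    (C := (lam + 1 + 2 * T * lam)) (by positivity) fun ε hε => ?_
  obtain ⟨B, hB, hdev⟩ := dev hρ hν hε
  refine ⟨fun N => B / N + T * (2 * (1 / (4 * ε) / N)) + |pressure lam ρ ν N - L|, ?_, ?_⟩
  · have h2 : Tendsto (fun N : ℕ => B / (N : ℝ)) atTop (𝓝 0) := tendsto_const_div_atTop_nhds_zero_nat B
    have h3 : Tendsto (fun N : ℕ => 1 / (4 * ε) / (N : ℝ)) atTop (𝓝 0) :=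
      tendsto_const_div_atTop_nhds_zero_nat _
    have h4 : Tendsto (fun N : ℕ => |pressure lam ρ ν N - L|) atTop (𝓝 0) := by
      have := (hL.sub_const L).abs
      simpa using this
    have h5 := (h2.add ((h3.const_mul 2).const_mul T)).add h4
    simpa using h5
  · filter_upwards [eventually_ge_atTop 1] with N hN
    have hNz : NeZero N := ⟨by omega⟩
    have hNp : (0 : ℝ) < N := by exact_mod_cast hN
    have hin : ∀ n : ℕ, (∫ ω, |randomPressure ω - L| ∂(disorder ρ ν N n)) ≤
        (ε * ((n : ℝ) + N) + B) / N + (T * (|(n : ℝ) - ((lam * N : ℝ≥0) : ℝ)| / N + ε * lam +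
          1 / (4 * ε) / N) + |pressure lam ρ ν N - L|) := by
      intro n
      set D := disorder ρ ν N n with hD
      have hX : Integrable (X : Disorder K N n → ℝ) D := integrable_X hρ hν
      have h1 := hdev N n hNz
      have h2 := mn_pressure (N := N) hρ hν lam n hε
      have h3 : ∀ ω : Disorder K N n, |randomPressure ω - L| ≤
          |X ω - ∫ ω', X ω' ∂D| / N + (|mn ρ ν N n / N - pressure lam ρ ν N| +
            |pressure lam ρ ν N - L|) := by
        intro ω
        have e : randomPressure ω - L = (X ω - ∫ ω', X ω' ∂D) / N +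
            ((mn ρ ν N n / N - pressure lam ρ ν N) + (pressure lam ρ ν N - L)) := by
          have e1 : randomPressure ω = X ω / N := by
            unfold randomPressure X
            ring
          have e2 : mn ρ ν N n = ∫ ω', X ω' ∂D := rfl
          rw [e1, e2]
          ring
        rw [e]
        refine (abs_add_le _ _).trans (add_le_add ?_ (abs_add_le _ _))
        rw [abs_div, abs_of_pos hNp]
      have hi : Integrable (fun ω : Disorder K N n => |X ω - ∫ ω', X ω' ∂D| / N) D :=
        (hX.sub (integrable_const _)).abs.div_const _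
      have h5 : ∫ ω, |randomPressure ω - L| ∂D ≤
          ∫ ω, (|X ω - ∫ ω', X ω' ∂D| / N + (|mn ρ ν N n / N - pressure lam ρ ν N| +
          |pressure lam ρ ν N - L|)) ∂D :=
        integral_mono_of_nonneg (Eventually.of_forall fun ω => abs_nonneg _)
          (hi.add (integrable_const _)) (Eventually.of_forall h3)
      rw [integral_add hi (integrable_const _), integral_div, integral_const, probReal_univ,
        one_smul] at h5
      have h6 : (∫ ω, |X ω - ∫ ω', X ω' ∂D| ∂D) / N ≤ (ε * ((n : ℝ) + N) + B) / N := by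
        gcongr
      push_cast
      linarith
    have i0 := pois_abs_int (lam * N) ((lam * N : ℝ≥0) : ℝ)
    have g1 : ExpGrowth fun l : ℕ => (l : ℝ) :=
      expGrowth_of_linear (c := 0) (d := 1) (fun n => by simp) le_rfl zero_le_one
    have i1 := g1.integrable (lam * N)
    have j1 : Integrable (fun n : ℕ => (ε * ((n : ℝ) + N) + B) / N) (poissonMeasure (lam * N)) :=
      (((i1.add (integrable_const _)).const_mul ε).add (integrable_const _)).div_const _
    have j2 : Integrable (fun n : ℕ => T * (|(n : ℝ) - ((lam * N : ℝ≥0) : ℝ)| / N + ε * lam +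
          1 / (4 * ε) / N) + |pressure lam ρ ν N - L|) (poissonMeasure (lam * N)) :=
      ((((i0.div_const _).add (integrable_const _)).add (integrable_const _)).const_mul T).add
        (integrable_const _)
    have j3 : Integrable (fun n : ℕ => (ε * ((n : ℝ) + N) + B) / N +
        (T * (|(n : ℝ) - ((lam * N : ℝ≥0) : ℝ)| / N + ε * lam +
          1 / (4 * ε) / N) + |pressure lam ρ ν N - L|)) (poissonMeasure (lam * N)) := j1.add j2
    have h1 := integral_mono_of_nonneg (μ := poissonMeasure (lam * N))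
      (f := fun n : ℕ => ∫ ω, |randomPressure ω - L| ∂(disorder ρ ν N n))
      (Eventually.of_forall fun n => integral_nonneg fun ω => abs_nonneg _) j3
      (Eventually.of_forall hin)
    refine h1.trans ?_
    have e : ∀ n : ℕ, (ε * ((n : ℝ) + N) + B) / N + (T * (|(n : ℝ) - ((lam * N : ℝ≥0) : ℝ)| / N +
        ε * lam + 1 / (4 * ε) / N) + |pressure lam ρ ν N - L|) =
        (ε / N) * n + ((T / N) * |(n : ℝ) - ((lam * N : ℝ≥0) : ℝ)| + (ε + B / N +
          T * (ε * lam + 1 / (4 * ε) / N) + |pressure lam ρ ν N - L|)) := by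
      intro n
      field_simp
      ring
    change ∫ n : ℕ, ((ε * ((n : ℝ) + N) + B) / N + (T * (|(n : ℝ) - ((lam * N : ℝ≥0) : ℝ)| / N +
        ε * lam + 1 / (4 * ε) / N) + |pressure lam ρ ν N - L|)) ∂(poissonMeasure (lam * N)) ≤ _
    simp_rw [e]
    have k1 : Integrable (fun n : ℕ => (ε / N) * (n : ℝ)) (poissonMeasure (lam * N)) :=
      i1.const_mul _
    have k2 : Integrable (fun n : ℕ => (T / N) * |(n : ℝ) - ((lam * N : ℝ≥0) : ℝ)|)
      (poissonMeasure (lam * N)) := i0.const_mul _
    have k3 : Integrable (fun n : ℕ => (T / N) * |(n : ℝ) - ((lam * N : ℝ≥0) : ℝ)| + (ε + B / N +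
          T * (ε * lam + 1 / (4 * ε) / N) + |pressure lam ρ ν N - L|))
      (poissonMeasure (lam * N)) := k2.add (integrable_const _)
    rw [integral_add k1 k3, integral_add k2 (integrable_const _), integral_const_mul,
      integral_const_mul, pois_mean, integral_const, probReal_univ, one_smul]
    have hd := pois_dev (lam * N) hε
    have hd2 : (T / N) * ∫ n : ℕ, |(n : ℝ) - ((lam * N : ℝ≥0) : ℝ)| ∂(poissonMeasure (lam * N)) ≤
        (T / N) * (ε * ((lam * N : ℝ≥0) : ℝ) + 1 / (4 * ε)) :=
      mul_le_mul_of_nonneg_left hd (by positivity)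
    have e3 : (T / N) * (ε * ((lam * N : ℝ≥0) : ℝ) + 1 / (4 * ε)) =
        T * lam * ε + T * (1 / (4 * ε) / N) := by
      push_cast
      field_simp
    have e4 : (ε / N) * ((lam * N : ℝ≥0) : ℝ) = lam * ε := by
      push_cast
      field_simp
    rw [e3] at hd2
    rw [e4]
    linarith

end

end Vale.Agent.N168I.Cc

end

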