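import Mathlib.Probability.IdentDistrib
import Mathlib.Probability.Independence.Integration
import Vale.Agent.N168.Defs
import Vale.Agent.N168.Up

/-!
From the convexity condition to the formula; the class of the problem and the not-all-equal
constraints satisfy the condition.
-/

set_option autoImplicit false

open MeasureTheory ProbabilityTheory Filter
open scoped NNReal Topology

namespace Vale.Agent.N168

open Vale.Agent.N168I (mform repl FirstOrder)

variable {K : ℕ}

theorem pressure_eq (lam : ℝ≥0) (ρ : Measure (Fn K)) (ν : Measure ℝ) :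
    pressure lam ρ ν = N168I.pressure lam ρ ν := rfl

theorem phi_eq (lam : ℝ≥0) (ρ : Measure (Fn K)) (ν : Measure ℝ) :
    ⨅ r, phi lam ρ ν r = N168I.mezardParisi lam ρ ν := rfl

/-- Convexity of the diagonal of a multilinear form gives the tangent inequality. -/
theorem first_order {T : Type} [Fintype T] (c : (Fin K → T) → ℝ)
    (h : ConvexOn ℝ (stdSimplex ℝ T) fun μ => mform c fun _ => μ) {μ μ' : T → ℝ}
    (hμ : μ ∈ stdSimplex ℝ T) (hμ' : μ' ∈ stdSimplex ℝ T) :
    0 ≤ mform c (fun _ => μ) - ∑ l : Fin K, mform c (fun j => if j = l then μ else μ') +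
      ((K : ℝ) - 1) * mform c (fun _ => μ') := by
  set g : ℝ → ℝ := fun t => ∑ τ : Fin K → T, (∏ j, (t * (μ (τ j) - μ' (τ j)) + μ' (τ j))) * c τ
    with hg
  have hc : ConvexOn ℝ (Set.Icc (0 : ℝ) 1) g := by
    have h1 := h.comp_affineMap (AffineMap.lineMap μ' μ)
    have h2 : Set.Icc (0 : ℝ) 1 ⊆ (AffineMap.lineMap μ' μ : ℝ →ᵃ[ℝ] T → ℝ) ⁻¹' stdSimplex ℝ T :=
      fun t ht => (convex_stdSimplex ℝ T).lineMap_mem hμ' hμ ht
    exact h1.subset h2 (convex_Icc 0 1)
  have hd : HasDerivAt g (∑ τ : Fin K → T, (∑ l, (∏ j ∈ Finset.univ.erase l, μ' (τ j)) *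
      (μ (τ l) - μ' (τ l))) * c τ) 0 := by
    refine HasDerivAt.fun_sum fun τ _ => HasDerivAt.mul_const ?_ _
    have h1 := HasDerivAt.fun_finsetProd (u := Finset.univ) (x := (0 : ℝ))
      (f := fun (j : Fin K) (t : ℝ) => t * (μ (τ j) - μ' (τ j)) + μ' (τ j))
      (f' := fun j => μ (τ j) - μ' (τ j)) fun j _ => by
        simpa using ((hasDerivAt_id (0 : ℝ)).mul_const (μ (τ j) - μ' (τ j))).add_const (μ' (τ j))
    simpa using h1
  have h3 := hc.le_slope_of_hasDerivAt (x := 0) (y := 1) (by simp) (by simp) one_pos hd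
  have g1 : g 1 = mform c fun _ => μ := by simp [hg, mform]
  have g0 : g 0 = mform c fun _ => μ' := by simp [hg, mform]
  rw [slope_def_field, g1, g0, sub_zero, div_one] at h3
  have e : ∑ τ : Fin K → T, (∑ l, (∏ j ∈ Finset.univ.erase l, μ' (τ j)) *
      (μ (τ l) - μ' (τ l))) * c τ =
      ∑ l : Fin K, mform c (fun j => if j = l then μ else μ') - K * mform c fun _ => μ' := by
    have e1 : (K : ℝ) * mform c (fun _ => μ') = ∑ _l : Fin K, mform c fun _ => μ' := by simp
    rw [e1, ← Finset.sum_sub_distrib]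
    simp_rw [Finset.sum_mul]
    rw [Finset.sum_comm]
    refine Finset.sum_congr rfl fun l _ => ?_
    unfold mform
    rw [← Finset.sum_sub_distrib]
    refine Finset.sum_congr rfl fun τ _ => ?_
    have e2 : ∏ j ∈ Finset.univ.erase l, (if j = l then μ else μ') (τ j) =
        ∏ j ∈ Finset.univ.erase l, μ' (τ j) :=
      Finset.prod_congr rfl fun j hj => by rw [if_neg (Finset.ne_of_mem_erase hj)]
    rw [← Finset.mul_prod_erase _ _ (Finset.mem_univ l),
      ← Finset.mul_prod_erase _ (fun j => μ' (τ j)) (Finset.mem_univ l), e2]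
    simp only [if_true]
    ring
  rw [e] at h3
  linarith

section

variable {Ω : Type} [MeasurableSpace Ω] {P : Measure Ω}

theorem firstOrder_of {ψ : Ω → Fn K} (h : ReplicaConvex P ψ) : FirstOrder P ψ := by
  intro ι _ _ μ μ' h0 h1 h0' h1'
  let e : Fin (Fintype.card ι) ≃ ι := (Fintype.equivFin ι).symm
  let E : (Fin (Fintype.card ι) → Bool) ≃ (ι → Bool) := Equiv.arrowCongr e (Equiv.refl _)
  have key : ∀ ν : Fin K → (ι → Bool) → ℝ, mform (repl P ψ ι) ν =
      mform (repl P ψ (Fin (Fintype.card ι))) fun j t => ν j (E t) := by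
    intro ν
    unfold mform
    refine (Fintype.sum_equiv (Equiv.arrowCongr (Equiv.refl _) E) _ _ fun τ => ?_).symm
    congr 1
    unfold repl
    congr 1
    funext ω
    exact Fintype.prod_equiv e _ _ fun i => by simp [E]
  have hs : ∀ {ν : (ι → Bool) → ℝ}, (∀ t, 0 ≤ ν t) → ∑ t, ν t = 1 →
      (fun t => ν (E t)) ∈ stdSimplex ℝ (Fin (Fintype.card ι) → Bool) := fun {ν} a b =>
    ⟨fun t => a _, by rw [← b]; exact Fintype.sum_equiv E _ _ fun t => rfl⟩
  have h2 := first_order (repl P ψ (Fin (Fintype.card ι))) (h _) (hs h0 h1) (hs h0' h1')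
  simp only [key]
  refine h2.trans_eq ?_
  congr 2
  refine Finset.sum_congr rfl fun l _ => ?_
  congr 1
  funext j t
  split_ifs <;> rfl

theorem ReplicaConvex.congr {ψ ψ' : Ω → Fn K} (h : ReplicaConvex P ψ) (e : ψ =ᵐ[P] ψ') :
    ReplicaConvex P ψ' := by
  intro n
  refine (h n).congr fun μ _ => Finset.sum_congr rfl fun τ _ => ?_
  congr 1
  exact integral_congr_ae (e.mono fun ω hω => by simp only [hω])

theorem ReplicaConvex.smul {ψ : Ω → Fn K} (h : ReplicaConvex P ψ) {c : ℝ} (hc : 0 ≤ c) :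
    ReplicaConvex P fun ω σ => c * ψ ω σ := by
  intro n
  refine ((h n).smul (pow_nonneg hc n)).congr fun μ _ => ?_
  simp only [smul_eq_mul, Finset.mul_sum, Finset.prod_mul_distrib, Finset.prod_const,
    Finset.card_univ, Fintype.card_fin, integral_const_mul]
  exact Finset.sum_congr rfl fun τ _ => by ring

/-- Sums of powers of linear forms are convex. -/
theorem convex_pows {T S : Type} [Fintype T] [Fintype S] {w : ℝ} (hw : 0 ≤ w) (c : S → T → ℝ)
    (hc : Even K ∨ ∀ s t, 0 ≤ c s t) :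
    ConvexOn ℝ (stdSimplex ℝ T) fun μ =>
      ∑ τ : Fin K → T, (∏ j, μ (τ j)) * (w * ∑ s, ∏ j, c s (τ j)) := by
  classical
  have hl : ∀ s, ConvexOn ℝ (stdSimplex ℝ T) fun μ : T → ℝ => (∑ t, μ t * c s t) ^ K := by
    intro s
    let L : (T → ℝ) →ₗ[ℝ] ℝ :=
      { toFun := fun μ => ∑ t, μ t * c s t
        map_add' := fun a b => by simp [add_mul, Finset.sum_add_distrib]
        map_smul' := fun a b => by simp [Finset.mul_sum, mul_assoc] }
    rcases hc with hc | hc
    · exact (hc.convexOn_pow.comp_linearMap L).subset (Set.subset_univ _) (convex_stdSimplex ℝ T)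
    · refine ((convexOn_pow K).comp_linearMap L).subset (fun μ hμ => ?_) (convex_stdSimplex ℝ T)
      exact Finset.sum_nonneg fun t _ => mul_nonneg (hμ.1 t) (hc s t)
  have hs : ∀ u : Finset S, ConvexOn ℝ (stdSimplex ℝ T) fun μ : T → ℝ =>
      ∑ s ∈ u, (∑ t, μ t * c s t) ^ K := by
    intro u
    induction u using Finset.induction_on with
    | empty => simpa using convexOn_const (0 : ℝ) (convex_stdSimplex ℝ T)
    | insert s u hs ih =>
      simp only [Finset.sum_insert hs]
      exact (hl s).add ih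
  refine ((hs Finset.univ).smul hw).congr fun μ _ => ?_
  simp only [smul_eq_mul, Fintype.sum_pow, Finset.mul_sum, Finset.prod_mul_distrib]
  rw [Finset.sum_comm]
  exact Finset.sum_congr rfl fun τ _ => Finset.sum_congr rfl fun s _ => by ring

variable [IsProbabilityMeasure P]

theorem inClass (hK : 1 ≤ K) {θ ψ : Ω → Fn K} {a : Ω → ℝ} {ν : Measure ℝ}
    [IsProbabilityMeasure ν] (hθ : Measurable θ) (hψ : Measurable ψ)
    (hθi : ∀ σ, Integrable (fun ω => θ ω σ) P) (hν : Integrable (fun h : ℝ => h) ν)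
    (hae : ∀ᵐ ω ∂P, 0 < a ω ∧ ∀ σ, |ψ ω σ| < 1 ∧ Real.exp (θ ω σ) = a ω * (1 - ψ ω σ))
    (hc : ReplicaConvex P ψ) : N168I.InClass K (P.map θ) ν := by
  have e : ψ =ᵐ[P] fun ω σ => max (-1) (min 1 (ψ ω σ)) := hae.mono fun ω hω => by
    funext σ
    have h := abs_lt.1 (hω.2 σ).1
    change _ = max (-1) (min 1 (ψ ω σ))
    rw [min_eq_right h.2.le, max_eq_right h.1.le]
  refine ⟨hK, Measure.isProbabilityMeasure_map hθ.aemeasurable, inferInstance, fun σ => ?_, hν,
    Ω, inferInstance, P, inferInstance, θ, a, fun ω σ => max (-1) (min 1 (ψ ω σ)), ⟨hθ, rfl⟩,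
    fun σ => ?_, fun ω σ => ?_, ?_, firstOrder_of (hc.congr e)⟩
  · exact (integrable_map_measure (N168I.measurable_theta σ).aestronglyMeasurable
      hθ.aemeasurable).2 (hθi σ)
  · exact measurable_const.max (measurable_const.min ((measurable_pi_apply σ).comp hψ))
  · exact abs_le.2 ⟨le_max_left _ _, max_le (by norm_num) (min_le_left _ _)⟩
  · filter_upwards [hae, e] with ω h1 h2
    refine ⟨h1.1, fun σ => ?_⟩
    rw [← congrFun h2 σ]
    exact h1.2 σ

end

theorem formula {ρ : Measure (Fn K)} {ν : Measure ℝ} (h : N168I.InClass K ρ ν) (lam : ℝ≥0) :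
    ∃ L : ℝ, ⨅ r, phi lam ρ ν r = (L : EReal) ∧ Tendsto (pressure lam ρ ν) atTop (𝓝 L) ∧
      ∀ N, 1 ≤ N → pressure lam ρ ν N ≤ L := by
  have := h.prob_clause
  have := h.prob_field
  have : NeZero K := ⟨by have := h.one_le; omega⟩
  obtain ⟨L, h1, h2⟩ := N168I.MP.limit_of_bounds
    (N168I.MP.lower_full ρ (N168I.PT.maxTheta_int h) ν h.field_int lam)
    fun N hN r m x hx => N168I.PT.pt_upper h hx lam hN
  refine ⟨L, h2, h1, fun N hN => ?_⟩
  have h3 : ((N168I.pressure lam ρ ν N : ℝ) : EReal) ≤ N168I.mezardParisi lam ρ ν := by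
    unfold N168I.mezardParisi N168I.phi
    exact le_iInf fun r => le_iInf fun m => le_iInf fun x => le_iInf fun hx =>
      EReal.coe_le_coe_iff.2 (N168I.PT.pt_upper h hx lam hN)
  rw [h2] at h3
  exact EReal.coe_le_coe_iff.1 h3

theorem lower (hK : 1 ≤ K) (lam : ℝ≥0) (ρ : Measure (Fn K)) [IsProbabilityMeasure ρ]
    (ν : Measure ℝ) [IsProbabilityMeasure ν] (hρ : ∀ σ, Integrable (fun θ : Fn K => θ σ) ρ)
    (hν : Integrable (fun h : ℝ => h) ν) :
    ⨅ r, phi lam ρ ν r ≤ liminf (fun N => ((pressure lam ρ ν N : ℝ) : EReal)) atTop := by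
  have : NeZero K := ⟨by omega⟩
  exact N168I.MP.lower_full ρ (N168I.integrable_maxTheta_of ρ hρ) ν hν lam

/-- The class of the problem satisfies the convexity condition. -/
theorem product_convex (hK : Even K) {Ω : Type} [MeasurableSpace Ω] {P : Measure Ω}
    [IsProbabilityMeasure P] {b : Ω → ℝ} {f : Fin K → Ω → Bool → ℝ} (hb : Measurable b)
    (hf : ∀ j, Measurable (f j)) (hpos : ∀ n : ℕ, 1 ≤ n → 0 ≤ ∫ ω, (-b ω) ^ n ∂P)
    (hind : iIndepFun f P) (hid : ∀ i j, IdentDistrib (f i) (f j) P P)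
    (hbf : IndepFun b (fun ω j => f j ω) P) :
    ReplicaConvex P fun ω σ => -b ω * ∏ j, f j ω (σ j) := by
  intro n
  rcases Nat.eq_zero_or_pos K with h0 | h0
  · subst h0
    simpa using convexOn_const _ (convex_stdSimplex ℝ (Fin n → Bool))
  have hw : 0 ≤ ∫ ω, (-b ω) ^ n ∂P := by
    rcases Nat.eq_zero_or_pos n with h1 | h1
    · subst h1; simp
    · exact hpos n h1
  have hm : ∀ t : Fin n → Bool, Measurable fun y : Bool → ℝ => ∏ i, y (t i) := fun t =>
    Finset.measurable_fun_prod _ fun i _ => measurable_pi_apply _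
  refine (convex_pows (S := Unit) hw (fun _ t => ∫ ω, ∏ i, f ⟨0, h0⟩ ω (t i) ∂P)
    (Or.inl hK)).congr fun μ _ => Finset.sum_congr rfl fun τ _ => ?_
  congr 1
  have e1 : ∀ ω, ∏ i : Fin n, -b ω * ∏ j, f j ω (τ j i) =
      (-b ω) ^ n * ∏ j, ∏ i, f j ω (τ j i) := fun ω => by
    rw [Finset.prod_mul_distrib, Finset.prod_const, Finset.card_univ, Fintype.card_fin,
      Finset.prod_comm]
  have hm2 : Measurable fun y : Fin K → Bool → ℝ => ∏ j, ∏ i, y j (τ j i) :=
    Finset.measurable_fun_prod _ fun j _ => (hm (τ j)).comp (measurable_pi_apply j)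
  have e2 := hbf.integral_fun_comp_mul_comp (𝕜 := ℝ) (f := fun x => (-x) ^ n)
    (g := fun y : Fin K → Bool → ℝ => ∏ j, ∏ i, y j (τ j i)) hb.aemeasurable
    (measurable_pi_lambda _ hf).aemeasurable (measurable_neg.pow_const n).aestronglyMeasurable
    hm2.aestronglyMeasurable
  have e3 := hind.integral_fun_prod_comp (𝕜 := ℝ) (f := fun j (y : Bool → ℝ) => ∏ i, y (τ j i))
    (fun j => (hf j).aemeasurable) fun j => (hm (τ j)).aestronglyMeasurable
  simp only [e1, e2, e3, Finset.univ_unique, Finset.sum_singleton]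
  congr 1
  exact Finset.prod_congr rfl fun j _ => ((hid ⟨0, h0⟩ j).comp (hm (τ j))).integral_eq

/-- The not-all-equal constraints satisfy the convexity condition. -/
theorem nae_convex (hK : 1 ≤ K) (φ : Measure Bool) [IsProbabilityMeasure φ] :
    ReplicaConvex (Measure.pi fun _ : Fin K => φ) fun J σ =>
      if ∀ i j, xor (σ i) (J i) = xor (σ j) (J j) then 1 else 0 := by
  intro n
  refine (convex_pows (S := Fin n → Bool) zero_le_one
    (fun s t => ∫ e, (if (fun i => xor (t i) e) = s then (1 : ℝ) else 0) ∂φ)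
    (Or.inr fun s t => integral_nonneg fun e => by positivity)).congr
    fun μ _ => Finset.sum_congr rfl fun τ _ => ?_
  congr 1
  have e1 : ∀ J : Fin K → Bool, (∏ i : Fin n, if ∀ a b, xor (τ a i) (J a) = xor (τ b i) (J b)
      then (1 : ℝ) else 0) =
      ∑ s : Fin n → Bool, ∏ j, if (fun i => xor (τ j i) (J j)) = s then (1 : ℝ) else 0 := by
    intro J
    rw [Finset.sum_eq_single fun i => xor (τ ⟨0, hK⟩ i) (J ⟨0, hK⟩)]
    · simp only [Finset.prod_boole, Finset.mem_univ, true_imp_iff]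
      refine if_congr ⟨fun h j => funext fun i => h i j _, fun h i a b => ?_⟩ rfl rfl
      exact (congrFun (h a) i).trans (congrFun (h b) i).symm
    · intro s _ hs
      exact Finset.prod_eq_zero (Finset.mem_univ ⟨0, hK⟩) (if_neg (Ne.symm hs))
    · intro h; exact absurd (Finset.mem_univ _) h
  simp only [e1]
  rw [one_mul, integral_finsetSum _ fun s _ => Integrable.of_finite]
  refine Finset.sum_congr rfl fun s _ => ?_
  exact (integral_fintype_prod_eq_prod (𝕜 := ℝ)
    fun j e => if (fun i => xor (τ j i) e) = s then (1 : ℝ) else 0).symm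

end Vale.Agent.N168
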