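import Vale.Agent.P168.MathlibUsed

/-!
The Mezard-Parisi lower bound for an ARBITRARY random interaction on `{-1,1}^K`, first part.
The text is that of `Vale.Agent.P168.Defs` and `Vale.Agent.P168.Bdl.B1` (starting files), with the
type of the interactions replaced by all functions on `{-1,1}^K`.
-/

set_option linter.all false

section

open MeasureTheory ProbabilityTheory
open scoped NNReal

namespace Vale.Agent.N168I

/-- The unit interval with Lebesgue measure. -/
abbrev U01 : Type := unitInterval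

/-- The two spin values: `true` stands for `+1`, `false` for `-1`. -/
def spin (s : Bool) : ℝ := if s then 1 else -1

/-- An interaction: any function on `{-1,1}^K`. -/
abbrev Clause (K : ℕ) : Type := (Fin K → Bool) → ℝ

/-- The value of the interaction. -/
def theta {K : ℕ} (c : Clause K) (σ : Fin K → Bool) : ℝ := c σ

/-- The multilinear form of a function `c` of `K` arguments in a finite set. -/
def mform {K : ℕ} {T : Type} [Fintype T] (c : (Fin K → T) → ℝ) (μ : Fin K → T → ℝ) : ℝ :=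
  ∑ τ : Fin K → T, (∏ j, μ j (τ j)) * c τ

/-- The mean of a product over replicas. -/
noncomputable def repl {K : ℕ} {Ω : Type} [MeasurableSpace Ω] (P : Measure Ω)
    (ψ : Ω → (Fin K → Bool) → ℝ) (ι : Type) [Fintype ι] (τ : Fin K → ι → Bool) : ℝ :=
  ∫ ω, ∏ i, ψ ω (fun j => τ j i) ∂P

/-- The first order form of the convexity condition. -/
def FirstOrder {K : ℕ} {Ω : Type} [MeasurableSpace Ω] (P : Measure Ω)
    (ψ : Ω → (Fin K → Bool) → ℝ) : Prop :=
  ∀ (ι : Type) [Fintype ι] [DecidableEq ι] (μ μ' : (ι → Bool) → ℝ),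
    (∀ t, 0 ≤ μ t) → ∑ t, μ t = 1 → (∀ t, 0 ≤ μ' t) → ∑ t, μ' t = 1 →
    0 ≤ mform (repl P ψ ι) (fun _ => μ) -
      ∑ l : Fin K, mform (repl P ψ ι) (fun j => if j = l then μ else μ') +
      ((K : ℝ) - 1) * mform (repl P ψ ι) (fun _ => μ')

/-- The class for the upper bound. -/
structure InClass (K : ℕ) (ρ : Measure (Clause K)) (ν : Measure ℝ) : Prop where
  one_le : 1 ≤ K
  prob_clause : IsProbabilityMeasure ρ
  prob_field : IsProbabilityMeasure ν
  theta_int : ∀ σ, Integrable (fun c => theta c σ) ρ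
  field_int : Integrable (fun h => h) ν
  conv : ∃ (Ω : Type) (_ : MeasurableSpace Ω) (P : Measure Ω) (_ : IsProbabilityMeasure P)
    (θ : Ω → Clause K) (a : Ω → ℝ) (ψ : Ω → (Fin K → Bool) → ℝ), MeasurePreserving θ P ρ ∧
    (∀ σ, Measurable fun ω => ψ ω σ) ∧ (∀ ω σ, |ψ ω σ| ≤ 1) ∧
    (∀ᵐ ω ∂P, 0 < a ω ∧ ∀ σ, |ψ ω σ| < 1 ∧ Real.exp (θ ω σ) = a ω * (1 - ψ ω σ)) ∧
    FirstOrder P ψ

/-- The uniform probability measure on `{1, …, N}`. -/
noncomputable def unif (N : ℕ) : Measure (Fin N) := uniformOn Set.univ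

/-- The partition function of the system on `N` sites with `n` interactions, the `k`-th one having
data `(ω k).1` and acting on the sites `(ω k).2 j`, and with external fields `h v`. -/
noncomputable def partitionFn {K N n : ℕ} (ω : Fin n → Clause K × (Fin K → Fin N))
    (h : Fin N → ℝ) : ℝ :=
  ∑ σ : Fin N → Bool,
    Real.exp (∑ k, theta (ω k).1 (fun j => σ ((ω k).2 j)) + ∑ v, h v * spin (σ v))

/-- The pressure `F_N = (1/N) E log ∑_σ exp H_N(σ)`: the number of interactions is Poisson of mean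
`λ N`, each interaction has law `ρ` and i.i.d. uniform sites, the fields have law `ν`. -/
noncomputable def pressure {K : ℕ} (lam : ℝ≥0) (ρ : Measure (Clause K)) (ν : Measure ℝ)
    (N : ℕ) : ℝ :=
  (1 / (N : ℝ)) * ∫ n : ℕ, (∫ ω : Fin n → Clause K × (Fin K → Fin N), (∫ h : Fin N → ℝ,
      Real.log (partitionFn ω h) ∂(Measure.pi fun _ => ν))
      ∂(Measure.pi fun _ => ρ.prod (Measure.pi fun _ => unif N)))
    ∂(poissonMeasure (lam * N))

/-- The number `Y_0` obtained from `Y_r = Y` by the recursion `Y_{p-1} = (E_p Y_p^{m_p})^{1/m_p}`,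
`p = r, …, 1`. Here `Y` is a function of `r` independent levels of randomness, each of law `P`;
`m 0 = m_1` belongs to the first level, and the recursion peels off the first level. -/
noncomputable def nest {W : Type} [MeasurableSpace W] (P : Measure W) (r : ℕ) :
    (Fin r → ℝ) → ((Fin r → W) → ℝ) → ℝ :=
  Nat.rec (fun _ Y => Y Fin.elim0) (fun _ ih m Y =>
    (∫ u, (ih (Fin.tail m) fun v => Y (Fin.cons u v)) ^ m 0 ∂P) ^ (1 / m 0)) r

/-- `∑_{σ_ℓ = ε} e^{θ(σ)} ∏_{j ≠ ℓ} (1 + y_j σ_j) / 2`. -/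
noncomputable def cavityFactor {K : ℕ} (c : Clause K) (l : Fin K) (y : Fin K → ℝ)
    (e : Bool) : ℝ :=
  ∑ σ : Fin K → Bool, if σ l = e then
    Real.exp (theta c σ) * ∏ j ∈ Finset.univ.erase l, (1 + y j * spin (σ j)) / 2 else 0

/-- `∑_σ e^{θ(σ)} ∏_j (1 + y_j σ_j) / 2`. -/
noncomputable def edgeFactor {K : ℕ} (c : Clause K) (y : Fin K → ℝ) : ℝ :=
  ∑ σ : Fin K → Bool, Real.exp (theta c σ) * ∏ j, (1 + y j * spin (σ j)) / 2

/-- The message with index `i`, as a function of its level-`0` variable `w i` and its variables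
`v p i` of the levels `p = 1, …, r`. -/
def message {r : ℕ} {ι : Type} (x : (Fin (r + 1) → U01) → ℝ) (w : ι → U01)
    (v : Fin r → ι → U01) (i : ι) : ℝ :=
  x (Fin.cons (w i) fun p => v p i)

/-- `𝒯 Y = E log Y_0` for `Y` built from messages with index set `ι`, given the further
randomness: `w` are the level-`0` variables of the messages, `v p` their level-`p` variables. -/
noncomputable def hierLog {ι : Type} [Fintype ι] (r : ℕ) (m : Fin r → ℝ)
    (Y : (ι → U01) → (Fin r → ι → U01) → ℝ) : ℝ :=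
  ∫ w, Real.log (nest volume r m (Y w))

/-- `𝒯 U`, with messages indexed by `Fin n × Fin K`, `n` being the number of interactions. -/
noncomputable def trialU {K : ℕ} (lam : ℝ≥0) (ρ : Measure (Clause K)) (ν : Measure ℝ) (r : ℕ)
    (m : Fin r → ℝ) (x : (Fin (r + 1) → U01) → ℝ) : ℝ :=
  ∫ n : ℕ, (∫ ω : Fin n → Clause K × Fin K, (∫ h : ℝ,
      hierLog r m (fun w v => ∑ e : Bool, Real.exp (h * spin e) *
        ∏ k, cavityFactor (ω k).1 (ω k).2 (fun j => message x w v (k, j)) e)
      ∂ν) ∂(Measure.pi fun _ => ρ.prod (unif K)))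
    ∂(poissonMeasure (K * lam))

/-- `𝒯 V`. -/
noncomputable def trialV {K : ℕ} (lam : ℝ≥0) (ρ : Measure (Clause K)) (r : ℕ)
    (m : Fin r → ℝ) (x : (Fin (r + 1) → U01) → ℝ) : ℝ :=
  ∫ n : ℕ, (∫ ω : Fin n → Clause K,
      hierLog r m (fun w v => ∏ k, edgeFactor (ω k) fun j => message x w v (k, j))
      ∂(Measure.pi fun _ => ρ))
    ∂(poissonMeasure (((K - 1 : ℕ) : ℝ≥0) * lam))

/-- Admissible parameters of depth `r`: `0 < m_1 < ⋯ < m_r < 1` and `x : [0,1]^{r+1} → [-1,1]`
measurable. -/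
def IsTrial (r : ℕ) (m : Fin r → ℝ) (x : (Fin (r + 1) → U01) → ℝ) : Prop :=
  StrictMono m ∧ (∀ p, m p ∈ Set.Ioo (0 : ℝ) 1) ∧ Measurable x ∧ ∀ w, x w ∈ Set.Icc (-1 : ℝ) 1

/-- `Φ_r`, the infimum of `𝒯 U - 𝒯 V` over the admissible parameters of depth `r`. -/
noncomputable def phi {K : ℕ} (lam : ℝ≥0) (ρ : Measure (Clause K)) (ν : Measure ℝ)
    (r : ℕ) : EReal :=
  ⨅ (m : Fin r → ℝ) (x : (Fin (r + 1) → U01) → ℝ) (_ : IsTrial r m x),
    ((trialU lam ρ ν r m x - trialV lam ρ r m x : ℝ) : EReal)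

/-- `inf_{r ≥ 0} Φ_r`. -/
noncomputable def mezardParisi {K : ℕ} (lam : ℝ≥0) (ρ : Measure (Clause K))
    (ν : Measure ℝ) : EReal :=
  ⨅ r, phi lam ρ ν r

end Vale.Agent.N168I

end

section

section

set_option autoImplicit false

open MeasureTheory ProbabilityTheory
open scoped NNReal

namespace Vale.Agent.N168I

section LipOp

variable {H : Type} [NormedAddCommGroup H]

/-- Lipschitz functions. -/
def LipS (H : Type) [NormedAddCommGroup H] : Submodule ℝ (H → ℝ) where
  carrier := {G | ∃ C : ℝ≥0, LipschitzWith C G}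
  add_mem' := by
    rintro a b ⟨C, hC⟩ ⟨D, hD⟩
    exact ⟨C + D, hC.add hD⟩
  zero_mem' := ⟨0, LipschitzWith.const 0⟩
  smul_mem' := by
    rintro c a ⟨C, hC⟩
    refine ⟨‖c‖₊ * C, ?_⟩
    refine LipschitzWith.of_dist_le_mul fun x y => ?_
    simp only [Pi.smul_apply, smul_eq_mul, Real.dist_eq, ← mul_sub, abs_mul, NNReal.coe_mul,
      coe_nnnorm, Real.norm_eq_abs, mul_assoc]
    apply mul_le_mul_of_nonneg_left _ (abs_nonneg c)
    have := hC.dist_le_mul x y
    rwa [Real.dist_eq] at this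

theorem lip_bound {G : H → ℝ} {C : ℝ≥0} (hG : LipschitzWith C G) (x y : H) :
    |G (x + y) - G x| ≤ C * ‖y‖ := by
  have := hG.dist_le_mul (x + y) x
  rw [Real.dist_eq, dist_eq_norm, add_sub_cancel_left] at this
  exact this

variable {X : Type} [MeasurableSpace X]

theorem lip_integrable {G : H → ℝ} {C : ℝ≥0} (hG : LipschitzWith C G) {η : Measure X}
    [IsFiniteMeasure η] {e : X → H} (he : Integrable e η) (h : H) :
    Integrable (fun x => G (h + e x)) η := by
  have h1 : Integrable (fun x => |G h| + C * ‖e x‖) η :=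
    (integrable_const _).add (he.norm.const_mul _)
  refine h1.mono' ?_ ?_
  · exact hG.continuous.comp_aestronglyMeasurable (aestronglyMeasurable_const.add he.1)
  · refine Filter.Eventually.of_forall fun x => ?_
    have h2 := lip_bound hG h (e x)
    rw [Real.norm_eq_abs]
    have h3 : |G (h + e x)| ≤ |G (h + e x) - G h| + |G h| := by
      have := abs_add_le (G (h + e x) - G h) (G h)
      simpa only [ge_iff_le, sub_add_cancel] using this
    linarith

/-- The averaging operator `G ↦ ∫ G (· + e x) dη(x)`. -/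
noncomputable def Top (η : Measure X) [IsProbabilityMeasure η] (e : X → H) (he : Integrable e η) :
    Module.End ℝ (LipS H) where
  toFun G := ⟨fun h => ∫ x, G.1 (h + e x) ∂η, by
    obtain ⟨C, hC⟩ := G.2
    refine ⟨C, LipschitzWith.of_dist_le_mul fun a b => ?_⟩
    rw [Real.dist_eq, ← integral_sub (lip_integrable hC he a) (lip_integrable hC he b)]
    calc |∫ x, (G.1 (a + e x) - G.1 (b + e x)) ∂η|
        ≤ ∫ x, |G.1 (a + e x) - G.1 (b + e x)| ∂η := by
          have := norm_integral_le_integral_norm (μ := η) (fun x => G.1 (a + e x) - G.1 (b + e x))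
          simpa using this
      _ ≤ ∫ _, C * dist a b ∂η := by
          refine integral_mono ?_ (integrable_const _) fun x => ?_
          · exact ((lip_integrable hC he a).sub (lip_integrable hC he b)).abs
          · have := hC.dist_le_mul (a + e x) (b + e x)
            rw [Real.dist_eq, dist_add_right] at this
            exact this
      _ = C * dist a b := by simp⟩
  map_add' G G' := by
    obtain ⟨C, hC⟩ := G.2
    obtain ⟨C', hC'⟩ := G'.2
    ext h
    simp only [Submodule.coe_add, Pi.add_apply]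
    exact integral_add (lip_integrable hC he h) (lip_integrable hC' he h)
  map_smul' c G := by
    ext h
    simp only [SetLike.val_smul, Pi.smul_apply, smul_eq_mul, RingHom.id_apply]
    exact integral_const_mul c _

theorem Top_apply (η : Measure X) [IsProbabilityMeasure η] (e : X → H) (he : Integrable e η)
    (G : LipS H) (h : H) : (Top η e he G).1 h = ∫ x, G.1 (h + e x) ∂η := rfl

theorem Top_lip (η : Measure X) [IsProbabilityMeasure η] (e : X → H) (he : Integrable e η)
    (G : LipS H) {C : ℝ≥0} (hC : LipschitzWith C G.1) : LipschitzWith C (Top η e he G).1 := by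
  refine LipschitzWith.of_dist_le_mul fun a b => ?_
  rw [Real.dist_eq, Top_apply, Top_apply,
    ← integral_sub (lip_integrable hC he a) (lip_integrable hC he b)]
  calc |∫ x, (G.1 (a + e x) - G.1 (b + e x)) ∂η|
      ≤ ∫ x, |G.1 (a + e x) - G.1 (b + e x)| ∂η := by
        have := norm_integral_le_integral_norm (μ := η) (fun x => G.1 (a + e x) - G.1 (b + e x))
        simpa only [ge_iff_le, Real.norm_eq_abs] using this
    _ ≤ ∫ _, C * dist a b ∂η := by
        refine integral_mono ?_ (integrable_const _) fun x => ?_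
        · exact ((lip_integrable hC he a).sub (lip_integrable hC he b)).abs
        · have := hC.dist_le_mul (a + e x) (b + e x)
          rw [Real.dist_eq, dist_add_right] at this
          exact this
    _ = C * dist a b := by simp

/-- `T G - G` is bounded by the mean norm. -/
theorem Top_sub_le (η : Measure X) [IsProbabilityMeasure η] (e : X → H) (he : Integrable e η)
    (G : LipS H) {C : ℝ≥0} (hC : LipschitzWith C G.1) (h : H) :
    |(Top η e he G).1 h - G.1 h| ≤ C * ∫ x, ‖e x‖ ∂η := by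
  have h1 : (Top η e he G).1 h - G.1 h = ∫ x, (G.1 (h + e x) - G.1 h) ∂η := by
    rw [integral_sub (lip_integrable hC he h) (integrable_const _), Top_apply]
    simp
  rw [h1]
  calc |∫ x, (G.1 (h + e x) - G.1 h) ∂η| ≤ ∫ x, |G.1 (h + e x) - G.1 h| ∂η := by
        have := norm_integral_le_integral_norm (μ := η) (fun x => G.1 (h + e x) - G.1 h)
        simpa only [ge_iff_le, Real.norm_eq_abs] using this
    _ ≤ ∫ x, C * ‖e x‖ ∂η := by
        refine integral_mono ?_ (he.norm.const_mul _) fun x => lip_bound hC h (e x)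
        exact ((lip_integrable hC he h).sub (integrable_const _)).abs
    _ = _ := integral_const_mul _ _

variable {Y : Type} [MeasurableSpace Y]

/-- The operators commute. -/
theorem Top_commute (η : Measure X) [IsProbabilityMeasure η] (e : X → H) (he : Integrable e η)
    (η' : Measure Y) [IsProbabilityMeasure η'] (e' : Y → H) (he' : Integrable e' η') :
    Commute (Top η e he) (Top η' e' he') := by
  ext G h
  show (Top η e he (Top η' e' he' G)).1 h = (Top η' e' he' (Top η e he G)).1 h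
  obtain ⟨C, hC⟩ := G.2
  rw [Top_apply, Top_apply]
  simp_rw [Top_apply]
  rw [integral_integral_swap]
  · refine integral_congr_ae (Filter.Eventually.of_forall fun y => ?_)
    refine integral_congr_ae (Filter.Eventually.of_forall fun x => ?_)
    show G.1 (h + e x + e' y) = G.1 (h + e' y + e x)
    rw [add_right_comm]
  · have hsum : Integrable (fun z : X × Y => e z.1 + e' z.2) (η.prod η') :=
      (he.comp_fst _).add (he'.comp_snd _)
    have := lip_integrable hC hsum h
    refine this.congr (Filter.Eventually.of_forall fun z => ?_)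
    show G.1 (h + (e z.1 + e' z.2)) = G.1 (h + e z.1 + e' z.2)
    rw [add_assoc]

/-- Iterates of the operator as integrals over product spaces. -/
theorem Top_pow (η : Measure X) [IsProbabilityMeasure η] (e : X → H) (he : Integrable e η)
    (n : ℕ) (G : LipS H) (h : H) :
    ((Top η e he ^ n) G).1 h = ∫ ω : Fin n → X, G.1 (h + ∑ k, e (ω k)) ∂(Measure.pi fun _ => η) := by
  induction n generalizing h with
  | zero =>
    simp only [pow_zero, Module.End.one_apply, Finset.univ_eq_empty, Finset.sum_empty, add_zero, integral_const, probReal_univ, smul_eq_mul, one_mul]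
  | succ n ih =>
    rw [pow_succ']
    show (Top η e he ((Top η e he ^ n) G)).1 h = _
    rw [Top_apply]
    simp_rw [ih]
    obtain ⟨C, hC⟩ := G.2
    have hmp := measurePreserving_piFinSuccAbove (fun _ : Fin (n + 1) => η) 0
    have hemb := (MeasurableEquiv.piFinSuccAbove (fun _ : Fin (n + 1) => X) 0).measurableEmbedding
    have h1 := hmp.integral_comp hemb (g := fun z : X × (Fin n → X) =>
      G.1 (h + e z.1 + ∑ k, e (z.2 k)))
    have h2 : ∀ ω : Fin (n + 1) → X,
        G.1 (h + e ((MeasurableEquiv.piFinSuccAbove (fun _ : Fin (n + 1) => X) 0) ω).1 +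
          ∑ k, e (((MeasurableEquiv.piFinSuccAbove (fun _ : Fin (n + 1) => X) 0) ω).2 k)) =
        G.1 (h + ∑ k, e (ω k)) := by
      intro ω
      rw [Fin.sum_univ_succ, add_assoc]
      rfl
    simp_rw [h2] at h1
    rw [h1, integral_prod]
    have hsum : Integrable (fun z : X × (Fin n → X) => e z.1 + ∑ k, e (z.2 k))
        (η.prod (Measure.pi fun _ : Fin n => η)) := by
      refine (he.comp_fst _).add ?_
      refine integrable_finsetSum _ fun k _ => ?_
      have h3 : Integrable (fun ω : Fin n → X => e (ω k)) (Measure.pi fun _ : Fin n => η) :=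
        integrable_comp_eval he
      exact h3.comp_snd _
    refine (lip_integrable hC hsum h).congr (Filter.Eventually.of_forall fun z => ?_)
    show G.1 (h + (e z.1 + ∑ k, e (z.2 k))) = G.1 (h + e z.1 + ∑ k, e (z.2 k))
    rw [add_assoc]

end LipOp

end Vale.Agent.N168I
end
end

section

section

set_option autoImplicit false
set_option linter.unusedSectionVars false

namespace Vale.Agent.N168I

open Finset

section Cluster

variable {V C : Type*} [Fintype V] [DecidableEq V] [Fintype C] [DecidableEq C] {K : ℕ}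

/-- One step through a clause, arriving in `D`. -/
def Step (I : C → Fin K → V) (D : Finset V) (a b : V) : Prop :=
  ∃ c, (∃ i, I c i = a) ∧ (∃ j, I c j = b) ∧ b ∈ D

end Cluster

end Vale.Agent.N168I
end
end

section

section

set_option autoImplicit false
set_option linter.unusedSectionVars false

namespace Vale.Agent.N168I

open Finset

section Cov

variable {V C : Type*} [Fintype V] [DecidableEq V] [Fintype C] [DecidableEq C] {K : ℕ}

end Cov

end Vale.Agent.N168I
end
end

section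

section

set_option autoImplicit false
set_option linter.unusedSectionVars false

namespace Vale.Agent.N168I

open Finset

section CovPath

variable {V C : Type*} [Fintype V] [DecidableEq V] [Fintype C] [DecidableEq C] {K : ℕ}

end CovPath

end Vale.Agent.N168I
end
end

section

section

open Finset

namespace Vale.Agent.N168I.KS

section Finite

variable {Ω : Type*} [Fintype Ω] [Nonempty Ω]

end Finite

end Vale.Agent.N168I.KS
end
end

section

section

open MeasureTheory ProbabilityTheory Finset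
open scoped NNReal

namespace Vale.Agent.N168I.KS

lemma spin_abs (s : Bool) : |spin s| = 1 := by
  cases s <;> simp [spin]

instance instProbUnif (N : ℕ) [NeZero N] : IsProbabilityMeasure (unif N) :=
  isProbabilityMeasure_uniformOn Set.finite_univ Set.univ_nonempty

lemma unif_real_singleton (N : ℕ) [NeZero N] (i : Fin N) :
    (unif N).real {i} = 1 / (N : ℝ) := by
  unfold unif
  rw [measureReal_def, uniformOn_univ]
  simp only [MeasurableSpace.measurableSet_top, Measure.count_singleton', Fintype.card_fin, one_div, ENNReal.toReal_inv, ENNReal.toReal_natCast]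

lemma integral_unif (N : ℕ) [NeZero N] (f : Fin N → ℝ) :
    ∫ i, f i ∂(unif N) = (1 / (N : ℝ)) * ∑ i, f i := by
  rw [integral_fintype (Integrable.of_finite), Finset.mul_sum]
  refine Finset.sum_congr rfl fun i _ => ?_
  rw [unif_real_singleton, smul_eq_mul]

/-- law of the sites of one interaction -/
noncomputable abbrev unifK (K N : ℕ) : Measure (Fin K → Fin N) := Measure.pi fun _ => unif N

end Vale.Agent.N168I.KS
end
end

section

section

set_option autoImplicit false

open MeasureTheory ProbabilityTheory Finset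
open scoped NNReal

namespace Vale.Agent.N168I

open KS (unifK integral_unif)

variable {K : ℕ}

/-- `max_σ |θ(σ)|`. -/
noncomputable def maxTheta (c : Clause K) : ℝ := ⨆ σ : Fin K → Bool, |theta c σ|

theorem measurable_theta (σ : Fin K → Bool) : Measurable fun c : Clause K => theta c σ :=
  measurable_pi_apply σ

theorem measurable_maxTheta : Measurable (maxTheta : Clause K → ℝ) := by
  unfold maxTheta
  exact Measurable.iSup fun σ => (measurable_theta σ).abs

theorem abs_theta_le (c : Clause K) (σ : Fin K → Bool) : |theta c σ| ≤ maxTheta c :=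
  le_ciSup (f := fun σ : Fin K → Bool => |theta c σ|) (Set.finite_range _).bddAbove σ

theorem maxTheta_nonneg (c : Clause K) : 0 ≤ maxTheta c :=
  le_trans (abs_nonneg _) (abs_theta_le c fun _ => true)

theorem maxTheta_le_sum (c : Clause K) : maxTheta c ≤ ∑ σ : Fin K → Bool, |theta c σ| := by
  unfold maxTheta
  refine ciSup_le fun σ => ?_
  exact Finset.single_le_sum (f := fun σ : Fin K → Bool => |theta c σ|)
    (fun _ _ => abs_nonneg _) (Finset.mem_univ σ)

/-- Energy of one interaction placed at the sites `x.2`. -/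
noncomputable def clauseE {N : ℕ} (x : Clause K × (Fin K → Fin N)) (σ : Fin N → Bool) : ℝ :=
  theta x.1 fun j => σ (x.2 j)

theorem measurable_clauseE {N : ℕ} (σ : Fin N → Bool) :
    Measurable fun x : Clause K × (Fin K → Fin N) => clauseE x σ := by
  refine measurable_from_prod_countable_left (α := Clause K) (β := Fin K → Fin N)
    (f := fun x => clauseE x σ) fun I => ?_
  exact measurable_theta (fun j => σ (I j))

theorem abs_clauseE_le {N : ℕ} (x : Clause K × (Fin K → Fin N)) (σ : Fin N → Bool) :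
    |clauseE x σ| ≤ maxTheta x.1 := abs_theta_le _ _

section Idx

variable {N : ℕ} [NeZero N]

end Idx

end Vale.Agent.N168I
end
end

section

section

set_option autoImplicit false
set_option linter.unusedSectionVars false

open MeasureTheory ProbabilityTheory Finset
open scoped NNReal

namespace Vale.Agent.N168I

open KS (unifK integral_unif)

variable {K : ℕ}

section Exp

variable {N n k : ℕ} [NeZero N] (ρ : Measure (Clause K)) [IsProbabilityMeasure ρ]

end Exp

end Vale.Agent.N168I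
end
end

section

section

set_option autoImplicit false
set_option linter.unusedSectionVars false

open MeasureTheory ProbabilityTheory Finset
open scoped NNReal

namespace Vale.Agent.N168I

open KS (unifK integral_unif)

variable {K N k : ℕ}

/-- Energy of the system. -/
noncomputable def En (ω : Fin k → Clause K × (Fin K → Fin N)) (h : Fin N → ℝ)
    (σ : Fin N → Bool) : ℝ :=
  ∑ c, clauseE (ω c) σ + ∑ v, h v * spin (σ v)

theorem spin_abs_one (b : Bool) : |spin b| = 1 := by cases b <;> simp [spin]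

theorem measurable_En :
    Measurable fun x : (Fin k → Clause K × (Fin K → Fin N)) × (Fin N → ℝ) => En x.1 x.2 := by
  rw [measurable_pi_iff]
  intro σ
  unfold En
  refine Measurable.add ?_ ?_
  · refine Finset.measurable_fun_sum _ fun c _ => ?_
    have h1 : Measurable fun x : (Fin k → Clause K × (Fin K → Fin N)) × (Fin N → ℝ) => x.1 c :=
      (measurable_pi_apply c).comp measurable_fst
    exact (measurable_clauseE σ).comp h1
  · refine Finset.measurable_fun_sum _ fun v _ => ?_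
    exact ((measurable_pi_apply v).comp measurable_snd).mul_const _

section Exp

variable [NeZero N] (ρ : Measure (Clause K)) [IsProbabilityMeasure ρ]

end Exp

end Vale.Agent.N168I
end
end

section

section

set_option autoImplicit false
set_option linter.unusedSectionVars false

open MeasureTheory ProbabilityTheory Finset
open scoped NNReal

namespace Vale.Agent.N168I

open KS (unifK integral_unif)

section Avg

variable {H : Type} [NormedAddCommGroup H]

/-- Averaging operators. -/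
structure IsAvg (T : Module.End ℝ (LipS H)) (L : ℝ) : Prop where
  lip : ∀ (G : LipS H) (C : ℝ≥0), LipschitzWith C G.1 → LipschitzWith C (T G).1
  near : ∀ (G : LipS H) (C : ℝ≥0), LipschitzWith C G.1 → ∀ h, |(T G).1 h - G.1 h| ≤ C * L
  bdd : ∀ (G : LipS H) (B : ℝ), (∀ h, |G.1 h| ≤ B) → ∀ h, |(T G).1 h| ≤ B

theorem isAvg_top {X : Type} [MeasurableSpace X] (η : Measure X) [IsProbabilityMeasure η]
    (e : X → H) (he : Integrable e η) (L : ℝ) (hL : ∫ x, ‖e x‖ ∂η ≤ L) :
    IsAvg (Top η e he) L where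
  lip G C hC := Top_lip η e he G hC
  near G C hC h := (Top_sub_le η e he G hC h).trans
    (mul_le_mul_of_nonneg_left hL (NNReal.coe_nonneg C))
  bdd G B hB h := by
    obtain ⟨C, hC⟩ := G.2
    rw [Top_apply]
    calc |∫ x, G.1 (h + e x) ∂η| ≤ ∫ x, |G.1 (h + e x)| ∂η := by
          have := norm_integral_le_integral_norm (μ := η) (fun x => G.1 (h + e x))
          simpa only [ge_iff_le, Real.norm_eq_abs] using this
      _ ≤ ∫ _, B ∂η := integral_mono (lip_integrable hC he h).abs (integrable_const _)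
          fun x => hB _
      _ = B := by simp

theorem comb_apply {ι : Type*} (t : Finset ι) (a : ι → ℝ) (T : ι → Module.End ℝ (LipS H))
    (G : LipS H) (h : H) :
    ((∑ i ∈ t, a i • T i) G).1 h = ∑ i ∈ t, a i * (T i G).1 h := by
  rw [LinearMap.sum_apply]
  simp only [LinearMap.smul_apply, AddSubmonoidClass.coe_finsetSum, SetLike.val_smul, Finset.sum_apply, Pi.smul_apply, smul_eq_mul]

theorem isAvg_comb {ι : Type*} (t : Finset ι) (a : ι → ℝ) (ha : ∀ i ∈ t, 0 ≤ a i)
    (ha1 : ∑ i ∈ t, a i = 1) (T : ι → Module.End ℝ (LipS H)) (L : ℝ)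
    (hT : ∀ i ∈ t, IsAvg (T i) L) : IsAvg (∑ i ∈ t, a i • T i) L where
  lip G C hC := by
    refine LipschitzWith.of_dist_le_mul fun x y => ?_
    rw [Real.dist_eq, comb_apply, comb_apply, ← Finset.sum_sub_distrib]
    calc |∑ i ∈ t, (a i * (T i G).1 x - a i * (T i G).1 y)|
        ≤ ∑ i ∈ t, |a i * (T i G).1 x - a i * (T i G).1 y| := Finset.abs_sum_le_sum_abs _ _
      _ ≤ ∑ i ∈ t, a i * (C * dist x y) := by
          refine Finset.sum_le_sum fun i hi => ?_
          rw [← mul_sub, abs_mul, abs_of_nonneg (ha i hi)]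
          apply mul_le_mul_of_nonneg_left _ (ha i hi)
          have := ((hT i hi).lip G C hC).dist_le_mul x y
          rwa [Real.dist_eq] at this
      _ = C * dist x y := by rw [← Finset.sum_mul, ha1, one_mul]
  near G C hC h := by
    have h1 : ((∑ i ∈ t, a i • T i) G).1 h - G.1 h = ∑ i ∈ t, a i * ((T i G).1 h - G.1 h) := by
      rw [comb_apply]
      simp_rw [mul_sub]
      rw [Finset.sum_sub_distrib, ← Finset.sum_mul, ha1, one_mul]
    rw [h1]
    calc |∑ i ∈ t, a i * ((T i G).1 h - G.1 h)| ≤ ∑ i ∈ t, |a i * ((T i G).1 h - G.1 h)| :=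
          Finset.abs_sum_le_sum_abs _ _
      _ ≤ ∑ i ∈ t, a i * (C * L) := by
          refine Finset.sum_le_sum fun i hi => ?_
          rw [abs_mul, abs_of_nonneg (ha i hi)]
          exact mul_le_mul_of_nonneg_left ((hT i hi).near G C hC h) (ha i hi)
      _ = C * L := by rw [← Finset.sum_mul, ha1, one_mul]
  bdd G B hB h := by
    rw [comb_apply]
    calc |∑ i ∈ t, a i * (T i G).1 h| ≤ ∑ i ∈ t, |a i * (T i G).1 h| :=
          Finset.abs_sum_le_sum_abs _ _
      _ ≤ ∑ i ∈ t, a i * B := by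
          refine Finset.sum_le_sum fun i hi => ?_
          rw [abs_mul, abs_of_nonneg (ha i hi)]
          exact mul_le_mul_of_nonneg_left ((hT i hi).bdd G B hB h) (ha i hi)
      _ = B := by rw [← Finset.sum_mul, ha1, one_mul]

theorem IsAvg.pow_lip {T : Module.End ℝ (LipS H)} {L : ℝ} (hT : IsAvg T L) (n : ℕ) :
    ∀ (G : LipS H) (C : ℝ≥0), LipschitzWith C G.1 → LipschitzWith C ((T ^ n) G).1 := by
  induction n with
  | zero => intro G C hC; simpa only [pow_zero, Module.End.one_apply] using hC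
  | succ n ih =>
    intro G C hC
    rw [pow_succ']
    exact hT.lip _ C (ih G C hC)

theorem IsAvg.pow_near {T : Module.End ℝ (LipS H)} {L : ℝ} (hT : IsAvg T L) (n : ℕ) :
    ∀ (G : LipS H) (C : ℝ≥0), LipschitzWith C G.1 → ∀ h,
      |((T ^ n) G).1 h - G.1 h| ≤ n * (C * L) := by
  induction n with
  | zero => intro G C hC h; simp only [pow_zero, Module.End.one_apply, sub_self, abs_zero, CharP.cast_eq_zero, zero_mul, Std.le_refl]
  | succ n ih =>
    intro G C hC h
    rw [pow_succ']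
    have h1 := hT.near ((T ^ n) G) C (hT.pow_lip n G C hC) h
    have h2 := ih G C hC h
    have h3 := abs_add_le ((T ((T ^ n) G)).1 h - ((T ^ n) G).1 h) (((T ^ n) G).1 h - G.1 h)
    rw [sub_add_sub_cancel] at h3
    refine h3.trans ?_
    push_cast
    linarith

theorem IsAvg.pow_bdd {T : Module.End ℝ (LipS H)} {L : ℝ} (hT : IsAvg T L) (n : ℕ) :
    ∀ (G : LipS H) (B : ℝ), (∀ h, |G.1 h| ≤ B) → ∀ h, |((T ^ n) G).1 h| ≤ B := by
  induction n with
  | zero => intro G B hB h; simpa only [pow_zero, Module.End.one_apply] using hB h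
  | succ n ih =>
    intro G B hB h
    rw [pow_succ']
    exact hT.bdd _ B (ih G B hB) h

theorem IsAvg.pow_compare {T T' : Module.End ℝ (LipS H)} {L : ℝ} (hT : IsAvg T L)
    (hT' : IsAvg T' L) (ε : ℝ) (hε : ∀ (G : LipS H) (C : ℝ≥0), LipschitzWith C G.1 → ∀ h,
      |(T G).1 h - (T' G).1 h| ≤ C * ε) (n : ℕ) :
    ∀ (G : LipS H) (C : ℝ≥0), LipschitzWith C G.1 → ∀ h,
      |((T ^ n) G).1 h - ((T' ^ n) G).1 h| ≤ n * (C * ε) := by
  induction n with
  | zero => intro G C hC h; simp only [pow_zero, Module.End.one_apply, sub_self, abs_zero, CharP.cast_eq_zero, zero_mul, Std.le_refl]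
  | succ n ih =>
    intro G C hC h
    rw [pow_succ', pow_succ']
    have h1 := hε ((T ^ n) G) C (hT.pow_lip n G C hC) h
    have h2 : |(T' ((T ^ n) G)).1 h - (T' ((T' ^ n) G)).1 h| ≤ n * (C * ε) := by
      have := hT'.bdd ((T ^ n) G - (T' ^ n) G) (n * (C * ε)) (fun h => ih G C hC h) h
      rwa [map_sub] at this
    have h3 := abs_add_le ((T ((T ^ n) G)).1 h - (T' ((T ^ n) G)).1 h)
      ((T' ((T ^ n) G)).1 h - (T' ((T' ^ n) G)).1 h)
    rw [sub_add_sub_cancel] at h3
    refine h3.trans ?_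
    push_cast
    linarith

end Avg

end Vale.Agent.N168I
end
end

section

section

open MeasureTheory ProbabilityTheory
open scoped NNReal

namespace Vale.Agent.N168I

lemma nest_zero {W : Type} [MeasurableSpace W] (P : Measure W) (m : Fin 0 → ℝ)
    (Y : (Fin 0 → W) → ℝ) : nest P 0 m Y = Y Fin.elim0 := rfl

lemma nest_succ {W : Type} [MeasurableSpace W] (P : Measure W) (r : ℕ) (m : Fin (r + 1) → ℝ)
    (Y : (Fin (r + 1) → W) → ℝ) :
    nest P (r + 1) m Y =
      (∫ u, (nest P r (Fin.tail m) fun v => Y (Fin.cons u v)) ^ m 0 ∂P) ^ (1 / m 0) := rfl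

end Vale.Agent.N168I
end
end

section

section

set_option autoImplicit false

open MeasureTheory ProbabilityTheory
open scoped NNReal

namespace Vale.Agent.N168I.PT

variable {W : Type} [MeasurableSpace W]

/-- Measurable with values in `[z0, z1]`. -/
structure Bd {A : Type} [MeasurableSpace A] (z0 z1 : ℝ) (Y : A → ℝ) : Prop where
  meas : Measurable Y
  lo : ∀ v, z0 ≤ Y v
  hi : ∀ v, Y v ≤ z1

theorem Bd.comp {A B : Type} [MeasurableSpace A] [MeasurableSpace B] {z0 z1 : ℝ} {Y : A → ℝ}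
    (h : Bd z0 z1 Y) {f : B → A} (hf : Measurable f) : Bd z0 z1 fun b => Y (f b) :=
  ⟨h.meas.comp hf, fun _ => h.lo _, fun _ => h.hi _⟩

theorem Bd.rpow {A : Type} [MeasurableSpace A] {z0 z1 : ℝ} {Y : A → ℝ}
    (h : Bd z0 z1 Y) (hz : 0 < z0) {q : ℝ} (hq : 0 < q) : Bd (z0 ^ q) (z1 ^ q) fun a => Y a ^ q :=
  ⟨h.meas.pow_const q, fun v => Real.rpow_le_rpow hz.le (h.lo v) hq.le,
    fun v => Real.rpow_le_rpow (hz.le.trans (h.lo v)) (h.hi v) hq.le⟩

theorem Bd.integrable {A : Type} [MeasurableSpace A] {z0 z1 : ℝ} {Y : A → ℝ}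
    (h : Bd z0 z1 Y) (P : Measure A) [IsFiniteMeasure P] : Integrable Y P := by
  refine Integrable.of_bound h.meas.aestronglyMeasurable (max |z0| |z1|)
    (Filter.Eventually.of_forall fun a => ?_)
  exact abs_le_max_abs_abs (h.lo a) (h.hi a)

theorem Bd.integral_mem {A : Type} [MeasurableSpace A] {z0 z1 : ℝ} {Y : A → ℝ}
    (h : Bd z0 z1 Y) (P : Measure A) [IsProbabilityMeasure P] :
    z0 ≤ ∫ a, Y a ∂P ∧ ∫ a, Y a ∂P ≤ z1 := by
  constructor
  · have := integral_mono (integrable_const z0) (h.integrable P) h.lo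
    simpa using this
  · have := integral_mono (h.integrable P) (integrable_const z1) h.hi
    simpa using this

/-- The power mean. -/
noncomputable def pm (P : Measure W) (q : ℝ) (F : W → ℝ) : ℝ := (∫ u, F u ^ q ∂P) ^ (1 / q)

theorem pm_mem {P : Measure W} [IsProbabilityMeasure P] {q z0 z1 : ℝ} {F : W → ℝ}
    (h : Bd z0 z1 F) (hz : 0 < z0) (hq : 0 < q) : z0 ≤ pm P q F ∧ pm P q F ≤ z1 := by
  have hz1 : z0 ≤ z1 := by
    obtain ⟨w⟩ : Nonempty W := P.nonempty_of_neZero
    exact (h.lo w).trans (h.hi w)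
  have h1 := (h.rpow hz hq).integral_mem P
  have e0 : (z0 ^ q) ^ (1 / q) = z0 := by
    rw [← Real.rpow_mul hz.le, mul_one_div_cancel hq.ne', Real.rpow_one]
  have e1 : (z1 ^ q) ^ (1 / q) = z1 := by
    rw [← Real.rpow_mul (hz.le.trans hz1), mul_one_div_cancel hq.ne', Real.rpow_one]
  constructor
  · calc z0 = (z0 ^ q) ^ (1 / q) := e0.symm
      _ ≤ _ := Real.rpow_le_rpow (by positivity) h1.1 (by positivity)
  · calc pm P q F ≤ (z1 ^ q) ^ (1 / q) :=
        Real.rpow_le_rpow ((Real.rpow_nonneg hz.le q).trans h1.1) h1.2 (by positivity)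
      _ = z1 := e1

theorem pm_rpow {P : Measure W} [IsProbabilityMeasure P] {q z0 z1 : ℝ} {F : W → ℝ}
    (h : Bd z0 z1 F) (hz : 0 < z0) (hq : 0 < q) : pm P q F ^ q = ∫ u, F u ^ q ∂P := by
  have h1 := (h.rpow hz hq).integral_mem P
  unfold pm
  rw [← Real.rpow_mul ((Real.rpow_nonneg hz.le q).trans h1.1), one_div_mul_cancel hq.ne',
    Real.rpow_one]

theorem pm_mono {P : Measure W} [IsProbabilityMeasure P] {q z0 z1 z0' z1' : ℝ} {F G : W → ℝ}
    (h : Bd z0 z1 F) (hz : 0 < z0) (h' : Bd z0' z1' G) (hz' : 0 < z0') (hq : 0 < q)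
    (hFG : ∀ u, F u ≤ G u) : pm P q F ≤ pm P q G := by
  have h1 := (h.rpow hz hq).integral_mem P
  refine Real.rpow_le_rpow ((Real.rpow_nonneg hz.le q).trans h1.1) ?_ (by positivity)
  exact integral_mono ((h.rpow hz hq).integrable P) ((h'.rpow hz' hq).integrable P)
    fun u => Real.rpow_le_rpow (hz.le.trans (h.lo u)) (hFG u) hq.le

theorem pm_smul {P : Measure W} {q c : ℝ} {F : W → ℝ} (hc : 0 ≤ c)
    (hF : ∀ u, 0 ≤ F u) (hq : 0 < q) : pm P q (fun u => c * F u) = c * pm P q F := by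
  unfold pm
  have h1 : ∀ u, (c * F u) ^ q = c ^ q * F u ^ q := fun u => Real.mul_rpow hc (hF u)
  simp_rw [h1]
  rw [integral_const_mul, Real.mul_rpow (Real.rpow_nonneg hc q)
    (integral_nonneg fun u => Real.rpow_nonneg (hF u) q), ← Real.rpow_mul hc,
    mul_one_div_cancel hq.ne', Real.rpow_one]

theorem pm_nonneg {P : Measure W} {q : ℝ} {F : W → ℝ}
    (hF : ∀ u, 0 ≤ F u) : 0 ≤ pm P q F :=
  Real.rpow_nonneg (integral_nonneg fun u => Real.rpow_nonneg (hF u) q) _

theorem nest_succ' (P : Measure W) (r : ℕ) (m : Fin (r + 1) → ℝ) (Y : (Fin (r + 1) → W) → ℝ) :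
    nest P (r + 1) m Y = pm P (m 0) fun u => nest P r (Fin.tail m) fun v => Y (Fin.cons u v) := rfl

theorem measurable_cons {r : ℕ} :
    Measurable fun z : W × (Fin r → W) => (Fin.cons z.1 z.2 : Fin (r + 1) → W) := by
  refine measurable_pi_iff.2 fun i => ?_
  refine Fin.cases ?_ (fun j => ?_) i
  · simpa using measurable_fst
  · simpa [Function.comp_def] using
      (measurable_pi_apply j).comp (measurable_snd (α := W) (β := Fin r → W))

theorem measurable_consr {r : ℕ} (u : W) :
    Measurable fun v : Fin r → W => (Fin.cons u v : Fin (r + 1) → W) :=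
  measurable_cons.comp (measurable_const.prodMk measurable_id)

theorem measurable_nest (P : Measure W) [SFinite P] (r : ℕ) :
    ∀ (m : Fin r → ℝ) {Θ : Type} [MeasurableSpace Θ] (Y : Θ → (Fin r → W) → ℝ),
      Measurable (fun z : Θ × (Fin r → W) => Y z.1 z.2) →
        Measurable fun θ => nest P r m (Y θ) := by
  induction r with
  | zero =>
    intro m Θ _ Y hY
    exact hY.comp (measurable_id.prodMk measurable_const)
  | succ r ih =>
    intro m Θ _ Y hY
    have h1 : Measurable fun z : Θ × W => nest P r (Fin.tail m) fun v => Y z.1 (Fin.cons z.2 v) := by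
      refine ih (Fin.tail m) (fun (z : Θ × W) v => Y z.1 (Fin.cons z.2 v)) ?_
      refine hY.comp ((measurable_fst.comp measurable_fst).prodMk ?_)
      exact measurable_cons.comp ((measurable_snd.comp measurable_fst).prodMk measurable_snd)
    have h2 : StronglyMeasurable (fun θ => ∫ u, (nest P r (Fin.tail m) fun v =>
        Y θ (Fin.cons u v)) ^ m 0 ∂P) :=
      StronglyMeasurable.integral_prod_right (f := fun θ u => (nest P r (Fin.tail m) fun v =>
        Y θ (Fin.cons u v)) ^ m 0) (h1.pow_const (m 0)).stronglyMeasurable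
    exact h2.measurable.pow_const _

theorem measurable_nest_cons (P : Measure W) [SFinite P] {r : ℕ} (m : Fin r → ℝ)
    {Y : (Fin (r + 1) → W) → ℝ} (hY : Measurable Y) :
    Measurable fun u => nest P r m fun v => Y (Fin.cons u v) :=
  measurable_nest P r m (fun u v => Y (Fin.cons u v)) (hY.comp measurable_cons)

theorem nest_mem {P : Measure W} [IsProbabilityMeasure P] {z0 z1 : ℝ} (hz : 0 < z0) (r : ℕ) :
    ∀ (m : Fin r → ℝ) (_ : ∀ p, 0 < m p) (Y : (Fin r → W) → ℝ) (_ : Bd z0 z1 Y),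
      z0 ≤ nest P r m Y ∧ nest P r m Y ≤ z1 := by
  induction r with
  | zero => intro m hm Y hY; exact ⟨hY.lo _, hY.hi _⟩
  | succ r ih =>
    intro m hm Y hY
    rw [nest_succ']
    refine pm_mem ⟨measurable_nest_cons P _ hY.meas, fun u => ?_, fun u => ?_⟩ hz (hm 0)
    · exact (ih (Fin.tail m) (fun p => hm _) _ (hY.comp (measurable_consr u))).1
    · exact (ih (Fin.tail m) (fun p => hm _) _ (hY.comp (measurable_consr u))).2

theorem nest_cons_bd {P : Measure W} [IsProbabilityMeasure P] {z0 z1 : ℝ} (hz : 0 < z0) {r : ℕ}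
    (m : Fin r → ℝ) (hm : ∀ p, 0 < m p) (Y : (Fin (r + 1) → W) → ℝ) (hY : Bd z0 z1 Y) :
    Bd z0 z1 fun u => nest P r m fun v => Y (Fin.cons u v) :=
  ⟨measurable_nest_cons P _ hY.meas,
    fun u => (nest_mem hz r m hm _ (hY.comp (measurable_consr u))).1,
    fun u => (nest_mem hz r m hm _ (hY.comp (measurable_consr u))).2⟩

theorem nest_mono {P : Measure W} [IsProbabilityMeasure P] {z0 z1 z0' z1' : ℝ} (hz : 0 < z0)
    (hz' : 0 < z0') (r : ℕ) :
    ∀ (m : Fin r → ℝ) (_ : ∀ p, 0 < m p) (Y Y' : (Fin r → W) → ℝ) (_ : Bd z0 z1 Y)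
      (_ : Bd z0' z1' Y') (_ : ∀ v, Y v ≤ Y' v), nest P r m Y ≤ nest P r m Y' := by
  induction r with
  | zero => intro m hm Y Y' _ _ h; exact h _
  | succ r ih =>
    intro m hm Y Y' hY hY' h
    rw [nest_succ', nest_succ']
    refine pm_mono (nest_cons_bd hz _ (fun p => hm _) Y hY) hz
      (nest_cons_bd hz' _ (fun p => hm _) Y' hY') hz' (hm 0) fun u => ?_
    exact ih (Fin.tail m) (fun p => hm _) _ _ (hY.comp (measurable_consr u))
      (hY'.comp (measurable_consr u)) fun v => h _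

theorem nest_nonneg {P : Measure W} (r : ℕ) :
    ∀ (m : Fin r → ℝ) (Y : (Fin r → W) → ℝ) (_ : ∀ v, 0 ≤ Y v), 0 ≤ nest P r m Y := by
  induction r with
  | zero => intro m Y h; exact h _
  | succ r ih =>
    intro m Y h
    rw [nest_succ']
    exact pm_nonneg fun u => ih _ _ fun v => h _

theorem nest_smul {P : Measure W} {c : ℝ} (hc : 0 ≤ c) (r : ℕ) :
    ∀ (m : Fin r → ℝ) (_ : ∀ p, 0 < m p) (Y : (Fin r → W) → ℝ) (_ : ∀ v, 0 ≤ Y v),
      nest P r m (fun v => c * Y v) = c * nest P r m Y := by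
  induction r with
  | zero => intro m hm Y _; rfl
  | succ r ih =>
    intro m hm Y h
    rw [nest_succ', nest_succ']
    have h1 : ∀ u, (nest P r (Fin.tail m) fun v => c * Y (Fin.cons u v)) =
        c * nest P r (Fin.tail m) fun v => Y (Fin.cons u v) := fun u =>
      ih (Fin.tail m) (fun p => hm _) _ fun v => h _
    simp_rw [h1]
    exact pm_smul hc (fun u => nest_nonneg _ _ _ fun v => h _) (hm 0)

theorem nest_const {P : Measure W} [IsProbabilityMeasure P] {c : ℝ} (hc : 0 < c) (r : ℕ)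
    (m : Fin r → ℝ) (hm : ∀ p, 0 < m p) : nest P r m (fun _ => c) = c := by
  have h := nest_mem (P := P) (z0 := c) (z1 := c) hc r m hm (fun _ => c)
    ⟨measurable_const, fun _ => le_rfl, fun _ => le_rfl⟩
  exact le_antisymm h.2 h.1

theorem nest_comp {W' : Type} [MeasurableSpace W'] {P' : Measure W'} {P : Measure W} [SFinite P]
    {φ : W' → W} (hφ : MeasurePreserving φ P' P) (r : ℕ) :
    ∀ (m : Fin r → ℝ) (Y : (Fin r → W) → ℝ) (_ : Measurable Y),
      nest P' r m (fun v => Y fun p => φ (v p)) = nest P r m Y := by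
  induction r with
  | zero =>
    intro m Y _
    rw [nest_zero, nest_zero]
    congr 1
    exact Subsingleton.elim _ _
  | succ r ih =>
    intro m Y hY
    rw [nest_succ', nest_succ']
    unfold pm
    congr 1
    have h1 : ∀ u, (nest P' r (Fin.tail m) fun v => Y fun p => φ ((Fin.cons u v : Fin (r + 1) → W') p)) =
        nest P r (Fin.tail m) fun v => Y (Fin.cons (φ u) v) := by
      intro u
      rw [← ih (Fin.tail m) (fun v => Y (Fin.cons (φ u) v)) (hY.comp (measurable_consr _))]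
      congr 1
      funext v
      congr 1
      funext p
      refine Fin.cases ?_ (fun j => ?_) p
      · simp
      · simp
    simp_rw [h1]
    have h2 := integral_map (μ := P') hφ.measurable.aemeasurable
      ((measurable_nest_cons P (Fin.tail m) hY).pow_const (m 0)).aestronglyMeasurable
    rw [← h2, hφ.map_eq]

theorem nest_prod {ι : Type} [Fintype ι] {V : ι → Type} [∀ i, MeasurableSpace (V i)]
    {P : ∀ i, Measure (V i)} [∀ i, SigmaFinite (P i)] (r : ℕ) :
    ∀ (m : Fin r → ℝ) (_ : ∀ p, 0 < m p) (Y : ∀ i, (Fin r → V i) → ℝ) (_ : ∀ i v, 0 ≤ Y i v),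
      nest (Measure.pi P) r m (fun v => ∏ i, Y i fun p => v p i) = ∏ i, nest (P i) r m (Y i) := by
  induction r with
  | zero =>
    intro m hm Y _
    simp_rw [nest_zero]
    refine Finset.prod_congr rfl fun i _ => ?_
    congr 1
    exact Subsingleton.elim _ _
  | succ r ih =>
    intro m hm Y hY
    simp_rw [nest_succ']
    unfold pm
    have h1 : ∀ u : ∀ i, V i, (nest (Measure.pi P) r (Fin.tail m) fun v => ∏ i, Y i fun p =>
        (Fin.cons u v : Fin (r + 1) → ∀ i, V i) p i) =
        ∏ i, nest (P i) r (Fin.tail m) fun v => Y i (Fin.cons (u i) v) := by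
      intro u
      rw [← ih (Fin.tail m) (fun p => hm _) (fun i v => Y i (Fin.cons (u i) v)) fun i v => hY _ _]
      congr 1
      funext v
      refine Finset.prod_congr rfl fun i _ => ?_
      congr 1
      funext p
      refine Fin.cases ?_ (fun j => ?_) p
      · simp
      · simp
    simp_rw [h1]
    have h2 : ∀ u : ∀ i, V i, (∏ i, nest (P i) r (Fin.tail m) fun v => Y i (Fin.cons (u i) v)) ^ m 0 =
        ∏ i, (nest (P i) r (Fin.tail m) fun v => Y i (Fin.cons (u i) v)) ^ m 0 := by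
      intro u
      rw [Real.finsetProd_rpow]
      intro i _
      exact nest_nonneg _ _ _ fun v => hY _ _
    simp_rw [h2]
    rw [integral_fintype_prod_eq_prod (𝕜 := ℝ) (μ := P)
      (fun i u => (nest (P i) r (Fin.tail m) fun v => Y i (Fin.cons u v)) ^ m 0),
      Real.finsetProd_rpow]
    intro i _
    exact integral_nonneg fun u => Real.rpow_nonneg (nest_nonneg _ _ _ fun v => hY _ _) _

theorem nest_mul {V : Type} [MeasurableSpace V]
    {P : Measure W} {P' : Measure V} [SFinite P] [SFinite P'] (r : ℕ) :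
    ∀ (m : Fin r → ℝ) (_ : ∀ p, 0 < m p) (Y : (Fin r → W) → ℝ) (_ : ∀ v, 0 ≤ Y v)
      (Y' : (Fin r → V) → ℝ) (_ : ∀ v, 0 ≤ Y' v),
      nest (P.prod P') r m (fun v => (Y fun p => (v p).1) * Y' fun p => (v p).2) =
        nest P r m Y * nest P' r m Y' := by
  induction r with
  | zero =>
    intro m hm Y _ Y' _
    simp_rw [nest_zero]
    congr 2 <;> exact Subsingleton.elim _ _
  | succ r ih =>
    intro m hm Y hY Y' hY'
    simp_rw [nest_succ']
    unfold pm
    have h1 : ∀ u : W × V, (nest (P.prod P') r (Fin.tail m) fun v =>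
        (Y fun p => ((Fin.cons u v : Fin (r + 1) → W × V) p).1) *
          Y' fun p => ((Fin.cons u v : Fin (r + 1) → W × V) p).2) =
        (nest P r (Fin.tail m) fun v => Y (Fin.cons u.1 v)) *
          nest P' r (Fin.tail m) fun v => Y' (Fin.cons u.2 v) := by
      intro u
      rw [← ih (Fin.tail m) (fun p => hm _) (fun v => Y (Fin.cons u.1 v)) (fun v => hY _)
        (fun v => Y' (Fin.cons u.2 v)) (fun v => hY' _)]
      congr 1
      funext v
      congr 2
      · funext p
        refine Fin.cases ?_ (fun j => ?_) p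
        · simp
        · simp
      · funext p
        refine Fin.cases ?_ (fun j => ?_) p
        · simp
        · simp
    simp_rw [h1]
    have h2 : ∀ u : W × V, ((nest P r (Fin.tail m) fun v => Y (Fin.cons u.1 v)) *
          nest P' r (Fin.tail m) fun v => Y' (Fin.cons u.2 v)) ^ m 0 =
        (nest P r (Fin.tail m) fun v => Y (Fin.cons u.1 v)) ^ m 0 *
          (nest P' r (Fin.tail m) fun v => Y' (Fin.cons u.2 v)) ^ m 0 := fun u =>
      Real.mul_rpow (nest_nonneg _ _ _ fun v => hY _) (nest_nonneg _ _ _ fun v => hY' _)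
    simp_rw [h2]
    rw [integral_prod_mul (μ := P) (ν := P')
      (fun u => (nest P r (Fin.tail m) fun v => Y (Fin.cons u v)) ^ m 0)
      (fun u => (nest P' r (Fin.tail m) fun v => Y' (Fin.cons u v)) ^ m 0), Real.mul_rpow]
    · exact integral_nonneg fun u => Real.rpow_nonneg (nest_nonneg _ _ _ fun v => hY _) _
    · exact integral_nonneg fun u => Real.rpow_nonneg (nest_nonneg _ _ _ fun v => hY' _) _

/-- Comparison of the logarithms. -/
theorem nest_log_close {P : Measure W} [IsProbabilityMeasure P] {z0 z1 z0' z1' δ : ℝ} (hz : 0 < z0)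
    (hz' : 0 < z0') {r : ℕ} {m : Fin r → ℝ} (hm : ∀ p, 0 < m p) {Y Y' : (Fin r → W) → ℝ}
    (hY : Bd z0 z1 Y) (hY' : Bd z0' z1' Y') (h : ∀ v, Y v ≤ Real.exp δ * Y' v) :
    Real.log (nest P r m Y) ≤ δ + Real.log (nest P r m Y') := by
  have h1 := nest_mem (P := P) hz r m hm Y hY
  have h2 := nest_mem (P := P) hz' r m hm Y' hY'
  have hB : Bd (Real.exp δ * z0') (Real.exp δ * z1') fun v => Real.exp δ * Y' v :=
    ⟨hY'.meas.const_mul _, fun v => mul_le_mul_of_nonneg_left (hY'.lo v) (Real.exp_nonneg _),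
      fun v => mul_le_mul_of_nonneg_left (hY'.hi v) (Real.exp_nonneg _)⟩
  have h3 := nest_mono (P := P) hz (by positivity) r m hm Y _ hY hB h
  rw [nest_smul (Real.exp_nonneg _) r m hm Y' fun v => hz'.le.trans (hY'.lo v)] at h3
  have h4 := Real.log_le_log (hz.trans_le h1.1) h3
  rwa [Real.log_mul (Real.exp_pos _).ne' (hz'.trans_le h2.1).ne', Real.log_exp] at h4

end Vale.Agent.N168I.PT
end
end

section

section

/-!
# Realization of the resampling trial on the unit cube

`S` is a finite set of sites. `cellAvg q f` is the average of a function of `J` sites over the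
product of the cells of the partition given by the labels `q`. The recursion
`f ↦ (cellAvg q f) ^ θ` along `r + 1` partitions is the Mézard–Parisi functional of depth `r`,
with the parameters `m i = θ ^ (r - i)` and with messages that are obtained by resampling the
sites inside their cells.
-/

open MeasureTheory ProbabilityTheory Finset
open scoped NNReal BigOperators

namespace Vale.Agent.N168I

section defs

variable {S Λ J : Type} [Fintype S] [Fintype J] [DecidableEq J]

open Classical in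
/-- The cell of `i` in the partition given by the labels `q`. -/
noncomputable def cell (q : S → Λ) (i : S) : Finset S := univ.filter fun i' => q i' = q i

/-- The average of `f` over the product of the cells of the coordinates of `s`. -/
noncomputable def cellAvg (q : S → Λ) (f : (J → S) → ℝ) (s : J → S) : ℝ :=
  𝔼 s' ∈ Fintype.piFinset (fun j => cell q (s j)), f s'

/-- `β_p = (E[β_{p+1} | P_p]) ^ θ`, starting from `β_{R+1} = f`; the value is `β_1`. -/
noncomputable def betaRec (θ : ℝ) : (R : ℕ) → (Fin R → S → Λ) → ((J → S) → ℝ) → (J → S) → ℝ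
  | 0, _, f => f
  | R + 1, q, f => fun s => cellAvg (q 0) (betaRec θ R (Fin.tail q) f) s ^ θ

/-- The nested functional on functions of sites. -/
noncomputable def cellNest : (r : ℕ) → (Fin r → ℝ) → (Fin r → S → Λ) → ((J → S) → ℝ) →
    (J → S) → ℝ
  | 0, _, _, f => f
  | r + 1, m, q, f => fun s =>
      cellAvg (q 0) (fun s' => cellNest r (Fin.tail m) (Fin.tail q) f s' ^ m 0) s ^ (1 / m 0)

/-- The multilinear extension of `w`. -/
noncomputable def mlin (w : (J → Bool) → ℝ) (y : J → ℝ) : ℝ :=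
  ∑ σ : J → Bool, w σ * ∏ j, (1 + y j * spin (σ j)) / 2

end defs

section basic

variable {S Λ J : Type} [Fintype S] [Fintype J] [DecidableEq J]

lemma mem_cell {q : S → Λ} {i i' : S} : i' ∈ cell q i ↔ q i' = q i := by
  simp only [cell, mem_filter, mem_univ, true_and]

lemma self_mem_cell (q : S → Λ) (i : S) : i ∈ cell q i := mem_cell.2 rfl

lemma cell_nonempty (q : S → Λ) (i : S) : (cell q i).Nonempty := ⟨i, self_mem_cell q i⟩

lemma piCell_nonempty (q : S → Λ) (s : J → S) :
    (Fintype.piFinset (fun j => cell q (s j))).Nonempty :=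
  ⟨s, Fintype.mem_piFinset.2 fun j => self_mem_cell q (s j)⟩

lemma betaRec_zero (θ : ℝ) (q : Fin 0 → S → Λ) (f : (J → S) → ℝ) : betaRec θ 0 q f = f := rfl

lemma betaRec_succ (θ : ℝ) (R : ℕ) (q : Fin (R + 1) → S → Λ) (f : (J → S) → ℝ) (s : J → S) :
    betaRec θ (R + 1) q f s = cellAvg (q 0) (betaRec θ R (Fin.tail q) f) s ^ θ := rfl

lemma cellNest_zero (m : Fin 0 → ℝ) (q : Fin 0 → S → Λ) (f : (J → S) → ℝ) :
    cellNest 0 m q f = f := rfl

lemma cellNest_succ (r : ℕ) (m : Fin (r + 1) → ℝ) (q : Fin (r + 1) → S → Λ) (f : (J → S) → ℝ)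
    (s : J → S) :
    cellNest (r + 1) m q f s =
      cellAvg (q 0) (fun s' => cellNest r (Fin.tail m) (Fin.tail q) f s' ^ m 0) s ^ (1 / m 0) :=
  rfl

lemma cellAvg_pos (q : S → Λ) {f : (J → S) → ℝ} (hf : ∀ s, 0 < f s) (s : J → S) :
    0 < cellAvg q f s :=
  Finset.expect_pos (fun i _ => hf i) (piCell_nonempty q s)

lemma cellNest_pos (r : ℕ) (m : Fin r → ℝ) (q : Fin r → S → Λ) {f : (J → S) → ℝ}
    (hf : ∀ s, 0 < f s) (s : J → S) : 0 < cellNest r m q f s := by
  induction r generalizing s with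
  | zero => exact hf s
  | succ r ih =>
    rw [cellNest_succ]
    exact Real.rpow_pos_of_pos (cellAvg_pos _ (fun s' => Real.rpow_pos_of_pos (ih _ _ s') _) s) _

/-- The average as a sum against the product kernel. -/
lemma cellAvg_eq_sum (q : S → Λ) (f : (J → S) → ℝ) (s : J → S) :
    cellAvg q f s = ∑ s' : J → S, (∏ j, (cell q (s j) : Set S).indicator
      (fun _ => ((cell q (s j)).card : ℝ)⁻¹) (s' j)) * f s' := by
  classical
  unfold cellAvg
  rw [Finset.expect_eq_sum_div_card, Fintype.card_piFinset, Finset.sum_div]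
  have : ∀ s' : J → S, (∏ j, (cell q (s j) : Set S).indicator
      (fun _ => ((cell q (s j)).card : ℝ)⁻¹) (s' j)) * f s' =
      if s' ∈ Fintype.piFinset (fun j => cell q (s j)) then
        f s' / ((∏ j, (cell q (s j)).card : ℕ) : ℝ) else 0 := by
    intro s'
    split_ifs with h
    · rw [Finset.prod_congr rfl fun j _ => Set.indicator_of_mem
        (Finset.mem_coe.2 (Fintype.mem_piFinset.1 h j)) _]
      rw [Nat.cast_prod, div_eq_mul_inv, mul_comm, ← Finset.prod_inv_distrib]
    · rw [Fintype.mem_piFinset] at h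
      push Not at h
      obtain ⟨j, hj⟩ := h
      rw [Finset.prod_eq_zero (mem_univ j), zero_mul]
      exact Set.indicator_of_notMem (by simpa using hj) _
  simp_rw [this]
  rw [← Finset.sum_filter]
  congr 1
  ext s'
  simp only [Fintype.mem_piFinset, mem_filter, mem_univ, true_and]

/-- Averages of products over product cells factorize. -/
lemma cellAvg_prod (q : S → Λ) (g : J → S → ℝ) (s : J → S) :
    cellAvg q (fun s' => ∏ j, g j (s' j)) s = ∏ j, 𝔼 i ∈ cell q (s j), g j i := by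
  unfold cellAvg
  rw [Finset.expect_eq_sum_div_card, Fintype.card_piFinset]
  rw [← Finset.prod_univ_sum (fun j => cell q (s j)) fun j i => g j i]
  simp_rw [Finset.expect_eq_sum_div_card]
  rw [Finset.prod_div_distrib, Nat.cast_prod]

/-- The average of the multilinear extension. -/
lemma cellAvg_mlin (q : S → Λ) (w : (J → Bool) → ℝ) (y : S → ℝ) (s : J → S) :
    cellAvg q (fun s' => mlin w fun j => y (s' j)) s =
      mlin w fun j => 𝔼 i ∈ cell q (s j), y i := by
  have h1 : cellAvg q (fun s' => mlin w fun j => y (s' j)) s =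
      ∑ σ : J → Bool, w σ * cellAvg q (fun s' => ∏ j, (1 + y (s' j) * spin (σ j)) / 2) s := by
    unfold cellAvg mlin
    rw [Finset.expect_sum_comm]
    exact Finset.sum_congr rfl fun σ _ => (Finset.mul_expect _ _ _).symm
  rw [h1]
  unfold mlin
  refine Finset.sum_congr rfl fun σ _ => ?_
  rw [cellAvg_prod q (fun j i => (1 + y i * spin (σ j)) / 2)]
  congr 1
  refine Finset.prod_congr rfl fun j _ => ?_
  dsimp only
  rw [Finset.expect_eq_sum_div_card, Finset.expect_eq_sum_div_card, ← Finset.sum_div,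
    Finset.sum_add_distrib, ← Finset.sum_mul]
  have hc : ((cell q (s j)).card : ℝ) ≠ 0 := by
    exact_mod_cast (cell_nonempty q (s j)).card_pos.ne'
  simp only [sum_const, nsmul_eq_mul, mul_one]
  (clear * - hc; field_simp)

end basic

section step

variable {S Λ J : Type} [Fintype S] [Fintype J] [DecidableEq J]

/-- Resampling maps: for each site a map of the unit interval with the uniform law on the cell. -/
structure IsStep [MeasurableSpace S] (q : S → Λ) (st : S → U01 → S) : Prop where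
  meas : ∀ i, Measurable (st i)
  law : ∀ i i', (volume.map (st i)).real {i'} =
    (cell q i : Set S).indicator (fun _ => ((cell q i).card : ℝ)⁻¹) i'

lemma exists_step [MeasurableSpace S] [DiscreteMeasurableSpace S] [Nonempty S] (q : S → Λ) :
    ∃ st : S → U01 → S, IsStep q st := by
  classical
  have h : ∀ i, ∃ f : U01 → S, Measurable f ∧
      volume.map f = uniformOn (cell q i : Set S) := by
    intro i
    have : IsProbabilityMeasure (uniformOn (cell q i : Set S)) :=
      isProbabilityMeasure_uniformOn (Finset.finite_toSet _) (cell_nonempty q i)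
    exact Measure.exists_measurable_map_eq _
  choose st hst using h
  refine ⟨st, fun i => (hst i).1, fun i i' => ?_⟩
  rw [(hst i).2]
  have hc : ((cell q i).card : ℝ) ≠ 0 := by
    exact_mod_cast (cell_nonempty q i).card_pos.ne'
  rw [Measure.real, uniformOn, cond_apply (Finset.measurableSet _)]
  by_cases hi : i' ∈ cell q i
  · rw [Set.indicator_of_mem (Finset.mem_coe.2 hi), Set.inter_eq_right.2 (by simpa using hi)]
    simp only [Measure.count_apply_finset, MeasurableSet.singleton, Measure.count_singleton', mul_one, ENNReal.toReal_inv, ENNReal.toReal_natCast]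
  · rw [Set.indicator_of_notMem (by simpa using hi)]
    rw [Set.inter_singleton_eq_empty.2 (by simpa using hi)]
    simp

variable [MeasurableSpace S] [DiscreteMeasurableSpace S]

lemma integral_step {q : S → Λ} {st : S → U01 → S} (hst : IsStep q st) (G : (J → S) → ℝ)
    (s : J → S) : ∫ u : J → U01, G (fun j => st (s j) (u j)) = cellAvg q G s := by
  have hm : Measurable fun (u : J → U01) (j : J) => st (s j) (u j) :=
    measurable_pi_lambda _ fun j => (hst.meas (s j)).comp (measurable_pi_apply j)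
  have h1 : ∫ u : J → U01, G (fun j => st (s j) (u j)) =
      ∫ s', G s' ∂(volume.map fun (u : J → U01) (j : J) => st (s j) (u j)) := by
    rw [integral_map hm.aemeasurable (Measurable.of_discrete).aestronglyMeasurable]
  have h2 : (volume.map fun (u : J → U01) (j : J) => st (s j) (u j)) =
      Measure.pi fun j => (volume : Measure U01).map (st (s j)) := by
    have : ∀ j, SigmaFinite ((volume : Measure U01).map (st (s j))) := fun j => by
      have : IsProbabilityMeasure ((volume : Measure U01).map (st (s j))) :=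
        Measure.isProbabilityMeasure_map (hst.meas (s j)).aemeasurable
      infer_instance
    rw [volume_pi]
    exact Measure.pi_map_pi fun j => (hst.meas (s j)).aemeasurable
  have : ∀ j, IsProbabilityMeasure ((volume : Measure U01).map (st (s j))) := fun j =>
    Measure.isProbabilityMeasure_map (hst.meas (s j)).aemeasurable
  rw [h1, h2, integral_fintype (Integrable.of_finite), cellAvg_eq_sum]
  refine Finset.sum_congr rfl fun s' _ => ?_
  rw [smul_eq_mul, Measure.real, Measure.pi_singleton, ENNReal.toReal_prod]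
  congr 1
  exact Finset.prod_congr rfl fun j _ => hst.law (s j) (s' j)

end step

section site

variable {S Λ J : Type} [Fintype S] [Fintype J] [DecidableEq J]

/-- The site obtained from `i` by following the resampling maps. -/
def lastSite : (r : ℕ) → (Fin r → S → U01 → S) → S → (Fin r → U01) → S
  | 0, _, i, _ => i
  | r + 1, st, i, ω => lastSite r (Fin.tail st) (st 0 i (ω 0)) (Fin.tail ω)

variable [MeasurableSpace S] [DiscreteMeasurableSpace S]

lemma measurable_lastSite (r : ℕ) (st : Fin r → S → U01 → S)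
    (hst : ∀ p i, Measurable (st p i)) (i : S) : Measurable (lastSite r st i) := by
  induction r generalizing i with
  | zero => exact measurable_const
  | succ r ih =>
    have h1 : Measurable fun (x : S × (Fin r → U01)) => lastSite r (Fin.tail st) x.1 x.2 :=
      measurable_from_prod_countable_right fun i => ih (Fin.tail st) (fun p => hst p.succ) i
    have h2 : Measurable fun ω : Fin (r + 1) → U01 => (st 0 i (ω 0), Fin.tail ω) :=
      ((hst 0 i).comp (measurable_pi_apply 0)).prodMk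
        (measurable_pi_lambda _ fun p => measurable_pi_apply _)
    exact h1.comp h2

lemma nest_lastSite (r : ℕ) (m : Fin r → ℝ) (q : Fin r → S → Λ) (st : Fin r → S → U01 → S)
    (hst : ∀ p, IsStep (q p) (st p)) (F : (J → S) → ℝ) (s : J → S) :
    nest volume r m (fun v : Fin r → (J → U01) =>
      F fun j => lastSite r st (s j) fun p => v p j) = cellNest r m q F s := by
  induction r generalizing s with
  | zero => rfl
  | succ r ih =>
    rw [nest_succ, cellNest_succ]
    congr 1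
    rw [← integral_step (hst 0) (fun s' => cellNest r (Fin.tail m) (Fin.tail q) F s' ^ m 0) s]
    refine integral_congr_ae (Filter.Eventually.of_forall fun u => ?_)
    dsimp only
    rw [← ih (Fin.tail m) (Fin.tail q) (Fin.tail st) (fun p => hst p.succ)
      (fun j => st 0 (s j) (u j))]
    rfl

end site

section main

variable {S Λ : Type} [Fintype S]

lemma mlin_pos {J : Type} [Fintype J] [DecidableEq J] {w : (J → Bool) → ℝ} (hw : ∀ σ, 0 < w σ)
    {y : J → ℝ} (hy : ∀ j, y j ∈ Set.Icc (-1 : ℝ) 1) : 0 < mlin w y := by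
  have hnn : ∀ (σ : J → Bool) j, 0 ≤ (1 + y j * spin (σ j)) / 2 := by
    intro σ j
    have := hy j
    rcases h : σ j <;> simp [spin] <;> linarith only [this.1, this.2]
  have hsum : ∑ σ : J → Bool, ∏ j, (1 + y j * spin (σ j)) / 2 = 1 := by
    rw [← Fintype.piFinset_univ, ← Finset.prod_univ_sum (fun _ => (univ : Finset Bool))
      fun j e => (1 + y j * spin e) / 2]
    refine Finset.prod_eq_one fun j _ => ?_
    simp only [Fintype.univ_bool, spin, mul_ite, mul_one, mul_neg, mem_singleton, Bool.true_eq_false, not_false_eq_true, sum_insert, ↓reduceIte, sum_singleton, Bool.false_eq_true]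
    ring
  obtain ⟨σ0, hσ0⟩ : ∃ σ : J → Bool, 0 < ∏ j, (1 + y j * spin (σ j)) / 2 := by
    by_contra hcon
    push Not at hcon
    have : ∑ σ : J → Bool, ∏ j, (1 + y j * spin (σ j)) / 2 ≤ 0 :=
      Finset.sum_nonpos fun σ _ => hcon σ
    linarith only [hsum, this]
  unfold mlin
  exact Finset.sum_pos' (fun σ _ => mul_nonneg (hw σ).le (Finset.prod_nonneg fun j _ => hnn σ j))
    ⟨σ0, mem_univ _, mul_pos (hw σ0) hσ0⟩

lemma expect_cell_mem (q : S → Λ) {xh : S → ℝ} (hxh : ∀ i, xh i ∈ Set.Icc (-1 : ℝ) 1) (i : S) :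
    (𝔼 i' ∈ cell q i, xh i') ∈ Set.Icc (-1 : ℝ) 1 := by
  have hne := cell_nonempty q i
  constructor
  · calc (-1 : ℝ) = 𝔼 _i' ∈ cell q i, (-1 : ℝ) := (Finset.expect_const hne _).symm
      _ ≤ _ := Finset.expect_le_expect fun i' _ => (hxh i').1
  · calc _ ≤ 𝔼 _i' ∈ cell q i, (1 : ℝ) := Finset.expect_le_expect fun i' _ => (hxh i').2
      _ = 1 := Finset.expect_const hne _

/-- The recursion for `β` and the nested functional. -/
lemma betaRec_eq {J : Type} [Fintype J] [DecidableEq J] {θ : ℝ} (hθ : θ ∈ Set.Ioo (0 : ℝ) 1)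
    {w : (J → Bool) → ℝ} (hw : ∀ σ, 0 < w σ) {xh : S → ℝ}
    (hxh : ∀ i, xh i ∈ Set.Icc (-1 : ℝ) 1) (r : ℕ) (q : Fin (r + 1) → S → Λ) (s : J → S) :
    betaRec θ (r + 1) q (fun s => mlin w fun j => xh (s j)) s =
      cellNest r (fun i => θ ^ (r - (i : ℕ))) (fun i => q i.castSucc)
        (fun s => mlin w fun j => 𝔼 i' ∈ cell (q (Fin.last r)) (s j), xh i') s
          ^ (θ ^ (r + 1)) := by
  induction r generalizing s with
  | zero =>
    rw [betaRec_succ, betaRec_zero, cellNest_zero, cellAvg_mlin]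
    simp
  | succ r ih =>
    have hF : ∀ s : J → S, 0 < mlin w fun j => 𝔼 i' ∈ cell (q (Fin.last (r + 1))) (s j), xh i' :=
      fun s => mlin_pos hw fun j => expect_cell_mem _ hxh _
    rw [betaRec_succ, cellNest_succ]
    have e1 : (betaRec θ (r + 1) (Fin.tail q) fun s : J → S => mlin w fun j => xh (s j)) =
        fun s' => cellNest r (Fin.tail fun i : Fin (r + 1) => θ ^ (r + 1 - (i : ℕ)))
          (Fin.tail fun i : Fin (r + 1) => q i.castSucc)
          (fun s => mlin w fun j => 𝔼 i' ∈ cell (q (Fin.last (r + 1))) (s j), xh i') s'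
            ^ (θ ^ (r + 1)) := by
      funext s'
      rw [ih (Fin.tail q) s']
      have t1 : (Fin.tail fun i : Fin (r + 1) => θ ^ (r + 1 - (i : ℕ))) =
          fun i : Fin r => θ ^ (r - (i : ℕ)) := by
        funext i
        simp only [Fin.tail, Fin.val_succ, Nat.reduceSubDiff]
      have t2 : (Fin.tail fun i : Fin (r + 1) => q i.castSucc) =
          fun i : Fin r => Fin.tail q i.castSucc := by
        funext i
        rfl
      rw [t1, t2]
      rfl
    rw [e1]
    have hpos : 0 < cellAvg (J := J) (q 0) (fun s' =>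
        cellNest r (Fin.tail fun i : Fin (r + 1) => θ ^ (r + 1 - (i : ℕ)))
          (Fin.tail fun i : Fin (r + 1) => q i.castSucc)
          (fun s => mlin w fun j => 𝔼 i' ∈ cell (q (Fin.last (r + 1))) (s j), xh i') s'
            ^ (θ ^ (r + 1))) s :=
      cellAvg_pos _ (fun s' => Real.rpow_pos_of_pos (cellNest_pos _ _ _ hF s') _) s
    have e0 : q (Fin.castSucc (0 : Fin (r + 1))) = q 0 := rfl
    have e2 : θ ^ (r + 1 - ((0 : Fin (r + 1)) : ℕ)) = θ ^ (r + 1) := by simp
    rw [e0, e2, ← Real.rpow_mul hpos.le]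
    congr 1
    have : θ ^ (r + 1) ≠ 0 := (pow_pos hθ.1 _).ne'
    rw [pow_succ θ (r + 1)]
    field_simp

/-- **Realization.** The recursion `β` along `r + 1` partitions of a finite set of sites is the
Mézard–Parisi functional of depth `r` with parameters `m i = θ ^ (r - i)`, for one measurable
message function `x` which does not depend on the shape `w`. -/
theorem realize [Nonempty S] {θ : ℝ} (hθ : θ ∈ Set.Ioo (0 : ℝ) 1) (r : ℕ)
    (q : Fin (r + 1) → S → Λ) (xh : S → ℝ) (hxh : ∀ i, xh i ∈ Set.Icc (-1 : ℝ) 1) :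
    ∃ x : (Fin (r + 1) → U01) → ℝ, IsTrial r (fun i => θ ^ (r - (i : ℕ))) x ∧
      ∀ (J : Type) [Fintype J] [DecidableEq J] (w : (J → Bool) → ℝ), (∀ σ, 0 < w σ) →
        hierLog r (fun i => θ ^ (r - (i : ℕ))) (fun u v => mlin w (message x u v)) =
          1 / θ ^ (r + 1) *
            𝔼 s : J → S, Real.log (betaRec θ (r + 1) q (fun s => mlin w fun j => xh (s j)) s) := by
  classical
  let _ : MeasurableSpace S := ⊤
  have : DiscreteMeasurableSpace S := ⟨fun _ => trivial⟩
  obtain ⟨e0, he0⟩ := exists_step (S := S) (fun _ : S => ())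
  have hst : ∀ p : Fin r, ∃ st : S → U01 → S, IsStep (q p.castSucc) st := fun p => exists_step _
  choose st hst using hst
  obtain ⟨i0⟩ := ‹Nonempty S›
  set xv : S → ℝ := fun i => 𝔼 i' ∈ cell (q (Fin.last r)) i, xh i' with hxv
  refine ⟨fun ω => xv (lastSite r st (e0 i0 (ω 0)) (Fin.tail ω)), ⟨?_, ?_, ?_, ?_⟩, ?_⟩
  · intro i j hij
    have h1 : r - (j : ℕ) < r - (i : ℕ) := by
      have := i.2; have := j.2; have : (i : ℕ) < j := hij
      omega
    exact pow_lt_pow_right_of_lt_one₀ hθ.1 hθ.2 h1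
  · intro i
    refine ⟨pow_pos hθ.1 _, pow_lt_one₀ hθ.1.le hθ.2 ?_⟩
    have := i.2
    omega
  · have h1 : Measurable (lastSite (r + 1) (Fin.cons (fun _ => e0 i0) st) i0) :=
      measurable_lastSite (r + 1) _ (fun p i => by
        refine Fin.cases ?_ (fun p => ?_) p
        · simpa using he0.meas i0
        · simpa using (hst p).meas i) i0
    exact (Measurable.of_discrete (f := xv)).comp h1
  · intro ω
    exact expect_cell_mem _ hxh _
  · intro J _ _ w hw
    have hF : ∀ s : J → S, 0 < mlin w fun j => xv (s j) :=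
      fun s => mlin_pos hw fun j => expect_cell_mem _ hxh _
    unfold hierLog
    have key : ∀ u : J → U01, nest volume r (fun i => θ ^ (r - (i : ℕ))) (fun v =>
        mlin w (message (fun ω => xv (lastSite r st (e0 i0 (ω 0)) (Fin.tail ω))) u v)) =
        cellNest r (fun i => θ ^ (r - (i : ℕ))) (fun i => q i.castSucc)
          (fun s => mlin w fun j => xv (s j)) (fun j => e0 i0 (u j)) := by
      intro u
      rw [← nest_lastSite r (fun i => θ ^ (r - (i : ℕ))) (fun i => q i.castSucc) st hst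
        (fun s => mlin w fun j => xv (s j)) (fun j => e0 i0 (u j))]
      rfl
    simp_rw [key]
    rw [integral_step he0 (fun s => Real.log (cellNest r (fun i => θ ^ (r - (i : ℕ)))
      (fun i => q i.castSucc) (fun s => mlin w fun j => xv (s j)) s)) (fun _ => i0)]
    have hcell : (Fintype.piFinset fun _ : J => cell (fun _ : S => ()) i0) =
        (univ : Finset (J → S)) := by
      ext s
      simp only [Fintype.mem_piFinset, mem_cell, implies_true, mem_univ]
    rw [cellAvg, hcell, Finset.mul_expect]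
    refine Finset.expect_congr rfl fun s _ => ?_
    rw [betaRec_eq hθ hw hxh r q s, Real.log_rpow (cellNest_pos _ _ _ hF s)]
    have : θ ^ (r + 1) ≠ 0 := (pow_pos hθ.1 _).ne'
    field_simp

end main

end Vale.Agent.N168I
end
end

section

section

set_option autoImplicit false

open Finset

namespace Vale.Agent.N168I.MP

/-- A normalized positive linear functional on all real functions on `α` (an abstract
expectation; the only facts used are linearity, monotonicity and `E 1 = 1`). -/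
structure PE (α : Type) where
  E : (α → ℝ) → ℝ
  add' : ∀ f g : α → ℝ, E (fun x => f x + g x) = E f + E g
  smul' : ∀ (c : ℝ) (f : α → ℝ), E (fun x => c * f x) = c * E f
  mono' : ∀ f g : α → ℝ, (∀ x, f x ≤ g x) → E f ≤ E g
  one' : E (fun _ => 1) = 1

namespace PE

variable {α β γ : Type} (P : PE α)

theorem add (f g : α → ℝ) : P.E (fun x => f x + g x) = P.E f + P.E g := P.add' f g

theorem smul (c : ℝ) (f : α → ℝ) : P.E (fun x => c * f x) = c * P.E f := P.smul' c f

theorem mul_right (c : ℝ) (f : α → ℝ) : P.E (fun x => f x * c) = P.E f * c := by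
  rw [mul_comm, ← P.smul]
  congr 1
  funext x
  ring

theorem div_right (c : ℝ) (f : α → ℝ) : P.E (fun x => f x / c) = P.E f / c := by
  simp only [div_eq_mul_inv]
  exact P.mul_right _ _

theorem mono {f g : α → ℝ} (h : ∀ x, f x ≤ g x) : P.E f ≤ P.E g := P.mono' f g h

theorem const (c : ℝ) : P.E (fun _ => c) = c := by
  have := P.smul c (fun _ => 1)
  rw [P.one'] at this
  simpa using this

theorem neg (f : α → ℝ) : P.E (fun x => - f x) = - P.E f := by
  have := P.smul (-1) f
  simpa only [neg_mul, one_mul] using this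

theorem sub (f g : α → ℝ) : P.E (fun x => f x - g x) = P.E f - P.E g := by
  have := P.add f (fun x => - g x)
  rw [P.neg] at this
  simpa only [sub_eq_add_neg] using this

theorem nonneg {f : α → ℝ} (h : ∀ x, 0 ≤ f x) : 0 ≤ P.E f := by
  have := P.mono (f := fun _ => 0) (g := f) h
  rwa [P.const] at this

theorem le_const {f : α → ℝ} {c : ℝ} (h : ∀ x, f x ≤ c) : P.E f ≤ c := by
  have := P.mono (f := f) (g := fun _ => c) h
  rwa [P.const] at this

theorem const_le {f : α → ℝ} {c : ℝ} (h : ∀ x, c ≤ f x) : c ≤ P.E f := by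
  have := P.mono (f := fun _ => c) (g := f) h
  rwa [P.const] at this

theorem abs_le (f : α → ℝ) : |P.E f| ≤ P.E fun x => |f x| := by
  rw [_root_.abs_le]
  constructor
  · rw [← P.neg]
    exact P.mono fun x => neg_abs_le (f x)
  · exact P.mono fun x => le_abs_self (f x)

theorem abs_sub_le (f g : α → ℝ) : |P.E f - P.E g| ≤ P.E fun x => |f x - g x| := by
  rw [← P.sub]
  exact P.abs_le _

theorem sum {ι : Type} (s : Finset ι) (f : ι → α → ℝ) :
    P.E (fun x => ∑ i ∈ s, f i x) = ∑ i ∈ s, P.E (f i) := by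
  classical
  induction s using Finset.induction_on with
  | empty => simpa using P.const 0
  | insert a s ha ih =>
    simp only [Finset.sum_insert ha]
    rw [P.add, ih]

/-- Point mass. -/
def dirac (a : α) : PE α where
  E f := f a
  add' _ _ := rfl
  smul' _ _ := rfl
  mono' _ _ h := h a
  one' := rfl

/-- Composition of a functional with a kernel. -/
def bind (P : PE α) (Q : α → PE β) : PE β where
  E f := P.E fun a => (Q a).E f
  add' f g := by simp only [PE.add]
  smul' c f := by simp only [PE.smul]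
  mono' f g h := P.mono fun a => (Q a).mono h
  one' := by simp only [PE.const]

/-- Image. -/
def map (P : PE α) (g : α → β) : PE β where
  E f := P.E fun a => f (g a)
  add' _ _ := P.add _ _
  smul' _ _ := P.smul _ _
  mono' _ _ h := P.mono fun a => h (g a)
  one' := P.const 1

theorem dirac_E (a : α) (f : α → ℝ) : (dirac a).E f = f a := rfl

theorem bind_E (P : PE α) (Q : α → PE β) (f : β → ℝ) :
    (P.bind Q).E f = P.E fun a => (Q a).E f := rfl

theorem map_E (P : PE α) (g : α → β) (f : β → ℝ) : (P.map g).E f = P.E fun a => f (g a) := rfl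

/-- Uniform average over a finite nonempty type. -/
noncomputable def unif (α : Type) [Fintype α] [Nonempty α] : PE α where
  E f := (∑ a, f a) / Fintype.card α
  add' f g := by rw [Finset.sum_add_distrib, add_div]
  smul' c f := by rw [← Finset.mul_sum, mul_div_assoc]
  mono' f g h := by
    apply div_le_div_of_nonneg_right (Finset.sum_le_sum fun a _ => h a)
    exact Nat.cast_nonneg _
  one' := by
    have : (Fintype.card α : ℝ) ≠ 0 := by
      exact_mod_cast Fintype.card_ne_zero
    simp [this]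

theorem unif_E [Fintype α] [Nonempty α] (f : α → ℝ) :
    (unif α).E f = (∑ a, f a) / Fintype.card α := rfl

/-- A uniform average commutes with any functional. -/
theorem comm_unif (P : PE α) [Fintype β] [Nonempty β] (f : α → β → ℝ) :
    P.E (fun x => (unif β).E (f x)) = (unif β).E fun b => P.E fun x => f x b := by
  simp only [unif_E]
  rw [P.div_right, P.sum]

/-- Variance. -/
def var (f : α → ℝ) : ℝ := P.E (fun x => f x ^ 2) - P.E f ^ 2

/-- Standard deviation. -/
noncomputable def sd (f : α → ℝ) : ℝ := Real.sqrt (P.var f)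

/-- Covariance. -/
def cov (f g : α → ℝ) : ℝ := P.E (fun x => f x * g x) - P.E f * P.E g

theorem var_eq (f : α → ℝ) : P.var f = P.E fun x => (f x - P.E f) ^ 2 := by
  have h : (fun x => (f x - P.E f) ^ 2) =
      fun x => f x ^ 2 + ((-2 * P.E f) * f x + P.E f ^ 2) := by
    funext x; ring
  rw [h, P.add, P.add, P.smul, P.const, var]
  ring

theorem var_nonneg (f : α → ℝ) : 0 ≤ P.var f := by
  rw [var_eq]
  exact P.nonneg fun x => sq_nonneg _

theorem sq_le (f : α → ℝ) : P.E f ^ 2 ≤ P.E fun x => f x ^ 2 := by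
  have := P.var_nonneg f
  unfold var at this
  linarith only [this]

theorem cov_self (f : α → ℝ) : P.cov f f = P.var f := by
  unfold cov var
  simp only [pow_two]

theorem cov_eq (f g : α → ℝ) : P.cov f g = P.E fun x => (f x - P.E f) * (g x - P.E g) := by
  have h : (fun x => (f x - P.E f) * (g x - P.E g)) =
      fun x => f x * g x + ((- P.E g) * f x + ((- P.E f) * g x + P.E f * P.E g)) := by
    funext x; ring
  rw [h, P.add, P.add, P.add, P.smul, P.smul, P.const, cov]
  ring

/-- Cauchy-Schwarz. -/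
theorem cauchy_schwarz (f g : α → ℝ) :
    (P.E fun x => f x * g x) ^ 2 ≤ (P.E fun x => f x ^ 2) * P.E fun x => g x ^ 2 := by
  have key : ∀ t : ℝ, 0 ≤ (P.E fun x => g x ^ 2) * (t * t) + (2 * P.E fun x => f x * g x) * t +
      P.E fun x => f x ^ 2 := by
    intro t
    have h : (fun x => (f x + t * g x) ^ 2) =
        fun x => f x ^ 2 + ((2 * t) * (f x * g x) + (t * t) * g x ^ 2) := by
      funext x; ring
    have h1 : 0 ≤ P.E fun x => (f x + t * g x) ^ 2 := P.nonneg fun x => sq_nonneg _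
    rw [h, P.add, P.add, P.smul, P.smul] at h1
    linarith
  have := discrim_le_zero key
  unfold discrim at this
  linarith

theorem abs_cov_le (f g : α → ℝ) : |P.cov f g| ≤ P.sd f * P.sd g := by
  have h := P.cauchy_schwarz (fun x => f x - P.E f) (fun x => g x - P.E g)
  rw [← P.cov_eq, ← P.var_eq, ← P.var_eq] at h
  unfold sd
  rw [← Real.sqrt_mul (P.var_nonneg f)]
  exact Real.abs_le_sqrt h

/-- `E |f| ≤ (E f²)^{1/2}`. -/
theorem abs_le_sqrt (f : α → ℝ) : (P.E fun x => |f x|) ≤ Real.sqrt (P.E fun x => f x ^ 2) := by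
  apply Real.le_sqrt_of_sq_le
  have := P.sq_le fun x => |f x|
  simpa only [sq_abs] using this

/-- Jensen for the square root. -/
theorem sqrt_le {f : α → ℝ} (hf : ∀ x, 0 ≤ f x) :
    (P.E fun x => Real.sqrt (f x)) ≤ Real.sqrt (P.E f) := by
  apply Real.le_sqrt_of_sq_le
  have := P.sq_le fun x => Real.sqrt (f x)
  refine this.trans (le_of_eq ?_)
  congr 1
  funext x
  exact Real.sq_sqrt (hf x)

theorem abs_dev_le_sd (f : α → ℝ) : (P.E fun x => |f x - P.E f|) ≤ P.sd f := by
  unfold sd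
  rw [var_eq]
  exact P.abs_le_sqrt _

theorem sd_nonneg (f : α → ℝ) : 0 ≤ P.sd f := Real.sqrt_nonneg _

/-- The mean minimizes the quadratic deviation. -/
theorem var_le (f : α → ℝ) (c : ℝ) : P.var f ≤ P.E fun x => (f x - c) ^ 2 := by
  have h : (fun x => (f x - c) ^ 2) = fun x => f x ^ 2 + ((-2 * c) * f x + c ^ 2) := by
    funext x; ring
  rw [h, P.add, P.add, P.smul, P.const, var]
  nlinarith only [sq_nonneg (P.E f - c)]

/-- Existence of a point which does almost as well as the mean. -/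
theorem exists_le (f : α → ℝ) {δ : ℝ} (hδ : 0 < δ) : ∃ x, f x ≤ P.E f + δ := by
  by_contra h
  push Not at h
  have := P.const_le (f := f) (c := P.E f + δ) fun x => (h x).le
  linarith

end PE

end Vale.Agent.N168I.MP
end
end

section

section

set_option autoImplicit false

open Finset

namespace Vale.Agent.N168I.MP

/-- A state space `𝒩` with a commuting action of the slot types `Ω`, and a base functional (the
log partition function) with increments bounded by `M`. -/
structure Slots (𝒩 Ω : Type) where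
  act : Ω → 𝒩 → 𝒩
  comm : ∀ τ τ' x, act τ (act τ' x) = act τ' (act τ x)
  base : 𝒩 → ℝ
  M : ℝ
  M_nonneg : 0 ≤ M
  bd : ∀ τ x, |base (act τ x) - base x| ≤ M

/-- A block of slots of constant power. -/
def blk {Ω : Type} (μ : ℝ) (l : List Ω) : List (ℝ × Ω) := l.map fun τ => (μ, τ)

/-- All powers are in `(0, 1]`. -/
def Pos {Ω : Type} (L : List (ℝ × Ω)) : Prop := ∀ s ∈ L, 0 < s.1 ∧ s.1 ≤ 1

/-- Powers in `(0, 1]`, nondecreasing from head to tail. -/
def Good {Ω : Type} (L : List (ℝ × Ω)) : Prop := Pos L ∧ L.Pairwise fun a b => a.1 ≤ b.1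

section blk

variable {Ω : Type}

@[simp] theorem blk_nil (μ : ℝ) : blk μ ([] : List Ω) = [] := rfl

@[simp] theorem blk_cons (μ : ℝ) (τ : Ω) (l : List Ω) : blk μ (τ :: l) = (μ, τ) :: blk μ l := rfl

theorem blk_append (μ : ℝ) (l l' : List Ω) : blk μ (l ++ l') = blk μ l ++ blk μ l' :=
  List.map_append

end blk

namespace Slots

variable {𝒩 Ω : Type} (S : Slots 𝒩 Ω)

/-- `log X_L`, the nested power mean functional of a list of slots `(power, type)`. -/
noncomputable def lam (L : List (ℝ × Ω)) : 𝒩 → ℝ :=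
  L.foldr (fun s F x => (1 / s.1) *
    Real.log ((Real.exp (s.1 * F x) + Real.exp (s.1 * F (S.act s.2 x))) / 2)) S.base

theorem lam_nil (x : 𝒩) : S.lam [] x = S.base x := rfl

theorem lam_cons (μ : ℝ) (τ : Ω) (L : List (ℝ × Ω)) (x : 𝒩) :
    S.lam ((μ, τ) :: L) x = (1 / μ) *
      Real.log ((Real.exp (μ * S.lam L x) + Real.exp (μ * S.lam L (S.act τ x))) / 2) := rfl

/-- Probability of the outcome `1` at a slot `(μ, τ)` followed by the list `L`. -/
noncomputable def pi1 (μ : ℝ) (τ : Ω) (L : List (ℝ × Ω)) (x : 𝒩) : ℝ :=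
  Real.exp (μ * S.lam L (S.act τ x)) /
    (Real.exp (μ * S.lam L x) + Real.exp (μ * S.lam L (S.act τ x)))

/-- Path expectation `E^{L1 | L2}_x f`: `f` is a function of the state at the end of `L1`. -/
noncomputable def Ex (L1 L2 : List (ℝ × Ω)) (f : 𝒩 → ℝ) : 𝒩 → ℝ :=
  List.rec (motive := fun _ => 𝒩 → ℝ) f
    (fun s L ih x => (1 - S.pi1 s.1 s.2 (L ++ L2) x) * ih x +
      S.pi1 s.1 s.2 (L ++ L2) x * ih (S.act s.2 x)) L1

theorem Ex_nil (L2 : List (ℝ × Ω)) (f : 𝒩 → ℝ) (x : 𝒩) : S.Ex [] L2 f x = f x := rfl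

theorem Ex_cons (μ : ℝ) (τ : Ω) (L1 L2 : List (ℝ × Ω)) (f : 𝒩 → ℝ) (x : 𝒩) :
    S.Ex ((μ, τ) :: L1) L2 f x = (1 - S.pi1 μ τ (L1 ++ L2) x) * S.Ex L1 L2 f x +
      S.pi1 μ τ (L1 ++ L2) x * S.Ex L1 L2 f (S.act τ x) := rfl

/-- Log value of the insertion `τ` at a node with remaining list `L`. -/
noncomputable def val (L : List (ℝ × Ω)) (τ : Ω) (x : 𝒩) : ℝ := S.lam L (S.act τ x) - S.lam L x

theorem pi1_nonneg (μ : ℝ) (τ : Ω) (L : List (ℝ × Ω)) (x : 𝒩) : 0 ≤ S.pi1 μ τ L x :=
  div_nonneg (Real.exp_pos _).le (add_pos (Real.exp_pos _) (Real.exp_pos _)).le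

theorem pi1_le_one (μ : ℝ) (τ : Ω) (L : List (ℝ × Ω)) (x : 𝒩) : S.pi1 μ τ L x ≤ 1 := by
  unfold pi1
  rw [div_le_one (add_pos (Real.exp_pos _) (Real.exp_pos _))]
  have := Real.exp_pos (μ * S.lam L x)
  linarith

theorem Ex_add (L1 L2 : List (ℝ × Ω)) (f g : 𝒩 → ℝ) (x : 𝒩) :
    S.Ex L1 L2 (fun y => f y + g y) x = S.Ex L1 L2 f x + S.Ex L1 L2 g x := by
  induction L1 generalizing x with
  | nil => rfl
  | cons s L ih =>
    obtain ⟨μ, τ⟩ := s
    rw [Ex_cons, Ex_cons, Ex_cons, ih, ih]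
    ring

theorem Ex_smul (L1 L2 : List (ℝ × Ω)) (c : ℝ) (f : 𝒩 → ℝ) (x : 𝒩) :
    S.Ex L1 L2 (fun y => c * f y) x = c * S.Ex L1 L2 f x := by
  induction L1 generalizing x with
  | nil => rfl
  | cons s L ih =>
    obtain ⟨μ, τ⟩ := s
    rw [Ex_cons, Ex_cons, ih, ih]
    ring

theorem Ex_mono (L1 L2 : List (ℝ × Ω)) {f g : 𝒩 → ℝ} (h : ∀ y, f y ≤ g y) (x : 𝒩) :
    S.Ex L1 L2 f x ≤ S.Ex L1 L2 g x := by
  induction L1 generalizing x with
  | nil => exact h x
  | cons s L ih =>
    obtain ⟨μ, τ⟩ := s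
    rw [Ex_cons, Ex_cons]
    have h0 := S.pi1_nonneg μ τ (L ++ L2) x
    have h1 := S.pi1_le_one μ τ (L ++ L2) x
    exact add_le_add (mul_le_mul_of_nonneg_left (ih x) (by linarith))
      (mul_le_mul_of_nonneg_left (ih _) h0)

theorem Ex_one (L1 L2 : List (ℝ × Ω)) (x : 𝒩) : S.Ex L1 L2 (fun _ => 1) x = 1 := by
  induction L1 generalizing x with
  | nil => rfl
  | cons s L ih =>
    obtain ⟨μ, τ⟩ := s
    rw [Ex_cons, ih, ih]
    ring

/-- The path expectation as a `PE`. -/
noncomputable def exPE (L1 L2 : List (ℝ × Ω)) (x : 𝒩) : PE 𝒩 where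
  E f := S.Ex L1 L2 f x
  add' f g := S.Ex_add L1 L2 f g x
  smul' c f := S.Ex_smul L1 L2 c f x
  mono' _ _ h := S.Ex_mono L1 L2 h x
  one' := S.Ex_one L1 L2 x

theorem exPE_E (L1 L2 : List (ℝ × Ω)) (x : 𝒩) (f : 𝒩 → ℝ) :
    (S.exPE L1 L2 x).E f = S.Ex L1 L2 f x := rfl

theorem Ex_append (L1 L1' L2 : List (ℝ × Ω)) (f : 𝒩 → ℝ) (x : 𝒩) :
    S.Ex (L1 ++ L1') L2 f x = S.Ex L1 (L1' ++ L2) (S.Ex L1' L2 f) x := by
  induction L1 generalizing x with
  | nil => rfl
  | cons s L ih =>
    obtain ⟨μ, τ⟩ := s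
    rw [List.cons_append, Ex_cons, Ex_cons, ih, ih, List.append_assoc]

/-! ### Identities of section 0 of the note -/

theorem exp_lam_cons {μ : ℝ} (hμ : 0 < μ) (τ : Ω) (L : List (ℝ × Ω)) (x : 𝒩) :
    Real.exp (μ * S.lam ((μ, τ) :: L) x) =
      (Real.exp (μ * S.lam L x) + Real.exp (μ * S.lam L (S.act τ x))) / 2 := by
  have h : 0 < (Real.exp (μ * S.lam L x) + Real.exp (μ * S.lam L (S.act τ x))) / 2 := by
    positivity
  rw [lam_cons, ← mul_assoc, mul_one_div_cancel hμ.ne', one_mul, Real.exp_log h]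

theorem lamstep_le {μ D a b c d : ℝ} (hμ : 0 < μ) (hab : a ≤ b + D) (hcd : c ≤ d + D) :
    (1 / μ) * Real.log ((Real.exp (μ * a) + Real.exp (μ * c)) / 2) ≤
      (1 / μ) * Real.log ((Real.exp (μ * b) + Real.exp (μ * d)) / 2) + D := by
  have e1 : Real.exp (μ * a) ≤ Real.exp (μ * D) * Real.exp (μ * b) := by
    rw [← Real.exp_add]
    apply Real.exp_le_exp.2
    nlinarith only [hμ, hab]
  have e2 : Real.exp (μ * c) ≤ Real.exp (μ * D) * Real.exp (μ * d) := by
    rw [← Real.exp_add]
    apply Real.exp_le_exp.2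
    nlinarith only [hμ, hcd]
  have h1 : (Real.exp (μ * a) + Real.exp (μ * c)) / 2 ≤
      Real.exp (μ * D) * ((Real.exp (μ * b) + Real.exp (μ * d)) / 2) := by linarith only [e1, e2]
  have h2 := Real.log_le_log (by positivity) h1
  rw [Real.log_mul (by positivity) (by positivity), Real.log_exp] at h2
  calc _ ≤ (1 / μ) * (μ * D + Real.log ((Real.exp (μ * b) + Real.exp (μ * d)) / 2)) :=
        mul_le_mul_of_nonneg_left h2 (by positivity)
    _ = _ := by field_simp; ring

theorem Pos_tail {s : ℝ × Ω} {L : List (ℝ × Ω)} (h : Pos (s :: L)) : Pos L :=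
  fun t ht => h t (List.mem_cons_of_mem _ ht)

theorem Pos_head {s : ℝ × Ω} {L : List (ℝ × Ω)} (h : Pos (s :: L)) : 0 < s.1 ∧ s.1 ≤ 1 :=
  h s List.mem_cons_self

/-- One action changes `lam` by at most `M`. -/
theorem abs_val_le {L : List (ℝ × Ω)} (hL : Pos L) (τ : Ω) (x : 𝒩) : |S.val L τ x| ≤ S.M := by
  unfold val
  induction L generalizing x with
  | nil => exact S.bd τ x
  | cons s L ih =>
    obtain ⟨μ, τ'⟩ := s
    have hμ : 0 < μ := (Pos_head hL).1
    have a1 := abs_le.1 (ih (Pos_tail hL) x)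
    have a2 := abs_le.1 (ih (Pos_tail hL) (S.act τ' x))
    rw [lam_cons, lam_cons, S.comm τ' τ x, abs_le]
    constructor
    · have := lamstep_le (a := S.lam L x) (b := S.lam L (S.act τ x)) (D := S.M)
        (c := S.lam L (S.act τ' x)) (d := S.lam L (S.act τ (S.act τ' x))) hμ
        (by linarith) (by linarith)
      linarith
    · have := lamstep_le (a := S.lam L (S.act τ x)) (b := S.lam L x) (D := S.M)
        (c := S.lam L (S.act τ (S.act τ' x))) (d := S.lam L (S.act τ' x)) hμ
        (by linarith) (by linarith)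
      linarith

/-- One more slot changes `lam` by at most `M`. -/
theorem lam_cons_near {μ : ℝ} (hμ : 0 < μ) {L : List (ℝ × Ω)} (hL : Pos L) (τ : Ω) (x : 𝒩) :
    |S.lam ((μ, τ) :: L) x - S.lam L x| ≤ S.M := by
  have h := abs_le.1 (S.abs_val_le hL τ x)
  unfold val at h
  have hM := S.M_nonneg
  have e := S.exp_lam_cons hμ τ L x
  have up : Real.exp (μ * S.lam ((μ, τ) :: L) x) ≤ Real.exp (μ * (S.lam L x + S.M)) := by
    rw [e]
    have h1 := Real.exp_le_exp.2 (mul_le_mul_of_nonneg_left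
      (show S.lam L x ≤ S.lam L x + S.M by linarith only [h]) hμ.le)
    have h2 := Real.exp_le_exp.2 (mul_le_mul_of_nonneg_left
      (show S.lam L (S.act τ x) ≤ S.lam L x + S.M by linarith only [h]) hμ.le)
    linarith only [h1, h2]
  have lo : Real.exp (μ * (S.lam L x - S.M)) ≤ Real.exp (μ * S.lam ((μ, τ) :: L) x) := by
    rw [e]
    have h1 := Real.exp_le_exp.2 (mul_le_mul_of_nonneg_left
      (show S.lam L x - S.M ≤ S.lam L x by linarith only [h]) hμ.le)
    have h2 := Real.exp_le_exp.2 (mul_le_mul_of_nonneg_left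
      (show S.lam L x - S.M ≤ S.lam L (S.act τ x) by linarith only [h]) hμ.le)
    linarith only [h1, h2]
  rw [Real.exp_le_exp, mul_le_mul_iff_right₀ hμ] at up lo
  rw [abs_le]
  constructor <;> linarith

/-- Uniformly close tails give uniformly close functionals. -/
theorem lam_append_near {L1 L2 L2' : List (ℝ × Ω)} (h1 : Pos L1) {D : ℝ}
    (hD : ∀ x, |S.lam L2' x - S.lam L2 x| ≤ D) (x : 𝒩) :
    |S.lam (L1 ++ L2') x - S.lam (L1 ++ L2) x| ≤ D := by
  induction L1 generalizing x with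
  | nil => exact hD x
  | cons s L ih =>
    obtain ⟨μ, τ⟩ := s
    have hμ : 0 < μ := (Pos_head h1).1
    have a1 := abs_le.1 (ih (Pos_tail h1) x)
    have a2 := abs_le.1 (ih (Pos_tail h1) (S.act τ x))
    rw [List.cons_append, List.cons_append, lam_cons, lam_cons, abs_le]
    constructor
    · have := lamstep_le (a := S.lam (L ++ L2) x) (b := S.lam (L ++ L2') x) (D := D)
        (c := S.lam (L ++ L2) (S.act τ x)) (d := S.lam (L ++ L2') (S.act τ x)) hμ
        (by linarith) (by linarith)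
      linarith
    · have := lamstep_le (a := S.lam (L ++ L2') x) (b := S.lam (L ++ L2) x) (D := D)
        (c := S.lam (L ++ L2') (S.act τ x)) (d := S.lam (L ++ L2) (S.act τ x)) hμ
        (by linarith) (by linarith)
      linarith only [this]

/-- `|lam L - base| ≤ |L| M`. -/
theorem lam_base_near {L : List (ℝ × Ω)} (hL : Pos L) (x : 𝒩) :
    |S.lam L x - S.base x| ≤ L.length * S.M := by
  induction L with
  | nil => simp [lam_nil]
  | cons s L ih =>
    obtain ⟨μ, τ⟩ := s
    have h1 := S.lam_cons_near (Pos_head hL).1 (Pos_tail hL) τ x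
    have h2 := ih (Pos_tail hL)
    calc |S.lam ((μ, τ) :: L) x - S.base x|
        = |(S.lam ((μ, τ) :: L) x - S.lam L x) + (S.lam L x - S.base x)| := by
          congr 1; ring
      _ ≤ |S.lam ((μ, τ) :: L) x - S.lam L x| + |S.lam L x - S.base x| := abs_add_le _ _
      _ ≤ S.M + L.length * S.M := add_le_add h1 h2
      _ = ((μ, τ) :: L).length * S.M := by
          rw [List.length_cons]
          push_cast
          ring

/-- (0.3) Moving the last slot of a block to the front. -/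
theorem exp_lam_snoc {μ : ℝ} (hμ : 0 < μ) (l : List Ω) (τ : Ω) (L : List (ℝ × Ω)) (x : 𝒩) :
    Real.exp (μ * S.lam (blk μ l ++ (μ, τ) :: L) x) =
      (Real.exp (μ * S.lam (blk μ l ++ L) x) +
        Real.exp (μ * S.lam (blk μ l ++ L) (S.act τ x))) / 2 := by
  induction l generalizing x with
  | nil => exact S.exp_lam_cons hμ τ L x
  | cons t l ih =>
    rw [blk_cons, List.cons_append, List.cons_append, S.exp_lam_cons hμ, S.exp_lam_cons hμ,
      S.exp_lam_cons hμ, ih, ih, S.comm t τ x]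
    ring

/-- (0.1) The value recursion along a block of constant power. -/
theorem exp_val_block {μ : ℝ} (hμ : 0 < μ) (l : List Ω) (L : List (ℝ × Ω)) (τ : Ω) (x : 𝒩) :
    Real.exp (μ * S.val (blk μ l ++ L) τ x) =
      S.Ex (blk μ l) L (fun y => Real.exp (μ * S.val L τ y)) x := by
  induction l generalizing x with
  | nil => rfl
  | cons t l ih =>
    rw [blk_cons, Ex_cons, ← ih, ← ih, pi1]
    unfold val
    rw [List.cons_append, mul_sub, Real.exp_sub, S.exp_lam_cons hμ, S.exp_lam_cons hμ,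
      S.comm t τ x, mul_sub, mul_sub, Real.exp_sub, Real.exp_sub]
    have e1 := Real.exp_pos (μ * S.lam (blk μ l ++ L) x)
    have e2 := Real.exp_pos (μ * S.lam (blk μ l ++ L) (S.act t x))
    field_simp
    ring

/-- (0.2) Change of measure under an insertion. -/
theorem Ex_act {μ : ℝ} (hμ : 0 < μ) (l : List Ω) (L : List (ℝ × Ω)) (τ : Ω) (f : 𝒩 → ℝ) (x : 𝒩) :
    Real.exp (μ * S.val (blk μ l ++ L) τ x) * S.Ex (blk μ l) L f (S.act τ x) =
      S.Ex (blk μ l) L (fun y => f (S.act τ y) * Real.exp (μ * S.val L τ y)) x := by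
  induction l generalizing x with
  | nil => exact mul_comm _ _
  | cons t l ih =>
    rw [blk_cons, Ex_cons, Ex_cons, ← ih, ← ih, pi1, pi1]
    unfold val
    rw [List.cons_append, mul_sub, Real.exp_sub, S.exp_lam_cons hμ, S.exp_lam_cons hμ,
      S.comm t τ x, mul_sub, mul_sub, Real.exp_sub, Real.exp_sub]
    have e1 := Real.exp_pos (μ * S.lam (blk μ l ++ L) x)
    have e2 := Real.exp_pos (μ * S.lam (blk μ l ++ L) (S.act t x))
    have e3 := Real.exp_pos (μ * S.lam (blk μ l ++ L) (S.act τ x))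
    have e4 := Real.exp_pos (μ * S.lam (blk μ l ++ L) (S.act τ (S.act t x)))
    field_simp
    ring

/-- The probability of the outcome `1` of the last slot of a block is harmonic. -/
theorem Ex_pi1 {μ : ℝ} (hμ : 0 < μ) (l : List Ω) (L : List (ℝ × Ω)) (τ : Ω) (x : 𝒩) :
    S.Ex (blk μ l) ((μ, τ) :: L) (S.pi1 μ τ L) x = S.pi1 μ τ (blk μ l ++ L) x := by
  induction l generalizing x with
  | nil => rfl
  | cons t l ih =>
    rw [blk_cons, Ex_cons, ih, ih, pi1, pi1, pi1, pi1]
    rw [S.exp_lam_snoc hμ, S.exp_lam_snoc hμ, List.cons_append, S.exp_lam_cons hμ,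
      S.exp_lam_cons hμ, S.comm t τ x]
    have e1 := Real.exp_pos (μ * S.lam (blk μ l ++ L) x)
    have e2 := Real.exp_pos (μ * S.lam (blk μ l ++ L) (S.act t x))
    have e3 := Real.exp_pos (μ * S.lam (blk μ l ++ L) (S.act τ x))
    have e4 := Real.exp_pos (μ * S.lam (blk μ l ++ L) (S.act τ (S.act t x)))
    field_simp
    ring

theorem Ex_compare_aux {D : ℝ} (L1 L2 L2' : List (ℝ × Ω)) (hL : Pos L1)
    (hs : L1.Pairwise fun a b => a.1 ≤ b.1)
    (hD : ∀ x, |S.lam L2' x - S.lam L2 x| ≤ D)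
    {f : 𝒩 → ℝ} (hf : ∀ x, 0 ≤ f x) (ν : ℝ) (hν0 : 0 ≤ ν) (hν1 : ν ≤ 1)
    (hν : ∀ s ∈ L1, ν ≤ s.1) (x : 𝒩) :
    S.Ex L1 L2' f x ≤ Real.exp (D * (2 - ν) -
      ν * (S.lam (L1 ++ L2') x - S.lam (L1 ++ L2) x)) * S.Ex L1 L2 f x := by
  induction L1 generalizing x ν with
  | nil =>
    rw [Ex_nil, Ex_nil, List.nil_append, List.nil_append]
    have h := abs_le.1 (hD x)
    have hD0 : 0 ≤ D := (abs_nonneg _).trans (hD x)
    have : (1:ℝ) ≤ Real.exp (D * (2 - ν) - ν * (S.lam L2' x - S.lam L2 x)) := by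
      rw [← Real.exp_zero]
      apply Real.exp_le_exp.2
      nlinarith
    nlinarith only [this, hf x]
  | cons s L ih =>
    obtain ⟨μ, τ⟩ := s
    have hμ := Pos_head hL
    simp only at hμ
    have hs' := List.pairwise_cons.1 hs
    have ih' := ih (Pos_tail hL) hs'.2 μ hμ.1.le hμ.2 (fun s hs => hs'.1 s hs)
    have hr := abs_le.1 (S.lam_append_near hL hD x)
    have hνμ : ν ≤ μ := hν (μ, τ) List.mem_cons_self
    have hEx : 0 ≤ S.Ex ((μ, τ) :: L) L2 f x := (S.exPE ((μ, τ) :: L) L2 x).nonneg hf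
    have step1 : S.Ex ((μ, τ) :: L) L2' f x ≤ Real.exp (D * (2 - μ) -
        μ * (S.lam (((μ, τ) :: L) ++ L2') x - S.lam (((μ, τ) :: L) ++ L2) x)) *
        S.Ex ((μ, τ) :: L) L2 f x := by
      have b1 : ∀ y, Real.exp (μ * S.lam (L ++ L2') y) * S.Ex L L2' f y ≤
          Real.exp (D * (2 - μ)) * (Real.exp (μ * S.lam (L ++ L2) y) * S.Ex L L2 f y) := by
        intro y
        calc _ ≤ Real.exp (μ * S.lam (L ++ L2') y) * (Real.exp (D * (2 - μ) -
              μ * (S.lam (L ++ L2') y - S.lam (L ++ L2) y)) * S.Ex L L2 f y) :=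
              mul_le_mul_of_nonneg_left (ih' y) (Real.exp_pos _).le
          _ = _ := by
              rw [← mul_assoc, ← mul_assoc, ← Real.exp_add, ← Real.exp_add]
              congr 2
              ring
      have e0 : ∀ K : List (ℝ × Ω), Real.exp (μ * S.lam (L ++ K) x) +
          Real.exp (μ * S.lam (L ++ K) (S.act τ x)) =
          2 * Real.exp (μ * S.lam (((μ, τ) :: L) ++ K) x) := by
        intro K
        rw [List.cons_append, S.exp_lam_cons hμ.1]
        ring
      have e5 : ∀ K : List (ℝ × Ω), S.Ex ((μ, τ) :: L) K f x =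
          (Real.exp (μ * S.lam (L ++ K) x) * S.Ex L K f x +
            Real.exp (μ * S.lam (L ++ K) (S.act τ x)) * S.Ex L K f (S.act τ x)) /
          (2 * Real.exp (μ * S.lam (((μ, τ) :: L) ++ K) x)) := by
        intro K
        rw [← e0 K, Ex_cons, pi1]
        have e1 := Real.exp_pos (μ * S.lam (L ++ K) x)
        have e2 := Real.exp_pos (μ * S.lam (L ++ K) (S.act τ x))
        field_simp
        ring
      rw [e5, e5, div_le_iff₀ (by positivity)]
      refine (add_le_add (b1 x) (b1 (S.act τ x))).trans (le_of_eq ?_)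
      have h3 : Real.exp (D * (2 - μ) - μ * (S.lam (((μ, τ) :: L) ++ L2') x -
          S.lam (((μ, τ) :: L) ++ L2) x)) =
          Real.exp (D * (2 - μ)) * (Real.exp (μ * S.lam (((μ, τ) :: L) ++ L2) x) /
            Real.exp (μ * S.lam (((μ, τ) :: L) ++ L2') x)) := by
        rw [← Real.exp_sub, ← Real.exp_add]
        congr 1
        ring
      rw [h3]
      have p1 := Real.exp_pos (μ * S.lam (((μ, τ) :: L) ++ L2) x)
      have p2 := Real.exp_pos (μ * S.lam (((μ, τ) :: L) ++ L2') x)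
      (clear * -; field_simp)
    refine step1.trans ?_
    gcongr ?_ * _
    apply Real.exp_le_exp.2
    nlinarith only [hr, hνμ]

/-- (0.4) Comparison of path laws. -/
theorem Ex_compare {L1 L2 L2' : List (ℝ × Ω)} (hL : Good L1) {D : ℝ}
    (hD : ∀ x, |S.lam L2' x - S.lam L2 x| ≤ D) {f : 𝒩 → ℝ} (hf : ∀ y, 0 ≤ f y) (x : 𝒩) :
    S.Ex L1 L2' f x ≤ Real.exp (2 * D) * S.Ex L1 L2 f x := by
  have h := S.Ex_compare_aux L1 L2 L2' hL.1 hL.2 hD hf 0 le_rfl zero_le_one
    (fun s hs => (hL.1 s hs).1.le) x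
  have e : D * (2 - 0) - 0 * (S.lam (L1 ++ L2') x - S.lam (L1 ++ L2) x) = 2 * D := by
    ring
  rwa [e] at h

/-- Lower bound on the probability of each outcome: `c₀ = 1/(1+e^M)`. -/
theorem pi1_lower {μ : ℝ} (hμ : 0 < μ) (hμ1 : μ ≤ 1) (τ : Ω) {L : List (ℝ × Ω)} (hL : Pos L)
    (x : 𝒩) : 1 / (1 + Real.exp S.M) ≤ S.pi1 μ τ L x := by
  have h := abs_le.1 (S.abs_val_le hL τ x)
  unfold val at h
  have hM := S.M_nonneg
  unfold pi1
  have p1 := Real.exp_pos (μ * S.lam L x)
  have p2 := Real.exp_pos (μ * S.lam L (S.act τ x))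
  have p3 := Real.exp_pos S.M
  rw [div_le_div_iff₀ (by positivity) (by positivity), one_mul]
  have key : Real.exp (μ * S.lam L x) ≤ Real.exp (μ * S.lam L (S.act τ x)) * Real.exp S.M := by
    rw [← Real.exp_add]
    apply Real.exp_le_exp.2
    nlinarith only [h, hμ, hμ1]
  linarith

theorem pi1_upper {μ : ℝ} (hμ : 0 < μ) (hμ1 : μ ≤ 1) (τ : Ω) {L : List (ℝ × Ω)} (hL : Pos L)
    (x : 𝒩) : S.pi1 μ τ L x ≤ 1 - 1 / (1 + Real.exp S.M) := by
  have h := abs_le.1 (S.abs_val_le hL τ x)
  unfold val at h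
  have hM := S.M_nonneg
  unfold pi1
  have p1 := Real.exp_pos (μ * S.lam L x)
  have p2 := Real.exp_pos (μ * S.lam L (S.act τ x))
  have p3 := Real.exp_pos S.M
  have e : 1 - 1 / (1 + Real.exp S.M) = Real.exp S.M / (1 + Real.exp S.M) := by
    field_simp
    ring
  rw [e, div_le_div_iff₀ (by positivity) (by positivity)]
  have key : Real.exp (μ * S.lam L (S.act τ x)) ≤ Real.exp S.M * Real.exp (μ * S.lam L x) := by
    rw [← Real.exp_add]
    apply Real.exp_le_exp.2
    nlinarith only [h, hμ, hμ1]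
  nlinarith only [key]

/-- `π₁ = a / (1 + a)` with `a = exp (μ val)`. -/
theorem pi1_eq (μ : ℝ) (τ : Ω) (L : List (ℝ × Ω)) (x : 𝒩) :
    S.pi1 μ τ L x = Real.exp (μ * S.val L τ x) / (1 + Real.exp (μ * S.val L τ x)) := by
  unfold pi1 val
  rw [mul_sub, Real.exp_sub]
  have h1 := Real.exp_pos (μ * S.lam L x)
  have h2 := Real.exp_pos (μ * S.lam L (S.act τ x))
  field_simp

end Slots

end Vale.Agent.N168I.MP
end
end

section

section

set_option autoImplicit false

open Finset

namespace Vale.Agent.N168I.MP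

/-! ### Random blocks -/

/-- A block of `n` slots together with a position `k ∈ {0, …, n}`. -/
abbrev Blk (n : ℕ) (Ω : Type) : Type := Fin (n + 1) × (Fin n → Ω)

namespace Blk

variable {n : ℕ} {Ω : Type}

/-- The slots before the position. -/
def pre (b : Blk n Ω) : List Ω := (List.ofFn b.2).take b.1

/-- The slots after the position. -/
def suf (b : Blk n Ω) : List Ω := (List.ofFn b.2).drop b.1

theorem pre_append_suf (b : Blk n Ω) : b.pre ++ b.suf = List.ofFn b.2 :=
  List.take_append_drop _ _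

end Blk

theorem take_insertNth {n : ℕ} {Ω : Type} (i : Fin (n + 1)) (τ : Ω) (l : Fin n → Ω) :
    (List.ofFn (Fin.insertNth (α := fun _ => Ω) i τ l)).take i = (List.ofFn l).take i := by
  apply List.ext_getElem
  · simp only [List.length_take, List.length_ofFn]
    omega
  · intro j h1 h2
    simp only [List.length_take, List.length_ofFn] at h1 h2
    have hj : j < (i : ℕ) := by omega
    simp only [List.getElem_take, List.getElem_ofFn]
    rw [Fin.insertNth_apply_below (i := i) (j := ⟨j, by omega⟩) (by simpa [Fin.lt_def] using hj)]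
    simp only [eq_rec_constant]
    rfl

theorem drop_insertNth {n : ℕ} {Ω : Type} (i : Fin (n + 1)) (τ : Ω) (l : Fin n → Ω) :
    (List.ofFn (Fin.insertNth (α := fun _ => Ω) i τ l)).drop (i + 1) =
      (List.ofFn l).drop i := by
  apply List.ext_getElem
  · simp only [List.length_drop, List.length_ofFn]
    omega
  · intro j h1 h2
    simp only [List.length_drop, List.length_ofFn] at h1 h2
    simp only [List.getElem_drop, List.getElem_ofFn]
    rw [Fin.insertNth_apply_above (i := i) (j := ⟨i + 1 + j, by omega⟩)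
      (by simp [Fin.lt_def]; omega)]
    simp only [eq_rec_constant]
    congr 1
    ext
    simp only [Fin.val_pred]
    omega

/-- A uniform list of `n + 1` slots with a uniform marked slot, versus a uniform block of `n` slots
with a uniform position and a uniform extra slot. -/
theorem avg_insert {n : ℕ} {Ω : Type} [Fintype Ω] [Nonempty Ω]
    (F : List Ω → Ω → List Ω → ℝ) :
    (PE.unif (Fin (n + 1) → Ω)).E (fun l => ∑ i : Fin (n + 1),
      F ((List.ofFn l).take i) (l i) ((List.ofFn l).drop (i + 1))) =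
    (n + 1) * (PE.unif (Blk n Ω)).E fun b => (PE.unif Ω).E fun τ => F b.pre τ b.suf := by
  have hΩ : (Fintype.card Ω : ℝ) ≠ 0 := by exact_mod_cast Fintype.card_ne_zero
  have hn : ((n : ℝ) + 1) ≠ 0 := by positivity
  simp only [PE.unif_E]
  rw [Finset.sum_comm]
  have h1 : ∀ i : Fin (n + 1), ∑ l : Fin (n + 1) → Ω,
      F ((List.ofFn l).take i) (l i) ((List.ofFn l).drop (i + 1)) =
      ∑ l' : Fin n → Ω, ∑ τ : Ω, F ((List.ofFn l').take i) τ ((List.ofFn l').drop i) := by
    intro i
    rw [← (Fin.insertNthEquiv (fun _ => Ω) i).sum_comp, Fintype.sum_prod_type, Finset.sum_comm]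
    refine Finset.sum_congr rfl fun l' _ => Finset.sum_congr rfl fun τ _ => ?_
    have hins : (Fin.insertNthEquiv (fun _ => Ω) i) (τ, l') =
        Fin.insertNth (α := fun _ => Ω) i τ l' := rfl
    rw [hins, take_insertNth, drop_insertNth, Fin.insertNth_apply_same]
  simp_rw [h1]
  have h2 : (∑ b : Blk n Ω, (∑ τ, F b.pre τ b.suf) / (Fintype.card Ω : ℝ)) =
      (∑ i : Fin (n + 1), ∑ l' : Fin n → Ω, ∑ τ : Ω,
        F ((List.ofFn l').take i) τ ((List.ofFn l').drop i)) / (Fintype.card Ω : ℝ) := by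
    rw [Fintype.sum_prod_type, Finset.sum_div]
    refine Finset.sum_congr rfl fun i _ => ?_
    rw [Finset.sum_div]
    rfl
  rw [h2]
  simp only [Fintype.card_fun, Fintype.card_fin, Fintype.card_prod, Nat.cast_pow, Nat.cast_mul,
    Nat.cast_add, Nat.cast_one]
  field_simp
  ring

namespace Slots

variable {𝒩 Ω : Type} (S : Slots 𝒩 Ω)

/-- Constant `e^{2M} (1 + e^M)^2` of the potential argument. -/
noncomputable def Cpot : ℝ := Real.exp (2 * S.M) * (1 + Real.exp S.M) ^ 2

/-- Martingale identity along a block. -/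
theorem Ex_sq {μ : ℝ} (l : List Ω) (L : List (ℝ × Ω)) (f : 𝒩 → ℝ) (x : 𝒩) :
    S.Ex (blk μ l) L (fun y => f y ^ 2) x = S.Ex (blk μ l) L f x ^ 2 +
      ∑ i : Fin l.length, S.Ex (blk μ (l.take i)) (blk μ (l.drop i) ++ L) (fun y =>
        S.pi1 μ (l.get i) (blk μ (l.drop (i + 1)) ++ L) y *
          (1 - S.pi1 μ (l.get i) (blk μ (l.drop (i + 1)) ++ L) y) *
          (S.Ex (blk μ (l.drop (i + 1))) L f (S.act (l.get i) y) -
            S.Ex (blk μ (l.drop (i + 1))) L f y) ^ 2) x := by
  induction l generalizing x with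
  | nil => simp only [blk_nil, Ex_nil, List.length_nil, univ_eq_empty, List.take_nil, List.drop_nil, List.nil_append, List.get_eq_getElem, sum_empty, add_zero]
  | cons a l ih =>
    rw [blk_cons, Ex_cons, ih, ih, Ex_cons]
    simp only [List.length_cons]
    rw [Fin.sum_univ_succ]
    simp only [Fin.val_zero, List.take_zero, List.drop_zero, blk_nil, Ex_nil, List.get_eq_getElem,
      List.getElem_cons_zero, zero_add, List.drop_succ_cons, Fin.val_succ, List.take_succ_cons,
      List.getElem_cons_succ, blk_cons, Ex_cons]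
    have e : ∀ i : Fin l.length, blk μ (l.take i) ++ (blk μ (l.drop i) ++ L) = blk μ l ++ L := by
      intro i
      rw [← List.append_assoc, ← blk_append, List.take_append_drop]
    simp only [e]
    rw [Finset.sum_add_distrib, ← Finset.mul_sum, ← Finset.mul_sum]
    ring

/-- The potential argument (Lemma 4.1) for a fixed list `l` of slots of power `μ` between `L0` and
`L2`: for `|f| ≤ 1` the total effect of inserting the slots of `l`, one at a time, is bounded. The
path law is the one of the structure in which the slot `i` is removed. -/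
theorem potential {μ : ℝ} (L0 L2 : List (ℝ × Ω)) (l : List Ω)
    (hG : Good (L0 ++ (blk μ l ++ L2))) {f : 𝒩 → ℝ} (hf : ∀ y, |f y| ≤ 1) (x : 𝒩) :
    ∑ i : Fin l.length, S.Ex (L0 ++ blk μ (l.take i)) (blk μ (l.drop (i + 1)) ++ L2)
      (fun y => (S.Ex (blk μ (l.drop (i + 1))) L2 f (S.act (l.get i) y) -
        S.Ex (blk μ (l.drop (i + 1))) L2 f y) ^ 2) x ≤ S.Cpot := by
  have hc : 0 < 1 + Real.exp S.M := by positivity
  have hPos : ∀ i : Fin l.length, 0 < μ ∧ μ ≤ 1 := by
    intro i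
    exact hG.1 (μ, l.get i) (by simp only [blk, List.get_eq_getElem, List.mem_append, List.mem_map, Prod.mk.injEq, true_and, exists_eq_right, List.getElem_mem, true_or, or_true])
  -- the total of the increments along the block
  have h1 : ∀ y, ∑ i : Fin l.length, S.Ex (blk μ (l.take i)) (blk μ (l.drop i) ++ L2) (fun y =>
        S.pi1 μ (l.get i) (blk μ (l.drop (i + 1)) ++ L2) y *
          (1 - S.pi1 μ (l.get i) (blk μ (l.drop (i + 1)) ++ L2) y) *
          (S.Ex (blk μ (l.drop (i + 1))) L2 f (S.act (l.get i) y) -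
            S.Ex (blk μ (l.drop (i + 1))) L2 f y) ^ 2) y ≤ 1 := by
    intro y
    have h := S.Ex_sq (μ := μ) l L2 f y
    have h2 : S.Ex (blk μ l) L2 (fun y => f y ^ 2) y ≤ 1 := by
      refine ((S.exPE (blk μ l) L2 y).le_const (c := 1) fun z => ?_)
      have := abs_le.1 (hf z)
      nlinarith only [this]
    nlinarith only [h, h2]
  have e : ∀ i : Fin l.length, blk μ (l.take i) ++ (blk μ (l.drop i) ++ L2) = blk μ l ++ L2 := by
    intro i
    rw [← List.append_assoc, ← blk_append, List.take_append_drop]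
  have h2 : ∑ i : Fin l.length, S.Ex (L0 ++ blk μ (l.take i)) (blk μ (l.drop i) ++ L2) (fun y =>
        S.pi1 μ (l.get i) (blk μ (l.drop (i + 1)) ++ L2) y *
          (1 - S.pi1 μ (l.get i) (blk μ (l.drop (i + 1)) ++ L2) y) *
          (S.Ex (blk μ (l.drop (i + 1))) L2 f (S.act (l.get i) y) -
            S.Ex (blk μ (l.drop (i + 1))) L2 f y) ^ 2) x ≤ 1 := by
    simp only [Ex_append, e]
    have := (S.exPE L0 (blk μ l ++ L2) x).le_const h1
    rw [PE.sum] at this
    exact this
  have key : ∀ i : Fin l.length,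
      S.Ex (L0 ++ blk μ (l.take i)) (blk μ (l.drop (i + 1)) ++ L2)
        (fun y => (S.Ex (blk μ (l.drop (i + 1))) L2 f (S.act (l.get i) y) -
          S.Ex (blk μ (l.drop (i + 1))) L2 f y) ^ 2) x ≤
      S.Cpot * S.Ex (L0 ++ blk μ (l.take i)) (blk μ (l.drop i) ++ L2) (fun y =>
        S.pi1 μ (l.get i) (blk μ (l.drop (i + 1)) ++ L2) y *
          (1 - S.pi1 μ (l.get i) (blk μ (l.drop (i + 1)) ++ L2) y) *
          (S.Ex (blk μ (l.drop (i + 1))) L2 f (S.act (l.get i) y) -
            S.Ex (blk μ (l.drop (i + 1))) L2 f y) ^ 2) x := by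
    intro i
    obtain ⟨hμ, hμ1⟩ := hPos i
    have hGood0 : Good (L0 ++ blk μ (l.take i)) := by
      have hsub : (L0 ++ blk μ (l.take i)).Sublist (L0 ++ (blk μ l ++ L2)) := by
        refine List.Sublist.append_left ?_ L0
        exact ((List.take_sublist _ _).map _).trans (List.sublist_append_left _ _)
      exact ⟨fun s hs => hG.1 s (hsub.subset hs), hG.2.sublist hsub⟩
    have hPos1 : Pos (blk μ (l.drop (i + 1)) ++ L2) := by
      have hsub : (blk μ (l.drop (i + 1)) ++ L2).Sublist (L0 ++ (blk μ l ++ L2)) := by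
        refine List.Sublist.trans ?_ (List.sublist_append_right _ _)
        exact ((List.drop_sublist _ _).map _).append (List.Sublist.refl _)
      exact fun s hs => hG.1 s (hsub.subset hs)
    have hdrop : l.drop i = l.get i :: l.drop (i + 1) := by
      rw [List.get_eq_getElem]
      exact List.drop_eq_getElem_cons i.2
    have hcmp := S.Ex_compare (L1 := L0 ++ blk μ (l.take i)) (L2 := blk μ (l.drop i) ++ L2)
      (L2' := blk μ (l.drop (i + 1)) ++ L2) hGood0 (D := S.M) (fun y => by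
        rw [hdrop, blk_cons, List.cons_append, abs_sub_comm]
        exact S.lam_cons_near hμ hPos1 _ y)
      (f := fun y => (S.Ex (blk μ (l.drop (i + 1))) L2 f (S.act (l.get i) y) -
        S.Ex (blk μ (l.drop (i + 1))) L2 f y) ^ 2) (fun y => sq_nonneg _) x
    refine hcmp.trans ?_
    unfold Cpot
    rw [mul_assoc]
    refine mul_le_mul_of_nonneg_left ?_ (Real.exp_pos _).le
    rw [← Ex_smul]
    refine S.Ex_mono _ _ (fun y => ?_) x
    have p1 := S.pi1_lower hμ hμ1 (l.get i) hPos1 y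
    have p2 := S.pi1_upper hμ hμ1 (l.get i) hPos1 y
    have hprod : (1 / (1 + Real.exp S.M)) * (1 / (1 + Real.exp S.M)) ≤
        S.pi1 μ (l.get i) (blk μ (l.drop (i + 1)) ++ L2) y *
          (1 - S.pi1 μ (l.get i) (blk μ (l.drop (i + 1)) ++ L2) y) :=
      mul_le_mul p1 (by linarith only [p2]) (by positivity) (le_trans (by positivity) p1)
    have hone : 1 ≤ (1 + Real.exp S.M) ^ 2 *
        (S.pi1 μ (l.get i) (blk μ (l.drop (i + 1)) ++ L2) y *
          (1 - S.pi1 μ (l.get i) (blk μ (l.drop (i + 1)) ++ L2) y)) := by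
      have := mul_le_mul_of_nonneg_left hprod (sq_nonneg (1 + Real.exp S.M))
      refine le_trans (le_of_eq ?_) this
      field_simp
    calc _ = 1 * _ := (one_mul _).symm
      _ ≤ _ := mul_le_mul_of_nonneg_right hone (sq_nonneg _)
      _ = _ := by ring
  have hCpos : 0 ≤ S.Cpot := by unfold Cpot; positivity
  refine (Finset.sum_le_sum fun i _ => key i).trans ?_
  rw [← Finset.mul_sum]
  calc _ ≤ S.Cpot * 1 := mul_le_mul_of_nonneg_left h2 hCpos
    _ = _ := mul_one _

variable [Fintype Ω] [Nonempty Ω]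

/-- (4.1): a random insertion at a random position of a random block changes conditional
expectations very little. -/
theorem potential_avg {n : ℕ} {μ : ℝ} (L0 L2 : List (ℝ × Ω))
    (hG : ∀ l : List Ω, Good (L0 ++ (blk μ l ++ L2))) {f : 𝒩 → ℝ} (hf : ∀ y, |f y| ≤ 1) (x : 𝒩) :
    ((PE.unif (Blk n Ω)).E fun b => (PE.unif Ω).E fun τ =>
      S.Ex (L0 ++ blk μ b.pre) (blk μ b.suf ++ L2) (fun y =>
        (S.Ex (blk μ b.suf) L2 f (S.act τ y) - S.Ex (blk μ b.suf) L2 f y) ^ 2) x) ≤
      S.Cpot / (n + 1) := by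
  have h := avg_insert (n := n) (Ω := Ω) (fun pre τ suf =>
    S.Ex (L0 ++ blk μ pre) (blk μ suf ++ L2) (fun y =>
      (S.Ex (blk μ suf) L2 f (S.act τ y) - S.Ex (blk μ suf) L2 f y) ^ 2) x)
  have h2 : (PE.unif (Fin (n + 1) → Ω)).E (fun l => ∑ i : Fin (n + 1),
      S.Ex (L0 ++ blk μ ((List.ofFn l).take i)) (blk μ ((List.ofFn l).drop (i + 1)) ++ L2)
        (fun y => (S.Ex (blk μ ((List.ofFn l).drop (i + 1))) L2 f (S.act (l i) y) -
          S.Ex (blk μ ((List.ofFn l).drop (i + 1))) L2 f y) ^ 2) x) ≤ S.Cpot := by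
    refine PE.le_const _ fun l => ?_
    have hp := S.potential (μ := μ) L0 L2 (List.ofFn l) (hG _) hf x
    refine le_trans (le_of_eq ?_) hp
    rw [← (finCongr (List.length_ofFn (f := l))).sum_comp]
    refine Finset.sum_congr rfl fun i _ => ?_
    simp only [List.get_ofFn, finCongr_apply, Fin.val_cast]
  rw [h] at h2
  have hn : (0 : ℝ) < n + 1 := by positivity
  rw [le_div_iff₀ hn, mul_comm]
  exact h2

/-- The value `a(τ)` at a node with remaining list `L` and current power `μ`. -/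
noncomputable def av (μ : ℝ) (L : List (ℝ × Ω)) (τ : Ω) (x : 𝒩) : ℝ := Real.exp (μ * S.val L τ x)

/-- Constant of (M). -/
noncomputable def CM : ℝ := Real.exp (4 * S.M) * (1 + Real.exp S.M) ^ 6

/-- (M): inserting a random slot `τ` at a random position of a block changes the value of every
test `τ'` very little (in mean square). -/
theorem insertM {n : ℕ} {μ : ℝ} (L0 L2 : List (ℝ × Ω))
    (hG : ∀ l : List Ω, Good (L0 ++ (blk μ l ++ L2))) (hμ : 0 < μ) (hμ1 : μ ≤ 1) (τ' : Ω) (x : 𝒩) :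
    ((PE.unif (Blk n Ω)).E fun b => (PE.unif Ω).E fun τ =>
      S.Ex (L0 ++ blk μ b.pre) (blk μ b.suf ++ L2) (fun y =>
        (S.av μ (blk μ b.suf ++ L2) τ' (S.act τ y) - S.av μ (blk μ b.suf ++ L2) τ' y) ^ 2) x) ≤
      S.CM / (n + 1) := by
  have hG' : ∀ l : List Ω, Good (L0 ++ (blk μ l ++ (μ, τ') :: L2)) := by
    intro l
    have := hG (l ++ [τ'])
    rw [blk_append, List.append_assoc] at this
    exact this
  have hf : ∀ y, |S.pi1 μ τ' L2 y| ≤ 1 := fun y => by
    rw [abs_of_nonneg (S.pi1_nonneg _ _ _ _)]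
    exact S.pi1_le_one _ _ _ _
  have h := S.potential_avg (n := n) (μ := μ) L0 ((μ, τ') :: L2) hG' hf x
  have key : ((PE.unif (Blk n Ω)).E fun b => (PE.unif Ω).E fun τ =>
      S.Ex (L0 ++ blk μ b.pre) (blk μ b.suf ++ L2) (fun y =>
        (S.av μ (blk μ b.suf ++ L2) τ' (S.act τ y) - S.av μ (blk μ b.suf ++ L2) τ' y) ^ 2) x) ≤
      (Real.exp (2 * S.M) * (1 + Real.exp S.M) ^ 4) *
      ((PE.unif (Blk n Ω)).E fun b => (PE.unif Ω).E fun τ =>
      S.Ex (L0 ++ blk μ b.pre) (blk μ b.suf ++ (μ, τ') :: L2) (fun y =>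
        (S.Ex (blk μ b.suf) ((μ, τ') :: L2) (S.pi1 μ τ' L2) (S.act τ y) -
          S.Ex (blk μ b.suf) ((μ, τ') :: L2) (S.pi1 μ τ' L2) y) ^ 2) x) := by
    simp only [← PE.smul]
    refine PE.mono _ fun b => PE.mono _ fun τ => ?_
    have hGb := hG (List.ofFn b.2)
    have hGood0 : Good (L0 ++ blk μ b.pre) := by
      have hsub : (L0 ++ blk μ b.pre).Sublist (L0 ++ (blk μ (List.ofFn b.2) ++ L2)) := by
        refine List.Sublist.append_left ?_ L0
        exact ((List.take_sublist _ _).map _).trans (List.sublist_append_left _ _)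
      exact ⟨fun s hs => hGb.1 s (hsub.subset hs), hGb.2.sublist hsub⟩
    have hPos1 : Pos (blk μ b.suf ++ L2) := by
      have hsub : (blk μ b.suf ++ L2).Sublist (L0 ++ (blk μ (List.ofFn b.2) ++ L2)) := by
        refine List.Sublist.trans ?_ (List.sublist_append_right _ _)
        exact ((List.drop_sublist _ _).map _).append (List.Sublist.refl _)
      exact fun s hs => hGb.1 s (hsub.subset hs)
    have hPosB : Pos (blk μ b.suf) := fun s hs => hPos1 s (List.mem_append_left _ hs)
    have hPosL : Pos L2 := fun s hs => hPos1 s (List.mem_append_right _ hs)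
    have hcmp := S.Ex_compare (L1 := L0 ++ blk μ b.pre) (L2 := blk μ b.suf ++ (μ, τ') :: L2)
      (L2' := blk μ b.suf ++ L2) hGood0 (D := S.M)
      (S.lam_append_near hPosB fun y => by
        rw [abs_sub_comm]; exact S.lam_cons_near hμ hPosL τ' y)
      (f := fun y => (S.av μ (blk μ b.suf ++ L2) τ' (S.act τ y) -
        S.av μ (blk μ b.suf ++ L2) τ' y) ^ 2) (fun y => sq_nonneg _) x
    refine hcmp.trans ?_
    rw [mul_assoc]
    refine mul_le_mul_of_nonneg_left ?_ (Real.exp_pos _).le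
    rw [← Ex_smul]
    refine S.Ex_mono _ _ (fun y => ?_) x
    rw [S.Ex_pi1 hμ, S.Ex_pi1 hμ, pi1_eq, pi1_eq]
    have hav : ∀ z, 0 < S.av μ (blk μ b.suf ++ L2) τ' z ∧
        S.av μ (blk μ b.suf ++ L2) τ' z ≤ Real.exp S.M := by
      intro z
      refine ⟨Real.exp_pos _, Real.exp_le_exp.2 ?_⟩
      have h1 := (abs_le.1 (S.abs_val_le hPos1 τ' z)).2
      have h2 := S.M_nonneg
      nlinarith only [hμ, h1, hμ1, h2]
    change _ ≤ (1 + Real.exp S.M) ^ 4 *
      (S.av μ (blk μ b.suf ++ L2) τ' (S.act τ y) / (1 + S.av μ (blk μ b.suf ++ L2) τ' (S.act τ y)) -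
        S.av μ (blk μ b.suf ++ L2) τ' y / (1 + S.av μ (blk μ b.suf ++ L2) τ' y)) ^ 2
    obtain ⟨a0, a1⟩ := hav (S.act τ y)
    obtain ⟨b0, b1⟩ := hav y
    generalize S.av μ (blk μ b.suf ++ L2) τ' (S.act τ y) = a at *
    generalize S.av μ (blk μ b.suf ++ L2) τ' y = c at *
    have e1 : a / (1 + a) - c / (1 + c) = (a - c) / ((1 + a) * (1 + c)) := by
      have : 1 + a ≠ 0 := by positivity
      have : 1 + c ≠ 0 := by positivity
      field_simp
      ring
    rw [e1, div_pow, mul_div_assoc', le_div_iff₀ (by positivity), mul_comm ((1 + Real.exp S.M) ^ 4)]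
    refine mul_le_mul_of_nonneg_left ?_ (sq_nonneg _)
    have h3 : (1 + a) * (1 + c) ≤ (1 + Real.exp S.M) * (1 + Real.exp S.M) :=
      mul_le_mul (by linarith only [a1]) (by linarith only [b1]) (by (clear * - b0; positivity)) (by positivity)
    calc ((1 + a) * (1 + c)) ^ 2 ≤ ((1 + Real.exp S.M) * (1 + Real.exp S.M)) ^ 2 :=
          pow_le_pow_left₀ (by positivity) h3 2
      _ = _ := by ring
  refine key.trans ((mul_le_mul_of_nonneg_left h (by positivity)).trans (le_of_eq ?_))
  unfold CM Cpot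
  have e4 : Real.exp (4 * S.M) = Real.exp (2 * S.M) * Real.exp (2 * S.M) := by
    rw [← Real.exp_add]; congr 1; ring
  rw [e4]
  ring

/-- Two-step expectation from a node `y` of the current block (power `μ`, remaining slots `suf`) to
the node in the next block (power `μ'`, slots `pre'` before and `suf'` after the node, then `L3`)
of a function of the state `s` at the end of the current block and of the final state `z`. -/
noncomputable def E2 (μ μ' : ℝ) (suf pre' suf' : List Ω) (L3 : List (ℝ × Ω))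
    (f : 𝒩 → 𝒩 → ℝ) (y : 𝒩) : ℝ :=
  S.Ex (blk μ suf) (blk μ' pre' ++ (blk μ' suf' ++ L3))
    (fun s => S.Ex (blk μ' pre') (blk μ' suf' ++ L3) (f s) s) y

/-- The covariance `I(τ', τ) = Cov_F (a'(τ'), g(τ))`, where `a'` is the value at the node of the
next block and `g(τ) = a'(τ) e^{(μ - μ') val_S(τ)}`. -/
noncomputable def Icov (μ μ' : ℝ) (suf pre' suf' : List Ω) (L3 : List (ℝ × Ω))
    (τ' τ : Ω) (y : 𝒩) : ℝ :=
  S.E2 μ μ' suf pre' suf' L3 (fun s z => S.av μ' (blk μ' suf' ++ L3) τ' z *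
    (S.av μ' (blk μ' suf' ++ L3) τ z *
      Real.exp ((μ - μ') * S.val (blk μ' pre' ++ (blk μ' suf' ++ L3)) τ s))) y -
  S.E2 μ μ' suf pre' suf' L3 (fun _ z => S.av μ' (blk μ' suf' ++ L3) τ' z) y *
  S.E2 μ μ' suf pre' suf' L3 (fun s z => S.av μ' (blk μ' suf' ++ L3) τ z *
      Real.exp ((μ - μ') * S.val (blk μ' pre' ++ (blk μ' suf' ++ L3)) τ s)) y

/-- Constant of (4.2). -/
noncomputable def CI : ℝ := 100 * Real.exp (10 * S.M) * (1 + Real.exp S.M) ^ 6

end Slots

end Vale.Agent.N168I.MP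
end
end

section

section

set_option autoImplicit false

open Finset

namespace Vale.Agent.N168I.MP

namespace Slots

variable {𝒩 Ω : Type} (S : Slots 𝒩 Ω)

/-- The two-step expectation as a positive functional on pairs. -/
noncomputable def E2PE (μ μ' : ℝ) (suf pre' suf' : List Ω) (L3 : List (ℝ × Ω)) (y : 𝒩) :
    PE (𝒩 × 𝒩) :=
  (S.exPE (blk μ suf) (blk μ' pre' ++ (blk μ' suf' ++ L3)) y).bind fun s =>
    (S.exPE (blk μ' pre') (blk μ' suf' ++ L3) s).map fun z => (s, z)

theorem E2_eq (μ μ' : ℝ) (suf pre' suf' : List Ω) (L3 : List (ℝ × Ω)) (f : 𝒩 → 𝒩 → ℝ) (y : 𝒩) :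
    S.E2 μ μ' suf pre' suf' L3 f y =
      (S.E2PE μ μ' suf pre' suf' L3 y).E fun p => f p.1 p.2 := rfl

/-- Change of measure for the two-step expectation. -/
theorem E2_act {μ μ' : ℝ} (hμ : 0 < μ) (hμ' : 0 < μ') (suf pre' suf' : List Ω)
    (L3 : List (ℝ × Ω)) (τ : Ω) (f : 𝒩 → 𝒩 → ℝ) (y : 𝒩) :
    S.av μ (blk μ suf ++ (blk μ' pre' ++ (blk μ' suf' ++ L3))) τ y *
      S.E2 μ μ' suf pre' suf' L3 f (S.act τ y) =
    S.E2 μ μ' suf pre' suf' L3 (fun s z => f (S.act τ s) (S.act τ z) *
      (S.av μ' (blk μ' suf' ++ L3) τ z *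
      Real.exp ((μ - μ') * S.val (blk μ' pre' ++ (blk μ' suf' ++ L3)) τ s))) y := by
  unfold E2 av
  rw [S.Ex_act hμ]
  congr 1
  funext s
  beta_reduce
  have h := S.Ex_act hμ' pre' (blk μ' suf' ++ L3) τ (f (S.act τ s)) s
  have h1 : Real.exp (μ * S.val (blk μ' pre' ++ (blk μ' suf' ++ L3)) τ s) =
      Real.exp (μ' * S.val (blk μ' pre' ++ (blk μ' suf' ++ L3)) τ s) *
      Real.exp ((μ - μ') * S.val (blk μ' pre' ++ (blk μ' suf' ++ L3)) τ s) := by
    rw [← Real.exp_add]
    congr 1
    ring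
  rw [h1]
  have h2 : (fun z => f (S.act τ s) (S.act τ z) *
      (Real.exp (μ' * S.val (blk μ' suf' ++ L3) τ z) *
      Real.exp ((μ - μ') * S.val (blk μ' pre' ++ (blk μ' suf' ++ L3)) τ s))) =
      fun z => Real.exp ((μ - μ') * S.val (blk μ' pre' ++ (blk μ' suf' ++ L3)) τ s) *
      (f (S.act τ s) (S.act τ z) * Real.exp (μ' * S.val (blk μ' suf' ++ L3) τ z)) := by
    funext z; ring
  rw [h2, S.Ex_smul, ← h]
  ring

theorem E2_one (μ μ' : ℝ) (suf pre' suf' : List Ω) (L3 : List (ℝ × Ω)) (y : 𝒩) :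
    S.E2 μ μ' suf pre' suf' L3 (fun _ _ => 1) y = 1 := by
  rw [E2_eq]
  exact PE.const _ 1

/-- The decomposition of the covariance. -/
theorem Icov_eq {μ μ' : ℝ} (hμ : 0 < μ) (hμ' : 0 < μ') (suf pre' suf' : List Ω)
    (L3 : List (ℝ × Ω)) (τ' τ : Ω) (y : 𝒩) :
    S.Icov μ μ' suf pre' suf' L3 τ' τ y =
      S.av μ (blk μ suf ++ (blk μ' pre' ++ (blk μ' suf' ++ L3))) τ y *
        (S.E2 μ μ' suf pre' suf' L3 (fun _ z => S.av μ' (blk μ' suf' ++ L3) τ' z) (S.act τ y) -
          S.E2 μ μ' suf pre' suf' L3 (fun _ z => S.av μ' (blk μ' suf' ++ L3) τ' z) y) +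
      S.E2 μ μ' suf pre' suf' L3 (fun s z =>
        (S.av μ' (blk μ' suf' ++ L3) τ' z - S.av μ' (blk μ' suf' ++ L3) τ' (S.act τ z)) *
        (S.av μ' (blk μ' suf' ++ L3) τ z *
          Real.exp ((μ - μ') * S.val (blk μ' pre' ++ (blk μ' suf' ++ L3)) τ s))) y := by
  have h1 := S.E2_act hμ hμ' suf pre' suf' L3 τ
    (fun _ z => S.av μ' (blk μ' suf' ++ L3) τ' z) y
  have h2 := S.E2_act hμ hμ' suf pre' suf' L3 τ (fun _ _ => 1) y
  rw [E2_one, mul_one] at h2
  simp only [one_mul] at h2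
  have h3 : S.E2 μ μ' suf pre' suf' L3 (fun s z =>
        (S.av μ' (blk μ' suf' ++ L3) τ' z - S.av μ' (blk μ' suf' ++ L3) τ' (S.act τ z)) *
        (S.av μ' (blk μ' suf' ++ L3) τ z *
          Real.exp ((μ - μ') * S.val (blk μ' pre' ++ (blk μ' suf' ++ L3)) τ s))) y =
      S.E2 μ μ' suf pre' suf' L3 (fun s z => S.av μ' (blk μ' suf' ++ L3) τ' z *
        (S.av μ' (blk μ' suf' ++ L3) τ z *
          Real.exp ((μ - μ') * S.val (blk μ' pre' ++ (blk μ' suf' ++ L3)) τ s))) y -
      S.E2 μ μ' suf pre' suf' L3 (fun s z => S.av μ' (blk μ' suf' ++ L3) τ' (S.act τ z) *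
        (S.av μ' (blk μ' suf' ++ L3) τ z *
          Real.exp ((μ - μ') * S.val (blk μ' pre' ++ (blk μ' suf' ++ L3)) τ s))) y := by
    simp only [E2_eq]
    rw [← PE.sub]
    congr 1
    funext p
    ring
  rw [h3, mul_sub, h1, h2]
  unfold Icov
  ring

theorem exp_mul_val_le {c : ℝ} (hc : |c| ≤ 1) {L : List (ℝ × Ω)} (hL : Pos L) (τ : Ω) (x : 𝒩) :
    Real.exp (c * S.val L τ x) ≤ Real.exp S.M := by
  apply Real.exp_le_exp.mpr
  calc c * S.val L τ x ≤ |c * S.val L τ x| := le_abs_self _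
    _ = |c| * |S.val L τ x| := abs_mul _ _
    _ ≤ 1 * S.M := mul_le_mul hc (S.abs_val_le hL τ x) (abs_nonneg _) zero_le_one
    _ = S.M := one_mul _

theorem av_pos (μ : ℝ) (L : List (ℝ × Ω)) (τ : Ω) (x : 𝒩) : 0 < S.av μ L τ x := Real.exp_pos _

theorem av_le {μ : ℝ} (hμ : 0 < μ) (hμ1 : μ ≤ 1) {L : List (ℝ × Ω)} (hL : Pos L) (τ : Ω) (x : 𝒩) :
    S.av μ L τ x ≤ Real.exp S.M :=
  S.exp_mul_val_le (by rw [abs_of_pos hμ]; exact hμ1) hL τ x

/-- Pointwise bound of the covariance by the two insertion effects. -/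
theorem abs_Icov_le {μ μ' : ℝ} (hμ : 0 < μ) (hμμ : μ ≤ μ') (hμ1 : μ' ≤ 1)
    (suf pre' suf' : List Ω) (L3 : List (ℝ × Ω))
    (h1 : Pos (blk μ suf ++ (blk μ' pre' ++ (blk μ' suf' ++ L3))))
    (h2 : Pos (blk μ' pre' ++ (blk μ' suf' ++ L3)))
    (h3 : Pos (blk μ' suf' ++ L3)) (τ' τ : Ω) (y : 𝒩) :
    |S.Icov μ μ' suf pre' suf' L3 τ' τ y| ≤
      Real.exp S.M *
        |S.E2 μ μ' suf pre' suf' L3 (fun _ z => S.av μ' (blk μ' suf' ++ L3) τ' z) (S.act τ y) -
          S.E2 μ μ' suf pre' suf' L3 (fun _ z => S.av μ' (blk μ' suf' ++ L3) τ' z) y| +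
      Real.exp (2 * S.M) * S.E2 μ μ' suf pre' suf' L3 (fun _ z =>
        |S.av μ' (blk μ' suf' ++ L3) τ' (S.act τ z) - S.av μ' (blk μ' suf' ++ L3) τ' z|) y := by
  have hμ' : 0 < μ' := lt_of_lt_of_le hμ hμμ
  rw [S.Icov_eq hμ hμ']
  refine (abs_add_le _ _).trans (add_le_add ?_ ?_)
  · rw [abs_mul]
    apply mul_le_mul_of_nonneg_right _ (abs_nonneg _)
    rw [abs_of_pos (S.av_pos _ _ _ _)]
    exact S.av_le hμ (hμμ.trans hμ1) h1 τ y
  · simp only [E2_eq]
    rw [← PE.smul]
    refine (PE.abs_le _ _).trans (PE.mono _ fun p => ?_)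
    rw [abs_mul, mul_comm]
    apply mul_le_mul _ (le_of_eq (abs_sub_comm _ _)) (abs_nonneg _) (Real.exp_pos _).le
    rw [abs_of_pos (mul_pos (S.av_pos _ _ _ _) (Real.exp_pos _)), two_mul, Real.exp_add]
    apply mul_le_mul (S.av_le hμ' hμ1 h3 τ _) _ (Real.exp_pos _).le (Real.exp_pos _).le
    apply S.exp_mul_val_le _ h2
    rw [abs_le]
    constructor <;> linarith

end Slots

theorem Blk.blk_pre_suf {n : ℕ} {Ω : Type} (μ : ℝ) (b : Blk n Ω) (L : List (ℝ × Ω)) :
    blk μ b.pre ++ (blk μ b.suf ++ L) = blk μ (List.ofFn b.2) ++ L := by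
  rw [← List.append_assoc, ← blk_append, Blk.pre_append_suf]

namespace PE

variable {α β γ δ : Type}

theorem swap3 [Fintype γ] [Nonempty γ] (P : PE α) (Q : PE β) (F : α → β → γ → ℝ) :
    (P.E fun a => Q.E fun b => (unif γ).E fun c => F a b c) =
      (unif γ).E fun c => P.E fun a => Q.E fun b => F a b c := by
  have h := PE.comm_unif (P.bind fun a => Q.map fun b => (a, b)) (β := γ)
    (fun (p : α × β) c => F p.1 p.2 c)
  exact h

theorem jensen3 (P : PE α) (Q : PE β) (K : α → β → PE γ) (F : α → β → γ → ℝ) :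
    (P.E fun a => Q.E fun b => (K a b).E fun y => |F a b y|) ≤
      Real.sqrt (P.E fun a => Q.E fun b => (K a b).E fun y => F a b y ^ 2) :=
  (P.bind fun a => Q.bind fun b => (K a b).map (F a b)).abs_le_sqrt fun t => t

end PE

theorem sqrt_sq_div {A : ℝ} (hA : 0 ≤ A) (n : ℕ) :
    Real.sqrt (A ^ 2 / (n + 1)) = A / Real.sqrt (n + 1) := by
  rw [Real.sqrt_div (sq_nonneg A), Real.sqrt_sq hA]

namespace Slots

variable {𝒩 Ω : Type} (S : Slots 𝒩 Ω)

variable [Fintype Ω] [Nonempty Ω]

theorem potential_abs {n : ℕ} {μ : ℝ} (L0 L2 : List (ℝ × Ω))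
    (hG : ∀ l : List Ω, Good (L0 ++ (blk μ l ++ L2))) {f : 𝒩 → ℝ}
    (hf : ∀ y, |f y| ≤ Real.exp S.M) (x : 𝒩) :
    ((PE.unif (Blk n Ω)).E fun b => (PE.unif Ω).E fun τ =>
      S.Ex (L0 ++ blk μ b.pre) (blk μ b.suf ++ L2) (fun y =>
        |S.Ex (blk μ b.suf) L2 f (S.act τ y) - S.Ex (blk μ b.suf) L2 f y|) x) ≤
      Real.exp (2 * S.M) * (1 + Real.exp S.M) / Real.sqrt (n + 1) := by
  have h := S.potential_avg (n := n) L0 L2 hG (f := fun y => Real.exp (- S.M) * f y)
    (fun y => by
      rw [abs_mul, abs_of_pos (Real.exp_pos _)]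
      calc Real.exp (- S.M) * |f y| ≤ Real.exp (- S.M) * Real.exp S.M :=
            mul_le_mul_of_nonneg_left (hf y) (Real.exp_pos _).le
        _ = 1 := by rw [← Real.exp_add]; simp) x
  simp only [Ex_smul, ← mul_sub, mul_pow] at h
  simp only [PE.smul] at h
  have hj := PE.jensen3 (PE.unif (Blk n Ω)) (PE.unif Ω)
    (fun b _ => S.exPE (L0 ++ blk μ b.pre) (blk μ b.suf ++ L2) x)
    (fun b τ y => S.Ex (blk μ b.suf) L2 f (S.act τ y) - S.Ex (blk μ b.suf) L2 f y)
  simp only [exPE_E] at hj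
  refine hj.trans ?_
  rw [← sqrt_sq_div (by positivity)]
  apply Real.sqrt_le_sqrt
  have he : Real.exp S.M * Real.exp (- S.M) = 1 := by rw [← Real.exp_add]; simp
  have h' := mul_le_mul_of_nonneg_left h (sq_nonneg (Real.exp S.M))
  rw [← mul_assoc, ← mul_pow, he, one_pow, one_mul] at h'
  refine h'.trans (le_of_eq ?_)
  unfold Cpot
  rw [two_mul, Real.exp_add]
  ring

theorem insertM_abs {n : ℕ} {μ : ℝ} (L0 L2 : List (ℝ × Ω))
    (hG : ∀ l : List Ω, Good (L0 ++ (blk μ l ++ L2))) (hμ : 0 < μ) (hμ1 : μ ≤ 1) (τ' : Ω) (x : 𝒩) :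
    ((PE.unif (Blk n Ω)).E fun b => (PE.unif Ω).E fun τ =>
      S.Ex (L0 ++ blk μ b.pre) (blk μ b.suf ++ L2) (fun y =>
        |S.av μ (blk μ b.suf ++ L2) τ' (S.act τ y) - S.av μ (blk μ b.suf ++ L2) τ' y|) x) ≤
      Real.exp (2 * S.M) * (1 + Real.exp S.M) ^ 3 / Real.sqrt (n + 1) := by
  have hj := PE.jensen3 (PE.unif (Blk n Ω)) (PE.unif Ω)
    (fun b _ => S.exPE (L0 ++ blk μ b.pre) (blk μ b.suf ++ L2) x)
    (fun b τ y => S.av μ (blk μ b.suf ++ L2) τ' (S.act τ y) - S.av μ (blk μ b.suf ++ L2) τ' y)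
  simp only [exPE_E] at hj
  refine hj.trans ?_
  rw [← sqrt_sq_div (by positivity)]
  apply Real.sqrt_le_sqrt
  refine (S.insertM L0 L2 hG hμ hμ1 τ' x).trans (le_of_eq ?_)
  unfold CM
  rw [show 4 * S.M = 2 * S.M + 2 * S.M by ring, Real.exp_add]
  ring

/-- (4.2): for two consecutive random blocks the covariances `I(τ', τ)` are small on average. -/
theorem insertI {n : ℕ} {μ μ' : ℝ} (L0 L3 : List (ℝ × Ω))
    (hG : ∀ l l' : List Ω, Good (L0 ++ (blk μ l ++ (blk μ' l' ++ L3))))
    (hμ : 0 < μ) (hμμ : μ ≤ μ') (hμ1 : μ' ≤ 1) (x : 𝒩) :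
    ((PE.unif (Blk n Ω)).E fun b => (PE.unif (Blk n Ω)).E fun b' =>
      (PE.unif Ω).E fun τ => (PE.unif Ω).E fun τ' =>
      S.Ex (L0 ++ blk μ b.pre) (blk μ b.suf ++ (blk μ' (List.ofFn b'.2) ++ L3))
        (fun y => |S.Icov μ μ' b.suf b'.pre b'.suf L3 τ' τ y|) x) ≤
      S.CI / Real.sqrt (n + 1) := by
  have hμ' : 0 < μ' := lt_of_lt_of_le hμ hμμ
  -- positivity of all lists
  have hP : ∀ l l' : List Ω, Pos (blk μ l ++ (blk μ' l' ++ L3)) := fun l l' s hs =>
    (hG l l').1 s (List.mem_append_right _ hs)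
  have hP2 : ∀ l' : List Ω, Pos (blk μ' l' ++ L3) := fun l' => hP [] l'
  -- the pointwise bound
  have hpt : ∀ (b b' : Blk n Ω) (τ τ' : Ω) (y : 𝒩),
      |S.Icov μ μ' b.suf b'.pre b'.suf L3 τ' τ y| ≤
        Real.exp S.M * |S.Ex (blk μ b.suf) (blk μ' (List.ofFn b'.2) ++ L3)
            (S.Ex (blk μ' b'.pre) (blk μ' b'.suf ++ L3) (S.av μ' (blk μ' b'.suf ++ L3) τ'))
            (S.act τ y) -
          S.Ex (blk μ b.suf) (blk μ' (List.ofFn b'.2) ++ L3)
            (S.Ex (blk μ' b'.pre) (blk μ' b'.suf ++ L3) (S.av μ' (blk μ' b'.suf ++ L3) τ')) y| +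
        Real.exp (2 * S.M) * S.Ex (blk μ b.suf) (blk μ' (List.ofFn b'.2) ++ L3)
          (S.Ex (blk μ' b'.pre) (blk μ' b'.suf ++ L3) fun z =>
            |S.av μ' (blk μ' b'.suf ++ L3) τ' (S.act τ z) -
              S.av μ' (blk μ' b'.suf ++ L3) τ' z|) y := by
    intro b b' τ τ' y
    have h2 : Pos (blk μ' b'.pre ++ (blk μ' b'.suf ++ L3)) := by
      rw [Blk.blk_pre_suf]; exact hP2 _
    have h1 : Pos (blk μ b.suf ++ (blk μ' b'.pre ++ (blk μ' b'.suf ++ L3))) := by
      rw [Blk.blk_pre_suf]; exact hP _ _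
    have h := S.abs_Icov_le hμ hμμ hμ1 b.suf b'.pre b'.suf L3 h1 h2 (hP2 _) τ' τ y
    unfold E2 at h
    rw [Blk.blk_pre_suf] at h
    exact h
  -- the averaged bound
  have hmono : ((PE.unif (Blk n Ω)).E fun b => (PE.unif (Blk n Ω)).E fun b' =>
      (PE.unif Ω).E fun τ => (PE.unif Ω).E fun τ' =>
      S.Ex (L0 ++ blk μ b.pre) (blk μ b.suf ++ (blk μ' (List.ofFn b'.2) ++ L3))
        (fun y => |S.Icov μ μ' b.suf b'.pre b'.suf L3 τ' τ y|) x) ≤
      ((PE.unif (Blk n Ω)).E fun b => (PE.unif (Blk n Ω)).E fun b' =>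
      (PE.unif Ω).E fun τ => (PE.unif Ω).E fun τ' =>
        Real.exp S.M * S.Ex (L0 ++ blk μ b.pre) (blk μ b.suf ++ (blk μ' (List.ofFn b'.2) ++ L3))
        (fun y => |S.Ex (blk μ b.suf) (blk μ' (List.ofFn b'.2) ++ L3)
            (S.Ex (blk μ' b'.pre) (blk μ' b'.suf ++ L3) (S.av μ' (blk μ' b'.suf ++ L3) τ'))
            (S.act τ y) -
          S.Ex (blk μ b.suf) (blk μ' (List.ofFn b'.2) ++ L3)
            (S.Ex (blk μ' b'.pre) (blk μ' b'.suf ++ L3)
              (S.av μ' (blk μ' b'.suf ++ L3) τ')) y|) x +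
        Real.exp (2 * S.M) * S.Ex (L0 ++ blk μ (List.ofFn b.2) ++ blk μ' b'.pre)
          (blk μ' b'.suf ++ L3) (fun z =>
            |S.av μ' (blk μ' b'.suf ++ L3) τ' (S.act τ z) -
              S.av μ' (blk μ' b'.suf ++ L3) τ' z|) x) := by
    refine PE.mono _ fun b => PE.mono _ fun b' => PE.mono _ fun τ => PE.mono _ fun τ' => ?_
    refine (S.Ex_mono _ _ (hpt b b' τ τ') x).trans (le_of_eq ?_)
    rw [Ex_add, Ex_smul, Ex_smul]
    congr 2
    rw [show blk μ b.suf ++ (blk μ' (List.ofFn b'.2) ++ L3) =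
      blk μ b.suf ++ (blk μ' (List.ofFn b'.2) ++ L3) from rfl]
    have e1 : L0 ++ blk μ (List.ofFn b.2) = (L0 ++ blk μ b.pre) ++ blk μ b.suf := by
      rw [List.append_assoc, ← blk_append, Blk.pre_append_suf]
    rw [e1, S.Ex_append (L0 ++ blk μ b.pre ++ blk μ b.suf), S.Ex_append (L0 ++ blk μ b.pre),
      Blk.blk_pre_suf]
  refine hmono.trans ?_
  simp only [PE.add, PE.smul]
  -- first term
  have hT1 : ((PE.unif (Blk n Ω)).E fun b => (PE.unif (Blk n Ω)).E fun b' =>
      (PE.unif Ω).E fun τ => (PE.unif Ω).E fun τ' =>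
        S.Ex (L0 ++ blk μ b.pre) (blk μ b.suf ++ (blk μ' (List.ofFn b'.2) ++ L3))
        (fun y => |S.Ex (blk μ b.suf) (blk μ' (List.ofFn b'.2) ++ L3)
            (S.Ex (blk μ' b'.pre) (blk μ' b'.suf ++ L3) (S.av μ' (blk μ' b'.suf ++ L3) τ'))
            (S.act τ y) -
          S.Ex (blk μ b.suf) (blk μ' (List.ofFn b'.2) ++ L3)
            (S.Ex (blk μ' b'.pre) (blk μ' b'.suf ++ L3)
              (S.av μ' (blk μ' b'.suf ++ L3) τ')) y|) x) ≤
      Real.exp (2 * S.M) * (1 + Real.exp S.M) / Real.sqrt (n + 1) := by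
    rw [PE.comm_unif]
    apply PE.le_const
    intro b'
    rw [PE.swap3]
    apply PE.le_const
    intro τ'
    apply S.potential_abs L0 (blk μ' (List.ofFn b'.2) ++ L3) (fun l => hG l _)
    intro y
    refine (PE.abs_le (S.exPE (blk μ' b'.pre) (blk μ' b'.suf ++ L3) y) _).trans
      (PE.le_const _ fun z => ?_)
    rw [abs_of_pos (S.av_pos _ _ _ _)]
    exact S.av_le hμ' hμ1 (hP2 _) τ' z
  have hT2 : ((PE.unif (Blk n Ω)).E fun b => (PE.unif (Blk n Ω)).E fun b' =>
      (PE.unif Ω).E fun τ => (PE.unif Ω).E fun τ' =>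
        S.Ex (L0 ++ blk μ (List.ofFn b.2) ++ blk μ' b'.pre)
          (blk μ' b'.suf ++ L3) (fun z =>
            |S.av μ' (blk μ' b'.suf ++ L3) τ' (S.act τ z) -
              S.av μ' (blk μ' b'.suf ++ L3) τ' z|) x) ≤
      Real.exp (2 * S.M) * (1 + Real.exp S.M) ^ 3 / Real.sqrt (n + 1) := by
    apply PE.le_const
    intro b
    rw [PE.swap3]
    apply PE.le_const
    intro τ'
    apply S.insertM_abs (L0 ++ blk μ (List.ofFn b.2)) L3 (fun l => ?_) hμ' hμ1
    rw [List.append_assoc]
    exact hG _ _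
  have hfin : Real.exp S.M * (Real.exp (2 * S.M) * (1 + Real.exp S.M) / Real.sqrt (n + 1)) +
      Real.exp (2 * S.M) * (Real.exp (2 * S.M) * (1 + Real.exp S.M) ^ 3 / Real.sqrt (n + 1)) ≤
      S.CI / Real.sqrt (n + 1) := by
    rw [← mul_div_assoc, ← mul_div_assoc, ← add_div]
    apply div_le_div_of_nonneg_right _ (Real.sqrt_nonneg _)
    unfold CI
    have ht : 1 ≤ Real.exp S.M := Real.one_le_exp S.M_nonneg
    have e2 : Real.exp (2 * S.M) = Real.exp S.M ^ 2 := by
      rw [← Real.exp_nat_mul]; norm_num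
    have e10 : Real.exp (10 * S.M) = Real.exp S.M ^ 10 := by
      rw [← Real.exp_nat_mul]; norm_num
    rw [e2, e10]
    set t := Real.exp S.M with ht_def
    have ht0 : 0 ≤ t := by linarith only [ht]
    have hu : 1 ≤ 1 + t := by linarith only [ht]
    have a1 : t ^ 3 ≤ t ^ 10 := pow_le_pow_right₀ ht (by norm_num)
    have a2 : t ^ 4 ≤ t ^ 10 := pow_le_pow_right₀ ht (by norm_num)
    have a3 : (1 + t) ^ 1 ≤ (1 + t) ^ 6 := pow_le_pow_right₀ hu (by norm_num)
    have a4 : (1 + t) ^ 3 ≤ (1 + t) ^ 6 := pow_le_pow_right₀ hu (by norm_num)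
    have b1 : t ^ 3 * (1 + t) ^ 1 ≤ t ^ 10 * (1 + t) ^ 6 :=
      mul_le_mul a1 a3 (by positivity) (by positivity)
    have b2 : t ^ 4 * (1 + t) ^ 3 ≤ t ^ 10 * (1 + t) ^ 6 :=
      mul_le_mul a2 a4 (by positivity) (by positivity)
    have b3 : 0 ≤ t ^ 10 * (1 + t) ^ 6 := by positivity
    linarith
  refine le_trans (add_le_add (mul_le_mul_of_nonneg_left hT1 (Real.exp_pos _).le)
    (mul_le_mul_of_nonneg_left hT2 (Real.exp_pos _).le)) hfin

end Slots

end Vale.Agent.N168I.MP
end
end

section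

section

set_option autoImplicit false
set_option linter.unusedSectionVars false

open Finset
open scoped BigOperators

namespace Vale.Agent.N168I.MP

variable {S ι : Type} [Fintype S] [Nonempty S] [Fintype ι] [DecidableEq ι]

/-- Number of labels. -/
def nlab (Q : S → ℕ) : ℕ := (univ.image Q).card

/-- Join of two labellings. -/
def join (Q q : S → ℕ) : S → ℕ := fun i => Nat.pair (Q i) (q i)

/-- Uniform average over tuples of sites. -/
noncomputable abbrev aS (f : (ι → S) → ℝ) : ℝ := (PE.unif (ι → S)).E f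

theorem aS_eq (f : (ι → S) → ℝ) : aS f = 𝔼 s : ι → S, f s := by
  rw [Finset.expect_eq_sum_div_card]
  rfl

theorem mem_piCell (Q : S → ℕ) (s t : ι → S) :
    (t ∈ Fintype.piFinset fun j => cell Q (s j)) ↔ Q ∘ t = Q ∘ s := by
  simp only [Fintype.mem_piFinset, mem_cell, funext_iff, Function.comp_apply]

/-- `cellAvg` as a sum. -/
theorem cellAvg_eq (Q : S → ℕ) (f : (ι → S) → ℝ) (s : ι → S) :
    cellAvg Q f s = (∑ t ∈ Fintype.piFinset fun j => cell Q (s j), f t) /
      ((Fintype.piFinset fun j => cell Q (s j)).card : ℝ) := by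
  unfold cellAvg
  rw [Finset.expect_eq_sum_div_card]

/-- `cellAvg` as a `PE`. -/
noncomputable def cellPE (Q : S → ℕ) (s : ι → S) : PE (ι → S) where
  E f := cellAvg Q f s
  add' f g := by simp only [cellAvg_eq]; rw [Finset.sum_add_distrib, add_div]
  smul' c f := by simp only [cellAvg_eq]; rw [← Finset.mul_sum, mul_div_assoc]
  mono' f g h := by
    simp only [cellAvg_eq]
    exact div_le_div_of_nonneg_right (Finset.sum_le_sum fun a _ => h a) (Nat.cast_nonneg _)
  one' := by
    rw [cellAvg_eq]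
    have h : ((Fintype.piFinset fun j => cell Q (s j)).card : ℝ) ≠ 0 := by
      exact_mod_cast (Finset.card_pos.2 ⟨s, (mem_piCell Q s s).2 rfl⟩).ne'
    rw [Finset.sum_const, nsmul_eq_mul, mul_one, div_self h]

theorem cellPE_E (Q : S → ℕ) (s : ι → S) (f : (ι → S) → ℝ) :
    (cellPE Q s).E f = cellAvg Q f s := rfl

theorem piCell_eq (Q : S → ℕ) (s : ι → S) :
    (Fintype.piFinset fun j => cell Q (s j)) = univ.filter fun t => Q ∘ t = Q ∘ s := by
  ext t
  rw [mem_piCell, Finset.mem_filter]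
  simp

theorem cellAvg_eq' (Q : S → ℕ) (f : (ι → S) → ℝ) (s : ι → S) :
    cellAvg Q f s = (∑ t with Q ∘ t = Q ∘ s, f t) / (#{t | Q ∘ t = Q ∘ s} : ℝ) := by
  rw [cellAvg_eq, piCell_eq]

/-- Functions of the labels come out of the conditional average. -/
theorem cellAvg_label_mul (Q : S → ℕ) (g : (ι → ℕ) → ℝ) (f : (ι → S) → ℝ) (s : ι → S) :
    cellAvg Q (fun t => g (Q ∘ t) * f t) s = g (Q ∘ s) * cellAvg Q f s := by
  rw [cellAvg_eq', cellAvg_eq', ← mul_div_assoc, Finset.mul_sum]
  congr 1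
  refine Finset.sum_congr rfl fun t ht => ?_
  rw [(Finset.mem_filter.1 ht).2]

theorem cellAvg_label (Q : S → ℕ) (g : (ι → ℕ) → ℝ) (s : ι → S) :
    cellAvg Q (fun t => g (Q ∘ t)) s = g (Q ∘ s) := by
  have h1 := cellAvg_label_mul Q g (fun _ => 1) s
  have h2 : cellAvg Q (fun _ : ι → S => (1 : ℝ)) s = 1 := (cellPE Q s).one'
  rw [h2, mul_one] at h1
  simpa using h1

/-- Sums split over the label classes. -/
theorem sum_classes (Q : S → ℕ) (F : (ι → S) → ℝ) :
    ∑ s, F s = ∑ ζ ∈ univ.image (fun s : ι → S => Q ∘ s), ∑ s with Q ∘ s = ζ, F s :=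
  (Finset.sum_fiberwise_of_maps_to (fun s _ => Finset.mem_image_of_mem _ (Finset.mem_univ s)) F).symm

theorem class_card_pos (Q : S → ℕ) {ζ : ι → ℕ} (h : ζ ∈ univ.image (fun s : ι → S => Q ∘ s)) :
    (#{s : ι → S | Q ∘ s = ζ} : ℝ) ≠ 0 := by
  obtain ⟨s, _, hs⟩ := Finset.mem_image.1 h
  have : 0 < #{t : ι → S | Q ∘ t = ζ} :=
    Finset.card_pos.2 ⟨s, Finset.mem_filter.2 ⟨Finset.mem_univ _, hs⟩⟩
  exact_mod_cast this.ne'

theorem cellAvg_class (Q : S → ℕ) (f : (ι → S) → ℝ) {ζ : ι → ℕ} {s : ι → S}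
    (hs : s ∈ univ.filter fun s : ι → S => Q ∘ s = ζ) :
    cellAvg Q f s = (∑ t with Q ∘ t = ζ, f t) / (#{t | Q ∘ t = ζ} : ℝ) := by
  rw [cellAvg_eq', (Finset.mem_filter.1 hs).2]

/-- Total average. -/
theorem aS_cellAvg (Q : S → ℕ) (f : (ι → S) → ℝ) : aS (cellAvg Q f) = aS f := by
  unfold aS
  rw [PE.unif_E, PE.unif_E]
  congr 1
  rw [sum_classes Q (cellAvg Q f), sum_classes Q f]
  refine Finset.sum_congr rfl fun ζ hζ => ?_
  rw [Finset.sum_congr rfl fun s hs => cellAvg_class Q f hs, Finset.sum_const, nsmul_eq_mul,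
    mul_div_cancel₀ _ (class_card_pos Q hζ)]

/-- `L¹` contraction. -/
theorem aS_abs_cellAvg_le (Q : S → ℕ) (f : (ι → S) → ℝ) :
    aS (fun s => |cellAvg Q f s|) ≤ aS fun s => |f s| := by
  rw [← aS_cellAvg Q fun s => |f s|]
  exact (PE.unif (ι → S)).mono fun s => (cellPE Q s).abs_le f

/-- If `f` is close in `L¹` to a function of the labels `Q` then it is close to its conditional
average. -/
theorem aS_abs_cellAvg_sub_le (Q : S → ℕ) (f : (ι → S) → ℝ) (G : (ι → ℕ) → ℝ) :
    aS (fun s => |cellAvg Q f s - f s|) ≤ 2 * aS fun s => |f s - G (Q ∘ s)| := by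
  have h1 : ∀ s, |cellAvg Q f s - f s| ≤ |cellAvg Q (fun t => f t - G (Q ∘ t)) s| +
      |f s - G (Q ∘ s)| := by
    intro s
    have h2 : cellAvg Q (fun t => f t - G (Q ∘ t)) s = cellAvg Q f s - G (Q ∘ s) := by
      have h3 := (cellPE Q s).sub f fun t => G (Q ∘ t)
      rw [cellPE_E, cellPE_E, cellPE_E, cellAvg_label] at h3
      exact h3
    rw [h2]
    calc |cellAvg Q f s - f s| = |(cellAvg Q f s - G (Q ∘ s)) - (f s - G (Q ∘ s))| := by
          congr 1; ring
      _ ≤ _ := abs_sub _ _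
  refine ((PE.unif (ι → S)).mono h1).trans ?_
  rw [(PE.unif (ι → S)).add]
  have := aS_abs_cellAvg_le Q fun t => f t - G (Q ∘ t)
  unfold aS at this ⊢
  linarith

/-- Decomposition over product cells. -/
theorem aS_abs_cellAvg_eq (Q : S → ℕ) (f : (ι → S) → ℝ) :
    aS (fun s => |cellAvg Q f s|) =
      ∑ ζ ∈ univ.image (fun s : ι → S => Q ∘ s), |aS fun s => if Q ∘ s = ζ then f s else 0| := by
  unfold aS
  simp only [PE.unif_E]
  rw [sum_classes Q fun s => |cellAvg Q f s|, Finset.sum_div]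
  refine Finset.sum_congr rfl fun ζ hζ => ?_
  rw [Finset.sum_congr rfl fun s hs => by rw [cellAvg_class Q f hs], Finset.sum_const,
    nsmul_eq_mul, abs_div, Nat.abs_cast, mul_div_cancel₀ _ (class_card_pos Q hζ), abs_div,
    Nat.abs_cast, Finset.sum_filter]

/-- Every average over tuples splits over the cells. -/
theorem aS_eq_sum_cells (Q : S → ℕ) (f : (ι → S) → ℝ) :
    aS f = ∑ ζ ∈ univ.image (fun s : ι → S => Q ∘ s), aS fun s => if Q ∘ s = ζ then f s else 0 := by
  unfold aS
  simp only [PE.unif_E]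
  rw [sum_classes Q f, Finset.sum_div]
  refine Finset.sum_congr rfl fun ζ _ => ?_
  rw [Finset.sum_filter]

theorem card_cells_le (Q : S → ℕ) :
    (univ.image (fun s : ι → S => Q ∘ s)).card ≤ nlab Q ^ Fintype.card ι := by
  have h1 : univ.image (fun s : ι → S => Q ∘ s) ⊆ Fintype.piFinset fun _ : ι => univ.image Q := by
    intro ζ hζ
    obtain ⟨s, _, rfl⟩ := Finset.mem_image.1 hζ
    rw [Fintype.mem_piFinset]
    exact fun j => Finset.mem_image_of_mem _ (Finset.mem_univ _)
  refine (Finset.card_le_card h1).trans (le_of_eq ?_)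
  rw [Fintype.card_piFinset, Finset.prod_const, Finset.card_univ]
  rfl

theorem nlab_join_le (Q q : S → ℕ) : nlab (join Q q) ≤ nlab Q * nlab q := by
  have h1 : univ.image (join Q q) ⊆
      ((univ.image Q) ×ˢ (univ.image q)).image fun p => Nat.pair p.1 p.2 := by
    intro x hx
    obtain ⟨i, _, rfl⟩ := Finset.mem_image.1 hx
    exact Finset.mem_image.2 ⟨(Q i, q i), Finset.mem_product.2
      ⟨Finset.mem_image_of_mem _ (Finset.mem_univ _), Finset.mem_image_of_mem _ (Finset.mem_univ _)⟩,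
      rfl⟩
  refine (Finset.card_le_card h1).trans (Finset.card_image_le.trans (le_of_eq ?_))
  rw [Finset.card_product]
  rfl

theorem join_left {Q q : S → ℕ} {i j : S} (h : join Q q i = join Q q j) : Q i = Q j := by
  have := congrArg Nat.unpair h
  simp only [join, Nat.unpair_pair, Prod.mk.injEq] at this
  exact this.1

theorem join_right {Q q : S → ℕ} {i j : S} (h : join Q q i = join Q q j) : q i = q j := by
  have := congrArg Nat.unpair h
  simp only [join, Nat.unpair_pair, Prod.mk.injEq] at this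
  exact this.2

/-- The weights of the multilinear extension. -/
theorem mlin_weight_nonneg {y : ι → ℝ} (hy : ∀ j, |y j| ≤ 1) (σ : ι → Bool) :
    0 ≤ ∏ j, (1 + y j * spin (σ j)) / 2 := by
  refine Finset.prod_nonneg fun j _ => ?_
  have h := abs_le.1 (hy j)
  rcases Bool.eq_false_or_eq_true (σ j) with h1 | h1
  · rw [h1]
    simp only [spin, if_true]
    linarith [h.1]
  · rw [h1]
    simp only [spin, Bool.false_eq_true, if_false]
    linarith only [h]

theorem sum_prod_bool (g : ι → Bool → ℝ) :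
    ∑ σ : ι → Bool, ∏ j, g j (σ j) = ∏ j, (g j true + g j false) := by
  have h := Finset.prod_univ_sum (fun _ : ι => (Finset.univ : Finset Bool)) fun j b => g j b
  rw [Fintype.piFinset_univ] at h
  rw [← h]
  refine Finset.prod_congr rfl fun j _ => ?_
  rw [Fintype.sum_bool]

theorem mlin_weight_sum (y : ι → ℝ) :
    ∑ σ : ι → Bool, ∏ j, (1 + y j * spin (σ j)) / 2 = 1 := by
  rw [sum_prod_bool fun j b => (1 + y j * spin b) / 2]
  refine Finset.prod_eq_one fun j _ => ?_
  simp only [spin, if_true, Bool.false_eq_true, if_false]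
  ring

theorem mlin_lower {w : (ι → Bool) → ℝ} {c : ℝ} (hw : ∀ σ, c ≤ w σ) {y : ι → ℝ}
    (hy : ∀ j, |y j| ≤ 1) : c ≤ mlin w y := by
  unfold mlin
  calc c = c * ∑ σ : ι → Bool, ∏ j, (1 + y j * spin (σ j)) / 2 := by
        rw [mlin_weight_sum, mul_one]
    _ = ∑ σ : ι → Bool, c * ∏ j, (1 + y j * spin (σ j)) / 2 := Finset.mul_sum _ _ _
    _ ≤ _ := Finset.sum_le_sum fun σ _ =>
        mul_le_mul_of_nonneg_right (hw σ) (mlin_weight_nonneg hy σ)

/-- Change of one coordinate in the multilinear extension. -/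
theorem mlin_lip_one {w : (ι → Bool) → ℝ} {C : ℝ} (hw : ∀ σ, |w σ| ≤ C) {z z' : ι → ℝ} (a : ι)
    (hz : ∀ j, |z j| ≤ 1) (h : ∀ j, j ≠ a → z' j = z j) :
    |mlin w z - mlin w z'| ≤ C * |z a - z' a| := by
  set g : ι → Bool → ℝ := fun j b => if j = a then 1 else (1 + z j * spin b) / 2 with hg
  have hg0 : ∀ σ : ι → Bool, 0 ≤ ∏ j, g j (σ j) := by
    intro σ
    refine Finset.prod_nonneg fun j _ => ?_
    rw [hg]
    dsimp only
    split_ifs
    · exact zero_le_one
    · have h := abs_le.1 (hz j)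
      rcases Bool.eq_false_or_eq_true (σ j) with h1 | h1
      · rw [h1]
        simp only [spin, if_true]
        linarith only [h]
      · rw [h1]
        simp only [spin, Bool.false_eq_true, if_false]
        linarith only [h]
  have hprod : ∀ (u : ι → ℝ), (∀ j, j ≠ a → u j = z j) → ∀ σ : ι → Bool,
      ∏ j, (1 + u j * spin (σ j)) / 2 = (1 + u a * spin (σ a)) / 2 * ∏ j, g j (σ j) := by
    intro u hu σ
    rw [← Finset.mul_prod_erase Finset.univ (fun j => (1 + u j * spin (σ j)) / 2)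
      (Finset.mem_univ a), ← Finset.mul_prod_erase Finset.univ (fun j => g j (σ j))
      (Finset.mem_univ a)]
    have h1 : g a (σ a) = 1 := by rw [hg]; simp
    rw [h1, one_mul]
    congr 1
    refine Finset.prod_congr rfl fun j hj => ?_
    have hja := Finset.ne_of_mem_erase hj
    rw [hg]
    dsimp only
    rw [if_neg hja, hu j hja]
  have hsum : ∑ σ : ι → Bool, ∏ j, g j (σ j) = 2 := by
    rw [sum_prod_bool, ← Finset.mul_prod_erase Finset.univ _ (Finset.mem_univ a)]
    have h1 : g a true + g a false = 2 := by rw [hg]; norm_num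
    rw [h1]
    have h2 : ∏ j ∈ Finset.univ.erase a, (g j true + g j false) = 1 := by
      refine Finset.prod_eq_one fun j hj => ?_
      rw [hg]
      dsimp only
      rw [if_neg (Finset.ne_of_mem_erase hj), if_neg (Finset.ne_of_mem_erase hj)]
      simp only [spin, if_true, Bool.false_eq_true, if_false]
      ring
    rw [h2, mul_one]
  have hspin : ∀ b : Bool, |spin b| = 1 := by
    intro b
    cases b <;> simp [spin]
  unfold mlin
  rw [← Finset.sum_sub_distrib]
  refine (Finset.abs_sum_le_sum_abs _ _).trans ?_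
  have hC : ∀ σ : ι → Bool, |w σ * ∏ j, (1 + z j * spin (σ j)) / 2 -
      w σ * ∏ j, (1 + z' j * spin (σ j)) / 2| ≤ C * |z a - z' a| / 2 * ∏ j, g j (σ j) := by
    intro σ
    rw [hprod z (fun _ _ => rfl) σ, hprod z' h σ]
    have e1 : w σ * ((1 + z a * spin (σ a)) / 2 * ∏ j, g j (σ j)) -
        w σ * ((1 + z' a * spin (σ a)) / 2 * ∏ j, g j (σ j)) =
        w σ * ((z a - z' a) * spin (σ a) / 2) * ∏ j, g j (σ j) := by ring
    rw [e1, abs_mul, abs_of_nonneg (hg0 σ)]
    refine mul_le_mul_of_nonneg_right ?_ (hg0 σ)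
    rw [abs_mul, abs_div, abs_mul, hspin, mul_one, abs_two]
    calc |w σ| * (|z a - z' a| / 2) ≤ C * (|z a - z' a| / 2) :=
          mul_le_mul_of_nonneg_right (hw σ) (by (clear * -; positivity))
      _ = C * |z a - z' a| / 2 := by ring
  refine (Finset.sum_le_sum fun σ _ => hC σ).trans (le_of_eq ?_)
  rw [← Finset.mul_sum, hsum]
  ring

/-- Lipschitz bound for the multilinear extension. -/
theorem mlin_lip {w : (ι → Bool) → ℝ} {C : ℝ} (hw : ∀ σ, |w σ| ≤ C) {y y' : ι → ℝ}
    (hy : ∀ j, |y j| ≤ 1) (hy' : ∀ j, |y' j| ≤ 1) :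
    |mlin w y - mlin w y'| ≤ C * ∑ j, |y j - y' j| := by
  have key : ∀ T : Finset ι, |mlin w y - mlin w fun j => if j ∈ T then y' j else y j| ≤
      C * ∑ j ∈ T, |y j - y' j| := by
    intro T
    induction T using Finset.induction_on with
    | empty => simp
    | insert a T ha ih =>
      rw [Finset.sum_insert ha]
      have h1 := mlin_lip_one hw (z := fun j => if j ∈ T then y' j else y j)
        (z' := fun j => if j ∈ insert a T then y' j else y j) a
        (by intro j; split_ifs; exacts [hy' j, hy j])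
        (by
          intro j hj
          by_cases hjT : j ∈ T
          · rw [if_pos hjT, if_pos (Finset.mem_insert_of_mem hjT)]
          · rw [if_neg hjT, if_neg (by
              rw [Finset.mem_insert]
              push Not
              exact ⟨hj, hjT⟩)])
      simp only [ha, if_false, Finset.mem_insert_self, if_true] at h1
      calc _ ≤ |mlin w y - mlin w fun j => if j ∈ T then y' j else y j| +
            |(mlin w fun j => if j ∈ T then y' j else y j) -
              mlin w fun j => if j ∈ insert a T then y' j else y j| := abs_sub_le _ _ _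
        _ ≤ C * ∑ j ∈ T, |y j - y' j| + C * |y a - y' a| := add_le_add ih h1
        _ = _ := by ring
  have h2 := key Finset.univ
  simpa only [ge_iff_le, mem_univ, ↓reduceIte] using h2

theorem cellAvg_lower (Q : S → ℕ) {f : (ι → S) → ℝ} {c : ℝ} (hf : ∀ s, c ≤ f s) (s : ι → S) :
    c ≤ cellAvg Q f s := (cellPE Q s).const_le hf

theorem betaRec_lower {θ : ℝ} (h0 : 0 ≤ θ) (h1 : θ ≤ 1) {f0 : (ι → S) → ℝ} {c : ℝ} (hc : 0 < c)
    (hc1 : c ≤ 1) (hf : ∀ s, c ≤ f0 s) (R : ℕ) (q : Fin R → S → ℕ) (s : ι → S) :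
    c ≤ betaRec θ R q f0 s := by
  induction R generalizing s with
  | zero => exact hf s
  | succ R ih =>
    rw [betaRec_succ]
    have h2 := cellAvg_lower (q 0) (f := betaRec θ R (Fin.tail q) f0) (ih (Fin.tail q)) s
    calc c = c ^ (1 : ℝ) := (Real.rpow_one c).symm
      _ ≤ c ^ θ := Real.rpow_le_rpow_of_exponent_ge hc hc1 h1
      _ ≤ _ := Real.rpow_le_rpow hc.le h2 h0

end Vale.Agent.N168I.MP
end
end

section

section

set_option autoImplicit false

open Finset

namespace Vale.Agent.N168I.MP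

/-! Real power lemmas. -/

/-- Concavity of `x ^ s`: the chord lies below the tangent. -/
theorem rpow_sub_le {s u v : ℝ} (h0 : 0 ≤ s) (h1 : s ≤ 1) (hv : 0 < v) (huv : v ≤ u) :
    u ^ s - v ^ s ≤ s * v ^ (s - 1) * (u - v) := by
  have hu : 0 < u := lt_of_lt_of_le hv huv
  have ht : (0 : ℝ) ≤ u / v - 1 := by
    rw [sub_nonneg, le_div_iff₀ hv]; linarith
  have hb : (1 + (u / v - 1)) ^ s ≤ 1 + s * (u / v - 1) :=
    _root_.rpow_one_add_le_one_add_mul_self (by linarith only [ht]) h0 h1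
  have e1 : (1 + (u / v - 1)) = u / v := by ring
  rw [e1, Real.div_rpow hu.le hv.le] at hb
  have hvs : 0 < v ^ s := Real.rpow_pos_of_pos hv s
  rw [div_le_iff₀ hvs] at hb
  have e2 : v ^ (s - 1) = v ^ s / v := by
    rw [Real.rpow_sub hv, Real.rpow_one]
  rw [e2]
  have e3 : s * (v ^ s / v) * (u - v) = s * (u / v - 1) * v ^ s := by
    (clear * - hv; field_simp)
  rw [e3]
  nlinarith only [hb]

/-- Tangent bounds at `1`. -/
theorem rpow_upper {s t : ℝ} (h0 : 0 ≤ s) (h1 : s ≤ 1) (ht : 0 < t) :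
    t ^ s ≤ 1 + s * (t - 1) := by
  have hb : (1 + (t - 1)) ^ s ≤ 1 + s * (t - 1) :=
    _root_.rpow_one_add_le_one_add_mul_self (by linarith) h0 h1
  have e1 : (1 + (t - 1)) = t := by ring
  rwa [e1] at hb

theorem rpow_lower {s t : ℝ} (h1 : s ≤ 1) (ht : 0 < t) :
    1 + s * (t - 1) - (1 - s) * (t - 1) ^ 2 ≤ t ^ s := by
  have e1 : t ^ s = t * Real.exp (Real.log t * (s - 1)) := by
    rw [← Real.rpow_def_of_pos ht, Real.rpow_sub ht, Real.rpow_one]
    field_simp
  have h2 : Real.log t * (s - 1) + 1 ≤ Real.exp (Real.log t * (s - 1)) := Real.add_one_le_exp _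
  have h3 : Real.log t ≤ t - 1 := Real.log_le_sub_one_of_pos ht
  have h4 : t * (Real.log t * (s - 1) + 1) ≤ t ^ s := by
    rw [e1]; exact mul_le_mul_of_nonneg_left h2 ht.le
  have h5 : t * (Real.log t * (1 - s)) ≤ t * ((t - 1) * (1 - s)) :=
    mul_le_mul_of_nonneg_left (mul_le_mul_of_nonneg_right h3 (by linarith)) ht.le
  linarith

theorem rpow_lip {θ c u v : ℝ} (h0 : 0 < θ) (h1 : θ ≤ 1) (hc : 0 < c) (hu : c ≤ u) (hv : c ≤ v) :
    |u ^ θ - v ^ θ| ≤ c ^ (-(1 - θ)) * |u - v| := by
  have key : ∀ u v : ℝ, c ≤ v → v ≤ u → |u ^ θ - v ^ θ| ≤ c ^ (-(1 - θ)) * |u - v| := by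
    intro u v hv huv
    have hv0 : 0 < v := lt_of_lt_of_le hc hv
    rw [abs_of_nonneg (sub_nonneg.2 (Real.rpow_le_rpow hv0.le huv h0.le)),
      abs_of_nonneg (sub_nonneg.2 huv)]
    refine (rpow_sub_le h0.le h1 hv0 huv).trans ?_
    apply mul_le_mul_of_nonneg_right _ (sub_nonneg.2 huv)
    have e : -(1 - θ) = θ - 1 := by ring
    rw [e]
    have h2 : v ^ (θ - 1) ≤ c ^ (θ - 1) := Real.rpow_le_rpow_of_nonpos hc hv (by linarith)
    have h3 : 0 < v ^ (θ - 1) := Real.rpow_pos_of_pos hv0 _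
    nlinarith only [h2, h1, h3]
  rcases le_total v u with h | h
  · exact key u v hv h
  · rw [abs_sub_comm, abs_sub_comm u v]
    exact key v u hu h

theorem rpow_lip' {θ c u v : ℝ} (h0 : 0 < θ) (h1 : θ ≤ 1) (hc : 0 < c) (hc1 : c ≤ 1) (hu : c ≤ u)
    (hv : c ≤ v) : |u ^ (1 - θ) - v ^ (1 - θ)| ≤ c⁻¹ * (1 - θ) * |u - v| := by
  have key : ∀ u v : ℝ, c ≤ v → v ≤ u →
      |u ^ (1 - θ) - v ^ (1 - θ)| ≤ c⁻¹ * (1 - θ) * |u - v| := by
    intro u v hv huv
    have hv0 : 0 < v := lt_of_lt_of_le hc hv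
    have hs : 0 ≤ 1 - θ := by linarith
    rw [abs_of_nonneg (sub_nonneg.2 (Real.rpow_le_rpow hv0.le huv hs)),
      abs_of_nonneg (sub_nonneg.2 huv)]
    refine (rpow_sub_le hs (by linarith) hv0 huv).trans ?_
    apply mul_le_mul_of_nonneg_right _ (sub_nonneg.2 huv)
    have h2 : v ^ (1 - θ - 1) ≤ c ^ (1 - θ - 1) :=
      Real.rpow_le_rpow_of_nonpos hc hv (by linarith)
    have h3 : c ^ (1 - θ - 1) ≤ c⁻¹ := by
      rw [← Real.rpow_neg_one]
      exact Real.rpow_le_rpow_of_exponent_ge hc hc1 (by linarith)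
    rw [mul_comm c⁻¹]
    exact mul_le_mul_of_nonneg_left (h2.trans h3) hs
  rcases le_total v u with h | h
  · exact key u v hv h
  · rw [abs_sub_comm, abs_sub_comm u v]
    exact key v u hu h

/-- Powers of numbers in `[c, c⁻¹]`. -/
theorem rpow_mem {θ c u : ℝ} (h0 : 0 ≤ θ) (h1 : θ ≤ 1) (hc : 0 < c) (hc1 : c ≤ 1) (hu : c ≤ u)
    (hu' : u ≤ c⁻¹) : c ≤ u ^ θ ∧ u ^ θ ≤ c⁻¹ := by
  constructor
  · calc c = c ^ (1 : ℝ) := (Real.rpow_one c).symm
      _ ≤ c ^ θ := Real.rpow_le_rpow_of_exponent_ge hc hc1 h1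
      _ ≤ u ^ θ := Real.rpow_le_rpow hc.le hu h0
  · have hci : (1 : ℝ) ≤ c⁻¹ := (one_le_inv₀ hc).2 hc1
    calc u ^ θ ≤ c⁻¹ ^ θ := Real.rpow_le_rpow (hc.le.trans hu) hu' h0
      _ ≤ c⁻¹ ^ (1 : ℝ) := Real.rpow_le_rpow_of_exponent_le hci h1
      _ = c⁻¹ := Real.rpow_one _

theorem rpow_near {θ c u : ℝ} (h0 : 0 < θ) (h1 : θ ≤ 1) (hc : 0 < c) (hc1 : c ≤ 1) (hu : c ≤ u)
    (hu' : u ≤ c⁻¹) : |u ^ θ - u| ≤ c⁻¹ ^ 3 * (1 - θ) := by
  have hu0 : 0 < u := lt_of_lt_of_le hc hu
  have hci : (1 : ℝ) ≤ c⁻¹ := (one_le_inv₀ hc).2 hc1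
  have h2 : |u ^ (1 - θ) - 1 ^ (1 - θ)| ≤ c⁻¹ * (1 - θ) * |u - 1| :=
    rpow_lip' h0 h1 hc hc1 hu hc1
  rw [Real.one_rpow] at h2
  have h3 : |u - 1| ≤ c⁻¹ := by
    rw [abs_le]; constructor <;> linarith only [hc, hu, hci, hu']
  have e : u ^ θ - u = - (u ^ θ * (u ^ (1 - θ) - 1)) := by
    have : u ^ θ * u ^ (1 - θ) = u := by
      rw [← Real.rpow_add hu0]
      simp
    rw [mul_sub, this]; ring
  have h4 := (rpow_mem h0.le h1 hc hc1 hu hu').2
  have h5 : 0 < u ^ θ := Real.rpow_pos_of_pos hu0 _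
  rw [e, abs_neg, abs_mul, abs_of_pos h5]
  calc u ^ θ * |u ^ (1 - θ) - 1| ≤ c⁻¹ * (c⁻¹ * (1 - θ) * c⁻¹) := by
        apply mul_le_mul h4 _ (abs_nonneg _) (by positivity)
        refine h2.trans ?_
        apply mul_le_mul_of_nonneg_left h3
        apply mul_nonneg (by positivity) (by linarith only [h1])
    _ = c⁻¹ ^ 3 * (1 - θ) := by ring

theorem log_lip {c u v : ℝ} (hc : 0 < c) (hu : c ≤ u) (hv : c ≤ v) :
    |Real.log u - Real.log v| ≤ c⁻¹ * |u - v| := by
  have key : ∀ u v : ℝ, c ≤ v → v ≤ u → |Real.log u - Real.log v| ≤ c⁻¹ * |u - v| := by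
    intro u v hv huv
    have hv0 : 0 < v := lt_of_lt_of_le hc hv
    have hu0 : 0 < u := lt_of_lt_of_le hv0 huv
    rw [abs_of_nonneg (sub_nonneg.2 (Real.log_le_log hv0 huv)), abs_of_nonneg (sub_nonneg.2 huv),
      ← Real.log_div hu0.ne' hv0.ne']
    refine (Real.log_le_sub_one_of_pos (div_pos hu0 hv0)).trans ?_
    have e : u / v - 1 = v⁻¹ * (u - v) := by field_simp
    rw [e]
    apply mul_le_mul_of_nonneg_right _ (sub_nonneg.2 huv)
    exact inv_anti₀ hc hv
  rcases le_total v u with h | h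
  · exact key u v hv h
  · rw [abs_sub_comm, abs_sub_comm u v]
    exact key v u hu h

theorem exp_upper (y : ℝ) : Real.exp y ≤ 1 + y + y ^ 2 * Real.exp |y| := by
  rcases le_total 0 y with h | h
  · rw [abs_of_nonneg h]
    have h1 : 1 - y ≤ Real.exp (-y) := by
      have := Real.add_one_le_exp (-y); linarith
    have h2 : (1 - y) * Real.exp y ≤ 1 := by
      calc (1 - y) * Real.exp y ≤ Real.exp (-y) * Real.exp y :=
            mul_le_mul_of_nonneg_right h1 (Real.exp_pos y).le
        _ = 1 := by rw [← Real.exp_add]; simp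
    nlinarith only [h2, h]
  · have h1 : 1 - y ≤ Real.exp (-y) := by
      have := Real.add_one_le_exp (-y); linarith
    have h2 : (1 - y) * Real.exp y ≤ 1 := by
      calc (1 - y) * Real.exp y ≤ Real.exp (-y) * Real.exp y :=
            mul_le_mul_of_nonneg_right h1 (Real.exp_pos y).le
        _ = 1 := by rw [← Real.exp_add]; simp
    have h3 : y + 1 ≤ Real.exp y := Real.add_one_le_exp y
    have h4 : 1 ≤ Real.exp |y| := Real.one_le_exp (abs_nonneg y)
    nlinarith only [h2, h4, h, h3]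

namespace PE

variable {α : Type} (P : PE α)

/-- Jensen gap for `x ^ θ` on `[c, c⁻¹]`. -/
theorem jensen_rpow {θ c : ℝ} (h0 : 0 < θ) (h1 : θ ≤ 1) (hc : 0 < c) (hc1 : c ≤ 1) {f : α → ℝ}
    (hf : ∀ x, c ≤ f x) (hf' : ∀ x, f x ≤ c⁻¹) :
    |(P.E fun x => f x ^ θ) - (P.E f) ^ θ| ≤ c⁻¹ ^ 2 * (1 - θ) * P.var f := by
  set μ := P.E f with hμ
  have hμc : c ≤ μ := P.const_le hf
  have hμc' : μ ≤ c⁻¹ := P.le_const hf'
  have hμ0 : 0 < μ := lt_of_lt_of_le hc hμc
  have hμθ : 0 < μ ^ θ := Real.rpow_pos_of_pos hμ0 _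
  have hpow : ∀ x, f x ^ θ = μ ^ θ * (f x / μ) ^ θ := by
    intro x
    rw [← Real.mul_rpow hμ0.le (div_nonneg (hc.le.trans (hf x)) hμ0.le)]
    congr 1
    field_simp
  have hup : (P.E fun x => f x ^ θ) ≤ μ ^ θ := by
    have h : ∀ x, f x ^ θ ≤ μ ^ θ * (1 - θ) + (μ ^ θ * θ / μ) * f x := by
      intro x
      rw [hpow x]
      have := rpow_upper h0.le h1 (div_pos (lt_of_lt_of_le hc (hf x)) hμ0)
      have h2 := mul_le_mul_of_nonneg_left this hμθ.le
      refine h2.trans (le_of_eq ?_)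
      field_simp
      ring
    refine (P.mono h).trans ?_
    rw [P.add, P.const, P.smul, ← hμ]
    apply le_of_eq
    field_simp
    ring
  have hlo : μ ^ θ - (1 - θ) * (μ ^ θ / μ ^ 2) * P.var f ≤ P.E fun x => f x ^ θ := by
    have h : ∀ x, (μ ^ θ * (1 - θ) + (μ ^ θ * θ / μ) * f x) -
        ((1 - θ) * (μ ^ θ / μ ^ 2)) * (f x - μ) ^ 2 ≤ f x ^ θ := by
      intro x
      rw [hpow x]
      have := rpow_lower h1 (div_pos (lt_of_lt_of_le hc (hf x)) hμ0)
      have h2 := mul_le_mul_of_nonneg_left this hμθ.le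
      refine (le_of_eq ?_).trans h2
      field_simp
      ring
    refine le_trans ?_ (P.mono h)
    rw [P.sub, P.add, P.const, P.smul, P.smul, P.var_eq, ← hμ]
    apply le_of_eq
    field_simp
    ring
  have hvar := P.var_nonneg f
  have hcoef : μ ^ θ / μ ^ 2 ≤ c⁻¹ ^ 2 := by
    have e : μ ^ θ / μ ^ 2 = μ ^ (θ - 2) := by
      rw [Real.rpow_sub hμ0]
      norm_num
    rw [e]
    calc μ ^ (θ - 2) ≤ c ^ (θ - 2) := Real.rpow_le_rpow_of_nonpos hc hμc (by linarith only [h1])
      _ ≤ c ^ (-2 : ℝ) := Real.rpow_le_rpow_of_exponent_ge hc hc1 (by linarith only [h0])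
      _ = c⁻¹ ^ 2 := by
        rw [Real.rpow_neg hc.le, inv_pow]
        norm_num
  rw [_root_.abs_le]
  constructor
  · have h3 : (1 - θ) * (μ ^ θ / μ ^ 2) * P.var f ≤ c⁻¹ ^ 2 * (1 - θ) * P.var f := by
      apply mul_le_mul_of_nonneg_right _ hvar
      rw [mul_comm]
      exact mul_le_mul_of_nonneg_right hcoef (by linarith only [h1])
    linarith only [hlo, h3]
  · have h4 : 0 ≤ c⁻¹ ^ 2 * (1 - θ) * P.var f :=
      mul_nonneg (mul_nonneg (by positivity) (by linarith only [h1])) hvar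
    linarith only [hup, h4]

/-- Small powers: `(1/m) log E e^{m f}` is close to `E f`. -/
theorem log_exp_near {m M : ℝ} (hm : 0 < m) (hm1 : m ≤ 1) (hM : 0 ≤ M) {f : α → ℝ}
    (hf : ∀ x, |f x| ≤ M) :
    |(1 / m) * Real.log (P.E fun x => Real.exp (m * f x)) - P.E f| ≤ m * M ^ 2 * Real.exp M := by
  set μ := P.E f with hμ
  have hpos : 0 ≤ m * M ^ 2 * Real.exp M := by positivity
  -- lower bound
  have hlo : Real.exp (m * μ) ≤ P.E fun x => Real.exp (m * f x) := by
    have h : ∀ x, Real.exp (m * μ) * (1 - m * μ) + (Real.exp (m * μ) * m) * f x ≤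
        Real.exp (m * f x) := by
      intro x
      have h1 : m * f x - m * μ + 1 ≤ Real.exp (m * f x - m * μ) := Real.add_one_le_exp _
      have h2 : Real.exp (m * f x) = Real.exp (m * μ) * Real.exp (m * f x - m * μ) := by
        rw [← Real.exp_add]; congr 1; ring
      rw [h2]
      have h3 := mul_le_mul_of_nonneg_left h1 (Real.exp_pos (m * μ)).le
      refine (le_of_eq ?_).trans h3
      ring
    refine le_trans ?_ (P.mono h)
    rw [P.add, P.const, P.smul, ← hμ]
    apply le_of_eq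
    ring
  have hE0 : 0 < P.E fun x => Real.exp (m * f x) := lt_of_lt_of_le (Real.exp_pos _) hlo
  have hup : (P.E fun x => Real.exp (m * f x)) ≤ 1 + m * μ + m ^ 2 * M ^ 2 * Real.exp M := by
    have h : ∀ x, Real.exp (m * f x) ≤ (1 + m ^ 2 * M ^ 2 * Real.exp M) + m * f x := by
      intro x
      have h1 := exp_upper (m * f x)
      have h2 : |m * f x| ≤ M := by
        rw [abs_mul, abs_of_pos hm]
        calc m * |f x| ≤ 1 * |f x| := mul_le_mul_of_nonneg_right hm1 (abs_nonneg _)
          _ ≤ M := by rw [one_mul]; exact hf x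
      have h3 : (m * f x) ^ 2 ≤ m ^ 2 * M ^ 2 := by
        rw [mul_pow]
        apply mul_le_mul_of_nonneg_left _ (sq_nonneg m)
        exact sq_le_sq' (by linarith [(_root_.abs_le.1 (hf x)).1]) (_root_.abs_le.1 (hf x)).2
      have h4 : (m * f x) ^ 2 * Real.exp |m * f x| ≤ m ^ 2 * M ^ 2 * Real.exp M :=
        mul_le_mul h3 (Real.exp_le_exp.2 h2) (Real.exp_pos _).le (by positivity)
      linarith
    refine (P.mono h).trans (le_of_eq ?_)
    rw [P.add, P.const, P.smul, ← hμ]
    ring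
  rw [_root_.abs_le]
  constructor
  · have h1 : m * μ ≤ Real.log (P.E fun x => Real.exp (m * f x)) := by
      rw [Real.le_log_iff_exp_le hE0]; exact hlo
    have h2 : μ ≤ (1 / m) * Real.log (P.E fun x => Real.exp (m * f x)) := by
      rw [one_div, ← div_eq_inv_mul, le_div_iff₀ hm]; linarith
    linarith
  · have h1 : Real.log (P.E fun x => Real.exp (m * f x)) ≤
        m * μ + m ^ 2 * M ^ 2 * Real.exp M := by
      have := Real.log_le_sub_one_of_pos hE0
      linarith
    have h2 : (1 / m) * Real.log (P.E fun x => Real.exp (m * f x)) ≤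
        μ + m * M ^ 2 * Real.exp M := by
      rw [one_div, ← div_eq_inv_mul, div_le_iff₀ hm]
      nlinarith only [h1]
    linarith

end PE

end Vale.Agent.N168I.MP
end
end

section

section

set_option autoImplicit false

open Finset

namespace Vale.Agent.N168I.MP

/-! ### Real lemmas on powers -/

namespace PE

variable {α : Type} (P : PE α)

theorem cov_comm (f g : α → ℝ) : P.cov f g = P.cov g f := by
  unfold cov
  rw [mul_comm (P.E f)]
  congr 2
  funext x
  ring

theorem cov_add_right (f g h : α → ℝ) :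
    P.cov f (fun x => g x + h x) = P.cov f g + P.cov f h := by
  unfold cov
  rw [P.add]
  have : (fun x => f x * (g x + h x)) = fun x => f x * g x + f x * h x := by
    funext x; ring
  rw [this, P.add]
  ring

theorem cov_smul_right (c : ℝ) (f g : α → ℝ) :
    P.cov f (fun x => c * g x) = c * P.cov f g := by
  unfold cov
  rw [P.smul]
  have : (fun x => f x * (c * g x)) = fun x => c * (f x * g x) := by
    funext x; ring
  rw [this, P.smul]
  ring

theorem sd_sq (f : α → ℝ) : P.sd f ^ 2 = P.var f := by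
  unfold sd
  exact Real.sq_sqrt (P.var_nonneg f)

end PE

/-! ### Averages over the classes of a finite set -/

section cavg

variable {S Z : Type} [Fintype S] [DecidableEq Z]

/-- Average of `f` over the class `{s' | cell s' = cell s}` of `s`. -/
noncomputable def cavg (cell : S → Z) (f : S → ℝ) (s : S) : ℝ :=
  (∑ s' with cell s' = cell s, f s') / (#{s' | cell s' = cell s} : ℝ)

variable [Nonempty S]

end cavg

/-! ### Claim C -/

section ClaimC

variable {α : Type} (P : PE α) {S Z : Type} [Fintype S] [Fintype Z] [DecidableEq Z]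

variable [Nonempty S]

end ClaimC

end Vale.Agent.N168I.MP
end
end

section

section

set_option autoImplicit false

open MeasureTheory ProbabilityTheory Filter
open scoped NNReal Topology

namespace Vale.Agent.N168I.MP

/-- From the two bounds to the limit. -/
theorem limit_of_bounds {K : ℕ} {lam : ℝ≥0} {ρ : Measure (Clause K)} {ν : Measure ℝ}
    (hl : mezardParisi lam ρ ν ≤ liminf (fun N => ((pressure lam ρ ν N : ℝ) : EReal)) atTop)
    (hu : ∀ N : ℕ, 1 ≤ N → ∀ (r : ℕ) (m : Fin r → ℝ) (x : (Fin (r + 1) → U01) → ℝ),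
      IsTrial r m x → pressure lam ρ ν N ≤ trialU lam ρ ν r m x - trialV lam ρ r m x) :
    ∃ L : ℝ, Tendsto (fun N => pressure lam ρ ν N) atTop (𝓝 L) ∧ mezardParisi lam ρ ν = L := by
  have hup : ∀ N : ℕ, 1 ≤ N → ((pressure lam ρ ν N : ℝ) : EReal) ≤ mezardParisi lam ρ ν := by
    intro N hN
    unfold mezardParisi phi
    refine le_iInf fun r => le_iInf fun m => le_iInf fun x => le_iInf fun hx => ?_
    exact EReal.coe_le_coe_iff.2 (hu N hN r m x hx)
  have hlim : Tendsto (fun N => ((pressure lam ρ ν N : ℝ) : EReal)) atTop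
      (𝓝 (mezardParisi lam ρ ν)) := by
    refine tendsto_of_le_liminf_of_limsup_le hl ?_
    refine (limsup_le_limsup (v := fun _ => mezardParisi lam ρ ν) ?_).trans ?_
    · filter_upwards [eventually_ge_atTop 1] with N hN using hup N hN
    · rw [limsup_const]
  have hbot : mezardParisi lam ρ ν ≠ ⊥ := by
    intro h
    have := hup 1 le_rfl
    rw [h, le_bot_iff] at this
    exact EReal.coe_ne_bot _ this
  have htop : mezardParisi lam ρ ν ≠ ⊤ := by
    intro h
    have h0 : IsTrial 0 (Fin.elim0 : Fin 0 → ℝ) (fun _ => 0) :=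
      ⟨fun i => i.elim0, fun i => i.elim0, measurable_const, fun _ => by constructor <;> norm_num⟩
    have h1 : mezardParisi lam ρ ν ≤
        ((trialU lam ρ ν 0 Fin.elim0 (fun _ => 0) - trialV lam ρ 0 Fin.elim0 (fun _ => 0) : ℝ) :
          EReal) := by
      unfold mezardParisi phi
      exact (iInf_le _ 0).trans ((iInf_le _ Fin.elim0).trans ((iInf_le _ fun _ => 0).trans
        (iInf_le _ h0)))
    rw [h, top_le_iff] at h1
    exact EReal.coe_ne_top _ h1
  refine ⟨(mezardParisi lam ρ ν).toReal, ?_, (EReal.coe_toReal htop hbot).symm⟩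
  rw [← EReal.tendsto_coe, EReal.coe_toReal htop hbot]
  exact hlim

end Vale.Agent.N168I.MP
end
end

section

section

/-!
Definitions for the upper bound: factors, spaces, the interpolating free energy `TT`.
-/

set_option autoImplicit false

open MeasureTheory ProbabilityTheory Filter
open scoped NNReal Topology

namespace Vale.Agent.N168I.PT

/-- Law of a clause, its sites and the level-`0` variables of its messages. -/
noncomputable def cl3 {K : ℕ} (ρ : Measure (Clause K)) (N : ℕ) :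
    Measure ((Clause K × (Fin K → Fin N)) × (Fin K → U01)) :=
  (ρ.prod (Measure.pi fun _ : Fin K => unif N)).prod (Measure.pi fun _ : Fin K => volume)

/-- Messages of one clause. -/
def msgs {K r : ℕ} (x : (Fin (r + 1) → U01) → ℝ) (w : Fin K → U01) (v : Fin r → Fin K → U01)
    (j : Fin K) : ℝ := x (Fin.cons (w j) fun p => v p j)

/-- Interaction factor. -/
noncomputable def intF {K N : ℕ} (y : (Clause K × (Fin K → Fin N)) × (Fin K → U01))
    (σ : Fin N → Bool) : ℝ := Real.exp (theta y.1.1 fun j => σ (y.1.2 j))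

/-- Cavity factor. -/
noncomputable def cavF {K N r : ℕ} (x : (Fin (r + 1) → U01) → ℝ)
    (y : (Clause K × (Fin K → Fin N)) × (Fin K → U01)) (l : Fin K) (v : Fin r → Fin K → U01)
    (σ : Fin N → Bool) : ℝ := cavityFactor y.1.1 l (msgs x y.2 v) (σ (y.1.2 l))

/-- Edge factor. -/
noncomputable def edgF {K N r : ℕ} (x : (Fin (r + 1) → U01) → ℝ)
    (y : (Clause K × (Fin K → Fin N)) × (Fin K → U01)) (v : Fin r → Fin K → U01) : ℝ :=
  edgeFactor y.1.1 (msgs x y.2 v)

variable {K N r : ℕ}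

/-- level variables of one clause. -/
abbrev Lv (K : ℕ) : Type := Fin K → U01

/-- law of the level variables of one clause. -/
noncomputable abbrev lvM (K : ℕ) : Measure (Lv K) := Measure.pi fun _ : Fin K => (volume : Measure U01)

/-- clause, sites, level-`0` variables. -/
abbrev Y3 (K N : ℕ) : Type := (Clause K × (Fin K → Fin N)) × (Fin K → U01)

/-- clause, distinguished index, level-`0` variables, site. -/
abbrev C4 (K N : ℕ) : Type := ((Clause K × Fin K) × (Fin K → U01)) × Fin N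

/-- the law on `C4`. -/
noncomputable def c4 (ρ : Measure (Clause K)) (N : ℕ) : Measure (C4 K N) :=
  ((ρ.prod (unif K)).prod (lvM K)).prod (unif N)

/-- outer randomness of the interpolating system. -/
abbrev Om (K N a n : ℕ) : Type := (Fin a → Y3 K N) × ((Fin n → C4 K N) × (Fin N → ℝ))

/-- law of the outer randomness. -/
noncomputable def om (ρ : Measure (Clause K)) (ν : Measure ℝ) (N a n : ℕ) :
    Measure (Om K N a n) :=
  (Measure.pi fun _ : Fin a => cl3 ρ N).prod
    ((Measure.pi fun _ : Fin n => c4 ρ N).prod (Measure.pi fun _ : Fin N => ν))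

/-- cavity factor of an element of `C4`. -/
noncomputable def cavC (x : (Fin (r + 1) → U01) → ℝ) (q : C4 K N) (v : Fin r → Lv K)
    (σ : Fin N → Bool) : ℝ :=
  cavityFactor q.1.1.1 q.1.1.2 (msgs x q.1.2 v) (σ q.2)

/-- the weight of a configuration. -/
noncomputable def wt {a n : ℕ} (x : (Fin (r + 1) → U01) → ℝ) (ω : Om K N a n)
    (v : Fin r → Fin n → Lv K) (σ : Fin N → Bool) : ℝ :=
  (∏ k, intF (ω.1 k) σ) * (Real.exp (∑ s, ω.2.2 s * spin (σ s)) *
    ∏ k, cavC x (ω.2.1 k) (fun p => v p k) σ)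

/-- the logarithm of the nested partition function. -/
noncomputable def FF {a n : ℕ} (m : Fin r → ℝ) (x : (Fin (r + 1) → U01) → ℝ)
    (ω : Om K N a n) : ℝ :=
  Real.log (nest (Measure.pi fun _ : Fin n => lvM K) r m fun v => ∑ σ, wt x ω v σ)

/-- the interpolating free energy: `a` interactions, `n` cavity clauses. -/
noncomputable def TT (ρ : Measure (Clause K)) (ν : Measure ℝ) (m : Fin r → ℝ)
    (x : (Fin (r + 1) → U01) → ℝ) (N a n : ℕ) : ℝ :=
  ∫ ω, FF m x ω ∂(om ρ ν N a n)

/-- the edge term. -/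
noncomputable def tV (ρ : Measure (Clause K)) (m : Fin r → ℝ) (x : (Fin (r + 1) → U01) → ℝ)
    (N : ℕ) : ℝ :=
  ∫ y, Real.log (nest (lvM K) r m fun v => edgF x y v) ∂(cl3 ρ N)

end Vale.Agent.N168I.PT
end
end

section

section

/-!
The interpolating system: spaces, measures and measure preserving maps.
-/

set_option autoImplicit false

open MeasureTheory ProbabilityTheory
open scoped NNReal

namespace Vale.Agent.N168I.PT

section Cons

theorem cons_mp {C : Type} [MeasurableSpace C] (μ : Measure C) [SigmaFinite μ] (n : ℕ) :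
    MeasurePreserving (fun p : C × (Fin n → C) => (Fin.cons p.1 p.2 : Fin (n + 1) → C))
      (μ.prod (Measure.pi fun _ => μ)) (Measure.pi fun _ => μ) := by
  have h1 := (measurePreserving_piFinSuccAbove (fun _ : Fin (n + 1) => μ) 0).symm
  have e : (⇑(MeasurableEquiv.piFinSuccAbove (fun _ : Fin (n + 1) => C) 0).symm) =
      fun p : C × (Fin n → C) => (Fin.cons p.1 p.2 : Fin (n + 1) → C) := by
    funext p
    simp only [MeasurableEquiv.piFinSuccAbove_symm_apply]
    rw [Fin.insertNthEquiv_zero]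
    rfl
  rw [e] at h1
  exact h1

theorem cons_mp' {C : Type} [MeasurableSpace C] (μ : Measure C) [SigmaFinite μ] (n : ℕ) :
    MeasurePreserving (fun p : (Fin n → C) × C => (Fin.cons p.2 p.1 : Fin (n + 1) → C))
      ((Measure.pi fun _ => μ).prod μ) (Measure.pi fun _ => μ) :=
  (cons_mp μ n).comp Measure.measurePreserving_swap

end Cons

variable {K N r : ℕ}

section Inst

variable {ρ : Measure (Clause K)} {ν : Measure ℝ} [IsProbabilityMeasure ρ]
  [IsProbabilityMeasure ν] [NeZero N] [NeZero K]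

instance unif_prob (n : ℕ) [NeZero n] : IsProbabilityMeasure (unif n) := by
  unfold unif
  infer_instance

instance cl3_prob : IsProbabilityMeasure (cl3 ρ N) := by
  unfold cl3; infer_instance

instance c4_prob : IsProbabilityMeasure (c4 ρ N) := by
  unfold c4; infer_instance

instance om_prob (a n : ℕ) : IsProbabilityMeasure (om ρ ν N a n) := by
  unfold om; infer_instance

end Inst

/-- insert an interaction. -/
def insA {a n : ℕ} (q : Om K N a n × Y3 K N) : Om K N (a + 1) n :=
  (Fin.cons q.2 q.1.1, q.1.2)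

/-- insert a cavity clause. -/
def insC {a n : ℕ} (q : Om K N a n × C4 K N) : Om K N a (n + 1) :=
  (q.1.1, (Fin.cons q.2 q.1.2.1, q.1.2.2))

variable (ρ : Measure (Clause K)) (ν : Measure ℝ) [IsProbabilityMeasure ρ]
  [IsProbabilityMeasure ν] [NeZero N] [NeZero K]

theorem insA_mp (a n : ℕ) :
    MeasurePreserving (insA (K := K) (N := N) (a := a) (n := n)) ((om ρ ν N a n).prod (cl3 ρ N))
      (om ρ ν N (a + 1) n) := by
  have h1 : MeasurePreserving (Prod.swap : Om K N a n × Y3 K N → Y3 K N × Om K N a n)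
      ((om ρ ν N a n).prod (cl3 ρ N)) ((cl3 ρ N).prod (om ρ ν N a n)) :=
    Measure.measurePreserving_swap
  have h2 := (measurePreserving_prodAssoc (cl3 ρ N) (Measure.pi fun _ : Fin a => cl3 ρ N)
    ((Measure.pi fun _ : Fin n => c4 ρ N).prod (Measure.pi fun _ : Fin N => ν))).symm
  have h3 := (cons_mp (cl3 ρ N) a).prod (MeasurePreserving.id
    ((Measure.pi fun _ : Fin n => c4 ρ N).prod (Measure.pi fun _ : Fin N => ν)))
  exact h3.comp (h2.comp h1)

theorem insC_mp (a n : ℕ) :
    MeasurePreserving (insC (K := K) (N := N) (a := a) (n := n)) ((om ρ ν N a n).prod (c4 ρ N))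
      (om ρ ν N a (n + 1)) := by
  have h1 := measurePreserving_prodAssoc (Measure.pi fun _ : Fin a => cl3 ρ N)
    ((Measure.pi fun _ : Fin n => c4 ρ N).prod (Measure.pi fun _ : Fin N => ν)) (c4 ρ N)
  have h2 := (MeasurePreserving.id (Measure.pi fun _ : Fin a => cl3 ρ N)).prod
    (Measure.measurePreserving_swap (μ := (Measure.pi fun _ : Fin n => c4 ρ N).prod
      (Measure.pi fun _ : Fin N => ν)) (ν := c4 ρ N))
  have h3 := (MeasurePreserving.id (Measure.pi fun _ : Fin a => cl3 ρ N)).prod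
    (measurePreserving_prodAssoc (c4 ρ N) (Measure.pi fun _ : Fin n => c4 ρ N)
      (Measure.pi fun _ : Fin N => ν)).symm
  have h4 := (MeasurePreserving.id (Measure.pi fun _ : Fin a => cl3 ρ N)).prod
    ((cons_mp (c4 ρ N) n).prod (MeasurePreserving.id (Measure.pi fun _ : Fin N => ν)))
  exact h4.comp (h3.comp (h2.comp h1))

/-- from a clause with sites to the distinguished site. -/
def toC4 (q : Y3 K N × Fin K) : C4 K N := (((q.1.1.1, q.2), q.1.2), q.1.1.2 q.2)

theorem toC4_mp : MeasurePreserving (toC4 (K := K) (N := N)) ((cl3 ρ N).prod (unif K))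
    (c4 ρ N) := by
  set μI : Measure (Fin K → Fin N) := Measure.pi fun _ : Fin K => unif N with hμI
  set μw : Measure (Fin K → U01) := Measure.pi fun _ : Fin K => volume with hμw
  have h1 := measurePreserving_prodAssoc (ρ.prod μI) μw (unif K)
  have h2 := measurePreserving_prodAssoc ρ μI (μw.prod (unif K))
  have h3 := (MeasurePreserving.id ρ).prod
    (Measure.measurePreserving_swap (μ := μI) (ν := μw.prod (unif K)))
  have h4 := (measurePreserving_prodAssoc ρ (μw.prod (unif K)) μI).symm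
  have h5 := ((MeasurePreserving.id ρ).prod
    (Measure.measurePreserving_swap (μ := μw) (ν := unif K))).prod (MeasurePreserving.id μI)
  have h6 := ((measurePreserving_prodAssoc ρ (unif K) μw).symm).prod (MeasurePreserving.id μI)
  have h7 : MeasurePreserving (fun p : ((Clause K × Fin K) × (Fin K → U01)) × (Fin K → Fin N) =>
      ((p.1, p.2 p.1.1.2) : C4 K N)) (((ρ.prod (unif K)).prod μw).prod μI) (c4 ρ N) := by
    refine MeasurePreserving.skew_product (f := id)
      (g := fun (p : (Clause K × Fin K) × (Fin K → U01)) (I : Fin K → Fin N) => I p.1.2)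
      (MeasurePreserving.id _) ?_ ?_
    · have h8 : Measurable fun q : (Fin K → Fin N) × Fin K => q.1 q.2 := measurable_of_countable _
      exact h8.comp (measurable_snd.prodMk (measurable_snd.comp (measurable_fst.comp
        measurable_fst)))
    · refine Filter.Eventually.of_forall fun p => ?_
      exact (measurePreserving_eval (fun _ : Fin K => unif N) p.1.2).map_eq
  exact h7.comp (h6.comp (h5.comp (h4.comp (h3.comp (h2.comp h1)))))

end Vale.Agent.N168I.PT
end
end

section

section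

set_option autoImplicit false

open MeasureTheory ProbabilityTheory
open scoped NNReal Nat

namespace Vale.Agent.N168I

/-- The Poisson weight. -/
noncomputable def pw (a : ℝ≥0) (n : ℕ) : ℝ := Real.exp (-a) * (a : ℝ) ^ n / (n ! : ℝ)

theorem pw_nonneg (a : ℝ≥0) (n : ℕ) : 0 ≤ pw a n := by unfold pw; positivity

theorem pois_integral (a : ℝ≥0) (f : ℕ → ℝ) :
    ∫ n, f n ∂(poissonMeasure a) = ∑' n, pw a n * f n := by
  rw [integral_poissonMeasure]; rfl

theorem pw_summable_pow (a : ℝ≥0) (A : ℝ) : Summable fun n => pw a n * A ^ n := by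
  have h := Real.summable_pow_div_factorial ((a : ℝ) * A)
  have h2 := h.mul_left (Real.exp (-a))
  refine h2.congr fun n => ?_
  unfold pw
  rw [mul_pow]; ring

/-- Exponential growth. -/
def ExpGrowth (f : ℕ → ℝ) : Prop := ∃ C A : ℝ, 0 ≤ C ∧ 1 ≤ A ∧ ∀ n, |f n| ≤ C * A ^ n

/-- Exponential growth in two variables. -/
def ExpGrowth2 (f : ℕ → ℕ → ℝ) : Prop :=
  ∃ C A : ℝ, 0 ≤ C ∧ 1 ≤ A ∧ ∀ k l, |f k l| ≤ C * (A ^ k * A ^ l)

theorem ExpGrowth.summable {f : ℕ → ℝ} (hf : ExpGrowth f) (a : ℝ≥0) :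
    Summable fun n => pw a n * f n := by
  obtain ⟨C, A, hC, hA, h⟩ := hf
  refine Summable.of_norm_bounded ((pw_summable_pow a A).mul_left C) fun n => ?_
  rw [Real.norm_eq_abs, abs_mul, abs_of_nonneg (pw_nonneg a n)]
  calc pw a n * |f n| ≤ pw a n * (C * A ^ n) := mul_le_mul_of_nonneg_left (h n) (pw_nonneg a n)
    _ = C * (pw a n * A ^ n) := by ring

theorem ExpGrowth.integrable {f : ℕ → ℝ} (hf : ExpGrowth f) (a : ℝ≥0) :
    Integrable f (poissonMeasure a) := by
  rw [integrable_poissonMeasure_iff]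
  have hf' : ExpGrowth fun n => ‖f n‖ := by
    obtain ⟨C, A, hC, hA, h⟩ := hf
    exact ⟨C, A, hC, hA, fun n => by simpa only [Real.norm_eq_abs, abs_abs] using h n⟩
  exact hf'.summable a

theorem ExpGrowth.add {f g : ℕ → ℝ} (hf : ExpGrowth f) (hg : ExpGrowth g) :
    ExpGrowth fun n => f n + g n := by
  obtain ⟨C, A, hC, hA, h⟩ := hf
  obtain ⟨C', A', hC', hA', h'⟩ := hg
  refine ⟨C + C', A * A', by positivity, by nlinarith only [hA, hA'], fun n => ?_⟩
  have h1 : A ^ n ≤ (A * A') ^ n := by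
    apply pow_le_pow_left₀ (by linarith); nlinarith only [hA', hA]
  have h2 : A' ^ n ≤ (A * A') ^ n := by
    apply pow_le_pow_left₀ (by linarith); nlinarith only [hA, hA']
  calc |f n + g n| ≤ |f n| + |g n| := abs_add_le _ _
    _ ≤ C * A ^ n + C' * A' ^ n := add_le_add (h n) (h' n)
    _ ≤ C * (A * A') ^ n + C' * (A * A') ^ n :=
        add_le_add (mul_le_mul_of_nonneg_left h1 hC) (mul_le_mul_of_nonneg_left h2 hC')
    _ = _ := by ring

theorem ExpGrowth.const_mul {f : ℕ → ℝ} (hf : ExpGrowth f) (c : ℝ) :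
    ExpGrowth fun n => c * f n := by
  obtain ⟨C, A, hC, hA, h⟩ := hf
  refine ⟨|c| * C, A, by positivity, hA, fun n => ?_⟩
  rw [abs_mul, mul_assoc]
  exact mul_le_mul_of_nonneg_left (h n) (abs_nonneg c)

theorem expGrowth_const (c : ℝ) : ExpGrowth fun _ => c :=
  ⟨|c|, 1, abs_nonneg c, le_refl 1, fun n => by simp⟩

theorem nat_le_two_pow_real (n : ℕ) : (n : ℝ) ≤ 2 ^ n := by
  have : n < 2 ^ n := Nat.lt_two_pow_self
  exact_mod_cast this.le

theorem expGrowth_of_linear {f : ℕ → ℝ} {c d : ℝ} (hf : ∀ n, |f n| ≤ c + d * n) (hc : 0 ≤ c)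
    (hd : 0 ≤ d) : ExpGrowth f := by
  refine ⟨c + d, 2, by positivity, by norm_num, fun n => ?_⟩
  have h1 : (1 : ℝ) ≤ 2 ^ n := one_le_pow₀ (by norm_num)
  have h2 := nat_le_two_pow_real n
  calc |f n| ≤ c + d * n := hf n
    _ ≤ c * 2 ^ n + d * 2 ^ n := by
        apply add_le_add
        · nlinarith only [hc, h1]
        · exact mul_le_mul_of_nonneg_left h2 hd
    _ = _ := by ring

theorem pois_mono {f g : ℕ → ℝ} (hf : ExpGrowth f) (hg : ExpGrowth g) (a : ℝ≥0)
    (h : ∀ n, f n ≤ g n) : ∫ n, f n ∂(poissonMeasure a) ≤ ∫ n, g n ∂(poissonMeasure a) :=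
  integral_mono (hf.integrable a) (hg.integrable a) h

theorem pois_const (a : ℝ≥0) (c : ℝ) : ∫ _, c ∂(poissonMeasure a) = c := by simp

/-- Factorial-type moments of the Poisson law. -/
theorem pois_descFactorial (a : ℝ≥0) (m : ℕ) (x : ℝ) :
    ∫ n, ((n.descFactorial m : ℝ) * x ^ (n - m)) ∂(poissonMeasure a) =
      (a : ℝ) ^ m * Real.exp (a * (x - 1)) := by
  rw [pois_integral]
  have hsum : HasSum (fun j : ℕ => (a : ℝ) ^ m * Real.exp (-a) * (((a : ℝ) * x) ^ j / (j ! : ℝ)))
      ((a : ℝ) ^ m * Real.exp (-a) * Real.exp (a * x)) := by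
    have h := (NormedSpace.expSeries_div_hasSum_exp ((a : ℝ) * x))
    rw [← Real.exp_eq_exp_ℝ] at h
    exact h.mul_left _
  have hinj : Function.Injective (fun j : ℕ => j + m) := add_left_injective m
  have hsum2 : HasSum (fun n : ℕ => pw a n * ((n.descFactorial m : ℝ) * x ^ (n - m)))
      ((a : ℝ) ^ m * Real.exp (-a) * Real.exp (a * x)) := by
    rw [← hinj.hasSum_iff]
    · refine hsum.congr_fun ?_ |> id
      intro j
      simp only [Function.comp]
      have hfac : ((j + m)! : ℝ) = (j ! : ℝ) * ((j + m).descFactorial m : ℝ) := by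
        have h1 := Nat.factorial_mul_descFactorial (Nat.le_add_left m j)
        rw [Nat.add_sub_cancel] at h1
        exact_mod_cast h1.symm
      have hj : (j ! : ℝ) ≠ 0 := by exact_mod_cast Nat.factorial_ne_zero j
      have hd : ((j + m).descFactorial m : ℝ) ≠ 0 := by
        have : 0 < (j + m).descFactorial m := Nat.descFactorial_pos.2 (Nat.le_add_left m j)
        exact_mod_cast this.ne'
      unfold pw
      rw [hfac, Nat.add_sub_cancel, pow_add, mul_pow]
      field_simp
    · intro n hn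
      have hlt : n < m := by
        by_contra h
        push Not at h
        exact hn ⟨n - m, by simp only; omega⟩
      rw [Nat.descFactorial_of_lt hlt]
      simp
  rw [hsum2.tsum_eq, mul_assoc, ← Real.exp_add]
  congr 2
  ring

theorem pois_mean (a : ℝ≥0) : ∫ n, (n : ℝ) ∂(poissonMeasure a) = a := by
  have h := pois_descFactorial a 1 1
  simpa only [Nat.descFactorial_succ, tsub_zero, Nat.descFactorial_zero, mul_one, one_pow, pow_one, sub_self,     mul_zero, Real.exp_zero] using h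

/-- Poisson thinning. -/
theorem pois_thinning {B : ℕ → ℕ → ℝ} (hB : ExpGrowth2 B) (a p q : ℝ≥0) (hpq : p + q = 1) :
    ∫ n, (∑ kl ∈ Finset.HasAntidiagonal.antidiagonal n,
        (n.choose kl.1 : ℝ) * (p : ℝ) ^ kl.1 * (q : ℝ) ^ kl.2 * B kl.1 kl.2) ∂(poissonMeasure a) =
      ∫ k, (∫ l, B k l ∂(poissonMeasure (q * a))) ∂(poissonMeasure (p * a)) := by
  obtain ⟨C, A, hC, hA, hb⟩ := hB
  rw [pois_integral, pois_integral]
  have hS : Summable fun kl : ℕ × ℕ => pw (p * a) kl.1 * (pw (q * a) kl.2 * B kl.1 kl.2) := by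
    have h1 := pw_summable_pow (p * a) A
    have h2 := pw_summable_pow (q * a) A
    have h3 : Summable fun kl : ℕ × ℕ => (pw (p * a) kl.1 * A ^ kl.1) * (pw (q * a) kl.2 * A ^ kl.2) :=
      h1.mul_of_nonneg h2 (fun n => mul_nonneg (pw_nonneg _ _) (by positivity))
        (fun n => mul_nonneg (pw_nonneg _ _) (by positivity))
    refine Summable.of_norm_bounded (h3.mul_left C) fun kl => ?_
    rw [Real.norm_eq_abs, abs_mul, abs_mul, abs_of_nonneg (pw_nonneg _ _),
      abs_of_nonneg (pw_nonneg _ _)]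
    calc pw (p * a) kl.1 * (pw (q * a) kl.2 * |B kl.1 kl.2|)
        ≤ pw (p * a) kl.1 * (pw (q * a) kl.2 * (C * (A ^ kl.1 * A ^ kl.2))) := by
          apply mul_le_mul_of_nonneg_left _ (pw_nonneg _ _)
          exact mul_le_mul_of_nonneg_left (hb _ _) (pw_nonneg _ _)
      _ = _ := by ring
  have hR : ∑' k, pw (p * a) k * ∫ l, B k l ∂(poissonMeasure (q * a)) =
      ∑' kl : ℕ × ℕ, pw (p * a) kl.1 * (pw (q * a) kl.2 * B kl.1 kl.2) := by
    rw [hS.tsum_prod]
    refine tsum_congr fun k => ?_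
    rw [pois_integral, ← tsum_mul_left]
  rw [hR, ← (Finset.HasAntidiagonal.sigmaAntidiagonalEquivProd (A := ℕ)).tsum_eq]
  have hS' : Summable fun x : (Σ n : ℕ, Finset.HasAntidiagonal.antidiagonal n) =>
      pw (p * a) ((Finset.HasAntidiagonal.sigmaAntidiagonalEquivProd (A := ℕ)) x).1 *
      (pw (q * a) ((Finset.HasAntidiagonal.sigmaAntidiagonalEquivProd (A := ℕ)) x).2 *
        B ((Finset.HasAntidiagonal.sigmaAntidiagonalEquivProd (A := ℕ)) x).1
          ((Finset.HasAntidiagonal.sigmaAntidiagonalEquivProd (A := ℕ)) x).2) :=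
    (Finset.HasAntidiagonal.sigmaAntidiagonalEquivProd (A := ℕ)).summable_iff.2 hS
  rw [hS'.tsum_sigma]
  refine tsum_congr fun n => ?_
  rw [tsum_fintype]
  have hcoe := Finset.sum_coe_sort (Finset.HasAntidiagonal.antidiagonal n) (fun kl : ℕ × ℕ =>
    pw (p * a) kl.1 * (pw (q * a) kl.2 * B kl.1 kl.2))
  refine Eq.trans ?_ hcoe.symm
  rw [Finset.mul_sum]
  refine Finset.sum_congr rfl fun kl hkl => ?_
  rw [Finset.HasAntidiagonal.mem_antidiagonal] at hkl
  have hp : (p : ℝ) + q = 1 := by exact_mod_cast hpq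
  have hexp : Real.exp (-((p * a : ℝ≥0) : ℝ)) * Real.exp (-((q * a : ℝ≥0) : ℝ)) =
      Real.exp (-(a : ℝ)) := by
    rw [← Real.exp_add]
    congr 1
    push_cast
    linear_combination (-(a : ℝ)) * hp
  have hch : (n.choose kl.1 : ℝ) * ((kl.1)! : ℝ) * ((kl.2)! : ℝ) = (n ! : ℝ) := by
    have h1 : kl.1 ≤ n := by omega
    have h2 : n - kl.1 = kl.2 := by omega
    have h3 := Nat.choose_mul_factorial_mul_factorial h1
    rw [h2] at h3
    exact_mod_cast h3
  have hk0 : ((kl.1)! : ℝ) ≠ 0 := by exact_mod_cast Nat.factorial_ne_zero _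
  have hl0 : ((kl.2)! : ℝ) ≠ 0 := by exact_mod_cast Nat.factorial_ne_zero _
  have hn0 : (n ! : ℝ) ≠ 0 := by exact_mod_cast Nat.factorial_ne_zero _
  have hn : n = kl.1 + kl.2 := hkl.symm
  unfold pw
  have : (n.choose kl.1 : ℝ) = (n ! : ℝ) / (((kl.1)! : ℝ) * ((kl.2)! : ℝ)) := by
    rw [← hch]; (clear * - hk0 hl0; field_simp)
  rw [this, ← hexp]
  push_cast
  rw [mul_pow, mul_pow]
  have hpow : (a : ℝ) ^ n = (a : ℝ) ^ kl.1 * (a : ℝ) ^ kl.2 := by rw [← pow_add, hkl]
  rw [hpow]
  (clear * - hn0 hl0 hk0; field_simp)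

/-- The binomial mixture of `V 0`. -/
noncomputable def bmix (p q : ℝ) (V0 : ℕ → ℕ → ℝ) (n k l : ℕ) : ℝ :=
  ∑ ij ∈ Finset.HasAntidiagonal.antidiagonal n,
    (n.choose ij.1 : ℝ) * (p ^ ij.1 * q ^ ij.2 * V0 (k + ij.1) (l + ij.2))

theorem bmix_succ (p q : ℝ) (V0 : ℕ → ℕ → ℝ) (n k l : ℕ) :
    bmix p q V0 (n + 1) k l = p * bmix p q V0 n (k + 1) l + q * bmix p q V0 n k (l + 1) := by
  unfold bmix
  have h := Finset.sum_antidiagonal_choose_succ_mul (R := ℝ)
    (fun i j => p ^ i * q ^ j * V0 (k + i) (l + j)) n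
  rw [h, Finset.mul_sum, Finset.mul_sum, add_comm]
  congr 1
  · refine Finset.sum_congr rfl fun ij hij => ?_
    rw [Finset.HasAntidiagonal.mem_antidiagonal] at hij
    have hc : n.choose ij.2 = n.choose ij.1 := by
      rw [← Nat.choose_symm (by omega : ij.1 ≤ n)]
      congr 1
      omega
    rw [hc, show k + (ij.1 + 1) = k + 1 + ij.1 by ring, pow_succ]
    ring
  · refine Finset.sum_congr rfl fun ij _ => ?_
    rw [show l + (ij.2 + 1) = l + 1 + ij.2 by ring, pow_succ]
    ring

theorem bmix_zero (p q : ℝ) (V0 : ℕ → ℕ → ℝ) (k l : ℕ) : bmix p q V0 0 k l = V0 k l := by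
  simp [bmix]

theorem binom_iter (V : ℕ → ℕ → ℕ → ℝ) (p q : ℝ)
    (hV : ∀ n k l, V (n + 1) k l = p * V n (k + 1) l + q * V n k (l + 1)) (n : ℕ) :
    ∀ k l, V n k l = bmix p q (V 0) n k l := by
  induction n with
  | zero => intro k l; rw [bmix_zero]
  | succ n ih => intro k l; rw [hV, bmix_succ, ih, ih]

theorem binom_iter_ge (V : ℕ → ℕ → ℕ → ℝ) (p q : ℝ) (hp : 0 ≤ p) (hq : 0 ≤ q)
    (hV : ∀ n k l, p * V n (k + 1) l + q * V n k (l + 1) ≤ V (n + 1) k l) (n : ℕ) :
    ∀ k l, bmix p q (V 0) n k l ≤ V n k l := by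
  induction n with
  | zero => intro k l; rw [bmix_zero]
  | succ n ih =>
    intro k l
    rw [bmix_succ]
    exact le_trans (add_le_add (mul_le_mul_of_nonneg_left (ih _ _) hp)
      (mul_le_mul_of_nonneg_left (ih _ _) hq)) (hV n k l)

theorem pois_bmix {B : ℕ → ℕ → ℝ} (hB : ExpGrowth2 B) (a p q : ℝ≥0) (hpq : p + q = 1) :
    ∫ n, bmix p q B n 0 0 ∂(poissonMeasure a) =
      ∫ k, (∫ l, B k l ∂(poissonMeasure (q * a))) ∂(poissonMeasure (p * a)) := by
  rw [← pois_thinning hB a p q hpq]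
  congr 1
  funext n
  unfold bmix
  refine Finset.sum_congr rfl fun ij _ => ?_
  simp only [zero_add]
  ring

theorem sum_choose_one (p q : ℝ) (hpq : p + q = 1) (n : ℕ) :
    ∑ ij ∈ Finset.HasAntidiagonal.antidiagonal n,
      (n.choose ij.1 : ℝ) * (p ^ ij.1 * q ^ ij.2) = 1 := by
  have h := Commute.add_pow' (Commute.all p q) n
  rw [hpq, one_pow] at h
  rw [h]
  simp only [nsmul_eq_mul]

theorem bmix_growth {B : ℕ → ℕ → ℝ} (hB : ExpGrowth2 B) (p q : ℝ) (hp : 0 ≤ p) (hq : 0 ≤ q)
    (hpq : p + q = 1) : ExpGrowth fun n => bmix p q B n 0 0 := by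
  obtain ⟨C, A, hC, hA, hb⟩ := hB
  refine ⟨C, A, hC, hA, fun n => ?_⟩
  unfold bmix
  have h1 := sum_choose_one p q hpq n
  calc |∑ ij ∈ Finset.HasAntidiagonal.antidiagonal n,
        (n.choose ij.1 : ℝ) * (p ^ ij.1 * q ^ ij.2 * B (0 + ij.1) (0 + ij.2))|
      ≤ ∑ ij ∈ Finset.HasAntidiagonal.antidiagonal n,
        |(n.choose ij.1 : ℝ) * (p ^ ij.1 * q ^ ij.2 * B (0 + ij.1) (0 + ij.2))| :=
        Finset.abs_sum_le_sum_abs _ _
    _ ≤ ∑ ij ∈ Finset.HasAntidiagonal.antidiagonal n,
        (n.choose ij.1 : ℝ) * (p ^ ij.1 * q ^ ij.2) * (C * A ^ n) := by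
        refine Finset.sum_le_sum fun ij hij => ?_
        rw [Finset.HasAntidiagonal.mem_antidiagonal] at hij
        have h2 : |B (0 + ij.1) (0 + ij.2)| ≤ C * A ^ n := by
          rw [zero_add, zero_add]
          refine (hb _ _).trans_eq ?_
          rw [← pow_add, hij]
        have h3 : 0 ≤ (n.choose ij.1 : ℝ) * (p ^ ij.1 * q ^ ij.2) := by (clear * - hp hq; positivity)
        rw [← mul_assoc, abs_mul, abs_of_nonneg h3]
        exact mul_le_mul_of_nonneg_left h2 h3
    _ = C * A ^ n := by rw [← Finset.sum_mul, h1, one_mul]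

theorem bmix_add (p q : ℝ) (hpq : p + q = 1) (f : ℕ → ℝ) (n : ℕ) :
    bmix p q (fun k l => f (k + l)) n 0 0 = f n := by
  unfold bmix
  have h1 := sum_choose_one p q hpq n
  calc _ = ∑ ij ∈ Finset.HasAntidiagonal.antidiagonal n,
        (n.choose ij.1 : ℝ) * (p ^ ij.1 * q ^ ij.2) * f n := by
        refine Finset.sum_congr rfl fun ij hij => ?_
        rw [Finset.HasAntidiagonal.mem_antidiagonal] at hij
        simp only [zero_add]
        rw [hij]; ring
    _ = f n := by rw [← Finset.sum_mul, h1, one_mul]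

/-- Superposition of Poisson laws. -/
theorem pois_super {f : ℕ → ℝ} (hf : ExpGrowth f) (a b : ℝ≥0) :
    ∫ n, f n ∂(poissonMeasure (a + b)) =
      ∫ k, (∫ l, f (k + l) ∂(poissonMeasure b)) ∂(poissonMeasure a) := by
  by_cases hab : a + b = 0
  · have ha : a = 0 := by
      have := add_eq_zero.1 hab
      exact this.1
    have hb : b = 0 := (add_eq_zero.1 hab).2
    subst ha; subst hb
    simp only [add_zero]
    have h0 : ∀ g : ℕ → ℝ, ∫ n, g n ∂(poissonMeasure 0) = g 0 := by
      intro g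
      rw [pois_integral, tsum_eq_single 0]
      · simp [pw]
      · intro n hn; simp [pw, hn]
    rw [h0, h0, h0]
  · have hpq : a / (a + b) + b / (a + b) = 1 := by
      rw [← add_div, div_self hab]
    have hB : ExpGrowth2 fun k l => f (k + l) := by
      obtain ⟨C, A, hC, hA, h⟩ := hf
      exact ⟨C, A, hC, hA, fun k l => by rw [← pow_add]; exact h _⟩
    have h := pois_bmix hB (a + b) (a / (a + b)) (b / (a + b)) hpq
    rw [div_mul_cancel₀ _ hab, div_mul_cancel₀ _ hab] at h
    rw [← h]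
    congr 1
    funext n
    rw [bmix_add _ _ (by exact_mod_cast hpq)]

theorem growth_of_lip {f : ℕ → ℝ} {L : ℝ} (hf : ∀ n, |f (n + 1) - f n| ≤ L) : ExpGrowth f := by
  have hL : 0 ≤ L := le_trans (abs_nonneg _) (hf 0)
  refine expGrowth_of_linear (c := |f 0|) (d := L) (fun n => ?_) (abs_nonneg _) hL
  induction n with
  | zero => simp
  | succ n ih =>
    have h1 := hf n
    have h2 : |f (n + 1)| ≤ |f (n + 1) - f n| + |f n| := by
      have := abs_add_le (f (n + 1) - f n) (f n)
      simpa only [ge_iff_le, sub_add_cancel] using this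
    push_cast
    linarith

theorem lip_iter {f : ℕ → ℝ} {L : ℝ} (hf : ∀ n, |f (n + 1) - f n| ≤ L) (k l : ℕ) :
    |f (k + l) - f k| ≤ L * l := by
  induction l with
  | zero => simp
  | succ l ih =>
    have h1 := hf (k + l)
    have h2 : |f (k + (l + 1)) - f k| ≤ |f (k + l + 1) - f (k + l)| + |f (k + l) - f k| := by
      have := abs_add_le (f (k + l + 1) - f (k + l)) (f (k + l) - f k)
      rw [← add_assoc]
      simpa only [ge_iff_le, sub_add_sub_cancel] using this
    push_cast
    linarith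

theorem pois_lip_aux {f : ℕ → ℝ} {L : ℝ} (hf : ∀ n, |f (n + 1) - f n| ≤ L) (a b : ℝ≥0) :
    |∫ n, f n ∂(poissonMeasure (a + b)) - ∫ n, f n ∂(poissonMeasure a)| ≤ L * b := by
  have hg := growth_of_lip hf
  rw [pois_super hg]
  have hL : 0 ≤ L := le_trans (abs_nonneg _) (hf 0)
  have hin : ∀ k, |(∫ l, f (k + l) ∂(poissonMeasure b)) - f k| ≤ L * b := by
    intro k
    have hgk : ExpGrowth fun l => f (k + l) :=
      growth_of_lip (L := L) (fun l => by rw [← add_assoc]; exact hf (k + l))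
    have h1 : (∫ l, f (k + l) ∂(poissonMeasure b)) - f k =
        ∫ l, (f (k + l) - f k) ∂(poissonMeasure b) := by
      rw [integral_sub (hgk.integrable b) (integrable_const _), pois_const]
    rw [h1]
    have hlin : ExpGrowth fun l : ℕ => L * (l : ℝ) :=
      expGrowth_of_linear (c := 0) (d := L) (fun n => by
        rw [abs_of_nonneg (by (clear * - hL; positivity))]; linarith) le_rfl hL
    calc |∫ l, (f (k + l) - f k) ∂(poissonMeasure b)|
        ≤ ∫ l, |f (k + l) - f k| ∂(poissonMeasure b) := by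
          have := norm_integral_le_integral_norm (μ := poissonMeasure b) (fun l => f (k + l) - f k)
          simpa only [ge_iff_le, Real.norm_eq_abs] using this
      _ ≤ ∫ l : ℕ, L * (l : ℝ) ∂(poissonMeasure b) := by
          refine pois_mono ?_ hlin b (fun l => lip_iter hf k l)
          refine expGrowth_of_linear (c := 0) (d := L) (fun n => ?_) le_rfl hL
          rw [abs_abs]
          have := lip_iter hf k n
          linarith only [this]
      _ = L * b := by rw [integral_const_mul, pois_mean]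
  have hin2 : ExpGrowth fun k => (∫ l, f (k + l) ∂(poissonMeasure b)) := by
    obtain ⟨C, A, hC, hA, h⟩ := hg
    refine ⟨C + L * b, A, by (clear * - hC hL; positivity), hA, fun k => ?_⟩
    have h1 := hin k
    have h2 := h k
    have h3 : |∫ l, f (k + l) ∂(poissonMeasure b)| ≤
        |(∫ l, f (k + l) ∂(poissonMeasure b)) - f k| + |f k| := by
      have := abs_add_le ((∫ l, f (k + l) ∂(poissonMeasure b)) - f k) (f k)
      simpa only [ge_iff_le, sub_add_cancel] using this
    have h4 : (1 : ℝ) ≤ A ^ k := one_le_pow₀ hA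
    have h5 : 0 ≤ L * (b : ℝ) := by positivity
    nlinarith only [h1, h2, h3, h4, h5]
  rw [← integral_sub (hin2.integrable a) (hg.integrable a)]
  calc |∫ k, ((∫ l, f (k + l) ∂(poissonMeasure b)) - f k) ∂(poissonMeasure a)|
      ≤ ∫ k, |(∫ l, f (k + l) ∂(poissonMeasure b)) - f k| ∂(poissonMeasure a) := by
        have := norm_integral_le_integral_norm (μ := poissonMeasure a)
          (fun k => (∫ l, f (k + l) ∂(poissonMeasure b)) - f k)
        simpa only [ge_iff_le, Real.norm_eq_abs] using this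
    _ ≤ ∫ _, L * b ∂(poissonMeasure a) := by
        refine pois_mono ?_ (expGrowth_const _) a hin
        refine ⟨L * b, 1, by positivity, le_rfl, fun n => ?_⟩
        rw [abs_abs]; simpa only [one_pow, mul_one] using hin n
    _ = L * b := pois_const _ _

/-- The Poisson expectation of a Lipschitz sequence is Lipschitz in the mean. -/
theorem pois_lip {f : ℕ → ℝ} {L : ℝ} (hf : ∀ n, |f (n + 1) - f n| ≤ L) (a b : ℝ≥0) :
    |∫ n, f n ∂(poissonMeasure a) - ∫ n, f n ∂(poissonMeasure b)| ≤ L * |(a : ℝ) - b| := by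
  rcases le_total a b with h | h
  · obtain ⟨c, rfl⟩ := exists_add_of_le h
    have := pois_lip_aux hf a c
    rw [abs_sub_comm]
    refine this.trans_eq ?_
    push_cast
    rw [show (a : ℝ) - (a + c) = -c by ring, abs_neg, abs_of_nonneg (NNReal.coe_nonneg c)]
  · obtain ⟨c, rfl⟩ := exists_add_of_le h
    have := pois_lip_aux hf b c
    refine this.trans_eq ?_
    push_cast
    rw [show (b : ℝ) + c - b = c by ring, abs_of_nonneg (NNReal.coe_nonneg c)]

end Vale.Agent.N168I
end
end

section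

section

set_option autoImplicit false
set_option linter.unusedSectionVars false

open MeasureTheory ProbabilityTheory Finset Filter
open scoped NNReal Topology

namespace Vale.Agent.N168I.MP

/-- Logarithmic shapes with `l` interactions. -/
abbrev SE (K l : ℕ) : Type := (Fin l × Fin K → Bool) → ℝ

/-- Restriction of configurations. -/
def rst {K l D : ℕ} (h : l ≤ D) (σ : Fin D × Fin K → Bool) : Fin l × Fin K → Bool :=
  fun p => σ (Fin.castLE h p.1, p.2)

/-- Consistent families of 1-Lipschitz functionals of shapes. -/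
structure ShapeFun (K : ℕ) where
  F : ∀ l : ℕ, SE K l → ℝ
  lip : ∀ l, LipschitzWith 1 (F l)
  zero : ∀ l, F l 0 = 0
  emb : ∀ {l D : ℕ} (h : l ≤ D) (φ : SE K l), F D (fun σ => φ (rst h σ)) = F l φ

section Round

/-- Clipped index of an integer. -/
def rfin (n : ℕ) (t : ℤ) : Fin (2 * n + 1) :=
  ⟨(min (max (t + n) 0) (2 * n)).toNat, by omega⟩

theorem rfin_val (n : ℕ) (t : ℤ) :
    (((rfin n t : ℕ) : ℝ) - n) = ((min (max t (-n)) n : ℤ) : ℝ) := by
  have h : (((rfin n t : ℕ) : ℤ)) = min (max t (-n)) n + n := by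
    unfold rfin
    simp only
    omega
  have h2 : (((rfin n t : ℕ) : ℝ)) = ((min (max t (-n)) n : ℤ) : ℝ) + n := by
    have := congrArg (fun z : ℤ => (z : ℝ)) h
    push_cast at this ⊢
    exact this
  rw [h2]
  ring

theorem rval_close {ε B u : ℝ} {n : ℕ} (hε : 0 < ε) (hn : B / ε + 1 ≤ n) (hu : |u| ≤ B) :
    |u - ε * (((rfin n ⌊u / ε⌋ : ℕ) : ℝ) - n)| ≤ ε := by
  have h1 : |u / ε| ≤ B / ε := by
    rw [abs_div, abs_of_pos hε]
    exact div_le_div_of_nonneg_right hu hε.le
  have h2 := abs_le.1 h1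
  have f1 := Int.floor_le (u / ε)
  have f2 := Int.lt_floor_add_one (u / ε)
  have c1 : -(n : ℤ) ≤ ⌊u / ε⌋ := by
    rw [Int.le_floor]
    push_cast
    linarith only [hn, h2]
  have c2 : ⌊u / ε⌋ ≤ (n : ℤ) := by
    have : (⌊u / ε⌋ : ℝ) ≤ (n : ℝ) := by linarith only [hn, h2, f1]
    exact_mod_cast this
  have h3 : min (max ⌊u / ε⌋ (-(n : ℤ))) n = ⌊u / ε⌋ := by omega
  rw [rfin_val, h3]
  have h4 : u - ε * (⌊u / ε⌋ : ℝ) = ε * (u / ε - ⌊u / ε⌋) := by (clear * - hε; field_simp)
  rw [h4, abs_mul, abs_of_pos hε]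
  have h5 : |u / ε - ⌊u / ε⌋| ≤ 1 := by
    rw [abs_le]
    constructor <;> linarith only [f1, f2]
  nlinarith only [hε, h5]

theorem rval_abs {ε u : ℝ} {n : ℕ} (hε : 0 < ε) :
    |ε * (((rfin n ⌊u / ε⌋ : ℕ) : ℝ) - n)| ≤ |u| + ε := by
  have f1 := Int.floor_le (u / ε)
  have f2 := Int.lt_floor_add_one (u / ε)
  rw [rfin_val, abs_mul, abs_of_pos hε]
  have h1 : |((min (max ⌊u / ε⌋ (-(n : ℤ))) n : ℤ) : ℝ)| ≤ |(⌊u / ε⌋ : ℝ)| := by
    rw [← Int.cast_abs, ← Int.cast_abs]
    have h0 : |min (max ⌊u / ε⌋ (-(n : ℤ))) n| ≤ |⌊u / ε⌋| := by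
      rcases abs_cases ⌊u / ε⌋ with h | h <;>
        rcases abs_cases (min (max ⌊u / ε⌋ (-(n : ℤ))) n) with h' | h' <;> omega
    exact_mod_cast h0
  have h2 : |(⌊u / ε⌋ : ℝ)| ≤ |u / ε| + 1 := by
    have := abs_le.1 (le_refl |u / ε|)
    rw [abs_le]
    constructor <;> linarith only [f1, this, f2]
  calc ε * |((min (max ⌊u / ε⌋ (-(n : ℤ))) n : ℤ) : ℝ)| ≤ ε * (|u / ε| + 1) :=
        mul_le_mul_of_nonneg_left (h1.trans h2) hε.le
    _ = |u| + ε := by
        rw [abs_div, abs_of_pos hε]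
        field_simp

/-- Indices of rounded shapes. -/
abbrev RI (K n D : ℕ) : Type := (Fin D × Fin K → Bool) → Fin (2 * n + 1)

/-- The rounded shape. -/
noncomputable def rsh {K n D : ℕ} (ε : ℝ) (c : RI K n D) : SE K D :=
  fun σ => ε * (((c σ : ℕ) : ℝ) - n)

/-- Rounding. -/
noncomputable def rnd {K l : ℕ} (ε : ℝ) (n D : ℕ) (φ : SE K l) : RI K n D :=
  if h : l ≤ D then fun σ => rfin n ⌊φ (rst h σ) / ε⌋ else fun _ => rfin n 0

theorem measurable_rnd {K l : ℕ} (ε : ℝ) (n D : ℕ) :
    Measurable (rnd ε n D : SE K l → RI K n D) := by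
  unfold rnd
  split_ifs with h
  · rw [measurable_pi_iff]
    intro σ
    have h1 : Measurable fun φ : SE K l => ⌊φ (rst h σ) / ε⌋ :=
      Int.measurable_floor.comp ((measurable_pi_apply _).div_const _)
    exact (measurable_of_countable (rfin n)).comp h1
  · exact measurable_const

theorem norm_le_of {ι : Type} [Fintype ι] {φ : ι → ℝ} {C : ℝ} (hC : 0 ≤ C)
    (h : ∀ i, |φ i| ≤ C) : ‖φ‖ ≤ C := by
  rw [pi_norm_le_iff_of_nonneg hC]
  intro i
  rw [Real.norm_eq_abs]
  exact h i

theorem abs_le_norm {ι : Type} [Fintype ι] (φ : ι → ℝ) (i : ι) : |φ i| ≤ ‖φ‖ := by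
  have := norm_le_pi_norm φ i
  rwa [Real.norm_eq_abs] at this

theorem ShapeFun.abs_sub_le {K : ℕ} (S : ShapeFun K) {l : ℕ} (φ φ' : SE K l) :
    |S.F l φ - S.F l φ'| ≤ ‖φ - φ'‖ := by
  have := (S.lip l).dist_le_mul φ φ'
  rwa [NNReal.coe_one, one_mul, Real.dist_eq, dist_eq_norm] at this

theorem ShapeFun.abs_le {K : ℕ} (S : ShapeFun K) {l : ℕ} (φ : SE K l) :
    |S.F l φ| ≤ ‖φ‖ := by
  have := S.abs_sub_le φ 0
  rwa [S.zero, sub_zero, sub_zero] at this

/-- Error of the rounding. -/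
theorem ShapeFun.round {K : ℕ} (S : ShapeFun K) {l : ℕ} (φ : SE K l) {ε B : ℝ} {n D : ℕ}
    (hε : 0 < ε) (hn : B / ε + 1 ≤ n) :
    |S.F l φ - S.F D (rsh ε (rnd ε n D φ))| ≤
      ε + 2 * (‖φ‖ * (if D < l ∨ B < ‖φ‖ then 1 else 0)) := by
  have hφ := norm_nonneg φ
  by_cases h : l ≤ D
  · rw [← S.emb h φ]
    refine (S.abs_sub_le _ _).trans ?_
    have e : rnd ε n D φ = fun σ => rfin n ⌊φ (rst h σ) / ε⌋ := by
      unfold rnd
      rw [dif_pos h]
    rw [e]
    by_cases hB : B < ‖φ‖
    · rw [if_pos (Or.inr hB), mul_one]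
      refine norm_le_of (by (clear * - hε; positivity)) fun σ => ?_
      have h1 := abs_le_norm φ (rst h σ)
      have h2 := rval_abs (ε := ε) (u := φ (rst h σ)) (n := n) hε
      have h3 : |φ (rst h σ) - ε * (((rfin n ⌊φ (rst h σ) / ε⌋ : ℕ) : ℝ) - n)| ≤
          |φ (rst h σ)| + |ε * (((rfin n ⌊φ (rst h σ) / ε⌋ : ℕ) : ℝ) - n)| := abs_sub _ _
      show |φ (rst h σ) - ε * (((rfin n ⌊φ (rst h σ) / ε⌋ : ℕ) : ℝ) - n)| ≤ _
      linarith only [h1, h2, h3]
    · rw [if_neg (by rintro (h' | h') <;> [omega; exact hB h']), mul_zero, mul_zero, add_zero]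
      refine norm_le_of hε.le fun σ => ?_
      exact rval_close hε hn ((abs_le_norm φ _).trans (not_lt.1 hB))
  · have e : rsh ε (rnd ε n D φ) = 0 := by
      have e1 : rnd ε n D φ = fun _ => rfin n 0 := by
        unfold rnd
        rw [dif_neg h]
      rw [e1]
      funext σ
      show ε * (((rfin n 0 : ℕ) : ℝ) - n) = 0
      rw [rfin_val]
      have : min (max (0 : ℤ) (-(n : ℤ))) n = 0 := by omega
      rw [this]
      simp
    rw [e, S.zero, sub_zero, if_pos (Or.inl (not_le.1 h)), mul_one]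
    have := S.abs_le φ
    linarith only [hε, hφ, this]

end Round

section Tail

variable {K : ℕ} (π : ∀ l : ℕ, Measure (SE K l)) [∀ l, IsProbabilityMeasure (π l)]
  (hπ : ∀ l, Integrable (fun φ : SE K l => ‖φ‖) (π l))

/-- The truncated first moment. -/
noncomputable def tl (N l : ℕ) : ℝ :=
  ∫ φ : SE K l, ‖φ‖ * (if N < l ∨ (N : ℝ) < ‖φ‖ then 1 else 0) ∂(π l)

theorem measurable_ind (N l : ℕ) :
    Measurable fun φ : SE K l => (if N < l ∨ (N : ℝ) < ‖φ‖ then (1 : ℝ) else 0) := by
  refine Measurable.ite ?_ measurable_const measurable_const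
  have h : {φ : SE K l | N < l ∨ (N : ℝ) < ‖φ‖} = {φ | N < l} ∪ {φ | (N : ℝ) < ‖φ‖} := by
    ext φ; simp
  rw [h]
  exact (MeasurableSet.const _).union (measurableSet_lt measurable_const measurable_norm)

include hπ in
theorem integrable_tl (N l : ℕ) : Integrable (fun φ : SE K l =>
    ‖φ‖ * (if N < l ∨ (N : ℝ) < ‖φ‖ then (1 : ℝ) else 0)) (π l) := by
  refine (hπ l).mono' ((measurable_norm.mul (measurable_ind N l)).aestronglyMeasurable)
    (Filter.Eventually.of_forall fun φ => ?_)
  rw [Real.norm_eq_abs, abs_mul, abs_norm]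
  split_ifs <;> simp

theorem tl_nonneg (N l : ℕ) : 0 ≤ tl π N l := by
  refine integral_nonneg fun φ => ?_
  show 0 ≤ ‖φ‖ * (if N < l ∨ (N : ℝ) < ‖φ‖ then (1 : ℝ) else 0)
  split_ifs
  · simp
  · simp

include hπ in
theorem tl_le (N l : ℕ) : tl π N l ≤ ∫ φ, ‖φ‖ ∂(π l) := by
  refine integral_mono (integrable_tl π hπ N l) (hπ l) fun φ => ?_
  show ‖φ‖ * (if N < l ∨ (N : ℝ) < ‖φ‖ then (1 : ℝ) else 0) ≤ ‖φ‖
  split_ifs <;> simp

include hπ in
theorem tl_tendsto (l : ℕ) : Tendsto (fun N => tl π N l) atTop (𝓝 0) := by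
  have h0 : (0 : ℝ) = ∫ _ : SE K l, (0 : ℝ) ∂(π l) := by simp
  rw [h0]
  refine tendsto_integral_of_dominated_convergence (fun φ => ‖φ‖) ?_ (hπ l) ?_ ?_
  · exact fun N => (measurable_norm.mul (measurable_ind N l)).aestronglyMeasurable
  · intro N
    refine Filter.Eventually.of_forall fun φ => ?_
    rw [Real.norm_eq_abs, abs_mul, abs_norm]
    split_ifs <;> simp
  · refine Filter.Eventually.of_forall fun φ => ?_
    obtain ⟨m, hm⟩ := exists_nat_ge ‖φ‖
    refine tendsto_const_nhds.congr' ?_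
    filter_upwards [eventually_ge_atTop (max m l)] with N hN
    have h1 : ¬ (N < l ∨ (N : ℝ) < ‖φ‖) := by
      rintro (h | h)
      · omega
      · have : (m : ℝ) ≤ N := by exact_mod_cast (le_max_left m l).trans hN
        linarith only [hm, h, this]
    rw [if_neg h1, mul_zero]

variable (A B : ℝ) (hA : 0 ≤ A) (hB : 0 ≤ B) (hAB : ∀ l, ∫ φ, ‖φ‖ ∂(π l) ≤ A + B * l)

include hπ hA hB hAB in
theorem tail_tendsto (a : ℝ≥0) :
    Tendsto (fun N => ∫ l, tl π N l ∂(poissonMeasure a)) atTop (𝓝 0) := by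
  have h0 : (0 : ℝ) = ∫ _ : ℕ, (0 : ℝ) ∂(poissonMeasure a) := by simp
  rw [h0]
  have hg : ExpGrowth fun l : ℕ => A + B * l := expGrowth_of_linear (c := A) (d := B)
    (fun n => by rw [abs_of_nonneg (by positivity)]) hA hB
  refine tendsto_integral_of_dominated_convergence (fun l : ℕ => A + B * l) ?_
    (hg.integrable a) ?_ ?_
  · exact fun N => (measurable_of_countable _).aestronglyMeasurable
  · intro N
    refine Filter.Eventually.of_forall fun l => ?_
    rw [Real.norm_eq_abs, abs_of_nonneg (tl_nonneg π N l)]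
    exact (tl_le π hπ N l).trans (hAB l)
  · exact Filter.Eventually.of_forall fun l => tl_tendsto π hπ l

/-- The weight of a rounded shape. -/
noncomputable def wt (a : ℝ≥0) (ε : ℝ) (n D : ℕ) (c : RI K n D) : ℝ :=
  ∫ l, (π l).real {φ | rnd ε n D φ = c} ∂(poissonMeasure a)

theorem integral_rnd (ε : ℝ) (n D l : ℕ) (f : RI K n D → ℝ) :
    ∫ φ, f (rnd ε n D φ) ∂(π l) = ∑ c, (π l).real {φ | rnd ε n D φ = c} * f c := by
  have hm := measurable_rnd (K := K) (l := l) ε n D
  have h1 : ∫ φ, f (rnd ε n D φ) ∂(π l) = ∫ c, f c ∂((π l).map (rnd ε n D)) := by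
    rw [integral_map hm.aemeasurable (measurable_of_countable f).aestronglyMeasurable]
  have _inst : IsProbabilityMeasure ((π l).map (rnd ε n D)) :=
    Measure.isProbabilityMeasure_map hm.aemeasurable
  rw [h1, integral_fintype (Integrable.of_finite)]
  refine Finset.sum_congr rfl fun c _ => ?_
  rw [smul_eq_mul, map_measureReal_apply hm (measurableSet_singleton c)]
  rfl

theorem ShapeFun.integrable (S : ShapeFun K) (l : ℕ) (hπ : ∀ l, Integrable (fun φ : SE K l => ‖φ‖) (π l)) :
    Integrable (fun φ => S.F l φ) (π l) := by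
  refine (hπ l).mono' (S.lip l).continuous.aestronglyMeasurable
    (Filter.Eventually.of_forall fun φ => ?_)
  rw [Real.norm_eq_abs]
  exact S.abs_le φ

/-- Values of a functional of shapes for random shapes. -/
noncomputable def ShapeFun.val (S : ShapeFun K) (a : ℝ≥0) : ℝ :=
  ∫ l, (∫ φ, S.F l φ ∂(π l)) ∂(poissonMeasure a)

include hπ hA hB hAB in
/-- The quantization theorem. -/
theorem ShapeFun.quant (S : ShapeFun K) (a : ℝ≥0) {ε : ℝ} (hε : 0 < ε) {n D : ℕ}
    (hn : (D : ℝ) / ε + 1 ≤ n) :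
    |S.val π a - ∑ c, wt π a ε n D c * S.F D (rsh ε c)| ≤
      ε + 2 * ∫ l, tl π D l ∂(poissonMeasure a) := by
  have hg0 : ExpGrowth fun l : ℕ => A + B * l := expGrowth_of_linear (c := A) (d := B)
    (fun n => by rw [abs_of_nonneg (by positivity)]) hA hB
  have hgS : ExpGrowth fun l => ∫ φ, S.F l φ ∂(π l) := by
    refine expGrowth_of_linear (c := A) (d := B) (fun l => ?_) hA hB
    rw [← Real.norm_eq_abs]
    refine (norm_integral_le_integral_norm _).trans ((integral_mono
      (S.integrable π l hπ).norm (hπ l) fun φ => ?_).trans (hAB l))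
    rw [Real.norm_eq_abs]
    exact S.abs_le φ
  have hgt : ExpGrowth fun l => tl π D l := by
    refine expGrowth_of_linear (c := A) (d := B) (fun l => ?_) hA hB
    rw [abs_of_nonneg (tl_nonneg π D l)]
    exact (tl_le π hπ D l).trans (hAB l)
  have hgc : ∀ c : RI K n D, ExpGrowth fun l => (π l).real {φ | rnd ε n D φ = c} := by
    intro c
    refine ⟨1, 1, zero_le_one, le_rfl, fun l => ?_⟩
    rw [abs_of_nonneg measureReal_nonneg, one_pow, mul_one]
    exact measureReal_le_one
  have e1 : ∑ c, wt π a ε n D c * S.F D (rsh ε c) =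
      ∫ l, (∑ c, (π l).real {φ | rnd ε n D φ = c} * S.F D (rsh ε c)) ∂(poissonMeasure a) := by
    rw [integral_finsetSum]
    · refine Finset.sum_congr rfl fun c _ => ?_
      unfold wt
      rw [integral_mul_const]
    · intro c _
      exact ((hgc c).integrable a).mul_const _
  have hgs : ExpGrowth fun l => ∑ c, (π l).real {φ | rnd ε n D φ = c} * S.F D (rsh ε c) := by
    refine ⟨∑ c : RI K n D, |S.F D (rsh ε c)|, 1, by (clear * -; positivity), le_rfl, fun l => ?_⟩
    rw [one_pow, mul_one]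
    refine (Finset.abs_sum_le_sum_abs _ _).trans (Finset.sum_le_sum fun c _ => ?_)
    rw [abs_mul, abs_of_nonneg measureReal_nonneg]
    have : (π l).real {φ | rnd ε n D φ = c} ≤ 1 := measureReal_le_one
    nlinarith only [this, abs_nonneg (S.F D (rsh ε c))]
  rw [e1]
  unfold ShapeFun.val
  rw [← integral_sub (hgS.integrable a) (hgs.integrable a), ← Real.norm_eq_abs]
  refine (norm_integral_le_integral_norm _).trans ?_
  have hpt : ∀ l, ‖(∫ φ, S.F l φ ∂(π l)) -
      ∑ c, (π l).real {φ | rnd ε n D φ = c} * S.F D (rsh ε c)‖ ≤ ε + 2 * tl π D l := by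
    intro l
    have i2 : Integrable (fun φ : SE K l => S.F D (rsh ε (rnd ε n D φ))) (π l) := by
      refine Integrable.of_bound (C := ∑ c : RI K n D, |S.F D (rsh ε c)|)
        ((measurable_of_countable fun c : RI K n D => S.F D (rsh ε c)).comp
          (measurable_rnd ε n D)).aestronglyMeasurable (Filter.Eventually.of_forall fun φ => ?_)
      rw [Real.norm_eq_abs]
      exact Finset.single_le_sum (f := fun c : RI K n D => |S.F D (rsh ε c)|)
        (fun c _ => abs_nonneg _)
        (Finset.mem_univ (rnd ε n D φ))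
    rw [← integral_rnd π ε n D l (fun c => S.F D (rsh ε c)),
      ← integral_sub (S.integrable π l hπ) i2]
    refine (norm_integral_le_integral_norm _).trans ?_
    have i3 : Integrable (fun φ : SE K l =>
        ε + 2 * (‖φ‖ * (if D < l ∨ (D : ℝ) < ‖φ‖ then (1 : ℝ) else 0))) (π l) :=
      (integrable_const _).add ((integrable_tl π hπ D l).const_mul 2)
    refine (integral_mono ((S.integrable π l hπ).sub i2).norm i3 fun φ => ?_).trans
      (le_of_eq ?_)
    · show ‖S.F l φ - S.F D (rsh ε (rnd ε n D φ))‖ ≤ _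
      rw [Real.norm_eq_abs]
      exact S.round φ hε hn
    · rw [integral_add (integrable_const _) ((integrable_tl π hπ D l).const_mul 2),
        integral_const_mul]
      simp only [integral_const, probReal_univ, smul_eq_mul, one_mul, mul_ite, mul_one, mul_zero, tl]
  refine (integral_mono ((hgS.integrable a).sub (hgs.integrable a)).norm
    (((expGrowth_const ε).add (hgt.const_mul 2)).integrable a) hpt).trans (le_of_eq ?_)
  rw [integral_add ((expGrowth_const ε).integrable a) ((hgt.const_mul 2).integrable a),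
    integral_const_mul]
  simp

end Tail

end Vale.Agent.N168I.MP
end
end

section

section

set_option autoImplicit false
set_option linter.unusedSectionVars false

open Finset

namespace Vale.Agent.N168I

section Gav

variable {S : Type*} [Fintype S] [Nonempty S]

end Gav

section Dec

variable {N : ℕ}

/-- Probability of the spin `b` for magnetization `m`. -/
noncomputable def pr (m : ℝ) (b : Bool) : ℝ := (1 + m * spin b) / 2

/-- Product-measure average of `Q`. -/
noncomputable def pav {ι : Type*} [Fintype ι] [DecidableEq ι] (Q : (ι → Bool) → ℝ) (m : ι → ℝ) : ℝ :=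
  ∑ τ : ι → Bool, Q τ * ∏ k, pr (m k) (τ k)

theorem pr_nonneg {m : ℝ} (hm : |m| ≤ 1) (b : Bool) : 0 ≤ pr m b := by
  unfold pr
  rw [abs_le] at hm
  cases b <;> simp [spin] <;> linarith

theorem pr_sum (m : ℝ) : ∑ b, pr m b = 1 := by
  unfold pr
  simp only [Fintype.univ_bool, spin, mul_ite, mul_one, mul_neg, mem_singleton, Bool.true_eq_false, not_false_eq_true, sum_insert, ↓reduceIte, sum_singleton, Bool.false_eq_true]
  ring

theorem sum_fin_succ_fun {M : Type*} [AddCommMonoid M] {α : Type*} [Fintype α] {n : ℕ}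
    (F : (Fin (n + 1) → α) → M) :
    ∑ x : Fin (n + 1) → α, F x = ∑ a : α, ∑ y : Fin n → α, F (Fin.cons a y) := by
  rw [← (Fin.consEquiv (fun _ : Fin (n + 1) => α)).sum_comp, ← Finset.univ_product_univ,
    Finset.sum_product]
  rfl

open MeasureTheory ProbabilityTheory in
theorem integral_pi_unif {ι : Type} [Fintype ι] [DecidableEq ι] [NeZero N] (F : (ι → Fin N) → ℝ) :
    ∫ i, F i ∂(Measure.pi fun _ : ι => unif N) =
      (1 / (N : ℝ)) ^ (Fintype.card ι) * ∑ i, F i := by
  classical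
  rw [integral_fintype (Integrable.of_finite), Finset.mul_sum]
  refine Finset.sum_congr rfl fun i _ => ?_
  rw [smul_eq_mul]
  congr 1
  rw [measureReal_def, Measure.pi_singleton, ENNReal.toReal_prod]
  have : ∀ k : ι, ((unif N) {i k}).toReal = 1 / (N : ℝ) := fun k => KS.unif_real_singleton N (i k)
  simp_rw [this]
  simp only [one_div, prod_inv_distrib, prod_const, card_univ, inv_pow]

end Dec

end Vale.Agent.N168I
end
end

section

section

set_option autoImplicit false
set_option linter.unusedSectionVars false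

open MeasureTheory ProbabilityTheory Finset
open scoped NNReal

namespace Vale.Agent.N168I

open KS (unifK integral_unif)

section Mask

/-- Merge a mask and a tuple of ordinary sites. -/
def merge {K N : ℕ} (s : Fin K → Bool) (I : Fin K → Fin N) (j : Fin K) : Fin (N + 1) :=
  if s j then 0 else (I j).succ

/-- Weight of a mask. -/
noncomputable def mw {K : ℕ} (p : ℝ) (s : Fin K → Bool) : ℝ := ∏ j, (if s j then p else 1 - p)

theorem merge_cons {K N : ℕ} (b : Bool) (s : Fin K → Bool) (a : Fin N) (I : Fin K → Fin N) :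
    merge (Fin.cons b s : Fin (K + 1) → Bool) (Fin.cons a I : Fin (K + 1) → Fin N) =
      (Fin.cons (if b then 0 else a.succ) (merge s I) : Fin (K + 1) → Fin (N + 1)) := by
  funext j
  induction j using Fin.cases with
  | zero => simp [merge]
  | succ j => simp [merge]

theorem sum_mask (K N : ℕ) [NeZero N] (f : (Fin K → Fin (N + 1)) → ℝ) :
    (1 / ((N + 1 : ℕ) : ℝ)) ^ K * ∑ I, f I =
      ∑ s : Fin K → Bool, mw (1 / ((N + 1 : ℕ) : ℝ)) s *
        ((1 / (N : ℝ)) ^ K * ∑ I : Fin K → Fin N, f (merge s I)) := by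
  have hN : (N : ℝ) ≠ 0 := by
    have := NeZero.ne N
    exact_mod_cast this
  have hN1 : ((N + 1 : ℕ) : ℝ) ≠ 0 := by positivity
  induction K with
  | zero =>
    simp only [Nat.cast_add, Nat.cast_one, one_div, pow_zero, univ_unique, sum_singleton, one_mul, mw, univ_eq_empty, prod_empty]
    congr 1
    funext j; exact j.elim0
  | succ K ih =>
    rw [sum_fin_succ_fun, Fin.sum_univ_succ, sum_fin_succ_fun, Fintype.sum_bool]
    simp_rw [sum_fin_succ_fun, merge_cons]
    have hmt : ∀ s : Fin K → Bool, mw (1 / ((N + 1 : ℕ) : ℝ)) (Fin.cons true s : Fin (K + 1) → Bool) =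
        (1 / ((N + 1 : ℕ) : ℝ)) * mw (1 / ((N + 1 : ℕ) : ℝ)) s := by
      intro s
      unfold mw
      rw [Fin.prod_univ_succ]
      simp only [Fin.cons_zero, ↓reduceIte, Nat.cast_add, Nat.cast_one, one_div, Fin.cons_succ]
    have hmf : ∀ s : Fin K → Bool, mw (1 / ((N + 1 : ℕ) : ℝ)) (Fin.cons false s : Fin (K + 1) → Bool) =
        (N / ((N + 1 : ℕ) : ℝ)) * mw (1 / ((N + 1 : ℕ) : ℝ)) s := by
      intro s
      unfold mw
      rw [Fin.prod_univ_succ]
      simp only [Fin.cons_zero, Fin.cons_succ]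
      congr 1
      push_cast
      simp
      field_simp
      ring
    simp_rw [hmt, hmf]
    simp only [if_true, Bool.false_eq_true, if_false]
    rw [mul_add]
    congr 1
    · have h0 := ih (fun y => f (Fin.cons 0 y))
      calc (1 / ((N + 1 : ℕ) : ℝ)) ^ (K + 1) * ∑ y : Fin K → Fin (N + 1), f (Fin.cons 0 y)
          = (1 / ((N + 1 : ℕ) : ℝ)) * ((1 / ((N + 1 : ℕ) : ℝ)) ^ K *
            ∑ y : Fin K → Fin (N + 1), f (Fin.cons 0 y)) := by rw [pow_succ]; ring
        _ = _ := by
          rw [h0, Finset.mul_sum]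
          refine Finset.sum_congr rfl fun s _ => ?_
          rw [Finset.sum_const, Finset.card_univ, Fintype.card_fin, nsmul_eq_mul, pow_succ]
          field_simp
    · have h0 := fun a : Fin N => ih (fun y => f (Fin.cons a.succ y))
      calc (1 / ((N + 1 : ℕ) : ℝ)) ^ (K + 1) * ∑ a : Fin N, ∑ y : Fin K → Fin (N + 1),
            f (Fin.cons a.succ y)
          = (1 / ((N + 1 : ℕ) : ℝ)) * ∑ a : Fin N, ((1 / ((N + 1 : ℕ) : ℝ)) ^ K *
            ∑ y : Fin K → Fin (N + 1), f (Fin.cons a.succ y)) := by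
            rw [← Finset.mul_sum, pow_succ]; ring
        _ = _ := by
          simp_rw [h0]
          rw [Finset.sum_comm, Finset.mul_sum]
          refine Finset.sum_congr rfl fun s _ => ?_
          rw [← Finset.mul_sum, ← Finset.mul_sum, pow_succ]
          field_simp

theorem integral_unifK_succ (K N : ℕ) [NeZero N] (f : (Fin K → Fin (N + 1)) → ℝ) :
    ∫ I, f I ∂(unifK K (N + 1)) = ∑ s : Fin K → Bool, mw (1 / ((N + 1 : ℕ) : ℝ)) s *
      ∫ I, f (merge s I) ∂(unifK K N) := by
  have h := sum_mask K N f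
  rw [integral_pi_unif (ι := Fin K) (N := N + 1) f, Fintype.card_fin, h]
  refine Finset.sum_congr rfl fun s _ => ?_
  rw [integral_pi_unif (ι := Fin K) (N := N) (fun I => f (merge s I)), Fintype.card_fin]

theorem mw_sum {K : ℕ} (p : ℝ) : ∑ s : Fin K → Bool, mw p s = 1 := by
  unfold mw
  rw [← Fintype.prod_sum (fun (_ : Fin K) (b : Bool) => if b then p else 1 - p)]
  simp only [Fintype.univ_bool, mem_singleton, Bool.true_eq_false, not_false_eq_true, sum_insert, ↓reduceIte, sum_singleton, Bool.false_eq_true, add_sub_cancel, prod_const_one]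

theorem mw_nonneg {K : ℕ} {p : ℝ} (h0 : 0 ≤ p) (h1 : p ≤ 1) (s : Fin K → Bool) : 0 ≤ mw p s := by
  unfold mw
  exact Finset.prod_nonneg fun j _ => by split_ifs <;> linarith

theorem mw_zero {K : ℕ} (p : ℝ) : mw p (fun _ : Fin K => false) = (1 - p) ^ K := by
  simp only [mw, Bool.false_eq_true, ↓reduceIte, prod_const, card_univ, Fintype.card_fin]

/-- The mask with a single marked position. -/
def emask {K : ℕ} (l : Fin K) : Fin K → Bool := fun j => decide (j = l)

theorem mw_emask {K : ℕ} (p : ℝ) (l : Fin K) : mw p (emask l) = p * (1 - p) ^ (K - 1) := by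
  unfold mw emask
  rw [← Finset.mul_prod_erase Finset.univ _ (Finset.mem_univ l)]
  simp only [decide_true, if_true]
  congr 1
  rw [Finset.prod_congr rfl (g := fun _ => 1 - p)]
  · rw [Finset.prod_const, Finset.card_erase_of_mem (Finset.mem_univ l), Finset.card_univ,
      Fintype.card_fin]
  · intro j hj
    have : j ≠ l := (Finset.mem_erase.1 hj).1
    simp [this]

theorem emask_inj {K : ℕ} : Function.Injective (emask : Fin K → Fin K → Bool) := by
  intro a b h
  have := congrFun h a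
  simpa [emask] using this

theorem emask_ne {K : ℕ} (l : Fin K) : emask l ≠ fun _ => false := by
  intro h
  have := congrFun h l
  simp [emask] at this

/-- The estimate for multiply marked masks. -/
theorem multi_le (K : ℕ) {p : ℝ} (h0 : 0 ≤ p) (h1 : p ≤ 1) (hK : 1 ≤ K) :
    (1 - (1 - p) ^ K) - K * (p * (1 - p) ^ (K - 1)) ≤ ((K : ℝ) * p) * ((K : ℝ) * p) := by
  obtain ⟨k, rfl⟩ : ∃ k, K = k + 1 := ⟨K - 1, by omega⟩
  rw [Nat.add_sub_cancel]
  have hb : 1 + (k : ℝ) * (-p) ≤ (1 + (-p)) ^ k := one_add_mul_le_pow (by linarith only [h1]) k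
  have hb' : 1 - (k : ℝ) * p ≤ (1 - p) ^ k := by
    have : (1 + -p) = 1 - p := by ring
    rw [this] at hb
    linarith only [hb]
  have e : (1 - (1 - p) ^ (k + 1)) - ((k + 1 : ℕ) : ℝ) * (p * (1 - p) ^ k) =
      1 - (1 - p) ^ k * (1 + k * p) := by
    push_cast
    rw [pow_succ]; ring
  rw [e]
  have hkp : 0 ≤ 1 + (k : ℝ) * p := by positivity
  have h2 : (1 - (k : ℝ) * p) * (1 + k * p) ≤ (1 - p) ^ k * (1 + k * p) :=
    mul_le_mul_of_nonneg_right hb' hkp
  push_cast
  nlinarith only [h2, mul_nonneg h0 h0]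

end Mask

end Vale.Agent.N168I
end
end

section

section

set_option autoImplicit false
set_option linter.unusedSectionVars false

open MeasureTheory ProbabilityTheory Finset
open scoped NNReal

namespace Vale.Agent.N168I

open KS (unifK integral_unif)

section Arrow

theorem integral_unifK_pi {N l K : ℕ} [NeZero N] (F : (Fin l × Fin K → Fin N) → ℝ) :
    ∫ I : Fin l → Fin K → Fin N, F (fun p => I p.1 p.2) ∂(Measure.pi fun _ => unifK K N) =
      ∫ i, F i ∂(Measure.pi fun _ : Fin l × Fin K => unif N) := by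
  classical
  rw [integral_pi_unif, integral_fintype (Integrable.of_finite)]
  have h1 : ∀ I : Fin l → Fin K → Fin N,
      (Measure.pi fun _ : Fin l => unifK K N).real {I} = (1 / (N : ℝ)) ^ (l * K) := by
    intro I
    rw [measureReal_def, Measure.pi_singleton, ENNReal.toReal_prod]
    have : ∀ k : Fin l, ((unifK K N) {I k}).toReal = (1 / (N : ℝ)) ^ K := by
      intro k
      have : (unifK K N) {I k} = (Measure.pi fun _ : Fin K => unif N) {I k} := rfl
      rw [this, Measure.pi_singleton, ENNReal.toReal_prod]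
      have h2 : ∀ j : Fin K, ((unif N) {I k j}).toReal = 1 / (N : ℝ) :=
        fun j => KS.unif_real_singleton N (I k j)
      simp_rw [h2]
      simp only [one_div, prod_inv_distrib, prod_const, card_univ, Fintype.card_fin, inv_pow]
    simp_rw [this]
    rw [Finset.prod_const, Finset.card_univ, Fintype.card_fin, ← pow_mul, mul_comm]
  simp_rw [h1, smul_eq_mul]
  rw [← Finset.mul_sum]
  congr 1
  · simp only [one_div, inv_pow, Fintype.card_prod, Fintype.card_fin]
  · exact Fintype.sum_equiv (Equiv.curry (Fin l) (Fin K) (Fin N)).symm _ _ (fun I => rfl)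

theorem integral_arrow {A : Type} [MeasurableSpace A] (μ : Measure A) [IsProbabilityMeasure μ]
    {l K N : ℕ} [NeZero N] (F : (Fin l → A) → (Fin l × Fin K → Fin N) → ℝ)
    (hF : Integrable (fun η : Fin l → A × (Fin K → Fin N) =>
      F (fun k => (η k).1) (fun p => (η p.1).2 p.2)) (Measure.pi fun _ => μ.prod (unifK K N))) :
    ∫ η : Fin l → A × (Fin K → Fin N), F (fun k => (η k).1) (fun p => (η p.1).2 p.2)
      ∂(Measure.pi fun _ => μ.prod (unifK K N)) =
    ∫ ω : Fin l → A, (∫ i, F ω i ∂(Measure.pi fun _ : Fin l × Fin K => unif N))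
      ∂(Measure.pi fun _ => μ) := by
  have hmp := measurePreserving_arrowProdEquivProdArrow A (Fin K → Fin N) (Fin l)
    (fun _ => μ) (fun _ => unifK K N)
  have hemb := (MeasurableEquiv.arrowProdEquivProdArrow A (Fin K → Fin N)
    (Fin l)).measurableEmbedding
  have h1 := hmp.integral_comp hemb (g := fun z : (Fin l → A) × (Fin l → Fin K → Fin N) =>
    F z.1 (fun p => z.2 p.1 p.2))
  have h2 := (hmp.integrable_comp_emb hemb (g := fun z : (Fin l → A) × (Fin l → Fin K → Fin N) =>
    F z.1 (fun p => z.2 p.1 p.2))).1 hF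
  rw [integral_prod _ h2] at h1
  refine Eq.trans h1 ?_
  congr 1
  funext ω
  exact integral_unifK_pi (F ω)

end Arrow

end Vale.Agent.N168I
end
end

section

section

set_option autoImplicit false
set_option linter.unusedSectionVars false

open MeasureTheory ProbabilityTheory Finset
open scoped NNReal

namespace Vale.Agent.N168I

open KS (unifK integral_unif)

section Factor

variable {K : ℕ}

theorem sum_update (l : Fin K) (e : Bool) (G : (Fin K → Bool) → ℝ) :
    ∑ τ, G τ = ∑ τ : Fin K → Bool,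
      if τ l = e then (∑ b, G (Function.update τ l b)) else 0 := by
  classical
  rw [← Finset.sum_filter, ← Finset.sum_filter_add_sum_filter_not Finset.univ
    (fun τ : Fin K → Bool => τ l = e)]
  have h1 : ∑ τ : Fin K → Bool with ¬ τ l = e, G τ =
      ∑ τ : Fin K → Bool with τ l = e, G (Function.update τ l (!e)) := by
    refine Finset.sum_bij' (fun τ _ => Function.update τ l e)
      (fun τ _ => Function.update τ l (!e)) ?_ ?_ ?_ ?_ ?_
    · intro τ hτ
      simp
    · intro τ hτ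
      simp
    · intro τ hτ
      simp only [Finset.mem_filter, Finset.mem_univ, true_and] at hτ
      rw [Function.update_idem]
      have : (!e) = τ l := by
        cases e <;> cases h : τ l <;> simp_all
      rw [this, Function.update_eq_self]
    · intro τ hτ
      simp only [Finset.mem_filter, Finset.mem_univ, true_and] at hτ
      rw [Function.update_idem, ← hτ, Function.update_eq_self]
    · intro τ hτ
      simp only [Finset.mem_filter, Finset.mem_univ, true_and] at hτ
      rw [Function.update_idem]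
      have : (!e) = τ l := by
        cases e <;> cases h : τ l <;> simp_all
      rw [this, Function.update_eq_self]
  rw [h1, ← Finset.sum_add_distrib]
  refine Finset.sum_congr rfl fun τ hτ => ?_
  simp only [Finset.mem_filter, Finset.mem_univ, true_and] at hτ
  rw [Fintype.sum_bool]
  have h2 : G τ = G (Function.update τ l e) := by rw [← hτ, Function.update_eq_self]
  rw [h2]
  cases e
  · rw [Bool.not_false, add_comm]
  · rw [Bool.not_true]

theorem cavityFactor_eq (c : Clause K) (l : Fin K) (y : Fin K → ℝ) (e : Bool) :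
    cavityFactor c l y e = ∑ τ : Fin K → Bool,
      Real.exp (theta c (Function.update τ l e)) * ∏ j, pr (y j) (τ j) := by
  rw [sum_update l e]
  unfold cavityFactor
  refine Finset.sum_congr rfl fun τ _ => ?_
  by_cases h : τ l = e
  · rw [if_pos h, if_pos h]
    have h1 : ∀ b, ∏ j, pr (y j) (Function.update τ l b j) =
        pr (y l) b * ∏ j ∈ Finset.univ.erase l, pr (y j) (τ j) := by
      intro b
      rw [← Finset.mul_prod_erase _ _ (Finset.mem_univ l), Function.update_self]
      congr 1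
      refine Finset.prod_congr rfl fun j hj => ?_
      rw [Function.update_of_ne (Finset.ne_of_mem_erase hj)]
    simp_rw [h1, Function.update_idem]
    rw [← h, Function.update_eq_self, ← Finset.mul_sum, ← Finset.sum_mul, pr_sum, one_mul]
    rfl
  · rw [if_neg h, if_neg h]

theorem edgeFactor_eq (c : Clause K) (y : Fin K → ℝ) :
    edgeFactor c y = ∑ τ : Fin K → Bool, Real.exp (theta c τ) * ∏ j, pr (y j) (τ j) := rfl

theorem pr_prod_sum {ι : Type*} [Fintype ι] [DecidableEq ι] (y : ι → ℝ) :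
    ∑ τ : ι → Bool, ∏ j, pr (y j) (τ j) = 1 := by
  have h := Finset.prod_univ_sum (fun _ : ι => (Finset.univ : Finset Bool))
    (fun j b => pr (y j) b)
  rw [Fintype.piFinset_univ] at h
  rw [← h]
  simp_rw [pr_sum]
  simp only [prod_const_one]

theorem pav_mono {ι : Type*} [Fintype ι] [DecidableEq ι] (Q Q' : (ι → Bool) → ℝ) (y : ι → ℝ)
    (hy : ∀ j, |y j| ≤ 1) (h : ∀ τ, Q τ ≤ Q' τ) : pav Q y ≤ pav Q' y := by
  unfold pav
  exact Finset.sum_le_sum fun τ _ => mul_le_mul_of_nonneg_right (h τ)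
    (Finset.prod_nonneg fun j _ => pr_nonneg (hy j) _)

theorem pav_const {ι : Type*} [Fintype ι] [DecidableEq ι] (q : ℝ) (y : ι → ℝ) :
    pav (fun _ => q) y = q := by
  unfold pav
  rw [← Finset.mul_sum, pr_prod_sum, mul_one]

theorem pav_const_mul {ι : Type*} [Fintype ι] [DecidableEq ι] (c : ℝ) (Q : (ι → Bool) → ℝ)
    (y : ι → ℝ) : pav (fun τ => c * Q τ) y = c * pav Q y := by
  unfold pav
  rw [Finset.mul_sum]
  exact Finset.sum_congr rfl fun τ _ => by ring

theorem pav_sum {ι κ : Type*} [Fintype ι] [DecidableEq ι] (t : Finset κ)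
    (Q : κ → (ι → Bool) → ℝ) (y : ι → ℝ) :
    pav (fun τ => ∑ e ∈ t, Q e τ) y = ∑ e ∈ t, pav (Q e) y := by
  unfold pav
  rw [Finset.sum_comm]
  exact Finset.sum_congr rfl fun τ _ => by rw [Finset.sum_mul]

theorem pav_mem {ι : Type*} [Fintype ι] [DecidableEq ι] (Q : (ι → Bool) → ℝ) (y : ι → ℝ)
    (hy : ∀ j, |y j| ≤ 1) (lo hi : ℝ) (h : ∀ τ, lo ≤ Q τ ∧ Q τ ≤ hi) :
    lo ≤ pav Q y ∧ pav Q y ≤ hi := by
  have h1 := pav_mono (fun _ => lo) Q y hy fun τ => (h τ).1
  have h2 := pav_mono Q (fun _ => hi) y hy fun τ => (h τ).2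
  rw [pav_const] at h1 h2
  exact ⟨h1, h2⟩

theorem theta_mem (c : Clause K) (σ : Fin K → Bool) :
    -maxTheta c ≤ theta c σ ∧ theta c σ ≤ maxTheta c := abs_le.1 (abs_theta_le c σ)

theorem cavityFactor_mem (c : Clause K) (l : Fin K) (y : Fin K → ℝ) (hy : ∀ j, |y j| ≤ 1)
    (e : Bool) : Real.exp (-maxTheta c) ≤ cavityFactor c l y e ∧
      cavityFactor c l y e ≤ Real.exp (maxTheta c) := by
  rw [cavityFactor_eq]
  exact pav_mem (fun τ => Real.exp (theta c (Function.update τ l e))) y hy _ _ fun τ =>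
    ⟨Real.exp_le_exp.2 (theta_mem c _).1, Real.exp_le_exp.2 (theta_mem c _).2⟩

theorem edgeFactor_mem (c : Clause K) (y : Fin K → ℝ) (hy : ∀ j, |y j| ≤ 1) :
    Real.exp (-maxTheta c) ≤ edgeFactor c y ∧ edgeFactor c y ≤ Real.exp (maxTheta c) := by
  rw [edgeFactor_eq]
  exact pav_mem (fun τ => Real.exp (theta c τ)) y hy _ _ fun τ =>
    ⟨Real.exp_le_exp.2 (theta_mem c _).1, Real.exp_le_exp.2 (theta_mem c _).2⟩

theorem log_abs_of_mem {x t : ℝ} (h1 : Real.exp (-t) ≤ x) (h2 : x ≤ Real.exp t) :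
    |Real.log x| ≤ t := by
  have hx : 0 < x := lt_of_lt_of_le (Real.exp_pos _) h1
  rw [abs_le]
  constructor
  · rw [Real.le_log_iff_exp_le hx]; exact h1
  · rw [Real.log_le_iff_le_exp hx]; exact h2

/-- Product formula for product-measure averages over arrays. -/
theorem pav_arr {l : ℕ} (f : Fin l → (Fin K → Bool) → ℝ) (y : Fin l × Fin K → ℝ) :
    pav (fun τ : Fin l × Fin K → Bool => ∏ k, f k (fun j => τ (k, j))) y =
      ∏ k, pav (f k) (fun j => y (k, j)) := by
  have h := Finset.prod_univ_sum (fun _ : Fin l => (Finset.univ : Finset (Fin K → Bool)))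
    (fun k τ => f k τ * ∏ j, pr (y (k, j)) (τ j))
  rw [Fintype.piFinset_univ] at h
  unfold pav
  rw [h]
  refine Fintype.sum_equiv (Equiv.curry (Fin l) (Fin K) Bool) _ _ fun τ => ?_
  rw [Finset.prod_mul_distrib]
  congr 1
  rw [← Finset.univ_product_univ, Finset.prod_product]
  rfl

end Factor

end Vale.Agent.N168I
end
end

section

section

set_option autoImplicit false
set_option linter.unusedSectionVars false

open MeasureTheory ProbabilityTheory Finset Filter
open scoped NNReal Topology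

namespace Vale.Agent.N168I.MP

section Inj

theorem sum_comp_inj {X ι ι' : Type} [Fintype X] [DecidableEq X] [Fintype ι] [DecidableEq ι]
    [Fintype ι'] [DecidableEq ι'] (e : ι → ι') (he : Function.Injective e) (p : ι' → X → ℝ)
    (hp : ∀ j, ∑ x, p j x = 1) (F : (ι → X) → ℝ) :
    ∑ s : ι' → X, F (fun i => s (e i)) * ∏ j, p j (s j) =
      ∑ σ : ι → X, F σ * ∏ i, p (e i) (σ i) := by
  classical
  have h1 : ∀ s : ι' → X, F (fun i => s (e i)) * ∏ j, p j (s j) =
      ∑ σ : ι → X, F σ * (if (fun i => s (e i)) = σ then ∏ j, p j (s j) else 0) := by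
    intro s
    rw [Finset.sum_eq_single (fun i => s (e i))]
    · rw [if_pos rfl]
    · intro σ _ hσ
      rw [if_neg (Ne.symm hσ), mul_zero]
    · intro h
      exact absurd (Finset.mem_univ _) h
  simp_rw [h1]
  rw [Finset.sum_comm]
  refine Finset.sum_congr rfl fun σ _ => ?_
  rw [← Finset.mul_sum]
  congr 1
  have h2 : ∀ s : ι' → X, (if (fun i => s (e i)) = σ then ∏ j, p j (s j) else 0) =
      ∏ j, (if (∀ i, e i = j → s j = σ i) then p j (s j) else 0) := by
    intro s
    rw [Finset.prod_ite_zero]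
    congr 1
    simp only [Finset.mem_univ, true_implies, eq_iff_iff]
    constructor
    · intro h j i hi
      rw [← hi]
      exact congrFun h i
    · intro h
      funext i
      exact h (e i) i rfl
  simp_rw [h2]
  have h3 := Finset.prod_univ_sum (fun _ : ι' => (Finset.univ : Finset X))
    (fun j x => if (∀ i, e i = j → x = σ i) then p j x else 0)
  rw [Fintype.piFinset_univ] at h3
  rw [← h3]
  refine (Fintype.prod_of_injective e he _ _ ?_ ?_).symm
  · intro j hj
    have : ∀ x : X, (if (∀ i, e i = j → x = σ i) then p j x else 0) = p j x := by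
      intro x
      rw [if_pos]
      intro i hi
      exact absurd ⟨i, hi⟩ hj
    simp_rw [this]
    exact hp j
  · intro i
    rw [Finset.sum_eq_single (σ i)]
    · rw [if_pos]
      intro i' hi'
      rw [he hi']
    · intro x _ hx
      rw [if_neg]
      intro h
      exact hx (h i rfl)
    · intro h
      exact absurd (Finset.mem_univ _) h

theorem mp_comp_inj {X ι ι' : Type} [MeasurableSpace X] [Fintype ι] [Fintype ι']
    (μ : Measure X) [IsProbabilityMeasure μ] (e : ι → ι') (he : Function.Injective e) :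
    MeasurePreserving (fun (w : ι' → X) (i : ι) => w (e i)) (Measure.pi fun _ => μ)
      (Measure.pi fun _ => μ) := by
  classical
  have hm : Measurable (fun (w : ι' → X) (i : ι) => w (e i)) :=
    measurable_pi_iff.2 fun i => measurable_pi_apply _
  refine ⟨hm, ?_⟩
  refine (Measure.pi_eq fun s hs => ?_).symm
  rw [Measure.map_apply hm (MeasurableSet.univ_pi hs)]
  have h1 : (fun (w : ι' → X) (i : ι) => w (e i)) ⁻¹' Set.univ.pi s =
      Set.univ.pi fun j => ⋂ i, ⋂ (_ : e i = j), s i := by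
    ext w
    simp only [Set.mem_preimage, Set.mem_pi, Set.mem_univ, true_implies, Set.mem_iInter]
    constructor
    · intro h j i hi
      rw [← hi]
      exact h i
    · intro h i
      exact h (e i) i rfl
  rw [h1, Measure.pi_pi]
  refine (Fintype.prod_of_injective e he _ _ ?_ ?_).symm
  · intro j hj
    have : (⋂ i, ⋂ (_ : e i = j), s i) = Set.univ := by
      ext x
      simp only [Set.mem_iInter, Set.mem_univ, iff_true]
      intro i hi
      exact absurd ⟨i, hi⟩ hj
    rw [this, measure_univ]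
  · intro i
    congr 1
    ext x
    simp only [Set.mem_iInter]
    constructor
    · intro h i' hi'
      rw [he hi']
      exact h
    · intro h
      exact h i rfl

end Inj

section Mlin

variable {ι : Type} [Fintype ι] [DecidableEq ι]

theorem mlin_eq_pav (w : (ι → Bool) → ℝ) (y : ι → ℝ) : mlin w y = pav w y := rfl

theorem mlin_comp_inj {ι' : Type} [Fintype ι'] [DecidableEq ι'] (e : ι → ι')
    (he : Function.Injective e) (w : (ι → Bool) → ℝ) (y : ι' → ℝ) :
    mlin (fun σ : ι' → Bool => w fun i => σ (e i)) y = mlin w fun i => y (e i) := by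
  rw [mlin_eq_pav, mlin_eq_pav]
  unfold pav
  exact sum_comp_inj e he (fun j b => pr (y j) b) (fun j => pr_sum (y j)) w

end Mlin

section Trial

variable {r : ℕ} {m : Fin r → ℝ} {x : (Fin (r + 1) → U01) → ℝ}

theorem measurable_message {ι : Type} (hx : Measurable x) (i : ι) :
    Measurable fun z : (ι → U01) × (Fin r → ι → U01) => message x z.1 z.2 i := by
  unfold message
  refine hx.comp ?_
  rw [measurable_pi_iff]
  intro p
  refine Fin.cases ?_ (fun j => ?_) p
  · simp only [Fin.cons_zero]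
    exact (measurable_pi_apply i).comp measurable_fst
  · simp only [Fin.cons_succ]
    exact (measurable_pi_apply i).comp ((measurable_pi_apply j).comp measurable_snd)

variable {ι : Type} [Fintype ι] [DecidableEq ι]

theorem measurable_mlin_message (hx : Measurable x) (w : (ι → Bool) → ℝ) :
    Measurable fun z : (ι → U01) × (Fin r → ι → U01) => mlin w (message x z.1 z.2) := by
  unfold mlin
  refine Finset.measurable_fun_sum _ fun σ _ => ?_
  refine Measurable.const_mul ?_ _
  refine Finset.measurable_fun_prod _ fun j _ => ?_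
  exact (((measurable_message hx j).mul_const _).const_add _).div_const _

theorem measurable_message_v (hx : Measurable x) (w : ι → U01) (i : ι) :
    Measurable fun v : Fin r → ι → U01 => message x w v i := by
  unfold message
  refine hx.comp ?_
  rw [measurable_pi_iff]
  intro p
  refine Fin.cases ?_ (fun j => ?_) p
  · simp only [Fin.cons_zero]
    exact measurable_const
  · simp only [Fin.cons_succ]
    exact (measurable_pi_apply i).comp (measurable_pi_apply j)

theorem measurable_mlin_v (hx : Measurable x) (w : (ι → Bool) → ℝ) (u : ι → U01) :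
    Measurable fun v : Fin r → ι → U01 => mlin w (message x u v) := by
  unfold mlin
  refine Finset.measurable_fun_sum _ fun σ _ => ?_
  refine Measurable.const_mul ?_ _
  refine Finset.measurable_fun_prod _ fun j _ => ?_
  exact (((measurable_message_v hx u j).mul_const _).const_add _).div_const _

theorem message_abs (hx : ∀ w, x w ∈ Set.Icc (-1 : ℝ) 1) (w : ι → U01) (v : Fin r → ι → U01)
    (j : ι) : |message x w v j| ≤ 1 := abs_le.2 ⟨(hx _).1, (hx _).2⟩

/-- The value of a logarithmic shape for the trial `x`. -/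
noncomputable def trF (m : Fin r → ℝ) (x : (Fin (r + 1) → U01) → ℝ) (φ : (ι → Bool) → ℝ) : ℝ :=
  hierLog r m fun w v => mlin (fun σ => Real.exp (φ σ)) (message x w v)

theorem trF_bd (h : IsTrial r m x) (φ : (ι → Bool) → ℝ) (w : ι → U01) :
    PT.Bd (Real.exp (-‖φ‖)) (Real.exp ‖φ‖) fun v : Fin r → ι → U01 =>
      mlin (fun σ => Real.exp (φ σ)) (message x w v) := by
  have hmem : ∀ v : Fin r → ι → U01, Real.exp (-‖φ‖) ≤
      mlin (fun σ => Real.exp (φ σ)) (message x w v) ∧
      mlin (fun σ => Real.exp (φ σ)) (message x w v) ≤ Real.exp ‖φ‖ := by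
    intro v
    rw [mlin_eq_pav]
    refine pav_mem _ _ (message_abs h.2.2.2 w v) _ _ fun τ => ?_
    have := abs_le.1 (abs_le_norm φ τ)
    exact ⟨Real.exp_le_exp.2 this.1, Real.exp_le_exp.2 this.2⟩
  exact ⟨measurable_mlin_v h.2.2.1 _ w, fun v => (hmem v).1, fun v => (hmem v).2⟩

theorem trF_measurable (h : IsTrial r m x) (φ : (ι → Bool) → ℝ) :
    Measurable fun w : ι → U01 => Real.log (nest volume r m fun v =>
      mlin (fun σ => Real.exp (φ σ)) (message x w v)) := by
  refine Measurable.log ?_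
  exact PT.measurable_nest volume r m
    (fun (w : ι → U01) (v : Fin r → ι → U01) => mlin (fun σ => Real.exp (φ σ)) (message x w v))
    (measurable_mlin_message h.2.2.1 _)

theorem trF_integrable (h : IsTrial r m x) (φ : (ι → Bool) → ℝ) :
    Integrable fun w : ι → U01 => Real.log (nest volume r m fun v =>
      mlin (fun σ => Real.exp (φ σ)) (message x w v)) := by
  refine Integrable.of_bound (C := ‖φ‖) (trF_measurable h φ).aestronglyMeasurable
    (Filter.Eventually.of_forall fun w => ?_)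
  rw [Real.norm_eq_abs]
  have h1 := PT.nest_mem (P := (volume : Measure (ι → U01))) (Real.exp_pos _) r m
    (fun p => (h.2.1 p).1) _ (trF_bd h φ w)
  exact log_abs_of_mem h1.1 h1.2

theorem trF_le (h : IsTrial r m x) (φ φ' : (ι → Bool) → ℝ) :
    trF m x φ ≤ trF m x φ' + ‖φ - φ'‖ := by
  unfold trF hierLog
  have e : (∫ w : ι → U01, Real.log (nest volume r m fun v =>
      mlin (fun σ => Real.exp (φ' σ)) (message x w v))) + ‖φ - φ'‖ =
      ∫ w : ι → U01, (Real.log (nest volume r m fun v =>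
      mlin (fun σ => Real.exp (φ' σ)) (message x w v)) + ‖φ - φ'‖) := by
    rw [integral_add (trF_integrable h φ') (integrable_const _)]
    simp
  rw [e]
  refine integral_mono (trF_integrable h φ) ((trF_integrable h φ').add (integrable_const _))
    fun w => ?_
  show Real.log (nest volume r m fun v => mlin (fun σ => Real.exp (φ σ)) (message x w v)) ≤
    Real.log (nest volume r m fun v => mlin (fun σ => Real.exp (φ' σ)) (message x w v)) +
      ‖φ - φ'‖
  rw [add_comm]
  refine PT.nest_log_close (Real.exp_pos _) (Real.exp_pos _) (fun p => (h.2.1 p).1)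
    (trF_bd h φ w) (trF_bd h φ' w) fun v => ?_
  rw [mlin_eq_pav, mlin_eq_pav, ← pav_const_mul]
  refine pav_mono _ _ _ (message_abs h.2.2.2 w v) fun τ => ?_
  rw [← Real.exp_add, Real.exp_le_exp]
  have := (abs_le.1 (abs_le_norm (φ - φ') τ)).2
  rw [Pi.sub_apply] at this
  linarith

theorem trF_lip (h : IsTrial r m x) : LipschitzWith 1 (trF m x : ((ι → Bool) → ℝ) → ℝ) := by
  refine LipschitzWith.of_dist_le_mul fun φ φ' => ?_
  rw [NNReal.coe_one, one_mul, Real.dist_eq, dist_eq_norm, abs_le]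
  have h1 := trF_le h φ φ'
  have h2 := trF_le h φ' φ
  rw [norm_sub_rev] at h2
  constructor <;> linarith

theorem trF_zero (h : IsTrial r m x) : trF m x (0 : (ι → Bool) → ℝ) = 0 := by
  unfold trF hierLog
  have e : ∀ (w : ι → U01) (v : Fin r → ι → U01),
      mlin (fun σ : ι → Bool => Real.exp ((0 : (ι → Bool) → ℝ) σ)) (message x w v) = 1 := by
    intro w v
    rw [mlin_eq_pav]
    simp only [Pi.zero_apply, Real.exp_zero]
    exact pav_const 1 _
  simp_rw [e]
  have e2 : nest (volume : Measure (ι → U01)) r m (fun _ => (1 : ℝ)) = 1 :=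
    PT.nest_const one_pos r m fun p => (h.2.1 p).1
  rw [e2, Real.log_one]
  simp

theorem trF_emb (h : IsTrial r m x) {ι' : Type} [Fintype ι'] [DecidableEq ι'] (e : ι → ι')
    (he : Function.Injective e) (φ : (ι → Bool) → ℝ) :
    trF m x (fun σ : ι' → Bool => φ fun i => σ (e i)) = trF m x φ := by
  unfold trF hierLog
  have e1 : ∀ (w : ι' → U01) (v : Fin r → ι' → U01),
      mlin (fun σ : ι' → Bool => Real.exp (φ fun i => σ (e i))) (message x w v) =
      mlin (fun σ => Real.exp (φ σ)) (message x (fun i => w (e i)) fun p i => v p (e i)) := by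
    intro w v
    exact mlin_comp_inj e he (fun σ => Real.exp (φ σ)) (message x w v)
  simp_rw [e1]
  have hmp := mp_comp_inj (volume : Measure U01) e he
  have hmp' : MeasurePreserving (fun (w : ι' → U01) (i : ι) => w (e i)) volume volume := hmp
  have e2 : ∀ w : ι' → U01, (nest (volume : Measure (ι' → U01)) r m fun v =>
      mlin (fun σ => Real.exp (φ σ)) (message x (fun i => w (e i)) fun p i => v p (e i))) =
      nest (volume : Measure (ι → U01)) r m fun v =>
        mlin (fun σ => Real.exp (φ σ)) (message x (fun i => w (e i)) v) := by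
    intro w
    exact PT.nest_comp hmp' r m
      (fun v => mlin (fun σ => Real.exp (φ σ)) (message x (fun i => w (e i)) v))
      (trF_bd h φ (fun i => w (e i))).meas
  simp_rw [e2]
  have h3 := integral_map (μ := (volume : Measure (ι' → U01))) hmp'.measurable.aemeasurable
    (f := fun w : ι → U01 => Real.log (nest volume r m fun v =>
      mlin (fun σ => Real.exp (φ σ)) (message x w v)))
    (trF_measurable h φ).aestronglyMeasurable
  rw [hmp'.map_eq] at h3
  exact h3.symm

/-- A trial as a functional of shapes. -/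
noncomputable def trSF (K : ℕ) (h : IsTrial r m x) : ShapeFun K where
  F l φ := trF m x φ
  lip l := trF_lip h
  zero l := trF_zero h
  emb {l D} hlD φ := trF_emb h (fun p : Fin l × Fin K => (Fin.castLE hlD p.1, p.2))
    (fun a b hab => by
      rw [Prod.mk.injEq] at hab
      exact Prod.ext (Fin.castLE_injective hlD hab.1) hab.2) φ

end Trial

end Vale.Agent.N168I.MP
end
end

section

section

set_option autoImplicit false
set_option linter.unusedSectionVars false

open MeasureTheory ProbabilityTheory Finset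
open scoped NNReal

namespace Vale.Agent.N168I

open KS (unifK integral_unif)

variable {K N : ℕ}

section Exp

variable [NeZero N] (ρ : Measure (Clause K)) [IsProbabilityMeasure ρ]

end Exp

end Vale.Agent.N168I
end
end

section

section

set_option autoImplicit false

open MeasureTheory ProbabilityTheory
open scoped NNReal

namespace Vale.Agent.N168I.PT

section curry

variable {ι κ X : Type} [Fintype ι] [Fintype κ] [MeasurableSpace X]

theorem mp_uncurry (μ : Measure X) [SigmaFinite μ] :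
    MeasurePreserving (fun (u : ι → κ → X) (p : ι × κ) => u p.1 p.2)
      (Measure.pi fun _ => Measure.pi fun _ => μ) (Measure.pi fun _ => μ) := by
  have hm : Measurable (fun (u : ι → κ → X) (p : ι × κ) => u p.1 p.2) :=
    measurable_pi_lambda _ fun p => (measurable_pi_apply p.2).comp (measurable_pi_apply p.1)
  refine ⟨hm, ?_⟩
  symm
  refine Measure.pi_eq fun s hs => ?_
  rw [Measure.map_apply hm (MeasurableSet.univ_pi hs)]
  have h1 : (fun (u : ι → κ → X) (p : ι × κ) => u p.1 p.2) ⁻¹' (Set.univ.pi s) =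
      Set.univ.pi fun i => Set.univ.pi fun j => s (i, j) := by
    ext u
    simp only [Set.mem_preimage, Set.mem_univ_pi, Prod.forall]
  rw [h1, Measure.pi_pi]
  simp_rw [Measure.pi_pi]
  rw [Fintype.prod_prod_type]

theorem mp_curry (μ : Measure X) [SigmaFinite μ] :
    MeasurePreserving (fun (u : ι × κ → X) (i : ι) (j : κ) => u (i, j))
      (Measure.pi fun _ => μ) (Measure.pi fun _ => Measure.pi fun _ => μ) := by
  have hm : Measurable (fun (u : ι × κ → X) (i : ι) (j : κ) => u (i, j)) :=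
    measurable_pi_lambda _ fun i => measurable_pi_lambda _ fun j => measurable_pi_apply (i, j)
  refine ⟨hm, ?_⟩
  have h := (mp_uncurry (ι := ι) (κ := κ) μ)
  rw [← h.map_eq, Measure.map_map hm h.measurable]
  have : (fun (u : ι × κ → X) (i : ι) (j : κ) => u (i, j)) ∘
      (fun (u : ι → κ → X) (p : ι × κ) => u p.1 p.2) = id := rfl
  rw [this, Measure.map_id]

end curry

section hier

variable {ι : Type} [Fintype ι] {r : ℕ} {m : Fin r → ℝ}

theorem measurable_hierLog {Θ : Type} [MeasurableSpace Θ]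
    {Y : Θ → (ι → U01) → (Fin r → ι → U01) → ℝ}
    (hY : Measurable fun z : (Θ × (ι → U01)) × (Fin r → ι → U01) => Y z.1.1 z.1.2 z.2) :
    Measurable fun θ => hierLog r m (Y θ) := by
  have h1 : Measurable fun z : Θ × (ι → U01) => nest volume r m (Y z.1 z.2) :=
    measurable_nest volume r m (fun z : Θ × (ι → U01) => Y z.1 z.2) hY
  have h2 : Measurable fun z : Θ × (ι → U01) => Real.log (nest volume r m (Y z.1 z.2)) :=
    Real.measurable_log.comp h1
  exact (StronglyMeasurable.integral_prod_right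
    (f := fun θ w => Real.log (nest volume r m (Y θ w))) h2.stronglyMeasurable).measurable

theorem log_nest_abs_le (hm : ∀ p, 0 < m p) {W : Type} [MeasurableSpace W] {P : Measure W}
    [IsProbabilityMeasure P] {t : ℝ} {Y : (Fin r → W) → ℝ}
    (hY : Bd (Real.exp (-t)) (Real.exp t) Y) : |Real.log (nest P r m Y)| ≤ t := by
  have h := nest_mem (P := P) (Real.exp_pos _) r m hm Y hY
  exact log_abs_of_mem h.1 h.2

theorem hierLog_abs_le (hm : ∀ p, 0 < m p) {t : ℝ} {Y : (ι → U01) → (Fin r → ι → U01) → ℝ}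
    (hY : ∀ w, Bd (Real.exp (-t)) (Real.exp t) (Y w)) : |hierLog r m Y| ≤ t := by
  unfold hierLog
  have h := norm_integral_le_of_norm_le_const (μ := (volume : Measure (ι → U01)))
    (f := fun w => Real.log (nest volume r m (Y w))) (C := t)
    (Filter.Eventually.of_forall fun w => log_nest_abs_le hm (hY w))
  simpa using h

/-- Products over independent groups of messages. -/
theorem hierLog_prod (hm : ∀ p, 0 < m p) {n : ℕ} {κ : Type} [Fintype κ] {t : Fin n → ℝ}
    {E : Fin n → (κ → U01) → (Fin r → κ → U01) → ℝ}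
    (hE : ∀ k, Measurable fun z : (κ → U01) × (Fin r → κ → U01) => E k z.1 z.2)
    (hlo : ∀ k w v, Real.exp (-t k) ≤ E k w v) (hhi : ∀ k w v, E k w v ≤ Real.exp (t k)) :
    hierLog r m (ι := Fin n × κ) (fun w v => ∏ k, E k (fun j => w (k, j)) fun p j => v p (k, j)) =
      ∑ k, hierLog r m (E k) := by
  have hBd : ∀ k w, Bd (Real.exp (-t k)) (Real.exp (t k)) (E k w) := fun k w =>
    ⟨(hE k).comp (measurable_const.prodMk measurable_id), hlo k w, hhi k w⟩
  have hmn : ∀ k, Measurable fun w : κ → U01 => nest volume r m (E k w) := fun k =>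
    measurable_nest volume r m (E k) (hE k)
  have hint : ∀ k, Integrable (fun w : κ → U01 => Real.log (nest volume r m (E k w))) volume := by
    intro k
    refine Integrable.of_bound (Real.measurable_log.comp (hmn k)).aestronglyMeasurable (t k)
      (Filter.Eventually.of_forall fun w => ?_)
    exact log_nest_abs_le hm (hBd k w)
  have key : ∀ w : Fin n × κ → U01, nest volume r m
      (fun v : Fin r → Fin n × κ → U01 => ∏ k, E k (fun j => w (k, j)) fun p j => v p (k, j)) =
      ∏ k, nest volume r m (E k fun j => w (k, j)) := by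
    intro w
    have h1 := nest_prod (P := fun _ : Fin n => (volume : Measure (κ → U01))) r m hm
      (fun k => E k fun j => w (k, j)) (fun k v => (Real.exp_pos _).le.trans (hlo k _ v))
    rw [← h1]
    have hmeas : Measurable fun v : Fin r → (Fin n → κ → U01) =>
        ∏ k, E k (fun j => w (k, j)) fun p => v p k := by
      refine Finset.measurable_prod _ fun k _ => ?_
      refine (hBd k fun j => w (k, j)).meas.comp ?_
      exact measurable_pi_lambda _ fun p => (measurable_pi_apply k).comp (measurable_pi_apply p)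
    exact nest_comp (P' := (volume : Measure (Fin n × κ → U01)))
      (P := Measure.pi fun _ : Fin n => (volume : Measure (κ → U01)))
      (φ := fun (u : Fin n × κ → U01) (i : Fin n) (j : κ) => u (i, j))
      (mp_curry volume) r m _ hmeas
  unfold hierLog
  simp_rw [key]
  have hlog : ∀ w : Fin n × κ → U01, Real.log (∏ k, nest volume r m (E k fun j => w (k, j))) =
      ∑ k, Real.log (nest volume r m (E k fun j => w (k, j))) := by
    intro w
    refine Real.log_prod fun k _ => ?_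
    exact (lt_of_lt_of_le (Real.exp_pos _) (nest_mem (P := volume) (Real.exp_pos _) r m hm _
      (hBd k _)).1).ne'
  simp_rw [hlog]
  have hmp : ∀ k : Fin n, MeasurePreserving (fun (w : Fin n × κ → U01) (j : κ) => w (k, j))
      volume volume := fun k =>
    (measurePreserving_eval (fun _ : Fin n => (volume : Measure (κ → U01))) k).comp
      (mp_curry volume)
  rw [integral_finsetSum]
  · refine Finset.sum_congr rfl fun k _ => ?_
    have := (hmp k).map_eq
    rw [← this, integral_map (hmp k).measurable.aemeasurable]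
    rw [this]
    exact (hint k).aestronglyMeasurable
  · intro k _
    exact (hmp k).integrable_comp_of_integrable (hint k)

end hier

section edge

variable {K r : ℕ} {m : Fin r → ℝ} {x : (Fin (r + 1) → U01) → ℝ}

theorem measurable_message {ι : Type} [Fintype ι] (hx : Measurable x) (i : ι) :
    Measurable fun z : (ι → U01) × (Fin r → ι → U01) => message x z.1 z.2 i := by
  unfold message
  refine hx.comp (measurable_pi_iff.2 fun p => ?_)
  refine Fin.cases ?_ (fun p => ?_) p
  · simpa only [Fin.cons_zero, Function.comp_def] using     (measurable_pi_apply i).comp (measurable_fst (α := ι → U01) (β := Fin r → ι → U01))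
  · simpa only [Fin.cons_succ, Function.comp_def] using     (measurable_pi_apply i).comp ((measurable_pi_apply p).comp (measurable_snd (α := ι → U01) (β := Fin r → ι → U01)))

theorem measurable_edge {Z : Type} [MeasurableSpace Z] {c : Z → Clause K} (hc : Measurable c)
    {y : Z → Fin K → ℝ} (hy : ∀ j, Measurable fun z => y z j) :
    Measurable fun z => edgeFactor (c z) (y z) := by
  unfold edgeFactor
  refine Finset.measurable_sum _ fun σ _ => ?_
  refine (Real.measurable_exp.comp ((measurable_theta σ).comp hc)).mul ?_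
  exact Finset.measurable_prod _ fun j _ => ((hy j).mul_const _ |>.const_add 1).div_const 2

/-- One edge term. -/
noncomputable def tv (r : ℕ) (m : Fin r → ℝ) (x : (Fin (r + 1) → U01) → ℝ) (c : Clause K) : ℝ :=
  hierLog r m fun (w : Fin K → U01) v => edgeFactor c fun j => message x w v j

/-- Mean edge term. -/
noncomputable def tV0 (ρ : Measure (Clause K)) (r : ℕ) (m : Fin r → ℝ)
    (x : (Fin (r + 1) → U01) → ℝ) : ℝ := ∫ c, tv r m x c ∂ρ

theorem measurable_tv (hx : Measurable x) : Measurable fun c : Clause K => tv r m x c := by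
  unfold tv
  refine measurable_hierLog (Y := fun c (w : Fin K → U01) v =>
    edgeFactor c fun j => message x w v j) ?_
  refine measurable_edge (c := fun z : (Clause K × (Fin K → U01)) × (Fin r → Fin K → U01) => z.1.1)
    (measurable_fst.comp measurable_fst) fun j => ?_
  exact (measurable_message hx j).comp ((measurable_snd.comp measurable_fst).prodMk measurable_snd)

theorem edge_bd (hx : Measurable x) (hx1 : ∀ w, x w ∈ Set.Icc (-1 : ℝ) 1) (c : Clause K)
    (w : Fin K → U01) : Bd (Real.exp (-maxTheta c)) (Real.exp (maxTheta c))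
      fun v : Fin r → Fin K → U01 => edgeFactor c fun j => message x w v j := by
  have hy : ∀ (v : Fin r → Fin K → U01) j, |message x w v j| ≤ 1 := fun v j => by
    rw [abs_le]; exact hx1 _
  refine ⟨?_, fun v => (edgeFactor_mem c _ (hy v)).1, fun v => (edgeFactor_mem c _ (hy v)).2⟩
  exact measurable_edge measurable_const fun j =>
    (measurable_message hx j).comp (measurable_const.prodMk measurable_id)

theorem abs_tv_le (hm : ∀ p, 0 < m p) (hx : Measurable x) (hx1 : ∀ w, x w ∈ Set.Icc (-1 : ℝ) 1)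
    (c : Clause K) : |tv r m x c| ≤ maxTheta c :=
  hierLog_abs_le hm fun w => edge_bd hx hx1 c w

theorem integrable_tv {ρ : Measure (Clause K)} (hρ : Integrable maxTheta ρ)
    (hm : ∀ p, 0 < m p) (hx : Measurable x) (hx1 : ∀ w, x w ∈ Set.Icc (-1 : ℝ) 1) :
    Integrable (fun c => tv r m x c) ρ :=
  hρ.mono' (measurable_tv hx).aestronglyMeasurable
    (Filter.Eventually.of_forall fun c => abs_tv_le hm hx hx1 c)

/-- The edge part of the trial functional is linear in the number of edges. -/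
theorem trialV_eq0 {lam : ℝ≥0} {ρ : Measure (Clause K)} [IsProbabilityMeasure ρ]
    (hρ : Integrable maxTheta ρ) (hx : IsTrial r m x) :
    trialV lam ρ r m x = ((K - 1 : ℕ) : ℝ) * lam * tV0 ρ r m x := by
  obtain ⟨-, hm', hxm, hx1⟩ := hx
  have hm : ∀ p, 0 < m p := fun p => (hm' p).1
  unfold trialV
  have h1 : ∀ n : ℕ, (∫ ω : Fin n → Clause K,
      hierLog r m (fun w v => ∏ k, edgeFactor (ω k) fun j => message x w v (k, j))
      ∂(Measure.pi fun _ => ρ)) = n * tV0 ρ r m x := by
    intro n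
    have h2 : ∀ ω : Fin n → Clause K,
        hierLog r m (fun w v => ∏ k, edgeFactor (ω k) fun j => message x w v (k, j)) =
        ∑ k, tv r m x (ω k) := by
      intro ω
      exact hierLog_prod hm (t := fun k => maxTheta (ω k))
        (E := fun k (w : Fin K → U01) v => edgeFactor (ω k) fun j => message x w v j)
        (fun k => measurable_edge measurable_const fun j => measurable_message hxm j)
        (fun k w v => (edge_bd hxm hx1 (ω k) w).lo v) (fun k w v => (edge_bd hxm hx1 (ω k) w).hi v)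
    simp_rw [h2]
    rw [integral_finsetSum]
    · have h3 : ∀ k : Fin n, ∫ ω : Fin n → Clause K, tv r m x (ω k) ∂(Measure.pi fun _ => ρ) =
          tV0 ρ r m x := by
        intro k
        have hmp := measurePreserving_eval (fun _ : Fin n => ρ) k
        have h4 := integral_map (μ := Measure.pi fun _ : Fin n => ρ) hmp.measurable.aemeasurable
          (f := fun c => tv r m x c) (measurable_tv hxm).aestronglyMeasurable
        rw [hmp.map_eq] at h4
        exact h4.symm
      simp_rw [h3]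
      simp only [Finset.sum_const, Finset.card_univ, Fintype.card_fin, nsmul_eq_mul]
    · intro k _
      exact (measurePreserving_eval (fun _ : Fin n => ρ) k).integrable_comp_of_integrable
        (integrable_tv hρ hm hxm hx1)
  simp_rw [h1]
  rw [integral_mul_const, pois_mean, NNReal.coe_mul, NNReal.coe_natCast]

theorem integrable_maxTheta {ρ : Measure (Clause K)} {ν : Measure ℝ} (h : InClass K ρ ν) :
    Integrable maxTheta ρ := by
  have h1 : Integrable (fun c : Clause K => ∑ σ : Fin K → Bool, |theta c σ|) ρ :=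
    integrable_finsetSum _ fun σ _ => (h.theta_int σ).abs
  refine h1.mono' measurable_maxTheta.aestronglyMeasurable (Filter.Eventually.of_forall fun c => ?_)
  rw [Real.norm_eq_abs, abs_of_nonneg (maxTheta_nonneg c)]
  exact maxTheta_le_sum c

theorem tV_eq_tV0 {ρ : Measure (Clause K)} [IsProbabilityMeasure ρ] (hρ : Integrable maxTheta ρ)
    (hx : IsTrial r m x) (N : ℕ) [NeZero N] : tV ρ m x N = tV0 ρ r m x := by
  obtain ⟨-, hm', hxm, hx1⟩ := hx
  have hm : ∀ p, 0 < m p := fun p => (hm' p).1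
  have hg : Measurable fun z : Clause K × (Fin K → U01) =>
      Real.log (nest (lvM K) r m fun v => edgeFactor z.1 (msgs x z.2 v)) := by
    refine Real.measurable_log.comp (measurable_nest (lvM K) r m
      (fun (z : Clause K × (Fin K → U01)) v => edgeFactor z.1 (msgs x z.2 v)) ?_)
    refine measurable_edge
      (c := fun z : (Clause K × (Fin K → U01)) × (Fin r → Fin K → U01) => z.1.1)
      (measurable_fst.comp measurable_fst) fun j => ?_
    exact (measurable_message hxm j).comp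
      ((measurable_snd.comp measurable_fst).prodMk measurable_snd)
  have hgi : Integrable (fun z : Clause K × (Fin K → U01) =>
      Real.log (nest (lvM K) r m fun v => edgeFactor z.1 (msgs x z.2 v))) (ρ.prod (lvM K)) := by
    refine (hρ.comp_fst (lvM K)).mono' hg.aestronglyMeasurable
      (Filter.Eventually.of_forall fun z => ?_)
    exact log_nest_abs_le hm (edge_bd hxm hx1 z.1 z.2)
  have hmp : MeasurePreserving (fun y : Y3 K N => (y.1.1, y.2)) (cl3 ρ N) (ρ.prod (lvM K)) := by
    have h1 : MeasurePreserving (Prod.fst : Clause K × (Fin K → Fin N) → Clause K)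
        (ρ.prod (Measure.pi fun _ : Fin K => unif N)) ρ := measurePreserving_fst
    exact h1.prod (MeasurePreserving.id (lvM K))
  have h2 := integral_map (μ := cl3 ρ N) hmp.measurable.aemeasurable
    (f := fun z : Clause K × (Fin K → U01) =>
      Real.log (nest (lvM K) r m fun v => edgeFactor z.1 (msgs x z.2 v))) hg.aestronglyMeasurable
  rw [hmp.map_eq, integral_prod _ hgi] at h2
  exact h2.symm

/-- The edge part of the trial functional is linear in the number of edges. -/
theorem trialV_eq {ρ : Measure (Clause K)} {ν : Measure ℝ} (h : InClass K ρ ν)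
    (hx : IsTrial r m x) (lam : ℝ≥0) (N : ℕ) [NeZero N] :
    trialV lam ρ r m x = ((K - 1 : ℕ) : ℝ) * lam * tV ρ m x N := by
  have := h.prob_clause
  rw [tV_eq_tV0 (integrable_maxTheta h) hx N]
  exact trialV_eq0 (integrable_maxTheta h) hx

end edge

end Vale.Agent.N168I.PT
end
end

section

section

/-!
The cavity part of the trial functional: the system with `n` cavity clauses and no interaction.
-/

set_option autoImplicit false

open MeasureTheory ProbabilityTheory
open scoped NNReal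

namespace Vale.Agent.N168I.PT

namespace TU

section inj

variable {ι κ X : Type} [Fintype ι] [Fintype κ] [MeasurableSpace X]

/-- Selecting distinct coordinates is measure preserving. -/
theorem mp_inj (μ : Measure X) [IsProbabilityMeasure μ] {f : κ → ι} (hf : Function.Injective f) :
    MeasurePreserving (fun (u : ι → X) (k : κ) => u (f k))
      (Measure.pi fun _ => μ) (Measure.pi fun _ => μ) := by
  classical
  have hm : Measurable (fun (u : ι → X) (k : κ) => u (f k)) :=
    measurable_pi_lambda _ fun k => measurable_pi_apply (f k)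
  refine ⟨hm, ?_⟩
  symm
  refine Measure.pi_eq fun s hs => ?_
  rw [Measure.map_apply hm (MeasurableSet.univ_pi hs)]
  have h1 : (fun (u : ι → X) (k : κ) => u (f k)) ⁻¹' (Set.univ.pi s) =
      Set.univ.pi fun i => if h : ∃ k, f k = i then s h.choose else Set.univ := by
    ext u
    simp only [Set.mem_preimage, Set.mem_univ_pi]
    constructor
    · intro h i
      split_ifs with hi
      · have := h hi.choose
        rwa [hi.choose_spec] at this
      · trivial
    · intro h k
      have h2 := h (f k)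
      have h3 : ∃ k', f k' = f k := ⟨k, rfl⟩
      rw [dif_pos h3] at h2
      rwa [hf h3.choose_spec] at h2
  rw [h1, Measure.pi_pi]
  have h4 : ∀ i, μ (if h : ∃ k, f k = i then s h.choose else Set.univ) =
      if h : ∃ k, f k = i then μ (s h.choose) else 1 := by
    intro i
    split_ifs with hi
    · rfl
    · exact measure_univ
  simp_rw [h4]
  rw [← Finset.prod_subset (Finset.subset_univ (Finset.univ.image f))]
  · rw [Finset.prod_image fun a _ b _ h => hf h]
    refine Finset.prod_congr rfl fun k _ => ?_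
    have h3 : ∃ k', f k' = f k := ⟨k, rfl⟩
    rw [dif_pos h3, hf h3.choose_spec]
  · intro i _ hi
    rw [dif_neg]
    rintro ⟨k, rfl⟩
    exact hi (Finset.mem_image_of_mem f (Finset.mem_univ k))

end inj

section cav

variable {K r : ℕ} {m : Fin r → ℝ} {x : (Fin (r + 1) → U01) → ℝ}

/-- clause, distinguished index, level-`0` variables. -/
abbrev DD (K : ℕ) : Type := (Clause K × Fin K) × (Fin K → U01)

/-- The law on `DD`. -/
noncomputable def dd (ρ : Measure (Clause K)) : Measure (DD K) := (ρ.prod (unif K)).prod (lvM K)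

/-- Cavity factor. -/
noncomputable def cavD (x : (Fin (r + 1) → U01) → ℝ) (δ : DD K) (v : Fin r → Lv K) (e : Bool) :
    ℝ := cavityFactor δ.1.1 δ.1.2 (msgs x δ.2 v) e

theorem measurable_cav {Z : Type} [MeasurableSpace Z] {c : Z → Clause K} (hc : Measurable c)
    {l : Z → Fin K} (hl : Measurable l) {y : Z → Fin K → ℝ} (hy : ∀ j, Measurable fun z => y z j)
    (e : Bool) : Measurable fun z => cavityFactor (c z) (l z) (y z) e := by
  have h1 : ∀ l0 : Fin K, Measurable fun p : Clause K × (Fin K → ℝ) =>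
      cavityFactor p.1 l0 p.2 e := by
    intro l0
    unfold cavityFactor
    refine Finset.measurable_fun_sum _ fun σ _ => ?_
    split_ifs
    · refine (Real.measurable_exp.comp ((measurable_theta σ).comp measurable_fst)).mul ?_
      exact Finset.measurable_fun_prod _ fun j _ =>
        ((((measurable_pi_apply j).comp measurable_snd).mul_const _).const_add 1).div_const 2
    · exact measurable_const
  have h2 : Measurable fun p : (Clause K × (Fin K → ℝ)) × Fin K =>
      cavityFactor p.1.1 p.2 p.1.2 e :=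
    measurable_from_prod_countable_left (fun l0 => h1 l0)
  exact h2.comp ((hc.prodMk (measurable_pi_lambda _ hy)).prodMk hl)

theorem measurable_cavD {Z : Type} [MeasurableSpace Z] (hx : Measurable x) {δ : Z → DD K}
    (hδ : Measurable δ) {v : Z → Fin r → Lv K} (hv : Measurable v) (e : Bool) :
    Measurable fun z => cavD x (δ z) (v z) e := by
  unfold cavD
  refine measurable_cav (measurable_fst.comp (measurable_fst.comp hδ))
    (measurable_snd.comp (measurable_fst.comp hδ)) (fun j => ?_) e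
  exact (measurable_message hx j).comp ((measurable_snd.comp hδ).prodMk hv)

theorem cavD_mem (hx1 : ∀ w, x w ∈ Set.Icc (-1 : ℝ) 1) (δ : DD K) (v : Fin r → Lv K) (e : Bool) :
    Real.exp (-maxTheta δ.1.1) ≤ cavD x δ v e ∧ cavD x δ v e ≤ Real.exp (maxTheta δ.1.1) :=
  cavityFactor_mem _ _ _ (fun j => by unfold msgs; rw [abs_le]; exact hx1 _) e

/-- The one site weight. -/
noncomputable def YS {c : ℕ} (x : (Fin (r + 1) → U01) → ℝ) (δ : Fin c → DD K) (h : ℝ)
    (v : Fin r → Fin c → Lv K) : ℝ :=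
  ∑ e : Bool, Real.exp (h * spin e) * ∏ k, cavD x (δ k) (fun p => v p k) e

/-- The one site free energy. -/
noncomputable def GS (m : Fin r → ℝ) (x : (Fin (r + 1) → U01) → ℝ) {c : ℕ} (δ : Fin c → DD K)
    (h : ℝ) : ℝ := Real.log (nest (Measure.pi fun _ : Fin c => lvM K) r m (YS x δ h))

theorem measurable_YS {Z : Type} [MeasurableSpace Z] (hx : Measurable x) {c : ℕ}
    {δ : Z → Fin c → DD K} (hδ : Measurable δ) {h : Z → ℝ} (hh : Measurable h)
    {v : Z → Fin r → Fin c → Lv K} (hv : Measurable v) :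
    Measurable fun z => YS x (δ z) (h z) (v z) := by
  unfold YS
  refine Finset.measurable_fun_sum _ fun e _ => ?_
  refine (Real.measurable_exp.comp (hh.mul_const _)).mul ?_
  refine Finset.measurable_fun_prod _ fun k _ => ?_
  refine measurable_cavD hx ((measurable_pi_apply k).comp hδ) ?_ e
  exact measurable_pi_lambda _ fun p => (measurable_pi_apply k).comp ((measurable_pi_apply p).comp hv)

/-- Bound for the one site free energy. -/
noncomputable def bS {c : ℕ} (δ : Fin c → DD K) (h : ℝ) : ℝ :=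
  |h| + Real.log 2 + ∑ k, maxTheta (δ k).1.1

theorem YS_mem (hx1 : ∀ w, x w ∈ Set.Icc (-1 : ℝ) 1) {c : ℕ} (δ : Fin c → DD K) (h : ℝ)
    (v : Fin r → Fin c → Lv K) :
    Real.exp (-bS δ h) ≤ YS x δ h v ∧ YS x δ h v ≤ Real.exp (bS δ h) := by
  have h1 : ∀ e, Real.exp (-|h|) ≤ Real.exp (h * spin e) ∧
      Real.exp (h * spin e) ≤ Real.exp |h| := by
    intro e
    have : |h * spin e| = |h| := by rw [abs_mul, KS.spin_abs, mul_one]
    have h2 := abs_le.1 this.le
    exact ⟨Real.exp_le_exp.2 h2.1, Real.exp_le_exp.2 h2.2⟩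
  have h2 : ∀ e, Real.exp (-∑ k, maxTheta (δ k).1.1) ≤ ∏ k, cavD x (δ k) (fun p => v p k) e ∧
      ∏ k, cavD x (δ k) (fun p => v p k) e ≤ Real.exp (∑ k, maxTheta (δ k).1.1) := by
    intro e
    rw [← Finset.sum_neg_distrib, Real.exp_sum, Real.exp_sum]
    constructor
    · exact Finset.prod_le_prod (fun k _ => (Real.exp_pos _).le)
        fun k _ => (cavD_mem hx1 (δ k) _ e).1
    · exact Finset.prod_le_prod (fun k _ => (Real.exp_pos _).le.trans (cavD_mem hx1 (δ k) _ e).1)
        fun k _ => (cavD_mem hx1 (δ k) _ e).2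
  have hB : Real.exp (bS δ h) = 2 * (Real.exp |h| * Real.exp (∑ k, maxTheta (δ k).1.1)) := by
    unfold bS
    rw [Real.exp_add, Real.exp_add, Real.exp_log (by norm_num)]
    ring
  unfold YS
  rw [Fintype.sum_bool]
  constructor
  · have h3 : Real.exp (-bS δ h) ≤ Real.exp (-|h|) * Real.exp (-∑ k, maxTheta (δ k).1.1) := by
      rw [← Real.exp_add]
      refine Real.exp_le_exp.2 ?_
      unfold bS
      have := Real.log_nonneg (x := 2) (by norm_num)
      linarith
    have h4 := mul_le_mul (h1 true).1 (h2 true).1 (Real.exp_pos _).le (Real.exp_pos _).le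
    have h5 : 0 ≤ Real.exp (h * spin false) * ∏ k, cavD x (δ k) (fun p => v p k) false :=
      mul_nonneg (Real.exp_pos _).le ((Real.exp_pos _).le.trans (h2 false).1)
    linarith
  · rw [hB]
    have h4 : ∀ e, Real.exp (h * spin e) * ∏ k, cavD x (δ k) (fun p => v p k) e ≤
        Real.exp |h| * Real.exp (∑ k, maxTheta (δ k).1.1) := fun e =>
      mul_le_mul (h1 e).2 (h2 e).2 ((Real.exp_pos _).le.trans (h2 e).1) (Real.exp_pos _).le
    linarith [h4 true, h4 false]

theorem YS_bd (hx : Measurable x) (hx1 : ∀ w, x w ∈ Set.Icc (-1 : ℝ) 1) {c : ℕ}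
    (δ : Fin c → DD K) (h : ℝ) : Bd (Real.exp (-bS δ h)) (Real.exp (bS δ h)) (YS x δ h) :=
  ⟨measurable_YS hx measurable_const measurable_const measurable_id, fun v => (YS_mem hx1 δ h v).1,
    fun v => (YS_mem hx1 δ h v).2⟩

theorem abs_GS_le (hm : ∀ p, 0 < m p) (hx : Measurable x) (hx1 : ∀ w, x w ∈ Set.Icc (-1 : ℝ) 1)
    {c : ℕ} (δ : Fin c → DD K) (h : ℝ) : |GS m x δ h| ≤ bS δ h :=
  log_nest_abs_le hm (YS_bd hx hx1 δ h)

theorem measurable_GS {Z : Type} [MeasurableSpace Z] (hx : Measurable x) {c : ℕ}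
    {δ : Z → Fin c → DD K} (hδ : Measurable δ) {h : Z → ℝ} (hh : Measurable h) :
    Measurable fun z => GS m x (δ z) (h z) := by
  unfold GS
  refine Real.measurable_log.comp (measurable_nest _ r m (fun z => YS x (δ z) (h z)) ?_)
  exact measurable_YS hx (hδ.comp measurable_fst) (hh.comp measurable_fst) measurable_snd

end cav

section enum

variable {N n : ℕ}

/-- Number of clauses attached to the site `u`. -/
def cnt (s : Fin n → Fin N) (u : Fin N) : ℕ := (Finset.univ.filter fun k => s k = u).card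

/-- Enumeration of the clauses attached to the site `u`. -/
def enm (s : Fin n → Fin N) (u : Fin N) : Fin (cnt s u) → Fin n :=
  (Finset.univ.filter fun k => s k = u).orderEmbOfFin rfl

theorem enm_inj (s : Fin n → Fin N) (u : Fin N) : Function.Injective (enm s u) :=
  ((Finset.univ.filter fun k => s k = u).orderEmbOfFin rfl).injective

theorem s_enm (s : Fin n → Fin N) (u : Fin N) (i : Fin (cnt s u)) : s (enm s u i) = u := by
  have h := Finset.orderEmbOfFin_mem (Finset.univ.filter fun k => s k = u) rfl i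
  exact (Finset.mem_filter.1 h).2

theorem prod_enm (s : Fin n → Fin N) (u : Fin N) (f : Fin n → ℝ) :
    ∏ i, f (enm s u i) = ∏ k, if s k = u then f k else 1 := by
  rw [← Finset.prod_filter]
  conv_rhs => rw [← Finset.map_orderEmbOfFin_univ (Finset.univ.filter fun k => s k = u) rfl]
  rw [Finset.prod_map]
  rfl

theorem sum_enm_le (s : Fin n → Fin N) (u : Fin N) (f : Fin n → ℝ) (hf : ∀ k, 0 ≤ f k) :
    ∑ i, f (enm s u i) ≤ ∑ k, f k := by
  rw [← Finset.sum_image (f := f) (fun a _ b _ h => enm_inj s u h)]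
  exact Finset.sum_le_sum_of_subset_of_nonneg (Finset.subset_univ _) fun k _ _ => hf k

theorem cnt_cons (i u : Fin N) (s : Fin n → Fin N) :
    cnt (Fin.cons i s : Fin (n + 1) → Fin N) u = (if i = u then 1 else 0) + cnt s u := by
  unfold cnt
  rw [Finset.card_filter, Finset.card_filter, Fin.sum_univ_succ]
  simp only [Fin.cons_zero, Fin.cons_succ]

end enum

section factor

variable {K N n r : ℕ} {m : Fin r → ℝ} {x : (Fin (r + 1) → U01) → ℝ}

/-- Factorization over the sites. -/
theorem sum_factor (δ : Fin n → DD K) (s : Fin n → Fin N) (h : Fin N → ℝ)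
    (v : Fin r → Fin n → Lv K) :
    (∑ σ : Fin N → Bool, Real.exp (∑ u, h u * spin (σ u)) *
      ∏ k, cavD x (δ k) (fun p => v p k) (σ (s k))) =
    ∏ u, YS x (fun i => δ (enm s u i)) (h u) (fun p i => v p (enm s u i)) := by
  unfold YS
  rw [Finset.prod_univ_sum, Fintype.piFinset_univ]
  refine Finset.sum_congr rfl fun σ _ => ?_
  rw [Finset.prod_mul_distrib, Real.exp_sum]
  congr 1
  have h1 : ∀ u, ∏ i, cavD x (δ (enm s u i)) (fun p => v p (enm s u i)) (σ u) =
      ∏ k, if s k = u then cavD x (δ k) (fun p => v p k) (σ u) else 1 := fun u =>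
    prod_enm s u fun k => cavD x (δ k) (fun p => v p k) (σ u)
  simp_rw [h1]
  rw [Finset.prod_comm]
  refine Finset.prod_congr rfl fun k _ => ?_
  rw [Finset.prod_ite_eq]
  simp only [Finset.mem_univ, ↓reduceIte]

theorem mp_site (s : Fin n → Fin N) {X : Type} [MeasurableSpace X] (μ : Measure X)
    [IsProbabilityMeasure μ] :
    MeasurePreserving (fun (U : Fin N → Fin n → X) (k : Fin n) => U (s k) k)
      (Measure.pi fun _ => Measure.pi fun _ => μ) (Measure.pi fun _ => μ) := by
  have hf : Function.Injective fun k : Fin n => (s k, k) := fun a b h => (Prod.mk.inj h).2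
  exact (mp_inj μ hf).comp (mp_uncurry μ)

theorem nest_factor (hm : ∀ p, 0 < m p) (hx : Measurable x)
    (hx1 : ∀ w, x w ∈ Set.Icc (-1 : ℝ) 1) (δ : Fin n → DD K) (s : Fin n → Fin N)
    (h : Fin N → ℝ) :
    nest (Measure.pi fun _ : Fin n => lvM K) r m (fun v => ∑ σ : Fin N → Bool,
      Real.exp (∑ u, h u * spin (σ u)) * ∏ k, cavD x (δ k) (fun p => v p k) (σ (s k))) =
    ∏ u, nest (Measure.pi fun _ : Fin (cnt s u) => lvM K) r m
      (YS x (fun i => δ (enm s u i)) (h u)) := by
  have hF : ∀ u, Measurable fun v : Fin r → Fin n → Lv K =>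
      YS x (fun i => δ (enm s u i)) (h u) (fun p i => v p (enm s u i)) := by
    intro u
    refine measurable_YS hx measurable_const measurable_const ?_
    exact measurable_pi_lambda _ fun p => measurable_pi_lambda _ fun i =>
      (measurable_pi_apply _).comp (measurable_pi_apply p)
  simp_rw [sum_factor]
  rw [← nest_comp (P' := Measure.pi fun _ : Fin N => Measure.pi fun _ : Fin n => lvM K)
    (mp_site s (lvM K)) r m
    (fun v => ∏ u, YS x (fun i => δ (enm s u i)) (h u) (fun p i => v p (enm s u i)))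
    (Finset.measurable_fun_prod _ fun u _ => hF u)]
  have h1 : ∀ V : Fin r → Fin N → Fin n → Lv K,
      (∏ u, YS x (fun i => δ (enm s u i)) (h u)
        (fun p i => (fun (U : Fin N → Fin n → Lv K) (k : Fin n) => U (s k) k) (V p)
          (enm s u i))) =
      ∏ u, (fun (u : Fin N) (v : Fin r → Fin n → Lv K) =>
        YS x (fun i => δ (enm s u i)) (h u) (fun p i => v p (enm s u i))) u fun p => V p u := by
    intro V
    refine Finset.prod_congr rfl fun u _ => ?_
    dsimp only
    congr 1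
    funext p i
    rw [s_enm s u i]
  simp_rw [h1]
  rw [nest_prod r m hm (fun (u : Fin N) (v : Fin r → Fin n → Lv K) =>
        YS x (fun i => δ (enm s u i)) (h u) (fun p i => v p (enm s u i)))
    fun u v => (Real.exp_pos _).le.trans (YS_mem hx1 _ _ _).1]
  refine Finset.prod_congr rfl fun u _ => ?_
  exact nest_comp (P' := Measure.pi fun _ : Fin n => lvM K)
    (P := Measure.pi fun _ : Fin (cnt s u) => lvM K)
    (φ := fun (w : Fin n → Lv K) (i : Fin (cnt s u)) => w (enm s u i))
    (mp_inj (lvM K) (enm_inj s u)) r m _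
    (measurable_YS hx measurable_const measurable_const measurable_id)

theorem FF_zero (hm : ∀ p, 0 < m p) (hx : Measurable x)
    (hx1 : ∀ w, x w ∈ Set.Icc (-1 : ℝ) 1) (ω : Om K N 0 n) :
    FF m x ω = ∑ u, GS m x (fun i => (ω.2.1 (enm (fun k => (ω.2.1 k).2) u i)).1) (ω.2.2 u) := by
  unfold FF
  have h1 : ∀ (v : Fin r → Fin n → Lv K) (σ : Fin N → Bool), wt x ω v σ =
      Real.exp (∑ u, ω.2.2 u * spin (σ u)) *
        ∏ k, cavD x (ω.2.1 k).1 (fun p => v p k) (σ ((fun k => (ω.2.1 k).2) k)) := by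
    intro v σ
    unfold wt
    rw [Finset.univ_eq_empty, Finset.prod_empty, one_mul]
    rfl
  simp_rw [h1]
  rw [nest_factor hm hx hx1 (fun k => (ω.2.1 k).1) (fun k => (ω.2.1 k).2) ω.2.2]
  unfold GS
  refine Real.log_prod fun u _ => ?_
  exact (lt_of_lt_of_le (Real.exp_pos _) (nest_mem (Real.exp_pos _) r m hm _
    (YS_bd hx hx1 _ _)).1).ne'

end factor

section integrate

variable {K N r : ℕ} {m : Fin r → ℝ} {x : (Fin (r + 1) → U01) → ℝ}
  {ρ : Measure (Clause K)} {ν : Measure ℝ} [IsProbabilityMeasure ρ] [IsProbabilityMeasure ν]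
  [NeZero N] [NeZero K]

instance dd_prob : IsProbabilityMeasure (dd ρ) := by
  unfold dd; infer_instance

/-- The mean one site free energy with `c` cavity clauses. -/
noncomputable def uC (ρ : Measure (Clause K)) (ν : Measure ℝ) (m : Fin r → ℝ)
    (x : (Fin (r + 1) → U01) → ℝ) (c : ℕ) : ℝ :=
  ∫ z : (Fin c → DD K) × ℝ, GS m x z.1 z.2 ∂((Measure.pi fun _ => dd ρ).prod ν)

theorem integrable_theta_dd (hρ : Integrable maxTheta ρ) {n : ℕ} (k : Fin n) :
    Integrable (fun δ : Fin n → DD K => maxTheta (δ k).1.1) (Measure.pi fun _ => dd ρ) := by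
  have h1 : MeasurePreserving (fun δ : DD K => δ.1.1) (dd ρ) ρ :=
    measurePreserving_fst.comp measurePreserving_fst
  exact ((h1.comp (measurePreserving_eval (fun _ : Fin n => dd ρ) k)).integrable_comp_of_integrable
    hρ)

theorem integrable_bS (hρ : Integrable maxTheta ρ) (hν : Integrable (fun h => h) ν) (c : ℕ) :
    Integrable (fun z : (Fin c → DD K) × ℝ => bS z.1 z.2) ((Measure.pi fun _ => dd ρ).prod ν) := by
  unfold bS
  refine ((hν.abs.comp_snd _).add (integrable_const _)).add ?_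
  exact (integrable_finsetSum _ fun k _ => integrable_theta_dd hρ k).comp_fst ν

theorem integrable_GS (hρ : Integrable maxTheta ρ) (hν : Integrable (fun h => h) ν)
    (hm : ∀ p, 0 < m p) (hx : Measurable x) (hx1 : ∀ w, x w ∈ Set.Icc (-1 : ℝ) 1) (c : ℕ) :
    Integrable (fun z : (Fin c → DD K) × ℝ => GS m x z.1 z.2)
      ((Measure.pi fun _ => dd ρ).prod ν) :=
  (integrable_bS hρ hν c).mono' (measurable_GS hx measurable_fst measurable_snd).aestronglyMeasurable
    (Filter.Eventually.of_forall fun z => abs_GS_le hm hx hx1 z.1 z.2)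

theorem abs_uC_le (hρ : Integrable maxTheta ρ) (hν : Integrable (fun h => h) ν)
    (hm : ∀ p, 0 < m p) (hx : Measurable x) (hx1 : ∀ w, x w ∈ Set.Icc (-1 : ℝ) 1) (c : ℕ) :
    |uC ρ ν m x c| ≤ ((∫ h, |h| ∂ν) + Real.log 2) + (∫ c, maxTheta c ∂ρ) * c := by
  unfold uC
  have h1 : |∫ z : (Fin c → DD K) × ℝ, GS m x z.1 z.2 ∂((Measure.pi fun _ => dd ρ).prod ν)| ≤
      ∫ z : (Fin c → DD K) × ℝ, bS z.1 z.2 ∂((Measure.pi fun _ => dd ρ).prod ν) := by
    refine (abs_integral_le_integral_abs).trans ?_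
    exact integral_mono (integrable_GS hρ hν hm hx hx1 c).abs (integrable_bS hρ hν c)
      fun z => abs_GS_le hm hx hx1 z.1 z.2
  refine h1.trans (le_of_eq ?_)
  unfold bS
  have i1 : Integrable (fun z : (Fin c → DD K) × ℝ => |z.2|) ((Measure.pi fun _ => dd ρ).prod ν) :=
    hν.abs.comp_snd _
  have i2 : Integrable (fun z : (Fin c → DD K) × ℝ => ∑ k, maxTheta (z.1 k).1.1)
      ((Measure.pi fun _ => dd ρ).prod ν) :=
    (integrable_finsetSum _ fun k _ => integrable_theta_dd hρ k).comp_fst ν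
  have i3 : Integrable (fun z : (Fin c → DD K) × ℝ => |z.2| + Real.log 2)
      ((Measure.pi fun _ => dd ρ).prod ν) := i1.add (integrable_const _)
  rw [integral_add i3 i2, integral_add i1 (integrable_const _)]
  have e1 : ∫ z : (Fin c → DD K) × ℝ, |z.2| ∂((Measure.pi fun _ => dd ρ).prod ν) = ∫ h, |h| ∂ν := by
    have := integral_fun_snd (μ := Measure.pi fun _ : Fin c => dd ρ) (ν := ν) fun h : ℝ => |h|
    simpa using this
  have e2 : ∫ z : (Fin c → DD K) × ℝ, ∑ k, maxTheta (z.1 k).1.1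
      ∂((Measure.pi fun _ => dd ρ).prod ν) = (∫ c, maxTheta c ∂ρ) * c := by
    have h2 := integral_fun_fst (μ := Measure.pi fun _ : Fin c => dd ρ) (ν := ν)
      fun δ : Fin c → DD K => ∑ k, maxTheta (δ k).1.1
    have h3 : ∫ δ : Fin c → DD K, ∑ k, maxTheta (δ k).1.1 ∂(Measure.pi fun _ => dd ρ) =
        (∫ c, maxTheta c ∂ρ) * c := by
      rw [integral_finsetSum _ fun k _ => integrable_theta_dd hρ k]
      have h4 : ∀ k : Fin c, ∫ δ : Fin c → DD K, maxTheta (δ k).1.1 ∂(Measure.pi fun _ => dd ρ) =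
          ∫ c, maxTheta c ∂ρ := by
        intro k
        have hmp : MeasurePreserving (fun δ : Fin c → DD K => (δ k).1.1)
            (Measure.pi fun _ => dd ρ) ρ :=
          (measurePreserving_fst.comp measurePreserving_fst).comp
            (measurePreserving_eval (fun _ : Fin c => dd ρ) k)
        have h5 := integral_map (μ := Measure.pi fun _ : Fin c => dd ρ)
          hmp.measurable.aemeasurable (f := maxTheta) measurable_maxTheta.aestronglyMeasurable
        rw [hmp.map_eq] at h5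
        exact h5.symm
      simp_rw [h4]
      simp only [Finset.sum_const, Finset.card_univ, Fintype.card_fin, nsmul_eq_mul, mul_comm]
    rw [h3] at h2
    simpa only [probReal_univ, smul_eq_mul, one_mul] using h2
  rw [e1, e2]
  simp

theorem expGrowth2_uC (hρ : Integrable maxTheta ρ) (hν : Integrable (fun h => h) ν)
    (hm : ∀ p, 0 < m p) (hx : Measurable x) (hx1 : ∀ w, x w ∈ Set.Icc (-1 : ℝ) 1) :
    ExpGrowth2 fun k _ => uC ρ ν m x k := by
  have h1 : ExpGrowth (uC ρ ν m x) := by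
    refine expGrowth_of_linear (abs_uC_le hρ hν hm hx hx1) ?_ ?_
    · have := integral_nonneg (μ := ν) (f := fun h : ℝ => |h|) fun h => abs_nonneg h
      have := Real.log_nonneg (x := 2) (by norm_num)
      positivity
    · exact integral_nonneg fun c => maxTheta_nonneg c
  obtain ⟨C, A, hC, hA, h⟩ := h1
  refine ⟨C, A, hC, hA, fun k l => (h k).trans ?_⟩
  refine mul_le_mul_of_nonneg_left ?_ hC
  exact le_mul_of_one_le_right (by positivity) (one_le_pow₀ hA)

/-- Separation of the sites. -/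
def sep {n : ℕ} (z : (Fin n → C4 K N) × (Fin N → ℝ)) :
    (Fin n → Fin N) × ((Fin n → DD K) × (Fin N → ℝ)) :=
  (fun k => (z.1 k).2, (fun k => (z.1 k).1, z.2))

theorem sep_mp (n : ℕ) : MeasurePreserving (sep (K := K) (N := N) (n := n))
    ((Measure.pi fun _ : Fin n => c4 ρ N).prod (Measure.pi fun _ : Fin N => ν))
    ((Measure.pi fun _ : Fin n => unif N).prod
      ((Measure.pi fun _ : Fin n => dd ρ).prod (Measure.pi fun _ : Fin N => ν))) := by
  have h1 : MeasurePreserving (fun η : Fin n → C4 K N => (fun k => (η k).1, fun k => (η k).2))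
      (Measure.pi fun _ : Fin n => c4 ρ N)
      ((Measure.pi fun _ : Fin n => dd ρ).prod (Measure.pi fun _ : Fin n => unif N)) :=
    measurePreserving_arrowProdEquivProdArrow (DD K) (Fin N) (Fin n) (fun _ => dd ρ)
      (fun _ => unif N)
  have h2 := (Measure.measurePreserving_swap (μ := Measure.pi fun _ : Fin n => dd ρ)
    (ν := Measure.pi fun _ : Fin n => unif N)).comp h1
  have h3 := h2.prod (MeasurePreserving.id (Measure.pi fun _ : Fin N => ν))
  exact (measurePreserving_prodAssoc (Measure.pi fun _ : Fin n => unif N)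
    (Measure.pi fun _ : Fin n => dd ρ) (Measure.pi fun _ : Fin N => ν)).comp h3

/-- The free energy as a sum over sites. -/
noncomputable def Gs (m : Fin r → ℝ) (x : (Fin (r + 1) → U01) → ℝ) {n : ℕ}
    (z : (Fin n → Fin N) × ((Fin n → DD K) × (Fin N → ℝ))) : ℝ :=
  ∑ u, GS m x (fun i => z.2.1 (enm z.1 u i)) (z.2.2 u)

omit [NeZero N] [NeZero K] in
theorem measurable_Gs (hx : Measurable x) {n : ℕ} :
    Measurable (Gs (K := K) (N := N) (n := n) m x) := by
  refine measurable_from_prod_countable_right (f := Gs m x) fun s => ?_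
  unfold Gs
  refine Finset.measurable_fun_sum _ fun u _ => ?_
  refine measurable_GS hx (δ := fun (z : (Fin n → DD K) × (Fin N → ℝ)) i => z.1 (enm s u i))
    (h := fun z => z.2 u) ?_ ((measurable_pi_apply u).comp measurable_snd)
  exact measurable_pi_lambda _ fun i => (measurable_pi_apply _).comp measurable_fst

theorem integrable_Gs (hρ : Integrable maxTheta ρ) (hν : Integrable (fun h => h) ν)
    (hm : ∀ p, 0 < m p) (hx : Measurable x) (hx1 : ∀ w, x w ∈ Set.Icc (-1 : ℝ) 1) (n : ℕ) :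
    Integrable (Gs (K := K) (N := N) (n := n) m x) ((Measure.pi fun _ : Fin n => unif N).prod
      ((Measure.pi fun _ : Fin n => dd ρ).prod (Measure.pi fun _ : Fin N => ν))) := by
  have h1 : Integrable (fun z : (Fin n → DD K) × (Fin N → ℝ) =>
      ∑ u : Fin N, (|z.2 u| + Real.log 2 + ∑ k, maxTheta (z.1 k).1.1))
      ((Measure.pi fun _ : Fin n => dd ρ).prod (Measure.pi fun _ : Fin N => ν)) := by
    refine integrable_finsetSum _ fun u _ => ((Integrable.comp_snd (f := fun h : Fin N → ℝ => |h u|)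
      ?_ _).add (integrable_const _)).add ?_
    · exact (measurePreserving_eval (fun _ : Fin N => ν) u).integrable_comp_of_integrable
        (g := fun h : ℝ => |h|) hν.abs
    · exact (integrable_finsetSum _ fun k _ => integrable_theta_dd hρ k).comp_fst _
  refine (h1.comp_snd _).mono' (measurable_Gs hx).aestronglyMeasurable
    (Filter.Eventually.of_forall fun z => ?_)
  unfold Gs
  refine (Finset.abs_sum_le_sum_abs _ _).trans (Finset.sum_le_sum fun u _ => ?_)
  refine (abs_GS_le hm hx hx1 _ _).trans ?_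
  unfold bS
  have := sum_enm_le z.1 u (fun k => maxTheta (z.2.1 k).1.1) fun k => maxTheta_nonneg _
  linarith

theorem TT_zero (hρ : Integrable maxTheta ρ) (hν : Integrable (fun h => h) ν)
    (hm : ∀ p, 0 < m p) (hx : Measurable x) (hx1 : ∀ w, x w ∈ Set.Icc (-1 : ℝ) 1) (n : ℕ) :
    TT ρ ν m x N 0 n =
      ∫ s : Fin n → Fin N, ∑ u, uC ρ ν m x (cnt s u) ∂(Measure.pi fun _ => unif N) := by
  have hmp : MeasurePreserving (fun ω : Om K N 0 n => sep ω.2) (om ρ ν N 0 n)
      ((Measure.pi fun _ : Fin n => unif N).prod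
        ((Measure.pi fun _ : Fin n => dd ρ).prod (Measure.pi fun _ : Fin N => ν))) :=
    (sep_mp n).comp measurePreserving_snd
  have h1 := integral_map (μ := om ρ ν N 0 n) hmp.measurable.aemeasurable (f := Gs m x)
    (measurable_Gs hx).aestronglyMeasurable
  rw [hmp.map_eq, integral_prod _ (integrable_Gs hρ hν hm hx hx1 n)] at h1
  have h2 : TT ρ ν m x N 0 n = ∫ ω, Gs m x (sep ω.2) ∂(om ρ ν N 0 n) := by
    unfold TT
    refine integral_congr_ae (Filter.Eventually.of_forall fun ω => ?_)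
    exact FF_zero hm hx hx1 ω
  rw [h2, ← h1]
  refine integral_congr_ae (Filter.Eventually.of_forall fun s => ?_)
  dsimp only
  unfold Gs
  have hmp2 : ∀ u, MeasurePreserving (fun z : (Fin n → DD K) × (Fin N → ℝ) =>
      ((fun i => z.1 (enm s u i), z.2 u) : (Fin (cnt s u) → DD K) × ℝ))
      ((Measure.pi fun _ : Fin n => dd ρ).prod (Measure.pi fun _ : Fin N => ν))
      ((Measure.pi fun _ : Fin (cnt s u) => dd ρ).prod ν) := fun u =>
    (mp_inj (dd ρ) (enm_inj s u)).prod (measurePreserving_eval (fun _ : Fin N => ν) u)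
  rw [integral_finsetSum]
  · refine Finset.sum_congr rfl fun u _ => ?_
    have h3 := integral_map (μ := (Measure.pi fun _ : Fin n => dd ρ).prod
      (Measure.pi fun _ : Fin N => ν)) (hmp2 u).measurable.aemeasurable
      (f := fun z : (Fin (cnt s u) → DD K) × ℝ => GS m x z.1 z.2)
      (measurable_GS hx measurable_fst measurable_snd).aestronglyMeasurable
    rw [(hmp2 u).map_eq] at h3
    exact h3.symm
  · intro u _
    exact (hmp2 u).integrable_comp_of_integrable (integrable_GS hρ hν hm hx hx1 _)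

end integrate

section average

/-- Averages over the sites of a function of the number of clauses attached to a site. -/
theorem integral_cnt {N : ℕ} [NeZero N] (f : ℕ → ℝ) (u : Fin N) (n : ℕ) :
    ∫ s : Fin n → Fin N, f (cnt s u) ∂(Measure.pi fun _ => unif N) =
      bmix (1 / (N : ℝ)) (1 - 1 / (N : ℝ)) (fun k _ => f k) n 0 0 := by
  have hN : (N : ℝ) ≠ 0 := by exact_mod_cast NeZero.ne N
  have key := binom_iter (fun n k _ => ∫ s : Fin n → Fin N, f (k + cnt s u)
    ∂(Measure.pi fun _ => unif N)) (1 / (N : ℝ)) (1 - 1 / (N : ℝ)) ?_ n 0 0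
  · simp only [zero_add] at key
    rw [key]
    have h0 : ∀ k : ℕ, ∫ s : Fin 0 → Fin N, f (k + cnt s u) ∂(Measure.pi fun _ => unif N) =
        f k := by
      intro k
      have : ∀ s : Fin 0 → Fin N, f (k + cnt s u) = f k := by
        intro s
        simp [cnt]
      simp_rw [this]
      simp
    simp_rw [h0]
  · intro n k l
    have hmp := cons_mp (unif N) n
    have h1 := integral_map (μ := (unif N).prod (Measure.pi fun _ : Fin n => unif N))
      hmp.measurable.aemeasurable (f := fun s : Fin (n + 1) → Fin N => f (k + cnt s u))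
      (Measurable.of_discrete (f := fun s : Fin (n + 1) → Fin N =>
        f (k + cnt s u))).aestronglyMeasurable
    rw [hmp.map_eq] at h1
    rw [h1, integral_prod _ Integrable.of_finite, KS.integral_unif]
    have h2 : ∀ i : Fin N, ∫ s : Fin n → Fin N, f (k + cnt (Fin.cons i s : Fin (n + 1) → Fin N) u)
        ∂(Measure.pi fun _ => unif N) =
        if i = u then ∫ s : Fin n → Fin N, f (k + 1 + cnt s u) ∂(Measure.pi fun _ => unif N)
        else ∫ s : Fin n → Fin N, f (k + cnt s u) ∂(Measure.pi fun _ => unif N) := by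
      intro i
      split_ifs with hi
      · refine integral_congr_ae (Filter.Eventually.of_forall fun s => ?_)
        dsimp only
        rw [cnt_cons, if_pos hi, ← add_assoc]
      · refine integral_congr_ae (Filter.Eventually.of_forall fun s => ?_)
        dsimp only
        rw [cnt_cons, if_neg hi, zero_add]
    simp_rw [h2]
    rw [Finset.sum_ite, Finset.sum_const, Finset.sum_const]
    have c1 : (Finset.univ.filter fun i : Fin N => i = u).card = 1 := by
      rw [Finset.filter_eq' Finset.univ u, if_pos (Finset.mem_univ u), Finset.card_singleton]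
    have c2 : ((Finset.univ.filter fun i : Fin N => ¬i = u).card : ℝ) = N - 1 := by
      have h3 := Finset.card_filter_add_card_filter_not (s := (Finset.univ : Finset (Fin N)))
        (fun i => i = u)
      rw [c1, Finset.card_univ, Fintype.card_fin] at h3
      have h4 : (((Finset.univ.filter fun i : Fin N => ¬i = u).card : ℕ) : ℝ) + 1 = N := by
        exact_mod_cast (by omega :
          (Finset.univ.filter fun i : Fin N => ¬i = u).card + 1 = N)
      linarith only [h4]
    rw [c1, nsmul_eq_mul, nsmul_eq_mul, c2]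
    field_simp
    push_cast
    ring

variable {K N r : ℕ} {m : Fin r → ℝ} {x : (Fin (r + 1) → U01) → ℝ}
  {ρ : Measure (Clause K)} {ν : Measure ℝ} [IsProbabilityMeasure ρ] [IsProbabilityMeasure ν]
  [NeZero N] [NeZero K]

theorem TT_zero' (hρ : Integrable maxTheta ρ) (hν : Integrable (fun h => h) ν)
    (hm : ∀ p, 0 < m p) (hx : Measurable x) (hx1 : ∀ w, x w ∈ Set.Icc (-1 : ℝ) 1) (n : ℕ) :
    TT ρ ν m x N 0 n =
      N * bmix (1 / (N : ℝ)) (1 - 1 / (N : ℝ)) (fun k _ => uC ρ ν m x k) n 0 0 := by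
  rw [TT_zero hρ hν hm hx hx1, integral_finsetSum _ fun u _ => Integrable.of_finite]
  simp_rw [integral_cnt]
  simp

theorem TT0_pois' (hρ : Integrable maxTheta ρ) (hν : Integrable (fun h => h) ν)
    (hm : ∀ p, 0 < m p) (hx : Measurable x) (hx1 : ∀ w, x w ∈ Set.Icc (-1 : ℝ) 1) (a : ℝ≥0) :
    ∫ n, TT ρ ν m x N 0 n ∂(poissonMeasure (a * N)) =
      N * ∫ n, uC ρ ν m x n ∂(poissonMeasure a) := by
  simp_rw [TT_zero' hρ hν hm hx hx1]
  rw [integral_const_mul]
  congr 1
  have hN : (N : ℝ≥0) ≠ 0 := by exact_mod_cast NeZero.ne N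
  have hN1 : 1 / (N : ℝ≥0) ≤ 1 := by
    rw [div_le_one (pos_iff_ne_zero.2 hN)]
    exact_mod_cast Nat.one_le_iff_ne_zero.2 (NeZero.ne N)
  have h := pois_bmix (expGrowth2_uC hρ hν hm hx hx1) (a * N) (1 / (N : ℝ≥0)) (1 - 1 / (N : ℝ≥0))
    (add_tsub_cancel_of_le hN1)
  have e1 : ((1 / (N : ℝ≥0) : ℝ≥0) : ℝ) = 1 / (N : ℝ) := by push_cast; rfl
  have e2 : ((1 - 1 / (N : ℝ≥0) : ℝ≥0) : ℝ) = 1 - 1 / (N : ℝ) := by
    rw [NNReal.coe_sub hN1, e1]; rfl
  rw [e1, e2] at h
  rw [h]
  have e3 : 1 / (N : ℝ≥0) * (a * N) = a := by field_simp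
  rw [e3]
  simp

/-- The integrand of `trialU`. -/
theorem trialU_integrand (hρ : Integrable maxTheta ρ) (hν : Integrable (fun h => h) ν)
    (hm : ∀ p, 0 < m p) (hx : Measurable x) (hx1 : ∀ w, x w ∈ Set.Icc (-1 : ℝ) 1) (n : ℕ) :
    (∫ ω : Fin n → Clause K × Fin K, (∫ h : ℝ,
      hierLog r m (fun w v => ∑ e : Bool, Real.exp (h * spin e) *
        ∏ k, cavityFactor (ω k).1 (ω k).2 (fun j => message x w v (k, j)) e)
      ∂ν) ∂(Measure.pi fun _ => ρ.prod (unif K))) = uC ρ ν m x n := by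
  have key : ∀ (ω : Fin n → Clause K × Fin K) (h : ℝ),
      hierLog r m (fun w v => ∑ e : Bool, Real.exp (h * spin e) *
        ∏ k, cavityFactor (ω k).1 (ω k).2 (fun j => message x w v (k, j)) e) =
      ∫ w' : Fin n → Lv K, GS m x (fun k => (ω k, w' k)) h ∂(Measure.pi fun _ => lvM K) := by
    intro ω h
    have h1 : ∀ w : Fin n × Fin K → U01,
        nest volume r m (fun v : Fin r → Fin n × Fin K → U01 =>
          ∑ e : Bool, Real.exp (h * spin e) *
          ∏ k, cavityFactor (ω k).1 (ω k).2 (fun j => message x w v (k, j)) e) =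
        nest (Measure.pi fun _ : Fin n => lvM K) r m
          (YS x (fun k => (ω k, fun j => w (k, j))) h) := by
      intro w
      exact nest_comp (P' := (volume : Measure (Fin n × Fin K → U01)))
        (P := Measure.pi fun _ : Fin n => lvM K)
        (φ := fun (u : Fin n × Fin K → U01) (i : Fin n) (j : Fin K) => u (i, j))
        (mp_curry volume) r m (YS x (fun k => (ω k, fun j => w (k, j))) h)
        (measurable_YS hx measurable_const measurable_const measurable_id)
    unfold hierLog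
    simp_rw [h1]
    have hmp : MeasurePreserving (fun (u : Fin n × Fin K → U01) (i : Fin n) (j : Fin K) => u (i, j))
        volume (Measure.pi fun _ : Fin n => lvM K) := mp_curry volume
    have h2 := integral_map (μ := (volume : Measure (Fin n × Fin K → U01)))
      hmp.measurable.aemeasurable (f := fun w' : Fin n → Lv K => GS m x (fun k => (ω k, w' k)) h)
      (measurable_GS hx (measurable_pi_lambda _ fun k => measurable_const.prodMk
        (measurable_pi_apply k)) measurable_const).aestronglyMeasurable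
    rw [hmp.map_eq] at h2
    exact h2.symm
  simp_rw [key]
  have i1 : IsProbabilityMeasure (Measure.pi fun _ : Fin n => ρ.prod (unif K)) := inferInstance
  have i2 : SFinite ((Measure.pi fun _ : Fin n => ρ.prod (unif K)).prod ν) :=
    Measure.prod.instSFinite
  have hmp : MeasurePreserving (fun z : ((Fin n → Clause K × Fin K) × ℝ) × (Fin n → Lv K) =>
      ((fun k => (z.1.1 k, z.2 k), z.1.2) : (Fin n → DD K) × ℝ))
      (((Measure.pi fun _ => ρ.prod (unif K)).prod ν).prod (Measure.pi fun _ => lvM K))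
      ((Measure.pi fun _ => dd ρ).prod ν) := by
    have a1 := measurePreserving_prodAssoc (Measure.pi fun _ : Fin n => ρ.prod (unif K)) ν
      (Measure.pi fun _ : Fin n => lvM K)
    have a2 := (MeasurePreserving.id (Measure.pi fun _ : Fin n => ρ.prod (unif K))).prod
      (Measure.measurePreserving_swap (μ := ν) (ν := Measure.pi fun _ : Fin n => lvM K))
    have a3 := (measurePreserving_prodAssoc (Measure.pi fun _ : Fin n => ρ.prod (unif K))
      (Measure.pi fun _ : Fin n => lvM K) ν).symm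
    have a4 := (measurePreserving_arrowProdEquivProdArrow (Clause K × Fin K) (Lv K) (Fin n)
      (fun _ => ρ.prod (unif K)) (fun _ => lvM K)).symm
    have a5 := a4.prod (MeasurePreserving.id ν)
    exact a5.comp (a3.comp (a2.comp a1))
  have h3 := integral_map (μ := ((Measure.pi fun _ => ρ.prod (unif K)).prod ν).prod
    (Measure.pi fun _ => lvM K)) hmp.measurable.aemeasurable
    (f := fun z : (Fin n → DD K) × ℝ => GS m x z.1 z.2)
    (measurable_GS hx measurable_fst measurable_snd).aestronglyMeasurable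
  rw [hmp.map_eq] at h3
  have hi := hmp.integrable_comp_of_integrable (integrable_GS hρ hν hm hx hx1 n)
  have h4 := integral_prod (μ := (Measure.pi fun _ : Fin n => ρ.prod (unif K)).prod ν)
    (ν := Measure.pi fun _ : Fin n => lvM K)
    (fun z : ((Fin n → Clause K × Fin K) × ℝ) × (Fin n → Lv K) =>
      GS m x (fun k => (z.1.1 k, z.2 k)) z.1.2) hi
  have h5 := integral_prod (μ := Measure.pi fun _ : Fin n => ρ.prod (unif K)) (ν := ν)
    (fun z : (Fin n → Clause K × Fin K) × ℝ => ∫ w' : Fin n → Lv K,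
      GS m x (fun k => (z.1 k, w' k)) z.2 ∂(Measure.pi fun _ => lvM K)) hi.integral_prod_left
  unfold uC
  rw [h3, ← h5, ← h4]

/-- The cavity part of the trial functional. -/
theorem trialU_eq (hρ : Integrable maxTheta ρ) (hν : Integrable (fun h => h) ν)
    (hm : ∀ p, 0 < m p) (hx : Measurable x) (hx1 : ∀ w, x w ∈ Set.Icc (-1 : ℝ) 1) (lam : ℝ≥0) :
    trialU lam ρ ν r m x = ∫ n, uC ρ ν m x n ∂(poissonMeasure (K * lam)) := by
  unfold trialU
  simp_rw [trialU_integrand hρ hν hm hx hx1]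

end average

/-- **Identification of `trialU`.** -/
theorem TT0_pois {K r : ℕ} {m : Fin r → ℝ} {x : (Fin (r + 1) → U01) → ℝ} {ρ : Measure (Clause K)}
    {ν : Measure ℝ} (h : InClass K ρ ν) (hx : IsTrial r m x) (lam : ℝ≥0) (N : ℕ) [NeZero N] :
    ∫ n, TT ρ ν m x N 0 n ∂(poissonMeasure (K * lam * N)) = N * trialU lam ρ ν r m x := by
  have := h.prob_clause
  have := h.prob_field
  have : NeZero K := ⟨by have := h.one_le; omega⟩
  obtain ⟨-, hm', hxm, hx1⟩ := hx
  have hm : ∀ p, 0 < m p := fun p => (hm' p).1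
  have hρ := integrable_maxTheta h
  rw [trialU_eq hρ h.field_int hm hxm hx1, TT0_pois' hρ h.field_int hm hxm hx1]

end TU

end Vale.Agent.N168I.PT
end
end

section

section

set_option autoImplicit false
set_option linter.unusedSectionVars false

open Finset

namespace Vale.Agent.N168I.MP

variable {S ι 𝒲 : Type} [Fintype S] [Nonempty S] [Fintype ι] [DecidableEq ι]
  [Fintype 𝒲] [Nonempty 𝒲]

/-- `F` is approximated within `e` (in `L¹` of the sites, summed over `𝒲`) by a function of the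
labels `q`. -/
def AppBy (q : S → ℕ) (e : ℝ) (F : 𝒲 → (ι → S) → ℝ) : Prop :=
  ∃ G : 𝒲 → (ι → ℕ) → ℝ, ∑ w, aS (fun s => |F w s - G w (q ∘ s)|) ≤ e

/-- Approximability with at most `L` labels. -/
def Appr (L : ℕ) (e : ℝ) (F : 𝒲 → (ι → S) → ℝ) : Prop := ∃ q : S → ℕ, nlab q ≤ L ∧ AppBy q e F

theorem AppBy.mono {q : S → ℕ} {e e' : ℝ} {F : 𝒲 → (ι → S) → ℝ} (h : AppBy q e F) (he : e ≤ e') :
    AppBy q e' F := by
  obtain ⟨G, hG⟩ := h
  exact ⟨G, hG.trans he⟩

/-- A finer labelling approximates as well. -/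
theorem AppBy.refine {q q' : S → ℕ} {e : ℝ} {F : 𝒲 → (ι → S) → ℝ} (h : AppBy q e F)
    (hq : ∀ i j, q' i = q' j → q i = q j) : AppBy q' e F := by
  classical
  obtain ⟨G, hG⟩ := h
  obtain ⟨ψ, hψ⟩ : ∃ ψ : ℕ → ℕ, ∀ i, ψ (q' i) = q i := by
    refine ⟨fun n => if h : ∃ i, q' i = n then q h.choose else 0, ?_⟩
    intro i
    have hex : ∃ j, q' j = q' i := ⟨i, rfl⟩
    simp only [hex, dite_true]
    exact hq _ _ hex.choose_spec
  refine ⟨fun w z => G w (ψ ∘ z), ?_⟩
  have e1 : ∀ s : ι → S, ψ ∘ q' ∘ s = q ∘ s := fun s => by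
    funext j
    exact hψ (s j)
  simpa only [e1] using hG

/-- Composition with a Lipschitz function. -/
theorem AppBy.comp {q : S → ℕ} {e : ℝ} {F : 𝒲 → (ι → S) → ℝ} (h : AppBy q e F) {lo hi Λ : ℝ}
    (hF : ∀ w s, F w s ∈ Set.Icc lo hi) {φ : ℝ → ℝ}
    (hφ : ∀ u ∈ Set.Icc lo hi, ∀ v ∈ Set.Icc lo hi, |φ u - φ v| ≤ Λ * |u - v|) (hΛ : 0 ≤ Λ) :
    AppBy q (Λ * e) (fun w s => φ (F w s)) := by
  obtain ⟨G, hG⟩ := h
  refine ⟨fun w z => φ (max lo (min hi (G w z))), ?_⟩
  refine le_trans ?_ (mul_le_mul_of_nonneg_left hG hΛ)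
  rw [Finset.mul_sum]
  apply Finset.sum_le_sum
  intro w _
  rw [← PE.smul]
  apply PE.mono
  intro s
  have hFs := hF w s
  have hlh : lo ≤ hi := hFs.1.trans hFs.2
  have hp : max lo (min hi (G w (q ∘ s))) ∈ Set.Icc lo hi :=
    ⟨le_max_left _ _, max_le hlh (min_le_left _ _)⟩
  refine (hφ _ hFs _ hp).trans (mul_le_mul_of_nonneg_left ?_ hΛ)
  have e1 : F w s = max lo (min hi (F w s)) := by
    rw [min_eq_right hFs.2, max_eq_right hFs.1]
  calc |F w s - max lo (min hi (G w (q ∘ s)))|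
      = |max lo (min hi (F w s)) - max lo (min hi (G w (q ∘ s)))| := by rw [← e1]
    _ ≤ max |lo - lo| |min hi (F w s) - min hi (G w (q ∘ s))| := abs_max_sub_max_le_max _ _ _ _
    _ ≤ max |lo - lo| (max |hi - hi| |F w s - G w (q ∘ s)|) :=
        max_le_max le_rfl (abs_min_sub_min_le_max _ _ _ _)
    _ = |F w s - G w (q ∘ s)| := by simp only [sub_self, abs_zero, abs_nonneg, sup_of_le_right]

/-- product functional on tuples -/
noncomputable def apow {Y : Type} (D : PE Y) : (k : ℕ) → PE (Fin k → Y)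
  | 0 => PE.dirac Fin.elim0
  | k + 1 => (apow D k).bind fun l => D.map fun y => Fin.cons y l

theorem apow_succ {Y : Type} (D : PE Y) (k : ℕ) (f : (Fin (k + 1) → Y) → ℝ) :
    (apow D (k + 1)).E f = (apow D k).E fun l => D.E fun y => f (Fin.cons y l) := rfl

theorem apow_sum {Y : Type} (D : PE Y) (g : Y → ℝ) (k : ℕ) :
    (apow D k).E (fun l => ∑ i, g (l i)) = k * D.E g := by
  induction k with
  | zero =>
    simp only [Finset.univ_eq_empty, Finset.sum_empty, Nat.cast_zero, zero_mul]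
    exact PE.const _ 0
  | succ k ih =>
    rw [apow_succ]
    simp only [Fin.sum_univ_succ, Fin.cons_zero, Fin.cons_succ]
    have : ∀ l : Fin k → Y, D.E (fun y => g y + ∑ i, g (l i)) = D.E g + ∑ i, g (l i) := by
      intro l
      rw [PE.add, PE.const]
    simp only [this]
    rw [PE.add, PE.const, ih]
    push_cast
    ring

theorem apow_sq {Y : Type} (D : PE Y) (g : Y → ℝ) (hg : D.E g = 0) {V : ℝ}
    (hV : D.E (fun y => g y ^ 2) ≤ V) (k : ℕ) :
    (apow D k).E (fun l => (∑ i, g (l i)) ^ 2) ≤ k * V := by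
  induction k with
  | zero =>
    simp only [Finset.univ_eq_empty, Finset.sum_empty, Nat.cast_zero, zero_mul]
    rw [PE.const]
    norm_num
  | succ k ih =>
    rw [apow_succ]
    simp only [Fin.sum_univ_succ, Fin.cons_zero, Fin.cons_succ]
    have : ∀ l : Fin k → Y, D.E (fun y => (g y + ∑ i, g (l i)) ^ 2) =
        D.E (fun y => g y ^ 2) + (∑ i, g (l i)) ^ 2 := by
      intro l
      have e1 : (fun y => (g y + ∑ i, g (l i)) ^ 2) =
          fun y => g y ^ 2 + ((2 * ∑ i, g (l i)) * g y + (∑ i, g (l i)) ^ 2) := by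
        funext y; ring
      rw [e1, PE.add, PE.add, PE.smul, PE.const, hg]
      ring
    simp only [this]
    rw [PE.add, PE.const]
    push_cast
    linarith

/-- iterated join -/
def jn : (k : ℕ) → (Fin k → S → ℕ) → S → ℕ
  | 0, _ => fun _ => 0
  | k + 1, Q => join (Q 0) (jn k (Fin.tail Q))

theorem jn_eq {k : ℕ} (Q : Fin k → S → ℕ) (a : Fin k) {i j : S} (h : jn k Q i = jn k Q j) :
    Q a i = Q a j := by
  induction k with
  | zero => exact a.elim0
  | succ k ih =>
    have h' : join (Q 0) (jn k (Fin.tail Q)) i = join (Q 0) (jn k (Fin.tail Q)) j := h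
    refine Fin.cases ?_ ?_ a
    · exact join_left h'
    · intro b
      exact ih (Fin.tail Q) b (join_right h')

theorem nlab_jn {k L : ℕ} (Q : Fin k → S → ℕ) (hQ : ∀ a, nlab (Q a) ≤ L) :
    nlab (jn k Q) ≤ L ^ k := by
  induction k with
  | zero =>
    simp only [pow_zero]
    unfold nlab
    have : (univ.image (jn 0 Q) : Finset ℕ) ⊆ {0} := by
      intro n hn
      simp only [mem_image, mem_univ, true_and] at hn
      obtain ⟨i, hi⟩ := hn
      rw [mem_singleton, ← hi]
      rfl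
    simpa using Finset.card_le_card this
  | succ k ih =>
    have h1 : nlab (jn (k + 1) Q) ≤ nlab (Q 0) * nlab (jn k (Fin.tail Q)) := nlab_join_le _ _
    have h2 := ih (Fin.tail Q) (fun a => hQ a.succ)
    calc _ ≤ _ := h1
      _ ≤ L * L ^ k := Nat.mul_le_mul (hQ 0) h2
      _ = L ^ (k + 1) := by rw [pow_succ, mul_comm]

/-- AVERAGING LEMMA (Monte Carlo). -/
theorem averaging {Y : Type} (D : PE Y) (F : Y → 𝒲 → (ι → S) → ℝ) {B : ℝ} (hB : 0 < B)
    (hF : ∀ y w s, |F y w s| ≤ B) {L : ℕ} {e : Y → ℝ} (he : ∀ y, Appr L (e y) (F y))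
    {K0 : ℕ} (hK : 0 < K0) :
    Appr (L ^ K0) (D.E e + 2 * Fintype.card 𝒲 * B / Real.sqrt K0)
      (fun w s => D.E fun y => F y w s) := by
  have hK0 : (0 : ℝ) < K0 := by exact_mod_cast hK
  have hsK : 0 < Real.sqrt K0 := Real.sqrt_pos.mpr hK0
  have hcW : (0 : ℝ) < Fintype.card 𝒲 := by exact_mod_cast Fintype.card_pos
  choose q hqL G hG using he
  -- the cost of a tuple
  set H : 𝒲 → (ι → S) → Y → ℝ := fun w s y => F y w s - D.E (fun y => F y w s) with hH
  set T1 : (Fin K0 → Y) → ℝ := fun l => ∑ w, aS fun s => |∑ i, H w s (l i)| / K0 with hT1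
  set T2 : (Fin K0 → Y) → ℝ := fun l => (∑ i, e (l i)) / K0 with hT2
  have hH0 : ∀ w s, D.E (H w s) = 0 := by
    intro w s
    simp only [hH]
    rw [PE.sub, PE.const, sub_self]
  have hHV : ∀ w s, D.E (fun y => H w s y ^ 2) ≤ B ^ 2 := by
    intro w s
    have h1 := D.var_eq (fun y => F y w s)
    have h2 : D.var (fun y => F y w s) ≤ D.E fun y => (F y w s - 0) ^ 2 := D.var_le _ 0
    have h3 : D.E (fun y => (F y w s - 0) ^ 2) ≤ B ^ 2 := by
      apply D.le_const
      intro y
      rw [sub_zero, ← sq_abs]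
      exact pow_le_pow_left₀ (abs_nonneg _) (hF y w s) 2
    simp only [hH]
    rw [← h1]
    exact h2.trans h3
  have hE1 : (apow D K0).E T1 ≤ Fintype.card 𝒲 * B / Real.sqrt K0 := by
    simp only [hT1]
    rw [PE.sum]
    have h1 : ∀ w ∈ (univ : Finset 𝒲),
        (apow D K0).E (fun l => aS fun s => |∑ i, H w s (l i)| / K0) ≤ B / Real.sqrt K0 := by
      intro w _
      rw [PE.comm_unif]
      apply PE.le_const
      intro s
      rw [PE.div_right]
      have h2 : (apow D K0).E (fun l => |∑ i, H w s (l i)|) ≤ Real.sqrt (K0 * B ^ 2) :=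
        ((apow D K0).abs_le_sqrt _).trans
          (Real.sqrt_le_sqrt (apow_sq D (H w s) (hH0 w s) (hHV w s) K0))
      rw [Real.sqrt_mul hK0.le, Real.sqrt_sq hB.le] at h2
      rw [div_le_div_iff₀ hK0 hsK]
      calc (apow D K0).E (fun l => |∑ i, H w s (l i)|) * Real.sqrt K0
          ≤ (Real.sqrt K0 * B) * Real.sqrt K0 := mul_le_mul_of_nonneg_right h2 hsK.le
        _ = B * (Real.sqrt K0 * Real.sqrt K0) := by ring
        _ = B * K0 := by rw [Real.mul_self_sqrt hK0.le]
    refine (Finset.sum_le_sum h1).trans (le_of_eq ?_)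
    rw [Finset.sum_const, nsmul_eq_mul, Finset.card_univ]
    ring
  have hE2 : (apow D K0).E T2 = D.E e := by
    simp only [hT2]
    rw [PE.div_right, apow_sum]
    field_simp
  obtain ⟨l, hl⟩ := (apow D K0).exists_le (fun l => T1 l + T2 l)
    (δ := Fintype.card 𝒲 * B / Real.sqrt K0) (by positivity)
  rw [PE.add, hE2] at hl
  refine ⟨jn K0 fun a => q (l a), nlab_jn _ fun a => hqL _, ?_⟩
  have hre : ∀ a : Fin K0, AppBy (jn K0 fun a => q (l a)) (e (l a)) (F (l a)) := by
    intro a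
    have h1 : AppBy (q (l a)) (e (l a)) (F (l a)) := ⟨G (l a), hG (l a)⟩
    exact h1.refine fun i j hij => jn_eq (fun a => q (l a)) a hij
  choose G' hG' using hre
  refine ⟨fun w z => (∑ a, G' a w z) / K0, ?_⟩
  have hpt : ∀ w s, |D.E (fun y => F y w s) - (∑ a, G' a w ((jn K0 fun a => q (l a)) ∘ s)) / K0| ≤
      |∑ i, H w s (l i)| / K0 +
        (∑ a, |F (l a) w s - G' a w ((jn K0 fun a => q (l a)) ∘ s)|) / K0 := by
    intro w s
    have e1 : D.E (fun y => F y w s) - (∑ a, G' a w ((jn K0 fun a => q (l a)) ∘ s)) / K0 =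
        -((∑ i, H w s (l i)) / K0) +
        (∑ a, (F (l a) w s - G' a w ((jn K0 fun a => q (l a)) ∘ s))) / K0 := by
      simp only [hH]
      rw [Finset.sum_sub_distrib, Finset.sum_sub_distrib, Finset.sum_const, nsmul_eq_mul,
        Finset.card_univ, Fintype.card_fin]
      field_simp
      ring
    rw [e1]
    refine (abs_add_le _ _).trans ?_
    rw [abs_neg, abs_div, abs_div, abs_of_pos hK0]
    gcongr
    exact Finset.abs_sum_le_sum_abs _ _
  have hsum : ∑ w, aS (fun s =>
      |D.E (fun y => F y w s) - (∑ a, G' a w ((jn K0 fun a => q (l a)) ∘ s)) / K0|) ≤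
      T1 l + T2 l := by
    calc _ ≤ ∑ w, aS (fun s => |∑ i, H w s (l i)| / K0 +
        (∑ a, |F (l a) w s - G' a w ((jn K0 fun a => q (l a)) ∘ s)|) / K0) :=
          Finset.sum_le_sum fun w _ => PE.mono _ (hpt w)
      _ = T1 l + (∑ a, ∑ w, aS (fun s =>
            |F (l a) w s - G' a w ((jn K0 fun a => q (l a)) ∘ s)|)) / K0 := by
          simp only [hT1, aS, PE.add, PE.div_right, PE.sum]
          rw [Finset.sum_add_distrib]
          congr 1
          rw [← Finset.sum_div]
          congr 1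
          exact Finset.sum_comm
      _ ≤ T1 l + T2 l := by
          simp only [hT2]
          gcongr with a _
          exact hG' a
  refine hsum.trans (hl.trans ?_)
  have : 2 * Fintype.card 𝒲 * B / Real.sqrt K0 =
    Fintype.card 𝒲 * B / Real.sqrt K0 + Fintype.card 𝒲 * B / Real.sqrt K0 := by ring
  rw [this]
  linarith only [hE1]

/-- The leaf: multilinear functions of `y` are approximable by quantizing `y`. -/
theorem appr_leaf (W : 𝒲 → (ι → Bool) → ℝ) {C : ℝ} (hW : ∀ w σ, |W w σ| ≤ C) (y : S → ℝ)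
    (hy : ∀ i, |y i| ≤ 1) {Dq : ℕ} (hD : 0 < Dq) :
    Appr (2 * Dq + 1) (Fintype.card 𝒲 * (C * (Fintype.card ι / Dq)))
      (fun w (s : ι → S) => mlin (W w) fun j => y (s j)) := by
  have hD0 : (0 : ℝ) < Dq := by exact_mod_cast hD
  have hC : 0 ≤ C := (abs_nonneg _).trans (hW (Classical.arbitrary 𝒲) fun _ => true)
  set q : S → ℕ := fun i => ⌊(y i + 1) * Dq⌋₊ with hq
  have hy1 : ∀ i, 0 ≤ (y i + 1) * Dq := by
    intro i
    have := (abs_le.mp (hy i)).1
    apply mul_nonneg _ hD0.le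
    linarith only [this]
  have hy2 : ∀ i, (y i + 1) * Dq ≤ 2 * Dq := by
    intro i
    have := (abs_le.mp (hy i)).2
    apply mul_le_mul_of_nonneg_right _ hD0.le
    linarith only [this]
  have hqle : ∀ i, q i ≤ 2 * Dq := by
    intro i
    have h1 : ((q i : ℕ) : ℝ) ≤ ((2 * Dq : ℕ) : ℝ) := by
      push_cast
      exact (Nat.floor_le (hy1 i)).trans (hy2 i)
    exact_mod_cast h1
  refine ⟨q, ?_, fun w z => mlin (W w) fun j => (z j : ℝ) / Dq - 1, ?_⟩
  · unfold nlab
    have h1 : (univ.image q : Finset ℕ) ⊆ Finset.range (2 * Dq + 1) := by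
      intro n hn
      simp only [mem_image, mem_univ, true_and] at hn
      obtain ⟨i, hi⟩ := hn
      rw [mem_range, ← hi]
      exact Nat.lt_succ_of_le (hqle i)
    simpa using Finset.card_le_card h1
  · have h1 : ∀ w (s : ι → S), |mlin (W w) (fun j => y (s j)) -
        mlin (W w) (fun j => (((q ∘ s) j : ℕ) : ℝ) / Dq - 1)| ≤ C * (Fintype.card ι / Dq) := by
      intro w s
      have hb : ∀ i, |((q i : ℕ) : ℝ) / Dq - 1| ≤ 1 := by
        intro i
        have h2 : ((q i : ℕ) : ℝ) ≤ 2 * Dq := by exact_mod_cast hqle i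
        have h3 : ((q i : ℕ) : ℝ) / Dq ≤ 2 := by
          rw [div_le_iff₀ hD0]; exact h2
        have h4 : 0 ≤ ((q i : ℕ) : ℝ) / Dq := by positivity
        rw [abs_le]
        constructor <;> linarith only [h3, h4]
      have hd : ∀ i, |y i - (((q i : ℕ) : ℝ) / Dq - 1)| ≤ 1 / Dq := by
        intro i
        have e1 : y i - (((q i : ℕ) : ℝ) / Dq - 1) = ((y i + 1) * Dq - (q i : ℕ)) / Dq := by
          field_simp
          ring
        have h2 := Nat.floor_le (hy1 i)
        have h3 := Nat.lt_floor_add_one ((y i + 1) * Dq)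
        rw [e1, abs_div, abs_of_pos hD0, abs_of_nonneg (by simp only [hq]; linarith only [h2])]
        apply div_le_div_of_nonneg_right _ hD0.le
        simp only [hq]
        linarith only [h3]
      refine (mlin_lip (hW w) (fun j => hy (s j)) (fun j => hb (s j))).trans ?_
      apply mul_le_mul_of_nonneg_left _ hC
      calc ∑ j, |y (s j) - ((((q ∘ s) j : ℕ) : ℝ) / Dq - 1)| ≤ ∑ _j : ι, (1 : ℝ) / Dq :=
            Finset.sum_le_sum fun j _ => hd (s j)
        _ = Fintype.card ι / Dq := by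
            rw [Finset.sum_const, nsmul_eq_mul, Finset.card_univ]
            ring
    calc _ ≤ ∑ _w : 𝒲, C * (Fintype.card ι / Dq) :=
          Finset.sum_le_sum fun w _ => PE.le_const _ (h1 w)
      _ = _ := by rw [Finset.sum_const, nsmul_eq_mul, Finset.card_univ]

end Vale.Agent.N168I.MP
end
end

section

section

set_option autoImplicit false
set_option linter.unusedSectionVars false

open Finset

namespace Vale.Agent.N168I.MP

/-- Levels `p = 0, …, R`: `a p x τ` is the value of the test `τ` at the node `x` of level `p`;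
`κ p` goes from a node of level `p` to the end of its block, `ρ p` from there to a node of level
`p + 1`. -/
structure Chain (𝒩 Ω : Type) where
  a : ℕ → 𝒩 → Ω → ℝ
  κ : ℕ → 𝒩 → PE 𝒩
  ρ : ℕ → 𝒩 → PE 𝒩

namespace Chain

variable {𝒩 Ω : Type} (C : Chain 𝒩 Ω)

/-- One full step. -/
def step (p : ℕ) (x : 𝒩) : PE 𝒩 := (C.κ p x).bind (C.ρ p)

/-- One full step, remembering the intermediate state. -/
def two (p : ℕ) (x : 𝒩) : PE (𝒩 × 𝒩) := (C.κ p x).bind fun y => (C.ρ p y).map fun z => (y, z)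

/-- `Ahat_p`. -/
def hat (p : ℕ) (y : 𝒩) (τ : Ω) : ℝ := (C.ρ p y).E fun z => C.a (p + 1) z τ

/-- `A_p`. -/
def A (p : ℕ) (x : 𝒩) (τ : Ω) : ℝ := (C.step p x).E fun z => C.a (p + 1) z τ

/-- Law of the node of level `p` started from the node `x` of level `0`. -/
def law (x : 𝒩) (p : ℕ) : PE 𝒩 :=
  Nat.rec (motive := fun _ => PE 𝒩) (PE.dirac x) (fun p P => P.bind (C.step p)) p

theorem law_zero (x : 𝒩) : C.law x 0 = PE.dirac x := rfl

theorem law_succ (x : 𝒩) (p : ℕ) : C.law x (p + 1) = (C.law x p).bind (C.step p) := rfl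

/-- The standing assumptions of section 3. -/
structure Ok (θ c : ℝ) (R : ℕ) : Prop where
  θ_pos : 0 < θ
  θ_lt : θ < 1
  c_pos : 0 < c
  c_le : c ≤ 1
  lo : ∀ p ≤ R, ∀ x τ, c ≤ C.a p x τ
  hi : ∀ p ≤ R, ∀ x τ, C.a p x τ ≤ c⁻¹
  rel : ∀ p < R, ∀ x τ, C.a p x τ = (C.κ p x).E fun y => (C.hat p y τ) ^ θ

/-- Conditional variance of `a_{p+1}` given the node of level `p`. -/
def vr (p : ℕ) (x : 𝒩) (τ : Ω) : ℝ := (C.step p x).var fun z => C.a (p + 1) z τ

/-- `I_p (τ', τ)`. -/
noncomputable def Ic (θ : ℝ) (p : ℕ) (x : 𝒩) (τ' τ : Ω) : ℝ :=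
  (C.two p x).cov (fun u => C.a (p + 1) u.2 τ')
    (fun u => C.a (p + 1) u.2 τ * (C.hat p u.1 τ) ^ (θ - 1))

variable {C} {θ c : ℝ} {R : ℕ}

section Sites

variable {S ι 𝒲 : Type} [Fintype S] [Nonempty S] [Fintype ι] [DecidableEq ι]
  [Fintype 𝒲] [Nonempty 𝒲] (C : Chain 𝒩 (𝒲 × (ι → S)))

/-- Purity error at a leaf: `W w` are the shapes, `xh x i` the local magnetizations at the node
`x` of level `R`. -/
noncomputable def leafErr (W : 𝒲 → (ι → Bool) → ℝ) (xh : 𝒩 → S → ℝ) (R : ℕ) (x : 𝒩) (w : 𝒲) : ℝ :=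
  aS fun s : ι → S => |C.a R x (w, s) - mlin (W w) fun j => xh x (s j)|

/-- Mean of `|I_p((w,s'),(w,s))|` over `s, s'`. -/
noncomputable def Iav (θ : ℝ) (p : ℕ) (x : 𝒩) (w : 𝒲) : ℝ :=
  aS fun s : ι → S => aS fun s' : ι → S => |C.Ic θ p x (w, s') (w, s)|

/-- Bound on the approximation errors, by recursion on `j = R - p`; `η` is the Monte Carlo error and
`d` the discretization error at the leaves. -/
noncomputable def er (W : 𝒲 → (ι → Bool) → ℝ) (xh : 𝒩 → S → ℝ) (R : ℕ) (c η d : ℝ) (j : ℕ) :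
    𝒩 → ℝ :=
  Nat.rec (motive := fun _ => 𝒩 → ℝ) (fun x => ∑ w, C.leafErr W xh R x w + d)
    (fun j e x => c⁻¹ * ((C.step (R - (j + 1)) x).E e + 2 * η)) j

/-- Number of labels. -/
def lab (K0 Dq : ℕ) (j : ℕ) : ℕ :=
  Nat.rec (motive := fun _ => ℕ) (2 * Dq + 1) (fun _ L => (L ^ K0) ^ K0 * L ^ K0) j

/-- Trial data: label maps of the levels `0, …, R - 1` and local magnetizations. -/
abbrev Data (R : ℕ) (S : Type) : Type := (Fin R → S → ℕ) × (S → Set.Icc (-1 : ℝ) 1)

/-- The leaf function of trial data. -/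
noncomputable def leafF (w : (ι → Bool) → ℝ) (y : S → Set.Icc (-1 : ℝ) 1) (s : ι → S) : ℝ :=
  mlin w fun j => (y (s j) : ℝ)

/-- Total error produced at level `p`. -/
noncomputable def errP (W : 𝒲 → (ι → Bool) → ℝ) (xh : 𝒩 → S → ℝ) (R : ℕ) (θ c η d : ℝ) (Λ : ℕ)
    (p : ℕ) (x : 𝒩) (w : 𝒲) : ℝ :=
  c⁻¹ ^ 3 * Real.sqrt ((Λ : ℝ) ^ Fintype.card ι) * Real.sqrt (C.Iav θ p x w) +
    c⁻¹ ^ 3 * (1 - θ) * (aS fun s : ι → S => Real.sqrt (C.vr p x (w, s))) +
    c⁻¹ ^ 3 * (1 - θ) * (aS fun s : ι → S => C.vr p x (w, s)) +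
    2 * C.er W xh R c η d (R - p) x

end Sites

end Chain

end Vale.Agent.N168I.MP
end
end

section

section

set_option autoImplicit false
set_option linter.unusedSectionVars false

open Finset

namespace Vale.Agent.N168I.MP

/-- A structure: blocks `0, …, R` of `n` slots each, with positions. -/
abbrev St (R n : ℕ) (Ω : Type) : Type := Fin (R + 1) → Blk n Ω

section St

variable {R n : ℕ} {Ω : Type}

/-- The block of level `p` (for `p ≤ R`). -/
def blkAt (st : St R n Ω) (p : ℕ) : Blk n Ω := st ⟨min p R, by omega⟩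

theorem blkAt_update_same [DecidableEq (Fin (R + 1))] (st : St R n Ω) {p : ℕ} (hp : p ≤ R)
    (b : Blk n Ω) : blkAt (Function.update st ⟨p, by omega⟩ b) p = b := by
  unfold blkAt
  have : (⟨min p R, by omega⟩ : Fin (R + 1)) = ⟨p, by omega⟩ := by
    ext
    simp [hp]
  rw [this, Function.update_self]

theorem blkAt_update_ne [DecidableEq (Fin (R + 1))] (st : St R n Ω) {p q : ℕ} (hp : p ≤ R)
    (hq : q ≤ R) (hqp : q ≠ p) (b : Blk n Ω) :
    blkAt (Function.update st ⟨p, by omega⟩ b) q = blkAt st q := by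
  unfold blkAt
  rw [Function.update_of_ne]
  intro h
  have := congrArg Fin.val h
  simp only at this
  omega

/-- The power of level `p`. -/
noncomputable def pw (θ : ℝ) (R p : ℕ) : ℝ := θ ^ (R - p)

/-- All slots of the block of level `p`. -/
noncomputable def full (θ : ℝ) (st : St R n Ω) (p : ℕ) : List (ℝ × Ω) :=
  blk (pw θ R p) (List.ofFn (blkAt st p).2)

/-- The slots of the levels `< p`. -/
noncomputable def before (θ : ℝ) (st : St R n Ω) (p : ℕ) : List (ℝ × Ω) :=
  (List.range p).flatMap (full θ st)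

/-- The slots of the levels `> p`. -/
noncomputable def rest (θ : ℝ) (st : St R n Ω) (p : ℕ) : List (ℝ × Ω) :=
  (List.range' (p + 1) (R - p)).flatMap (full θ st)

/-- The whole list of slots. -/
noncomputable def allSlots (θ : ℝ) (st : St R n Ω) : List (ℝ × Ω) :=
  (List.range (R + 1)).flatMap (full θ st)

/-- The slots after the node of level `p`. -/
noncomputable def remSlots (θ : ℝ) (st : St R n Ω) (p : ℕ) : List (ℝ × Ω) :=
  blk (pw θ R p) (blkAt st p).suf ++ rest θ st p

theorem before_zero (θ : ℝ) (st : St R n Ω) : before θ st 0 = [] := rfl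

theorem before_succ (θ : ℝ) (st : St R n Ω) (p : ℕ) :
    before θ st (p + 1) = before θ st p ++ full θ st p := by
  unfold before
  rw [List.range_succ, List.flatMap_append]
  simp

theorem rest_last (θ : ℝ) (st : St R n Ω) : rest θ st R = [] := by
  unfold rest
  simp

theorem rest_eq (θ : ℝ) (st : St R n Ω) {p : ℕ} (hp : p < R) :
    rest θ st p = full θ st (p + 1) ++ rest θ st (p + 1) := by
  unfold rest
  have : R - p = (R - (p + 1)) + 1 := by omega
  rw [this, List.range'_succ, List.flatMap_cons]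

theorem allSlots_eq (θ : ℝ) (st : St R n Ω) {p : ℕ} (hp : p ≤ R) :
    allSlots θ st = before θ st p ++ (full θ st p ++ rest θ st p) := by
  unfold allSlots before rest
  have e : List.range (R + 1) = List.range p ++ (p :: List.range' (p + 1) (R - p)) := by
    rw [← List.range'_succ, List.range_eq_range', List.range_eq_range']
    have h := List.range'_append (s := 0) (m := p) (n := R - p + 1) (step := 1)
    rw [one_mul, zero_add] at h
    rw [h]
    congr 1
    omega
  rw [e, List.flatMap_append, List.flatMap_cons]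

theorem full_eq (θ : ℝ) (st : St R n Ω) (p : ℕ) :
    full θ st p = blk (pw θ R p) (blkAt st p).pre ++ blk (pw θ R p) (blkAt st p).suf := by
  unfold full
  rw [← blk_append, Blk.pre_append_suf]

theorem pw_pos {θ : ℝ} (h0 : 0 < θ) (R p : ℕ) : 0 < pw θ R p := pow_pos h0 _

theorem pw_le_one {θ : ℝ} (h0 : 0 < θ) (h1 : θ < 1) (R p : ℕ) : pw θ R p ≤ 1 :=
  pow_le_one₀ h0.le h1.le

theorem pw_mono {θ : ℝ} (h0 : 0 < θ) (h1 : θ < 1) {R p q : ℕ} (hpq : p ≤ q) :
    pw θ R p ≤ pw θ R q :=
  pow_le_pow_of_le_one h0.le h1.le (by omega)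

theorem pw_succ {θ : ℝ} {R p : ℕ} (hp : p < R) : pw θ R p = θ * pw θ R (p + 1) := by
  unfold pw
  rw [← pow_succ']
  congr 1
  omega

theorem good_append {A B : List (ℝ × Ω)} (hA : Good A) (hB : Good B)
    (h : ∀ a ∈ A, ∀ b ∈ B, a.1 ≤ b.1) : Good (A ++ B) := by
  refine ⟨fun s hs => ?_, List.pairwise_append.2 ⟨hA.2, hB.2, h⟩⟩
  rcases List.mem_append.1 hs with h | h
  · exact hA.1 s h
  · exact hB.1 s h

theorem mem_blk {μ : ℝ} {l : List Ω} {s : ℝ × Ω} (h : s ∈ blk μ l) : s.1 = μ := by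
  obtain ⟨τ, _, rfl⟩ := List.mem_map.1 h
  rfl

theorem good_blk {μ : ℝ} (h0 : 0 < μ) (h1 : μ ≤ 1) (l : List Ω) : Good (blk μ l) := by
  refine ⟨fun s hs => ?_, ?_⟩
  · rw [mem_blk hs]
    exact ⟨h0, h1⟩
  · exact List.pairwise_of_forall_mem_list fun a ha b hb => by rw [mem_blk ha, mem_blk hb]

theorem mem_flatMap_full {θ : ℝ} {st : St R n Ω} {L : List ℕ} {s : ℝ × Ω}
    (h : s ∈ L.flatMap (full θ st)) : ∃ q ∈ L, s.1 = pw θ R q := by
  obtain ⟨q, hq, hs⟩ := List.mem_flatMap.1 h
  exact ⟨q, hq, mem_blk hs⟩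

theorem good_flatMap {θ : ℝ} (h0 : 0 < θ) (h1 : θ < 1) (st : St R n Ω) {L : List ℕ}
    (hL : L.Pairwise fun a b => a ≤ b) : Good (L.flatMap (full θ st)) := by
  induction L with
  | nil => exact ⟨fun s hs => absurd hs (by simp), by simp⟩
  | cons a L ih =>
    rw [List.pairwise_cons] at hL
    rw [List.flatMap_cons]
    refine good_append (good_blk (pw_pos h0 R a) (pw_le_one h0 h1 R a) _) (ih hL.2)
      fun s hs t ht => ?_
    obtain ⟨q, hq, ht'⟩ := mem_flatMap_full ht
    rw [mem_blk hs, ht']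
    exact pw_mono h0 h1 (hL.1 q hq)

theorem good_before {θ : ℝ} (h0 : 0 < θ) (h1 : θ < 1) (st : St R n Ω) (p : ℕ) :
    Good (before θ st p) :=
  good_flatMap h0 h1 st ((List.pairwise_lt_range).imp fun h => h.le)

theorem good_rest {θ : ℝ} (h0 : 0 < θ) (h1 : θ < 1) (st : St R n Ω) (p : ℕ) :
    Good (rest θ st p) :=
  good_flatMap h0 h1 st ((List.pairwise_lt_range' (s := p + 1) (n := R - p)).imp fun h => h.le)

theorem mem_before {θ : ℝ} (h0 : 0 < θ) (h1 : θ < 1) {st : St R n Ω} {p : ℕ} {s : ℝ × Ω}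
    (h : s ∈ before θ st p) : s.1 ≤ pw θ R p := by
  obtain ⟨q, hq, hs⟩ := mem_flatMap_full h
  rw [hs]
  exact pw_mono h0 h1 (List.mem_range.1 hq).le

theorem mem_rest {θ : ℝ} (h0 : 0 < θ) (h1 : θ < 1) {st : St R n Ω} {p : ℕ} {s : ℝ × Ω}
    (h : s ∈ rest θ st p) : pw θ R (p + 1) ≤ s.1 := by
  obtain ⟨q, hq, hs⟩ := mem_flatMap_full h
  rw [hs]
  obtain ⟨i, _, rfl⟩ := List.mem_range'.1 hq
  exact pw_mono h0 h1 (by omega)

/-- Any sub-structure obtained by changing the slots of the blocks is good. -/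
theorem good_split {θ : ℝ} (h0 : 0 < θ) (h1 : θ < 1) (st : St R n Ω) {p : ℕ} (hp : p ≤ R)
    (l : List Ω) : Good (before θ st p ++ (blk (pw θ R p) l ++ rest θ st p)) := by
  refine good_append (good_before h0 h1 st p)
    (good_append (good_blk (pw_pos h0 R p) (pw_le_one h0 h1 R p) l) (good_rest h0 h1 st p)
      fun a ha b hb => ?_) fun a ha b hb => ?_
  · rw [mem_blk ha]
    exact (pw_mono h0 h1 (Nat.le_succ p)).trans (mem_rest h0 h1 hb)
  · refine (mem_before h0 h1 ha).trans ?_
    rcases List.mem_append.1 hb with h | h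
    · rw [mem_blk h]
    · exact (pw_mono h0 h1 (Nat.le_succ p)).trans (mem_rest h0 h1 h)

theorem good_split2 {θ : ℝ} (h0 : 0 < θ) (h1 : θ < 1) (st : St R n Ω) {p : ℕ} (hp : p < R)
    (l l' : List Ω) : Good (before θ st p ++
      (blk (pw θ R p) l ++ (blk (pw θ R (p + 1)) l' ++ rest θ st (p + 1)))) := by
  have hm := pw_mono h0 h1 (R := R) (Nat.le_succ p)
  have hm' := pw_mono h0 h1 (R := R) (Nat.le_succ (p + 1))
  refine good_append (good_before h0 h1 st p)
    (good_append (good_blk (pw_pos h0 R p) (pw_le_one h0 h1 R p) l)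
      (good_append (good_blk (pw_pos h0 R (p + 1)) (pw_le_one h0 h1 R (p + 1)) l')
        (good_rest h0 h1 st (p + 1)) fun a ha b hb => ?_) fun a ha b hb => ?_) fun a ha b hb => ?_
  · rw [mem_blk ha]
    exact hm'.trans (mem_rest h0 h1 hb)
  · rw [mem_blk ha]
    rcases List.mem_append.1 hb with h | h
    · rw [mem_blk h]
      exact hm
    · exact hm.trans (hm'.trans (mem_rest h0 h1 h))
  · refine (mem_before h0 h1 ha).trans ?_
    rcases List.mem_append.1 hb with h | h
    · rw [mem_blk h]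
    · rcases List.mem_append.1 h with h | h
      · rw [mem_blk h]
        exact hm
      · exact hm.trans (hm'.trans (mem_rest h0 h1 h))

theorem rest_split (θ : ℝ) (st : St R n Ω) {p : ℕ} (hp : p < R) :
    rest θ st p = blk (pw θ R (p + 1)) (blkAt st (p + 1)).pre ++ remSlots θ st (p + 1) := by
  rw [rest_eq θ st hp, full_eq, List.append_assoc, remSlots]

theorem good_right {A B : List (ℝ × Ω)} (h : Good (A ++ B)) : Good B :=
  ⟨fun s hs => h.1 s (List.mem_append_right _ hs), (List.pairwise_append.1 h.2).2.1⟩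

theorem good_remSlots {θ : ℝ} (h0 : 0 < θ) (h1 : θ < 1) (st : St R n Ω) {p : ℕ} (hp : p ≤ R) :
    Good (remSlots θ st p) :=
  good_right (good_split h0 h1 st hp _)

theorem before_congr (θ : ℝ) {st st' : St R n Ω} {p : ℕ}
    (h : ∀ q < p, blkAt st q = blkAt st' q) : before θ st p = before θ st' p := by
  unfold before
  apply List.flatMap_congr
  intro q hq
  unfold full
  rw [h q (List.mem_range.1 hq)]

theorem rest_congr (θ : ℝ) {st st' : St R n Ω} {p : ℕ}
    (h : ∀ q, p < q → q ≤ R → blkAt st q = blkAt st' q) : rest θ st p = rest θ st' p := by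
  unfold rest
  apply List.flatMap_congr
  intro q hq
  unfold full
  rw [List.mem_range'_1] at hq
  rw [h q (by omega) (by omega)]

end St

namespace Slots

variable {𝒩 Ω : Type} (S : Slots 𝒩 Ω) {R n : ℕ}

/-- The chain attached to a structure of slots. -/
noncomputable def chain (θ : ℝ) (st : St R n Ω) : Chain 𝒩 Ω where
  a p x τ := S.av (pw θ R p) (remSlots θ st p) τ x
  κ p x := S.exPE (blk (pw θ R p) (blkAt st p).suf) (rest θ st p) x
  ρ p y := S.exPE (blk (pw θ R (p + 1)) (blkAt st (p + 1)).pre) (remSlots θ st (p + 1)) y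

/-- Law of the node of level `0`. -/
noncomputable def law0 (θ : ℝ) (st : St R n Ω) (x0 : 𝒩) : PE 𝒩 :=
  S.exPE (blk (pw θ R 0) (blkAt st 0).pre) (remSlots θ st 0) x0

/-- Law of the node of level `p`, as a path expectation. -/
noncomputable def lawP (θ : ℝ) (st : St R n Ω) (x0 : 𝒩) (p : ℕ) : PE 𝒩 :=
  S.exPE (before θ st p ++ blk (pw θ R p) (blkAt st p).pre) (remSlots θ st p) x0

theorem chain_hat {θ : ℝ} (h0 : 0 < θ) (st : St R n Ω) {p : ℕ} (hp : p < R)
    (y : 𝒩) (τ : Ω) : (S.chain θ st).hat p y τ =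
      Real.exp (pw θ R (p + 1) * S.val (rest θ st p) τ y) := by
  rw [rest_split θ st hp, S.exp_val_block (pw_pos h0 R (p + 1))]
  rfl

theorem abs_mul_val_le {μ : ℝ} (h0 : 0 < μ) (h1 : μ ≤ 1) {L : List (ℝ × Ω)} (hL : Pos L) (τ : Ω)
    (x : 𝒩) : |μ * S.val L τ x| ≤ S.M := by
  rw [abs_mul, abs_of_pos h0]
  calc μ * |S.val L τ x| ≤ 1 * |S.val L τ x| :=
        mul_le_mul_of_nonneg_right h1 (abs_nonneg _)
    _ ≤ S.M := by rw [one_mul]; exact S.abs_val_le hL τ x

theorem chain_ok {θ : ℝ} (h0 : 0 < θ) (h1 : θ < 1) (st : St R n Ω) :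
    (S.chain θ st).Ok θ (Real.exp (-S.M)) R where
  θ_pos := h0
  θ_lt := h1
  c_pos := Real.exp_pos _
  c_le := Real.exp_le_one_iff.2 (neg_nonpos.2 S.M_nonneg)
  lo p hp x τ := Real.exp_le_exp.2 (abs_le.1 (S.abs_mul_val_le (pw_pos h0 R p)
    (pw_le_one h0 h1 R p) (good_remSlots h0 h1 st hp).1 τ x)).1
  hi p hp x τ := by
    rw [← Real.exp_neg, neg_neg]
    exact Real.exp_le_exp.2 (abs_le.1 (S.abs_mul_val_le (pw_pos h0 R p)
      (pw_le_one h0 h1 R p) (good_remSlots h0 h1 st hp).1 τ x)).2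
  rel p hp x τ := by
    simp only [S.chain_hat h0 st hp, ← Real.exp_mul]
    have e : ∀ y, pw θ R (p + 1) * S.val (rest θ st p) τ y * θ =
        pw θ R p * S.val (rest θ st p) τ y := by
      intro y
      rw [pw_succ hp]
      ring
    simp only [e]
    exact S.exp_val_block (pw_pos h0 R p) _ _ τ x

theorem lawP_eq {θ : ℝ} (st : St R n Ω) (x0 : 𝒩) {p : ℕ} (hp : p ≤ R)
    (f : 𝒩 → ℝ) : (S.law0 θ st x0).E (fun x => ((S.chain θ st).law x p).E f) =
      (S.lawP θ st x0 p).E f := by
  induction p generalizing f with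
  | zero =>
    unfold lawP law0
    rw [before_zero, List.nil_append]
    rfl
  | succ p ih =>
    have hp' : p < R := hp
    have h := ih (Nat.le_of_succ_le hp) (fun y => ((S.chain θ st).step p y).E f)
    have e1 : (S.law0 θ st x0).E (fun x => ((S.chain θ st).law x (p + 1)).E f) =
        (S.law0 θ st x0).E (fun x => ((S.chain θ st).law x p).E
          fun y => ((S.chain θ st).step p y).E f) := rfl
    rw [e1, h]
    unfold lawP
    rw [exPE_E, exPE_E, before_succ, full_eq, ← List.append_assoc,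
      S.Ex_append (before θ st p ++ blk (pw θ R p) (blkAt st p).pre ++
        blk (pw θ R p) (blkAt st p).suf) (blk (pw θ R (p + 1)) (blkAt st (p + 1)).pre),
      ← rest_split θ st hp', S.Ex_append (before θ st p ++ blk (pw θ R p) (blkAt st p).pre)
        (blk (pw θ R p) (blkAt st p).suf)]
    rfl

/-- Root lemma: the value at the root is close to the mean of the log values at level `0`. -/
theorem root_near {θ : ℝ} (h0 : 0 < θ) (h1 : θ < 1) (st : St R n Ω) (x0 : 𝒩) (τ : Ω) :
    |S.val (allSlots θ st) τ x0 - (S.law0 θ st x0).E fun x =>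
      (1 / θ ^ R) * Real.log ((S.chain θ st).a 0 x τ)| ≤ θ ^ R * S.M ^ 2 * Real.exp S.M := by
  have hpw : pw θ R 0 = θ ^ R := by simp [pw]
  have hm : 0 < θ ^ R := pow_pos h0 R
  have hm1 : θ ^ R ≤ 1 := pow_le_one₀ h0.le h1.le
  have hG := good_remSlots h0 h1 st (Nat.zero_le R)
  have hall : allSlots θ st = blk (pw θ R 0) (blkAt st 0).pre ++ remSlots θ st 0 := by
    rw [allSlots_eq θ st (Nat.zero_le R), before_zero, List.nil_append, full_eq,
      List.append_assoc, remSlots]
  have key := S.exp_val_block (pw_pos h0 R 0) (blkAt st 0).pre (remSlots θ st 0) τ x0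
  rw [← hall] at key
  have hval : S.val (allSlots θ st) τ x0 = (1 / θ ^ R) * Real.log
      ((S.law0 θ st x0).E fun y => Real.exp (θ ^ R * S.val (remSlots θ st 0) τ y)) := by
    unfold law0
    rw [exPE_E, ← hpw, ← key, Real.log_exp, ← mul_assoc, one_div_mul_cancel (pw_pos h0 R 0).ne',
      one_mul]
  have hlog : ∀ x, (1 / θ ^ R) * Real.log ((S.chain θ st).a 0 x τ) =
      S.val (remSlots θ st 0) τ x := by
    intro x
    have : (S.chain θ st).a 0 x τ = Real.exp (pw θ R 0 * S.val (remSlots θ st 0) τ x) := rfl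
    rw [this, Real.log_exp, hpw, ← mul_assoc, one_div_mul_cancel hm.ne', one_mul]
  simp only [hlog]
  rw [hval]
  exact PE.log_exp_near _ hm hm1 S.M_nonneg fun x => S.abs_val_le hG.1 τ x

/-- The covariances of the chain are those of `Icov`. -/
theorem chain_Ic {θ : ℝ} (h0 : 0 < θ) (h1 : θ < 1) (st : St R n Ω) {p : ℕ} (hp : p < R) (x : 𝒩)
    (τ' τ : Ω) : (S.chain θ st).Ic θ p x τ' τ =
      S.Icov (pw θ R p) (pw θ R (p + 1)) (blkAt st p).suf (blkAt st (p + 1)).pre
        (blkAt st (p + 1)).suf (rest θ st (p + 1)) τ' τ x := by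
  have hr : blk (pw θ R (p + 1)) (blkAt st (p + 1)).pre ++
      (blk (pw θ R (p + 1)) (blkAt st (p + 1)).suf ++ rest θ st (p + 1)) = rest θ st p :=
    (rest_split θ st hp).symm
  have hE : ∀ f : 𝒩 → 𝒩 → ℝ, S.E2 (pw θ R p) (pw θ R (p + 1)) (blkAt st p).suf
      (blkAt st (p + 1)).pre (blkAt st (p + 1)).suf (rest θ st (p + 1)) f x =
      ((S.chain θ st).two p x).E fun u => f u.1 u.2 := by
    intro f
    unfold E2
    rw [hr]
    rfl
  have hg : ∀ s z, S.av (pw θ R (p + 1)) (blk (pw θ R (p + 1)) (blkAt st (p + 1)).suf ++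
      rest θ st (p + 1)) τ z * Real.exp ((pw θ R p - pw θ R (p + 1)) *
        S.val (blk (pw θ R (p + 1)) (blkAt st (p + 1)).pre ++
          (blk (pw θ R (p + 1)) (blkAt st (p + 1)).suf ++ rest θ st (p + 1))) τ s) =
      (S.chain θ st).a (p + 1) z τ * (S.chain θ st).hat p s τ ^ (θ - 1) := by
    intro s z
    rw [S.chain_hat h0 st hp, ← Real.exp_mul, hr, pw_succ hp]
    congr 2
    ring
  unfold Icov Chain.Ic PE.cov
  simp only [hg, hE]
  rfl

variable [Fintype Ω] [Nonempty Ω]

/-- Resampling one coordinate of a uniform structure. -/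
theorem unif_update (p : Fin (R + 1)) (f : St R n Ω → ℝ) :
    (PE.unif (St R n Ω)).E (fun st => (PE.unif (Blk n Ω)).E fun b =>
      f (Function.update st p b)) = (PE.unif (St R n Ω)).E f := by
  classical
  have hB : (Fintype.card (Blk n Ω) : ℝ) ≠ 0 := by exact_mod_cast Fintype.card_ne_zero
  simp only [PE.unif_E]
  congr 1
  rw [← Finset.sum_div, div_eq_iff hB]
  let e := Equiv.funSplitAt p (Blk n Ω)
  have h1 : ∀ (st : St R n Ω) (b : Blk n Ω), Function.update st p b = e.symm (b, (e st).2) := by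
    intro st b
    funext j
    by_cases hj : j = p
    · subst hj
      simp only [Function.update_self, ne_eq, Equiv.funSplitAt, Equiv.piSplitAt, eq_rec_constant, Equiv.symm_mk, Equiv.coe_fn_mk, ↓reduceDIte, e]
    · simp only [ne_eq, hj, not_false_eq_true, Function.update_of_ne, Equiv.funSplitAt, Equiv.piSplitAt, eq_rec_constant, Equiv.symm_mk, Equiv.coe_fn_mk, ↓reduceDIte, e]
  have h2 : ∑ st : St R n Ω, ∑ b, f (Function.update st p b) =
      ∑ x : Blk n Ω × ({j // j ≠ p} → Blk n Ω), ∑ b, f (e.symm (b, x.2)) := by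
    rw [← Equiv.sum_comp e]
    refine Finset.sum_congr rfl fun st _ => Finset.sum_congr rfl fun b _ => ?_
    rw [h1]
  rw [h2, Fintype.sum_prod_type]
  simp only [Finset.sum_const, card_univ, nsmul_eq_mul]
  rw [mul_comm]
  congr 1
  rw [← Equiv.sum_comp e.symm, Fintype.sum_prod_type, Finset.sum_comm]

/-- (M) for the last block (power `1`) of a random structure. -/
theorem chain_M_avg {θ : ℝ} (h0 : 0 < θ) (h1 : θ < 1) (x0 : 𝒩) (τ' : Ω) :
    ((PE.unif (St R n Ω)).E fun st => (S.lawP θ st x0 R).E fun y => (PE.unif Ω).E fun τ =>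
      ((S.chain θ st).a R (S.act τ y) τ' - (S.chain θ st).a R y τ') ^ 2) ≤
      S.CM / (n + 1) := by
  classical
  rw [← unif_update (⟨R, by omega⟩ : Fin (R + 1))]
  refine PE.le_const _ fun st => ?_
  have hpw : pw θ R R = 1 := by unfold pw; simp
  have hb : ∀ b : Blk n Ω, blkAt (Function.update st ⟨R, by omega⟩ b) R = b := fun b =>
    blkAt_update_same st le_rfl b
  have hbe : ∀ b : Blk n Ω, before θ (Function.update st ⟨R, by omega⟩ b) R = before θ st R :=
    fun b => before_congr θ fun q hq => blkAt_update_ne st le_rfl hq.le (by omega) b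
  have key := S.insertM (n := n) (μ := 1) (before θ st R) [] (fun l => by
    have := good_split h0 h1 st le_rfl l
    rwa [hpw, rest_last] at this) one_pos le_rfl τ' x0
  refine le_trans (le_of_eq ?_) key
  congr 1
  funext b
  have e1 : ∀ y τ, ((S.chain θ (Function.update st ⟨R, by omega⟩ b)).a R (S.act τ y) τ' -
      (S.chain θ (Function.update st ⟨R, by omega⟩ b)).a R y τ') ^ 2 =
      (S.av 1 (blk 1 b.suf ++ []) τ' (S.act τ y) - S.av 1 (blk 1 b.suf ++ []) τ' y) ^ 2 := by
    intro y τ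
    unfold chain remSlots
    simp only [hpw, hb, rest_last]
  simp_rw [e1]
  rw [PE.comm_unif]
  congr 1
  funext τ
  unfold lawP remSlots
  rw [exPE_E, hpw, hb, hbe, rest_last]

/-- (4.2) for the chain of a random structure. -/
theorem chain_I_avg {θ : ℝ} (h0 : 0 < θ) (h1 : θ < 1) {p : ℕ} (hp : p < R) (x0 : 𝒩) :
    ((PE.unif (St R n Ω)).E fun st => (S.lawP θ st x0 p).E fun y =>
      (PE.unif Ω).E fun τ => (PE.unif Ω).E fun τ' => |(S.chain θ st).Ic θ p y τ' τ|) ≤
      S.CI / Real.sqrt (n + 1) := by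
  classical
  rw [← unif_update (⟨p, by omega⟩ : Fin (R + 1))]
  have hsw : ∀ F : St R n Ω → ℝ, (PE.unif (St R n Ω)).E F =
      (PE.unif (St R n Ω)).E fun st => (PE.unif (Blk n Ω)).E fun b' =>
        F (Function.update st ⟨p + 1, by omega⟩ b') := fun F =>
    (unif_update (⟨p + 1, by omega⟩ : Fin (R + 1)) F).symm
  rw [hsw]
  refine PE.le_const _ fun st => ?_
  rw [PE.comm_unif]
  have key := S.insertI (n := n) (μ := pw θ R p) (μ' := pw θ R (p + 1)) (before θ st p)
    (rest θ st (p + 1)) (fun l l' => good_split2 h0 h1 st hp l l') (pow_pos h0 _)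
    (pow_le_pow_of_le_one h0.le h1.le (by omega)) (pow_le_one₀ h0.le h1.le) x0
  refine le_trans (le_of_eq ?_) key
  congr 1
  funext b
  congr 1
  funext b'
  set st' : St R n Ω := Function.update (Function.update st ⟨p + 1, by omega⟩ b') ⟨p, by omega⟩ b
    with hst'
  have hb : blkAt st' p = b := blkAt_update_same _ hp.le b
  have hb' : blkAt st' (p + 1) = b' := by
    rw [hst', blkAt_update_ne _ hp.le (by omega) (by omega)]
    exact blkAt_update_same st (by omega) b'
  have hne : ∀ q, q ≤ R → q ≠ p → q ≠ p + 1 → blkAt st' q = blkAt st q := by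
    intro q hq h2 h3
    rw [hst', blkAt_update_ne _ hp.le hq h2, blkAt_update_ne _ (by omega) hq h3]
  have hbe : before θ st' p = before θ st p :=
    before_congr θ fun q hq => hne q (by omega) (by omega) (by omega)
  have hre : rest θ st' (p + 1) = rest θ st (p + 1) :=
    rest_congr θ fun q hq hq' => hne q hq' (by omega) (by omega)
  have e1 : ∀ y τ τ', |(S.chain θ st').Ic θ p y τ' τ| =
      |S.Icov (pw θ R p) (pw θ R (p + 1)) b.suf b'.pre b'.suf (rest θ st (p + 1)) τ' τ y| := by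
    intro y τ τ'
    rw [S.chain_Ic h0 h1 st' hp, hb, hb', hre]
  simp_rw [e1]
  rw [PE.comm_unif]
  congr 1
  funext τ
  rw [PE.comm_unif]
  congr 1
  funext τ'
  unfold lawP remSlots
  rw [exPE_E, hb, hbe, rest_eq θ st' hp, hre]
  unfold full
  rw [hb']

end Slots

end Vale.Agent.N168I.MP
end
end

section

section

set_option autoImplicit false

open Finset Filter Topology

namespace Vale.Agent.N168I.MP

/-- The total error bound of the construction. -/
noncomputable def totErr (c M cW cJ : ℝ) (nJ : ℕ) (CI CL : ℝ) (R : ℕ) (θ : ℝ) (K0 Dq Λ n : ℕ) : ℝ :=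
  c⁻¹ / θ ^ R * c ^ (-(R * (1 - θ))) *
    (c⁻¹ ^ 3 * Real.sqrt ((Λ : ℝ) ^ nJ) * (R * Real.sqrt (CI / Real.sqrt (n + 1))) +
      c⁻¹ ^ 3 * (1 - θ) * (Real.sqrt R * Real.sqrt (5 * c⁻¹ ^ 5 * (1 + R * (1 - θ)))) +
      c⁻¹ ^ 3 * (1 - θ) * (5 * c⁻¹ ^ 5 * (1 + R * (1 - θ))) +
      2 * (R * (c⁻¹ ^ R * (cW * (CL / Real.sqrt (n + 1)) + cW * (c⁻¹ * (cJ / Dq)) +
        2 * R * (2 * cW * c⁻¹ / Real.sqrt K0)))) +
      CL / Real.sqrt (n + 1)) +
  θ ^ R * (M ^ 2 * Real.exp M)

theorem tendsto_inv_sqrt_nat : Tendsto (fun n : ℕ => 1 / Real.sqrt ((n : ℝ) + 1)) atTop (𝓝 0) := by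
  have h1 : Tendsto (fun n : ℕ => (n : ℝ) + 1) atTop atTop :=
    tendsto_atTop_add_const_right _ _ tendsto_natCast_atTop_atTop
  have h2 := (Real.tendsto_sqrt_atTop.comp h1).inv_tendsto_atTop
  refine h2.congr fun n => ?_
  simp

theorem tendsto_inv_sqrt_nat' : Tendsto (fun n : ℕ => 1 / Real.sqrt (n : ℝ)) atTop (𝓝 0) := by
  have h2 := (Real.tendsto_sqrt_atTop.comp tendsto_natCast_atTop_atTop).inv_tendsto_atTop
  refine h2.congr fun n => ?_
  simp

/-- The parameter `θ = m ^ (1 / R)`. -/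
theorem exists_theta {m : ℝ} (hm : 0 < m) (hm1 : m < 1) {R : ℕ} (hR : 0 < R) :
    ∃ θ : ℝ, 0 < θ ∧ θ < 1 ∧ θ ^ R = m ∧ R * (1 - θ) ≤ -Real.log m := by
  have hR' : (0 : ℝ) < R := by exact_mod_cast hR
  refine ⟨m ^ (1 / (R : ℝ)), Real.rpow_pos_of_pos hm _,
    Real.rpow_lt_one hm.le hm1 (by positivity), ?_, ?_⟩
  · rw [← Real.rpow_natCast, ← Real.rpow_mul hm.le]
    rw [one_div_mul_cancel hR'.ne', Real.rpow_one]
  · have h1 : m ^ (1 / (R : ℝ)) = Real.exp (Real.log m * (1 / R)) := Real.rpow_def_of_pos hm _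
    have h2 := Real.add_one_le_exp (Real.log m * (1 / R))
    rw [h1]
    have h3 : 1 - Real.exp (Real.log m * (1 / R)) ≤ -(Real.log m * (1 / R)) := by linarith only [h2]
    calc (R : ℝ) * (1 - Real.exp (Real.log m * (1 / R))) ≤ R * -(Real.log m * (1 / R)) :=
          mul_le_mul_of_nonneg_left h3 hR'.le
      _ = _ := by (clear * - hR; field_simp)

/-- Choice of the parameters: first `m = θ ^ R` small, then `R` large, then `Dq` and `K0`, then
`n`. -/
theorem exists_params {c M cW cJ : ℝ} (nJ : ℕ) {CI CL : ℝ} (hc : 0 < c) (hc1 : c ≤ 1)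
    (hcW : 0 ≤ cW) (hcJ : 0 ≤ cJ) (hCL : 0 ≤ CL) {ε : ℝ} (hε : 0 < ε) :
    ∃ (r : ℕ) (θ : ℝ) (K0 Dq Λ n0 : ℕ), 0 < θ ∧ θ < 1 ∧ 0 < K0 ∧ 0 < Dq ∧
      (∀ j ≤ r + 1, Chain.lab K0 Dq j ≤ Λ) ∧
      ∀ n : ℕ, n0 ≤ n → totErr c M cW cJ nJ CI CL (r + 1) θ K0 Dq Λ n ≤ ε := by
  -- the root parameter
  obtain ⟨m, hm, hm1, hmε⟩ : ∃ m : ℝ, 0 < m ∧ m < 1 ∧ m * (M ^ 2 * Real.exp M) ≤ ε / 5 := by
    have hA : 0 ≤ M ^ 2 * Real.exp M := by positivity
    refine ⟨min (1 / 2) (ε / 5 / (M ^ 2 * Real.exp M + 1)), ?_, ?_, ?_⟩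
    · apply lt_min <;> positivity
    · exact lt_of_le_of_lt (min_le_left _ _) (by norm_num)
    · calc _ ≤ (ε / 5 / (M ^ 2 * Real.exp M + 1)) * (M ^ 2 * Real.exp M) :=
            mul_le_mul_of_nonneg_right (min_le_right _ _) hA
        _ ≤ (ε / 5 / (M ^ 2 * Real.exp M + 1)) * (M ^ 2 * Real.exp M + 1) :=
            mul_le_mul_of_nonneg_left (by linarith) (by positivity)
        _ = ε / 5 := by field_simp
  set ℓ : ℝ := -Real.log m with hℓ
  have hℓ0 : 0 < ℓ := by
    have := Real.log_neg hm hm1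
    linarith only [this]
  have hci : 1 ≤ c⁻¹ := (one_le_inv₀ hc).2 hc1
  set B : ℝ := c⁻¹ / m * c ^ (-ℓ) with hB
  have hB0 : 0 < B := by positivity
  set K : ℝ := 5 * c⁻¹ ^ 5 * (1 + ℓ) with hK
  have hK0 : 0 < K := by positivity
  -- choice of `R`
  obtain ⟨R, hR, hR2⟩ : ∃ R : ℕ, 0 < R ∧
      B * (c⁻¹ ^ 3 * (ℓ / R) * (Real.sqrt R * Real.sqrt K) + c⁻¹ ^ 3 * (ℓ / R) * K) ≤ ε / 5 := by
    have h1 : Tendsto (fun R : ℕ => B * c⁻¹ ^ 3 * ℓ * (Real.sqrt K + K) * (1 / Real.sqrt (R : ℝ)))
        atTop (𝓝 (B * c⁻¹ ^ 3 * ℓ * (Real.sqrt K + K) * 0)) :=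
      tendsto_inv_sqrt_nat'.const_mul _
    rw [mul_zero] at h1
    obtain ⟨R, hR1, hR2⟩ := (((tendsto_order.1 h1).2 (ε / 5) (by positivity)).and
      (eventually_ge_atTop 1)).exists
    refine ⟨R, hR2, le_trans ?_ hR1.le⟩
    have hR' : (1 : ℝ) ≤ R := by exact_mod_cast hR2
    have hs : 1 ≤ Real.sqrt R := Real.one_le_sqrt.2 hR'
    have hss : Real.sqrt R * Real.sqrt R = R := Real.mul_self_sqrt (by linarith only [])
    have e1 : ℓ / R * Real.sqrt R = ℓ * (1 / Real.sqrt R) := by
      have : Real.sqrt R ≠ 0 := by linarith only [hs]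
      have : (R : ℝ) ≠ 0 := by linarith only [hR']
      field_simp
      nlinarith only [hss]
    have e2 : ℓ / R ≤ ℓ * (1 / Real.sqrt R) := by
      rw [← e1]
      exact le_mul_of_one_le_right (by positivity) hs
    calc B * (c⁻¹ ^ 3 * (ℓ / R) * (Real.sqrt R * Real.sqrt K) + c⁻¹ ^ 3 * (ℓ / R) * K)
        = B * c⁻¹ ^ 3 * Real.sqrt K * (ℓ / R * Real.sqrt R) + B * c⁻¹ ^ 3 * K * (ℓ / R) := by ring
      _ ≤ B * c⁻¹ ^ 3 * Real.sqrt K * (ℓ * (1 / Real.sqrt R)) +
          B * c⁻¹ ^ 3 * K * (ℓ * (1 / Real.sqrt R)) := by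
          rw [e1]
          (clear * - e2 hc hm hℓ0; gcongr)
      _ = _ := by ring
  obtain ⟨r, rfl⟩ : ∃ r, R = r + 1 := ⟨R - 1, by omega⟩
  obtain ⟨θ, hθ0, hθ1, hθm, hθℓ⟩ := exists_theta hm hm1 hR
  have hR' : (0 : ℝ) < ((r + 1 : ℕ) : ℝ) := by exact_mod_cast hR
  have hu : 1 - θ ≤ ℓ / ((r + 1 : ℕ) : ℝ) := by
    rw [le_div_iff₀ hR', mul_comm]
    exact hθℓ
  have hu0 : 0 ≤ 1 - θ := by linarith only [hθ1]
  -- choice of `Dq` and `K0`
  obtain ⟨Dq, hDq, hDq2⟩ : ∃ Dq : ℕ, 0 < Dq ∧
      B * (2 * (((r + 1 : ℕ) : ℝ) * (c⁻¹ ^ (r + 1) * (cW * (c⁻¹ * (cJ / Dq)))))) ≤ ε / 5 := by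
    have h1 : Tendsto (fun D : ℕ => B * 2 * ((r + 1 : ℕ) : ℝ) * c⁻¹ ^ (r + 1) * cW * c⁻¹ *
        (cJ / (D : ℝ))) atTop (𝓝 (B * 2 * ((r + 1 : ℕ) : ℝ) * c⁻¹ ^ (r + 1) * cW * c⁻¹ * 0)) :=
      (tendsto_const_div_atTop_nhds_zero_nat cJ).const_mul _
    rw [mul_zero] at h1
    obtain ⟨D, h1, h2⟩ := (((tendsto_order.1 h1).2 (ε / 5) (by positivity)).and
      (eventually_ge_atTop 1)).exists
    exact ⟨D, h2, le_trans (le_of_eq (by ring)) h1.le⟩
  obtain ⟨K0, hK0', hK02⟩ : ∃ K0 : ℕ, 0 < K0 ∧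
      B * (2 * (((r + 1 : ℕ) : ℝ) * (c⁻¹ ^ (r + 1) *
        (2 * ((r + 1 : ℕ) : ℝ) * (2 * cW * c⁻¹ / Real.sqrt K0))))) ≤ ε / 5 := by
    have h1 : Tendsto (fun D : ℕ => B * 2 * ((r + 1 : ℕ) : ℝ) * c⁻¹ ^ (r + 1) * 2 *
        ((r + 1 : ℕ) : ℝ) * 2 * cW * c⁻¹ * (1 / Real.sqrt (D : ℝ))) atTop
        (𝓝 (B * 2 * ((r + 1 : ℕ) : ℝ) * c⁻¹ ^ (r + 1) * 2 *
        ((r + 1 : ℕ) : ℝ) * 2 * cW * c⁻¹ * 0)) :=
      tendsto_inv_sqrt_nat'.const_mul _
    rw [mul_zero] at h1
    obtain ⟨D, h1, h2⟩ := (((tendsto_order.1 h1).2 (ε / 5) (by positivity)).and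
      (eventually_ge_atTop 1)).exists
    exact ⟨D, h2, le_trans (le_of_eq (by ring)) h1.le⟩
  -- `Λ`
  set Λ : ℕ := ∑ j ∈ range (r + 2), Chain.lab K0 Dq j with hΛ
  -- choice of `n`
  obtain ⟨n0, hn0⟩ : ∃ n0 : ℕ, ∀ n : ℕ, n0 ≤ n →
      B * (c⁻¹ ^ 3 * Real.sqrt ((Λ : ℝ) ^ nJ) *
        (((r + 1 : ℕ) : ℝ) * Real.sqrt (CI / Real.sqrt (n + 1))) +
        2 * (((r + 1 : ℕ) : ℝ) * (c⁻¹ ^ (r + 1) * (cW * (CL / Real.sqrt (n + 1))))) +
        CL / Real.sqrt (n + 1)) ≤ ε / 5 := by
    have h0 := tendsto_inv_sqrt_nat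
    have h1 : Tendsto (fun n : ℕ => CI / Real.sqrt ((n : ℝ) + 1)) atTop (𝓝 0) := by
      have := h0.const_mul CI
      rw [mul_zero] at this
      exact this.congr fun n => by ring
    have h2 : Tendsto (fun n : ℕ => Real.sqrt (CI / Real.sqrt ((n : ℝ) + 1))) atTop (𝓝 0) := by
      have := (Real.continuous_sqrt.tendsto 0).comp h1
      rwa [Real.sqrt_zero] at this
    have h3 : Tendsto (fun n : ℕ => CL / Real.sqrt ((n : ℝ) + 1)) atTop (𝓝 0) := by
      have := h0.const_mul CL
      rw [mul_zero] at this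
      exact this.congr fun n => by ring
    have h4 : Tendsto (fun n : ℕ => B * (c⁻¹ ^ 3 * Real.sqrt ((Λ : ℝ) ^ nJ) *
        (((r + 1 : ℕ) : ℝ) * Real.sqrt (CI / Real.sqrt (n + 1))) +
        2 * (((r + 1 : ℕ) : ℝ) * (c⁻¹ ^ (r + 1) * (cW * (CL / Real.sqrt (n + 1))))) +
        CL / Real.sqrt (n + 1))) atTop (𝓝 (B * (c⁻¹ ^ 3 * Real.sqrt ((Λ : ℝ) ^ nJ) *
        (((r + 1 : ℕ) : ℝ) * 0) + 2 * (((r + 1 : ℕ) : ℝ) * (c⁻¹ ^ (r + 1) * (cW * 0))) + 0))) :=
      (((((h2.const_mul _).const_mul _).add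
        ((((h3.const_mul _).const_mul _).const_mul _).const_mul _)).add h3).const_mul _)
    simp only [mul_zero, add_zero] at h4
    obtain ⟨n0, hn0⟩ := eventually_atTop.1 ((tendsto_order.1 h4).2 (ε / 5) (by positivity))
    exact ⟨n0, fun n hn => (hn0 n hn).le⟩
  refine ⟨r, θ, K0, Dq, Λ, n0, hθ0, hθ1, hK0', hDq, ?_, ?_⟩
  · intro j hj
    exact Finset.single_le_sum (f := fun j => Chain.lab K0 Dq j) (fun _ _ => Nat.zero_le _)
      (Finset.mem_range.2 (by omega))
  · intro n hn
    have hn' := hn0 n hn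
    unfold totErr
    rw [hθm]
    have hpow : c ^ (-(((r + 1 : ℕ) : ℝ) * (1 - θ))) ≤ c ^ (-ℓ) :=
      Real.rpow_le_rpow_of_exponent_ge hc hc1 (by linarith only [hθℓ])
    have hfac : c⁻¹ / m * c ^ (-(((r + 1 : ℕ) : ℝ) * (1 - θ))) ≤ B :=
      mul_le_mul_of_nonneg_left hpow (by positivity)
    have hs5 : 5 * c⁻¹ ^ 5 * (1 + ((r + 1 : ℕ) : ℝ) * (1 - θ)) ≤ K := by
      refine mul_le_mul_of_nonneg_left ?_ (by positivity)
      linarith only [hθℓ]
    have hs6 : Real.sqrt (5 * c⁻¹ ^ 5 * (1 + ((r + 1 : ℕ) : ℝ) * (1 - θ))) ≤ Real.sqrt K :=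
      Real.sqrt_le_sqrt hs5
    have t2 : c⁻¹ ^ 3 * (1 - θ) * (Real.sqrt ((r + 1 : ℕ) : ℝ) *
        Real.sqrt (5 * c⁻¹ ^ 5 * (1 + ((r + 1 : ℕ) : ℝ) * (1 - θ)))) ≤
        c⁻¹ ^ 3 * (ℓ / ((r + 1 : ℕ) : ℝ)) * (Real.sqrt ((r + 1 : ℕ) : ℝ) * Real.sqrt K) := by
      (clear * - hu hc hs6 hθ1 hℓ0; gcongr)
    have t3 : c⁻¹ ^ 3 * (1 - θ) * (5 * c⁻¹ ^ 5 * (1 + ((r + 1 : ℕ) : ℝ) * (1 - θ))) ≤
        c⁻¹ ^ 3 * (ℓ / ((r + 1 : ℕ) : ℝ)) * K := by
      have : 0 ≤ 5 * c⁻¹ ^ 5 * (1 + ((r + 1 : ℕ) : ℝ) * (1 - θ)) := by (clear * - hc hθ1; positivity)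
      (clear * - hu hc hs5 hθ1 hℓ0; gcongr)
    have hbr0 : 0 ≤ c⁻¹ ^ 3 * Real.sqrt ((Λ : ℝ) ^ nJ) *
        (((r + 1 : ℕ) : ℝ) * Real.sqrt (CI / Real.sqrt (n + 1))) +
      c⁻¹ ^ 3 * (1 - θ) * (Real.sqrt ((r + 1 : ℕ) : ℝ) *
        Real.sqrt (5 * c⁻¹ ^ 5 * (1 + ((r + 1 : ℕ) : ℝ) * (1 - θ)))) +
      c⁻¹ ^ 3 * (1 - θ) * (5 * c⁻¹ ^ 5 * (1 + ((r + 1 : ℕ) : ℝ) * (1 - θ))) +
      2 * (((r + 1 : ℕ) : ℝ) * (c⁻¹ ^ (r + 1) * (cW * (CL / Real.sqrt (n + 1)) +
        cW * (c⁻¹ * (cJ / Dq)) + 2 * ((r + 1 : ℕ) : ℝ) * (2 * cW * c⁻¹ / Real.sqrt K0)))) +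
      CL / Real.sqrt (n + 1) := by (clear * - hc hθ1 hcW hCL hcJ hDq hK0'; positivity)
    refine (add_le_add (mul_le_mul_of_nonneg_right hfac hbr0) hmε).trans ?_
    have key : c⁻¹ ^ 3 * Real.sqrt ((Λ : ℝ) ^ nJ) *
        (((r + 1 : ℕ) : ℝ) * Real.sqrt (CI / Real.sqrt (n + 1))) +
      c⁻¹ ^ 3 * (1 - θ) * (Real.sqrt ((r + 1 : ℕ) : ℝ) *
        Real.sqrt (5 * c⁻¹ ^ 5 * (1 + ((r + 1 : ℕ) : ℝ) * (1 - θ)))) +
      c⁻¹ ^ 3 * (1 - θ) * (5 * c⁻¹ ^ 5 * (1 + ((r + 1 : ℕ) : ℝ) * (1 - θ))) +
      2 * (((r + 1 : ℕ) : ℝ) * (c⁻¹ ^ (r + 1) * (cW * (CL / Real.sqrt (n + 1)) +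
        cW * (c⁻¹ * (cJ / Dq)) + 2 * ((r + 1 : ℕ) : ℝ) * (2 * cW * c⁻¹ / Real.sqrt K0)))) +
      CL / Real.sqrt (n + 1) ≤
      (c⁻¹ ^ 3 * Real.sqrt ((Λ : ℝ) ^ nJ) *
        (((r + 1 : ℕ) : ℝ) * Real.sqrt (CI / Real.sqrt (n + 1))) +
        2 * (((r + 1 : ℕ) : ℝ) * (c⁻¹ ^ (r + 1) * (cW * (CL / Real.sqrt (n + 1))))) +
        CL / Real.sqrt (n + 1)) +
      (c⁻¹ ^ 3 * (ℓ / ((r + 1 : ℕ) : ℝ)) * (Real.sqrt ((r + 1 : ℕ) : ℝ) * Real.sqrt K) +
        c⁻¹ ^ 3 * (ℓ / ((r + 1 : ℕ) : ℝ)) * K) +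
      (2 * (((r + 1 : ℕ) : ℝ) * (c⁻¹ ^ (r + 1) * (cW * (c⁻¹ * (cJ / Dq)))))) +
      (2 * (((r + 1 : ℕ) : ℝ) * (c⁻¹ ^ (r + 1) *
        (2 * ((r + 1 : ℕ) : ℝ) * (2 * cW * c⁻¹ / Real.sqrt K0))))) := by
      have e : 2 * (((r + 1 : ℕ) : ℝ) * (c⁻¹ ^ (r + 1) * (cW * (CL / Real.sqrt (n + 1)) +
        cW * (c⁻¹ * (cJ / Dq)) + 2 * ((r + 1 : ℕ) : ℝ) * (2 * cW * c⁻¹ / Real.sqrt K0)))) =
        2 * (((r + 1 : ℕ) : ℝ) * (c⁻¹ ^ (r + 1) * (cW * (CL / Real.sqrt (n + 1))))) +
        2 * (((r + 1 : ℕ) : ℝ) * (c⁻¹ ^ (r + 1) * (cW * (c⁻¹ * (cJ / Dq))))) +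
        2 * (((r + 1 : ℕ) : ℝ) * (c⁻¹ ^ (r + 1) *
          (2 * ((r + 1 : ℕ) : ℝ) * (2 * cW * c⁻¹ / Real.sqrt K0)))) := by ring
      rw [e]
      linarith only [t2, t3]
    have key2 := mul_le_mul_of_nonneg_left key hB0.le
    rw [mul_add B, mul_add B, mul_add B] at key2
    linarith only [hR2, hDq2, hK02, hn', key2]

end Vale.Agent.N168I.MP
end
end

section

section

set_option autoImplicit false
set_option linter.unusedSectionVars false

open Finset

namespace Vale.Agent.N168I.MP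

namespace PE

/-- Total variance: the conditional mean has smaller variance. -/
theorem var_bind_le {α β : Type} (P : PE α) (Q : α → PE β) (f : β → ℝ) :
    (P.var fun y => (Q y).E f) ≤ (P.bind Q).var f := by
  unfold PE.var
  rw [PE.bind_E, PE.bind_E]
  have h : (P.E fun y => (Q y).E f ^ 2) ≤ P.E fun y => (Q y).E fun z => f z ^ 2 :=
    P.mono fun y => (Q y).sq_le f
  linarith

end PE

namespace Chain

variable {𝒩 Ω : Type} {C : Chain 𝒩 Ω} {θ c : ℝ} {R : ℕ}

theorem Ok.hat_lo (h : C.Ok θ c R) {p : ℕ} (hp : p < R) (y : 𝒩) (τ : Ω) : c ≤ C.hat p y τ :=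
  (C.ρ p y).const_le fun z => h.lo (p + 1) hp z τ

theorem Ok.hat_hi (h : C.Ok θ c R) {p : ℕ} (hp : p < R) (y : 𝒩) (τ : Ω) : C.hat p y τ ≤ c⁻¹ :=
  (C.ρ p y).le_const fun z => h.hi (p + 1) hp z τ

theorem A_eq (p : ℕ) (x : 𝒩) (τ : Ω) : C.A p x τ = (C.κ p x).E fun y => C.hat p y τ := rfl

theorem Ok.A_lo (h : C.Ok θ c R) {p : ℕ} (hp : p < R) (x : 𝒩) (τ : Ω) : c ≤ C.A p x τ :=
  (C.step p x).const_le fun z => h.lo (p + 1) hp z τ

theorem Ok.A_hi (h : C.Ok θ c R) {p : ℕ} (hp : p < R) (x : 𝒩) (τ : Ω) : C.A p x τ ≤ c⁻¹ :=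
  (C.step p x).le_const fun z => h.hi (p + 1) hp z τ

theorem vr_nonneg (p : ℕ) (x : 𝒩) (τ : Ω) : 0 ≤ C.vr p x τ := PE.var_nonneg _ _

/-- (F2). -/
theorem Ok.F2 (h : C.Ok θ c R) {p : ℕ} (hp : p < R) (x : 𝒩) (τ : Ω) :
    |C.a p x τ - (C.A p x τ) ^ θ| ≤ c⁻¹ ^ 2 * (1 - θ) * C.vr p x τ := by
  rw [h.rel p hp x τ, A_eq]
  refine ((C.κ p x).jensen_rpow h.θ_pos h.θ_lt.le h.c_pos h.c_le (h.hat_lo hp · τ)
    (h.hat_hi hp · τ)).trans ?_
  apply mul_le_mul_of_nonneg_left _
    (mul_nonneg (pow_nonneg (inv_nonneg.2 h.c_pos.le) 2) (by linarith only [h.θ_lt]))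
  exact PE.var_bind_le (C.κ p x) (C.ρ p) fun z => C.a (p + 1) z τ

/-- `a_p` is close to `A_p`. -/
theorem Ok.a_sub_A (h : C.Ok θ c R) {p : ℕ} (hp : p < R) (x : 𝒩) (τ : Ω) :
    |C.a p x τ - C.A p x τ| ≤ c⁻¹ ^ 3 * (1 - θ) := by
  rw [h.rel p hp x τ, A_eq]
  refine ((C.κ p x).abs_sub_le _ _).trans ?_
  exact (C.κ p x).le_const fun y =>
    rpow_near h.θ_pos h.θ_lt.le h.c_pos h.c_le (h.hat_lo hp y τ) (h.hat_hi hp y τ)

/-- (F3). -/
theorem Ok.F3 (h : C.Ok θ c R) (x : 𝒩) (τ : Ω) :
    ∑ p ∈ range R, (C.law x p).E (fun y => C.vr p y τ) ≤ 5 * c⁻¹ ^ 5 * (1 + R * (1 - θ)) := by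
  have hci : (1 : ℝ) ≤ c⁻¹ := (one_le_inv₀ h.c_pos).2 h.c_le
  have hc0 : (0 : ℝ) < c⁻¹ := by linarith
  have hθ : 0 ≤ 1 - θ := by linarith [h.θ_lt]
  have key : ∀ p < R, (C.law x p).E (fun y => C.vr p y τ) ≤
      ((C.law x (p + 1)).E (fun z => C.a (p + 1) z τ ^ 2) -
        (C.law x p).E (fun z => C.a p z τ ^ 2)) + 2 * c⁻¹ ^ 4 * (1 - θ) := by
    intro p hp
    have e : (C.law x (p + 1)).E (fun z => C.a (p + 1) z τ ^ 2) =
        (C.law x p).E fun y => (C.step p y).E fun z => C.a (p + 1) z τ ^ 2 := rfl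
    have h1 : ∀ y, C.vr p y τ ≤ ((C.step p y).E (fun z => C.a (p + 1) z τ ^ 2) -
        C.a p y τ ^ 2) + 2 * c⁻¹ ^ 4 * (1 - θ) := by
      intro y
      have h2 : C.vr p y τ = (C.step p y).E (fun z => C.a (p + 1) z τ ^ 2) - C.A p y τ ^ 2 := rfl
      rw [h2]
      have h3 := h.a_sub_A hp y τ
      have h4 := h.lo p hp.le y τ
      have h5 := h.hi p hp.le y τ
      have h6 := h.A_lo hp y τ
      have h7 := h.A_hi hp y τ
      have h8 : C.a p y τ ^ 2 - C.A p y τ ^ 2 ≤ 2 * c⁻¹ ^ 4 * (1 - θ) := by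
        have h9 : C.a p y τ ^ 2 - C.A p y τ ^ 2 ≤
            |C.a p y τ - C.A p y τ| * (C.a p y τ + C.A p y τ) := by
          have : C.a p y τ ^ 2 - C.A p y τ ^ 2 =
            (C.a p y τ - C.A p y τ) * (C.a p y τ + C.A p y τ) := by ring
          rw [this]
          apply mul_le_mul_of_nonneg_right (le_abs_self _)
          linarith only [h4, h6, h.c_pos]
        refine h9.trans ?_
        calc |C.a p y τ - C.A p y τ| * (C.a p y τ + C.A p y τ) ≤
              (c⁻¹ ^ 3 * (1 - θ)) * (c⁻¹ + c⁻¹) :=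
              mul_le_mul h3 (by linarith only [h5, h7]) (by linarith only [h4, h6, h.c_pos])
                (mul_nonneg (by positivity) hθ)
          _ = 2 * c⁻¹ ^ 4 * (1 - θ) := by ring
      linarith only [h8]
    refine ((C.law x p).mono h1).trans (le_of_eq ?_)
    rw [PE.add, PE.sub, PE.const, e]
  have hsum : ∑ p ∈ range R, (C.law x p).E (fun y => C.vr p y τ) ≤
      ∑ p ∈ range R, (((C.law x (p + 1)).E (fun z => C.a (p + 1) z τ ^ 2) -
        (C.law x p).E (fun z => C.a p z τ ^ 2)) + 2 * c⁻¹ ^ 4 * (1 - θ)) :=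
    Finset.sum_le_sum fun p hp => key p (Finset.mem_range.1 hp)
  refine hsum.trans ?_
  rw [Finset.sum_add_distrib,
    Finset.sum_range_sub (fun p => (C.law x p).E (fun z => C.a p z τ ^ 2)),
    Finset.sum_const, card_range, nsmul_eq_mul]
  have h1 : (C.law x R).E (fun z => C.a R z τ ^ 2) ≤ c⁻¹ ^ 2 := by
    apply PE.le_const
    intro z
    exact pow_le_pow_left₀ (h.c_pos.le.trans (h.lo R le_rfl z τ)) (h.hi R le_rfl z τ) 2
  have h2 : 0 ≤ (C.law x 0).E (fun z => C.a 0 z τ ^ 2) := PE.nonneg _ fun z => sq_nonneg _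
  have h3 : c⁻¹ ^ 2 ≤ c⁻¹ ^ 5 := pow_le_pow_right₀ hci (by norm_num)
  have h4 : c⁻¹ ^ 4 ≤ c⁻¹ ^ 5 := pow_le_pow_right₀ hci (by norm_num)
  have h5 : 0 ≤ (R : ℝ) * (1 - θ) := mul_nonneg (Nat.cast_nonneg _) hθ
  have h6 : (0 : ℝ) < c⁻¹ ^ 5 := by positivity
  nlinarith only [h1, h2, h3, h4, h5]

/-- Consequence of (F3) for the standard deviations. -/
theorem Ok.F3sd (h : C.Ok θ c R) (x : 𝒩) (τ : Ω) :
    ∑ p ∈ range R, (C.law x p).E (fun y => Real.sqrt (C.vr p y τ)) ≤
      Real.sqrt R * Real.sqrt (5 * c⁻¹ ^ 5 * (1 + R * (1 - θ))) := by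
  have h1 : ∑ p ∈ range R, (C.law x p).E (fun y => Real.sqrt (C.vr p y τ)) ≤
      ∑ p ∈ range R, Real.sqrt ((C.law x p).E fun y => C.vr p y τ) :=
    Finset.sum_le_sum fun p _ => (C.law x p).sqrt_le fun y => vr_nonneg p y τ
  refine h1.trans ?_
  rw [← Real.sqrt_mul (Nat.cast_nonneg R)]
  apply Real.le_sqrt_of_sq_le
  have h2 := Finset.sum_mul_sq_le_sq_mul_sq (range R) (fun _ => (1 : ℝ))
    (fun p => Real.sqrt ((C.law x p).E fun y => C.vr p y τ))
  simp only [one_mul, one_pow, Finset.sum_const, card_range, nsmul_eq_mul, mul_one] at h2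
  refine h2.trans ?_
  apply mul_le_mul_of_nonneg_left _ (Nat.cast_nonneg R)
  refine (le_of_eq ?_).trans (h.F3 x τ)
  apply Finset.sum_congr rfl
  intro p _
  exact Real.sq_sqrt (PE.nonneg _ fun y => vr_nonneg p y τ)

end Chain

end Vale.Agent.N168I.MP
end
end

section

section

set_option autoImplicit false
set_option linter.unusedSectionVars false

open Finset

namespace Vale.Agent.N168I.MP

namespace Chain

variable {𝒩 : Type} {S ι 𝒲 : Type} [Fintype S] [Nonempty S] [Fintype ι] [DecidableEq ι]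
  [Fintype 𝒲] [Nonempty 𝒲] {θ c : ℝ} {R : ℕ}

theorem appBy_nonneg {q : S → ℕ} {e : ℝ} {F : 𝒲 → (ι → S) → ℝ} (h : AppBy q e F) : 0 ≤ e := by
  obtain ⟨G, hG⟩ := h
  refine le_trans (Finset.sum_nonneg fun w _ => ?_) hG
  exact PE.nonneg _ fun s => abs_nonneg _

theorem er_zero (C : Chain 𝒩 (𝒲 × (ι → S))) (W : 𝒲 → (ι → Bool) → ℝ) (xh : 𝒩 → S → ℝ)
    (c η d : ℝ) (x : 𝒩) :
    C.er W xh R c η d 0 x = ∑ w, C.leafErr W xh R x w + d := rfl

theorem er_succ (C : Chain 𝒩 (𝒲 × (ι → S))) (W : 𝒲 → (ι → Bool) → ℝ) (xh : 𝒩 → S → ℝ)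
    (c η d : ℝ) (j : ℕ) (x : 𝒩) :
    C.er W xh R c η d (j + 1) x =
      c⁻¹ * ((C.step (R - (j + 1)) x).E (C.er W xh R c η d j) + 2 * η) := rfl

theorem lab_succ (K0 Dq j : ℕ) :
    lab K0 Dq (j + 1) = (lab K0 Dq j ^ K0) ^ K0 * lab K0 Dq j ^ K0 := rfl

theorem rpow_lip_inv (h0 : 0 < θ) (h1 : θ < 1) (hc : 0 < c) (hc1 : c ≤ 1) {u v : ℝ}
    (hu : c ≤ u) (hv : c ≤ v) : |u ^ θ - v ^ θ| ≤ c⁻¹ * |u - v| := by
  refine (rpow_lip h0 h1.le hc hu hv).trans ?_
  refine mul_le_mul_of_nonneg_right ?_ (abs_nonneg _)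
  rw [← Real.rpow_neg_one c]
  exact Real.rpow_le_rpow_of_exponent_ge hc hc1 (by linarith)

theorem hat_mem {C : Chain 𝒩 (𝒲 × (ι → S))} (h : C.Ok θ c R) {p : ℕ} (hp : p + 1 ≤ R) (y : 𝒩)
    (τ : 𝒲 × (ι → S)) : C.hat p y τ ∈ Set.Icc c c⁻¹ :=
  ⟨PE.const_le _ fun z => h.lo (p + 1) hp z τ, PE.le_const _ fun z => h.hi (p + 1) hp z τ⟩

theorem abs_le_of_mem {c u : ℝ} (hc : 0 < c) (h : u ∈ Set.Icc c c⁻¹) : |u| ≤ c⁻¹ := by
  rw [abs_of_nonneg (hc.le.trans h.1)]
  exact h.2

/-- Approximability of `a_p` and `A_p` by the same labels (section 5). -/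
theorem approx {C : Chain 𝒩 (𝒲 × (ι → S))} (h : C.Ok θ c R) {W : 𝒲 → (ι → Bool) → ℝ}
    {xh : 𝒩 → S → ℝ} (hW : ∀ w σ, |W w σ| ≤ c⁻¹) (hxh : ∀ x i, |xh x i| ≤ 1) {K0 Dq : ℕ}
    (hK : 0 < K0) (hD : 0 < Dq) (j : ℕ) (hj : j ≤ R) (x : 𝒩) :
    ∃ q : S → ℕ, nlab q ≤ lab K0 Dq j ∧
      AppBy q (C.er W xh R c (2 * Fintype.card 𝒲 * c⁻¹ / Real.sqrt K0)
        (Fintype.card 𝒲 * (c⁻¹ * (Fintype.card ι / Dq))) j x)
        (fun w s => C.a (R - j) x (w, s)) ∧
      (0 < j → AppBy q (C.er W xh R c (2 * Fintype.card 𝒲 * c⁻¹ / Real.sqrt K0)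
        (Fintype.card 𝒲 * (c⁻¹ * (Fintype.card ι / Dq))) j x)
        (fun w s => C.A (R - j) x (w, s))) := by
  have hc := h.c_pos
  have hc1 := h.c_le
  have hci : 0 < c⁻¹ := inv_pos.2 hc
  have hci1 : 1 ≤ c⁻¹ := (one_le_inv₀ hc).2 hc1
  set η : ℝ := 2 * Fintype.card 𝒲 * c⁻¹ / Real.sqrt K0 with hη
  set d : ℝ := Fintype.card 𝒲 * (c⁻¹ * (Fintype.card ι / Dq)) with hd
  have hη0 : 0 ≤ η := by (clear W xh hW hxh Dq hD j hj x hc1 hci hci1 hη d hd; positivity)
  induction j generalizing x with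
  | zero =>
    obtain ⟨q, hq, G, hG⟩ := appr_leaf (S := S) W hW (xh x) (hxh x) hD
    refine ⟨q, hq, ⟨G, ?_⟩, fun h0 => absurd h0 (lt_irrefl 0)⟩
    rw [er_zero]
    refine le_trans ?_ (add_le_add_right hG _)
    rw [← Finset.sum_add_distrib]
    refine Finset.sum_le_sum fun w _ => ?_
    unfold leafErr
    rw [← PE.add]
    refine PE.mono _ fun s => ?_
    exact abs_sub_le _ _ _
  | succ j ih =>
    have hjR : j ≤ R := by omega
    have hp : R - (j + 1) + 1 = R - j := by omega
    have hpR : R - (j + 1) + 1 ≤ R := by omega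
    have hpl : R - (j + 1) < R := by omega
    have ih' := ih hjR
    have hA : ∀ z : 𝒩, Appr (lab K0 Dq j) (C.er W xh R c η d j z)
        (fun w (s : ι → S) => C.a (R - (j + 1) + 1) z (w, s)) := by
      intro z
      obtain ⟨q, h1, h2, _⟩ := ih' z
      rw [hp]
      exact ⟨q, h1, h2⟩
    have her : ∀ z : 𝒩, 0 ≤ C.er W xh R c η d j z := by
      intro z
      obtain ⟨q, _, h2⟩ := hA z
      exact appBy_nonneg h2
    have habs : ∀ (z : 𝒩) (w : 𝒲) (s : ι → S), |C.a (R - (j + 1) + 1) z (w, s)| ≤ c⁻¹ :=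
      fun z w s => abs_le_of_mem hc ⟨h.lo _ hpR z (w, s), h.hi _ hpR z (w, s)⟩
    -- the function `A_p`
    obtain ⟨q2, hq2, hA2⟩ := averaging (C.step (R - (j + 1)) x)
      (fun z w (s : ι → S) => C.a (R - (j + 1) + 1) z (w, s)) hci habs hA hK
    -- the function `Ahat_p`
    have hhat : ∀ y : 𝒩, Appr (lab K0 Dq j ^ K0)
        (c⁻¹ * ((C.ρ (R - (j + 1)) y).E (C.er W xh R c η d j) + η))
        (fun w (s : ι → S) => (C.hat (R - (j + 1)) y (w, s)) ^ θ) := by
      intro y
      obtain ⟨q, hq, hy⟩ := averaging (C.ρ (R - (j + 1)) y)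
        (fun z w (s : ι → S) => C.a (R - (j + 1) + 1) z (w, s)) hci habs hA hK
      refine ⟨q, hq, ?_⟩
      have := AppBy.comp hy (lo := c) (hi := c⁻¹) (Λ := c⁻¹) (φ := fun u => u ^ θ)
        (fun w s => hat_mem h hpR y (w, s))
        (fun u hu v hv => rpow_lip_inv h.θ_pos h.θ_lt hc hc1 hu.1 hv.1) hci.le
      exact this
    have habs' : ∀ (y : 𝒩) (w : 𝒲) (s : ι → S), |(C.hat (R - (j + 1)) y (w, s)) ^ θ| ≤ c⁻¹ := by
      intro y w s
      have h1 := hat_mem h hpR y (w, s)
      exact abs_le_of_mem hc (rpow_mem h.θ_pos.le h.θ_lt.le hc hc1 h1.1 h1.2)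
    obtain ⟨q1, hq1, hA1⟩ := averaging (C.κ (R - (j + 1)) x)
      (fun y w (s : ι → S) => (C.hat (R - (j + 1)) y (w, s)) ^ θ) hci habs' hhat hK
    have hE : (C.κ (R - (j + 1)) x).E (fun y => c⁻¹ *
        ((C.ρ (R - (j + 1)) y).E (C.er W xh R c η d j) + η)) =
        c⁻¹ * ((C.step (R - (j + 1)) x).E (C.er W xh R c η d j) + η) := by
      rw [PE.smul, PE.add, PE.const]
      rfl
    have hstep : 0 ≤ (C.step (R - (j + 1)) x).E (C.er W xh R c η d j) := PE.nonneg _ her
    refine ⟨join q1 q2, ?_, ?_, fun _ => ?_⟩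
    · rw [lab_succ]
      exact (nlab_join_le q1 q2).trans (Nat.mul_le_mul hq1 hq2)
    · have h1 : AppBy (join q1 q2) _ _ := hA1.refine fun i j hij => join_left hij
      rw [hE] at h1
      have h2 : (fun w (s : ι → S) => C.a (R - (j + 1)) x (w, s)) =
          fun w s => (C.κ (R - (j + 1)) x).E fun y => (C.hat (R - (j + 1)) y (w, s)) ^ θ := by
        funext w s
        exact h.rel _ hpl x (w, s)
      rw [h2, er_succ]
      refine h1.mono ?_
      have : η ≤ c⁻¹ * η := le_mul_of_one_le_left hη0 hci1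
      have e : c⁻¹ * ((C.step (R - (j + 1)) x).E (C.er W xh R c η d j) + 2 * η) =
        c⁻¹ * ((C.step (R - (j + 1)) x).E (C.er W xh R c η d j) + η) + c⁻¹ * η := by ring
      rw [e]
      exact add_le_add_right this _
    · have h1 : AppBy (join q1 q2) _ _ := hA2.refine fun i j hij => join_right hij
      rw [er_succ]
      refine h1.mono ?_
      have h3 : (C.step (R - (j + 1)) x).E (C.er W xh R c η d j) + η ≤
          (C.step (R - (j + 1)) x).E (C.er W xh R c η d j) + 2 * η := by (clear hW hxh hD hc1 hci hci1 hη hd ih hj hjR hp hpR hpl ih' hA her habs q2 hq2 hA2 hhat habs' q1 hq1 hA1 hE hstep h1; linarith)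
      refine h3.trans ?_
      exact le_mul_of_one_le_left (by (clear hW hxh hD hc1 hci hci1 hη hd hη0 hpR hpl habs q2 hq2 hA2 hhat habs' q1 hq1 hA1 hE h1 h3; positivity)) hci1

end Chain

end Vale.Agent.N168I.MP
end
end

section

section

set_option autoImplicit false

open Finset

namespace Vale.Agent.N168I.MP

/-- Realization of trial data by one measurable message function on the unit cube. -/
theorem realize_data {S : Type} [Fintype S] [Nonempty S] {θ : ℝ} (h0 : 0 < θ) (h1 : θ < 1) (r : ℕ)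
    (data : Chain.Data (r + 1) S) :
    ∃ x : (Fin (r + 1) → U01) → ℝ, IsTrial r (fun i => θ ^ (r - (i : ℕ))) x ∧
      ∀ (ι : Type) [Fintype ι] [DecidableEq ι] (w : (ι → Bool) → ℝ), (∀ σ, 0 < w σ) →
        hierLog r (fun i => θ ^ (r - (i : ℕ))) (fun u v => mlin w (message x u v)) =
          1 / θ ^ (r + 1) * aS fun s : ι → S =>
            Real.log (betaRec θ (r + 1) data.1 (Chain.leafF w data.2) s) := by
  obtain ⟨x, hx, hval⟩ := realize (θ := θ) ⟨h0, h1⟩ r data.1
    (fun i => (data.2 i : ℝ)) (fun i => (data.2 i).2)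
  refine ⟨x, hx, fun ι _ _ w hw => ?_⟩
  rw [hval ι w hw, aS_eq]
  rfl

end Vale.Agent.N168I.MP
end
end
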