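import Vale.Agent.N168.Low1

/-!
The Mezard-Parisi lower bound for an arbitrary random interaction, second part (text of the
starting file `Bdl/B1` of this problem, over the larger type of interactions).
-/

set_option linter.all false

section

section

set_option autoImplicit false
set_option linter.unusedSectionVars false

open MeasureTheory ProbabilityTheory Finset
open scoped NNReal

namespace Vale.Agent.N168I

open KS (unifK integral_unif)

/-- Energies on `N` sites. -/
abbrev Egy (N : ℕ) : Type := (Fin N → Bool) → ℝ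

section LogZ

variable {N : ℕ}

/-- Log partition function of an energy. -/
noncomputable def logZ (H : Egy N) : ℝ := Real.log (∑ σ, Real.exp (H σ))

theorem logZ_mono {H H' : Egy N} {c : ℝ} (h : ∀ σ, H σ ≤ H' σ + c) : logZ H ≤ logZ H' + c := by
  unfold logZ
  have h1 : ∑ σ, Real.exp (H σ) ≤ Real.exp c * ∑ σ, Real.exp (H' σ) := by
    rw [Finset.mul_sum]
    refine Finset.sum_le_sum fun σ _ => ?_
    rw [← Real.exp_add, Real.exp_le_exp]
    linarith [h σ]
  have h2 : 0 < ∑ σ, Real.exp (H σ) :=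
    Finset.sum_pos (fun σ _ => Real.exp_pos _) Finset.univ_nonempty
  have h3 : 0 < ∑ σ, Real.exp (H' σ) :=
    Finset.sum_pos (fun σ _ => Real.exp_pos _) Finset.univ_nonempty
  calc Real.log (∑ σ, Real.exp (H σ)) ≤ Real.log (Real.exp c * ∑ σ, Real.exp (H' σ)) :=
        Real.log_le_log h2 h1
    _ = _ := by rw [Real.log_mul (Real.exp_pos c).ne' h3.ne', Real.log_exp]; ring

theorem logZ_lip : LipschitzWith 1 (logZ : Egy N → ℝ) := by
  refine LipschitzWith.of_dist_le_mul fun x y => ?_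
  rw [NNReal.coe_one, one_mul, Real.dist_eq, abs_le]
  have h : ∀ a b : Egy N, ∀ σ, a σ ≤ b σ + dist a b := by
    intro a b σ
    have := (abs_le.1 ((Real.dist_eq (a σ) (b σ)) ▸ dist_le_pi_dist a b σ)).2
    linarith
  have h1 := logZ_mono (h x y)
  have h2 := logZ_mono (h y x)
  rw [dist_comm y x] at h2
  constructor <;> linarith

/-- `logZ` as an element of `LipS`. -/
noncomputable def PhiL (N : ℕ) : LipS (Egy N) := ⟨logZ, 1, logZ_lip⟩

end LogZ

section Energies

variable {K N : ℕ}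

theorem norm_clauseE_le (x : Clause K × (Fin K → Fin N)) :
    ‖(clauseE x : Egy N)‖ ≤ maxTheta x.1 := by
  rw [pi_norm_le_iff_of_nonneg (maxTheta_nonneg _)]
  intro σ
  rw [Real.norm_eq_abs]
  exact abs_clauseE_le x σ

theorem measurable_clauseE' :
    Measurable (clauseE : Clause K × (Fin K → Fin N) → Egy N) := by
  rw [measurable_pi_iff]
  exact fun σ => measurable_clauseE σ

/-- Energy of the fields. -/
noncomputable def fieldE (h : Fin N → ℝ) : Egy N := fun σ => ∑ v, h v * spin (σ v)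

theorem norm_fieldE_le (h : Fin N → ℝ) : ‖(fieldE h : Egy N)‖ ≤ ∑ v, |h v| := by
  rw [pi_norm_le_iff_of_nonneg (Finset.sum_nonneg fun _ _ => abs_nonneg _)]
  intro σ
  rw [Real.norm_eq_abs]
  unfold fieldE
  refine (Finset.abs_sum_le_sum_abs _ _).trans (Finset.sum_le_sum fun v _ => ?_)
  rw [abs_mul, spin_abs_one, mul_one]

theorem measurable_fieldE : Measurable (fieldE : (Fin N → ℝ) → Egy N) := by
  rw [measurable_pi_iff]
  intro σ
  unfold fieldE
  exact Finset.measurable_fun_sum _ fun v _ => (measurable_pi_apply v).mul_const _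

/-- Energy of an interaction on `N + 1` sites, with a mask for the extra site `0`. -/
noncomputable def maskE (s : Fin K → Bool) (x : Clause K × (Fin K → Fin N)) : Egy (N + 1) :=
  fun σ => theta x.1 fun j => σ (merge s x.2 j)

theorem norm_maskE_le (s : Fin K → Bool) (x : Clause K × (Fin K → Fin N)) :
    ‖(maskE s x : Egy (N + 1))‖ ≤ maxTheta x.1 := by
  rw [pi_norm_le_iff_of_nonneg (maxTheta_nonneg _)]
  intro σ
  rw [Real.norm_eq_abs]
  exact abs_theta_le _ _

theorem measurable_maskE (s : Fin K → Bool) :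
    Measurable (maskE s : Clause K × (Fin K → Fin N) → Egy (N + 1)) := by
  rw [measurable_pi_iff]
  intro σ
  refine measurable_from_prod_countable_left (α := Clause K) (β := Fin K → Fin N)
    (f := fun x => maskE s x σ) fun I => ?_
  exact measurable_theta (fun j => σ (merge s I j))

/-- Energy of a cavity interaction: the position `y.1.2` is occupied by the extra site. -/
noncomputable def cavE (y : (Clause K × Fin K) × (Fin K → Fin N)) : Egy (N + 1) :=
  fun σ => theta y.1.1 fun j => σ (merge (emask y.1.2) y.2 j)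

theorem norm_cavE_le (y : (Clause K × Fin K) × (Fin K → Fin N)) :
    ‖(cavE y : Egy (N + 1))‖ ≤ maxTheta y.1.1 := by
  rw [pi_norm_le_iff_of_nonneg (maxTheta_nonneg _)]
  intro σ
  rw [Real.norm_eq_abs]
  exact abs_theta_le _ _

theorem measurable_cavE :
    Measurable (cavE : (Clause K × Fin K) × (Fin K → Fin N) → Egy (N + 1)) := by
  rw [measurable_pi_iff]
  intro σ
  refine measurable_from_prod_countable_left (α := Clause K × Fin K) (β := Fin K → Fin N)
    (f := fun x => cavE x σ) fun I => ?_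
  refine measurable_from_prod_countable_left (α := Clause K) (β := Fin K)
    (f := fun x => cavE (x, I) σ) fun l => ?_
  exact measurable_theta (fun j => σ (merge (emask l) I j))

/-- Energy of the field on the extra site. -/
noncomputable def fE0 (h : ℝ) : Egy (N + 1) := fun σ => h * spin (σ 0)

theorem norm_fE0_le (h : ℝ) : ‖(fE0 h : Egy (N + 1))‖ ≤ |h| := by
  rw [pi_norm_le_iff_of_nonneg (abs_nonneg _)]
  intro σ
  rw [Real.norm_eq_abs]
  unfold fE0
  rw [abs_mul, spin_abs_one, mul_one]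

theorem measurable_fE0 : Measurable (fE0 : ℝ → Egy (N + 1)) := by
  rw [measurable_pi_iff]
  intro σ
  unfold fE0
  exact measurable_id.mul_const _

/-- Lift of an energy on `N` sites to `N + 1` sites. -/
def liftE (H : Egy N) : Egy (N + 1) := fun σ => H fun i => σ i.succ

theorem liftE_add (H H' : Egy N) : liftE (H + H') = liftE H + liftE H' := rfl

theorem liftE_sum {ι : Type*} (t : Finset ι) (H : ι → Egy N) :
    liftE (∑ i ∈ t, H i) = ∑ i ∈ t, liftE (H i) := by
  funext σ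
  simp [liftE, Finset.sum_apply]

theorem norm_liftE_le (H : Egy N) : ‖liftE H‖ ≤ ‖H‖ := by
  rw [pi_norm_le_iff_of_nonneg (norm_nonneg _)]
  intro σ
  exact norm_le_pi_norm H _

theorem liftE_lip : LipschitzWith 1 (liftE : Egy N → Egy (N + 1)) := by
  refine LipschitzWith.of_dist_le_mul fun x y => ?_
  rw [NNReal.coe_one, one_mul, dist_eq_norm, dist_eq_norm]
  exact norm_liftE_le (x - y)

variable (ρ : Measure (Clause K)) [IsProbabilityMeasure ρ] (ν : Measure ℝ) [IsProbabilityMeasure ν]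

theorem integrable_maxTheta_of (h : ∀ σ, Integrable (fun c : Clause K => theta c σ) ρ) :
    Integrable (maxTheta : Clause K → ℝ) ρ := by
  have h1 : Integrable (fun c : Clause K => ∑ σ : Fin K → Bool, |theta c σ|) ρ :=
    integrable_finsetSum _ fun σ _ => (h σ).abs
  refine h1.mono' measurable_maxTheta.aestronglyMeasurable ?_
  refine Filter.Eventually.of_forall fun c => ?_
  rw [Real.norm_eq_abs, abs_of_nonneg (maxTheta_nonneg c)]
  exact maxTheta_le_sum c

theorem integrable_clauseE [NeZero N] (hρ : Integrable (maxTheta : Clause K → ℝ) ρ) :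
    Integrable (clauseE : _ → Egy N) (ρ.prod (unifK K N)) := by
  have h1 : Integrable (fun x : Clause K × (Fin K → Fin N) => maxTheta x.1)
    (ρ.prod (unifK K N)) := hρ.comp_fst _
  exact h1.mono' measurable_clauseE'.aestronglyMeasurable
    (Filter.Eventually.of_forall norm_clauseE_le)

theorem integral_norm_clauseE [NeZero N] (hρ : Integrable (maxTheta : Clause K → ℝ) ρ) :
    ∫ x, ‖(clauseE x : Egy N)‖ ∂(ρ.prod (unifK K N)) ≤ ∫ c, maxTheta c ∂ρ := by
  have h1 : Integrable (fun x : Clause K × (Fin K → Fin N) => maxTheta x.1)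
    (ρ.prod (unifK K N)) := hρ.comp_fst _
  calc ∫ x, ‖(clauseE x : Egy N)‖ ∂(ρ.prod (unifK K N))
      ≤ ∫ x, maxTheta x.1 ∂(ρ.prod (unifK K N)) :=
        integral_mono (integrable_clauseE ρ hρ).norm h1 norm_clauseE_le
    _ = _ := by
        have := integral_prod_mul (μ := ρ) (ν := unifK K N) (fun c : Clause K => maxTheta c)
          (fun _ => (1 : ℝ))
        simpa using this

theorem integrable_maskE [NeZero N] (hρ : Integrable (maxTheta : Clause K → ℝ) ρ)
    (s : Fin K → Bool) : Integrable (maskE s : _ → Egy (N + 1)) (ρ.prod (unifK K N)) := by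
  have h1 : Integrable (fun x : Clause K × (Fin K → Fin N) => maxTheta x.1)
    (ρ.prod (unifK K N)) := hρ.comp_fst _
  exact h1.mono' (measurable_maskE s).aestronglyMeasurable
    (Filter.Eventually.of_forall (norm_maskE_le s))

theorem integral_norm_maskE [NeZero N] (hρ : Integrable (maxTheta : Clause K → ℝ) ρ)
    (s : Fin K → Bool) :
    ∫ x, ‖(maskE s x : Egy (N + 1))‖ ∂(ρ.prod (unifK K N)) ≤ ∫ c, maxTheta c ∂ρ := by
  have h1 : Integrable (fun x : Clause K × (Fin K → Fin N) => maxTheta x.1)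
    (ρ.prod (unifK K N)) := hρ.comp_fst _
  calc ∫ x, ‖(maskE s x : Egy (N + 1))‖ ∂(ρ.prod (unifK K N))
      ≤ ∫ x, maxTheta x.1 ∂(ρ.prod (unifK K N)) :=
        integral_mono (integrable_maskE ρ hρ s).norm h1 (norm_maskE_le s)
    _ = _ := by
        have := integral_prod_mul (μ := ρ) (ν := unifK K N) (fun c : Clause K => maxTheta c)
          (fun _ => (1 : ℝ))
        simpa using this

theorem integrable_cavE [NeZero N] [NeZero K] (hρ : Integrable (maxTheta : Clause K → ℝ) ρ) :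
    Integrable (cavE : _ → Egy (N + 1)) ((ρ.prod (unif K)).prod (unifK K N)) := by
  have h1 : Integrable (fun x : (Clause K × Fin K) × (Fin K → Fin N) => maxTheta x.1.1)
    ((ρ.prod (unif K)).prod (unifK K N)) := (hρ.comp_fst (unif K)).comp_fst _
  exact h1.mono' measurable_cavE.aestronglyMeasurable
    (Filter.Eventually.of_forall norm_cavE_le)

theorem integrable_fE0 (hν : Integrable (fun h : ℝ => h) ν) :
    Integrable (fE0 : ℝ → Egy (N + 1)) ν :=
  hν.abs.mono' measurable_fE0.aestronglyMeasurable (Filter.Eventually.of_forall norm_fE0_le)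

theorem integrable_fieldE (hν : Integrable (fun h : ℝ => h) ν) :
    Integrable (fieldE : (Fin N → ℝ) → Egy N) (Measure.pi fun _ => ν) := by
  have h1 : Integrable (fun h : Fin N → ℝ => ∑ v, |h v|) (Measure.pi fun _ => ν) :=
    integrable_finsetSum _ fun v _ => integrable_comp_eval (μ := fun _ : Fin N => ν) (i := v) hν.abs
  exact h1.mono' measurable_fieldE.aestronglyMeasurable
    (Filter.Eventually.of_forall norm_fieldE_le)

end Energies

end Vale.Agent.N168I
end
end

section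

section

set_option autoImplicit false
set_option linter.unusedSectionVars false

open MeasureTheory ProbabilityTheory Finset
open scoped NNReal

namespace Vale.Agent.N168I

open KS (unifK integral_unif)

section Ops

variable {K N : ℕ} [NeZero K] [NeZero N] (ρ : Measure (Clause K)) [IsProbabilityMeasure ρ]
  (hρ : Integrable (maxTheta : Clause K → ℝ) ρ)

/-- Averaging over one interaction on `M` sites. -/
noncomputable def Tc (M : ℕ) [NeZero M] : Module.End ℝ (LipS (Egy M)) :=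
  Top (ρ.prod (unifK K M)) clauseE (integrable_clauseE ρ hρ)

/-- Averaging over one interaction with mask `s`. -/
noncomputable def Tm (N : ℕ) [NeZero N] (s : Fin K → Bool) : Module.End ℝ (LipS (Egy (N + 1))) :=
  Top (ρ.prod (unifK K N)) (maskE s) (integrable_maskE ρ hρ s)

/-- Averaging over one cavity interaction. -/
noncomputable def TB (N : ℕ) [NeZero N] : Module.End ℝ (LipS (Egy (N + 1))) :=
  Top ((ρ.prod (unif K)).prod (unifK K N)) cavE (integrable_cavE ρ hρ)

theorem isAvg_Tc (M : ℕ) [NeZero M] : IsAvg (Tc ρ hρ M) (∫ c, maxTheta c ∂ρ) :=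
  isAvg_top _ _ _ _ (integral_norm_clauseE ρ hρ)

theorem isAvg_Tm (s : Fin K → Bool) : IsAvg (Tm ρ hρ N s) (∫ c, maxTheta c ∂ρ) :=
  isAvg_top _ _ _ _ (integral_norm_maskE ρ hρ s)

theorem Tc_succ : Tc ρ hρ (N + 1) =
    ∑ s : Fin K → Bool, mw (1 / ((N + 1 : ℕ) : ℝ)) s • Tm ρ hρ N s := by
  ext G h
  obtain ⟨C, hC⟩ := G.2
  rw [comb_apply]
  unfold Tc Tm
  simp_rw [Top_apply]
  rw [integral_prod _ (lip_integrable hC (integrable_clauseE ρ hρ) h)]
  have h1 : ∀ c : Clause K, ∫ I, G.1 (h + clauseE (c, I)) ∂(unifK K (N + 1)) =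
      ∑ s : Fin K → Bool, mw (1 / ((N + 1 : ℕ) : ℝ)) s *
        ∫ I, G.1 (h + maskE s (c, I)) ∂(unifK K N) := by
    intro c
    rw [integral_unifK_succ K N (fun I => G.1 (h + clauseE (c, I)))]
    rfl
  simp_rw [h1]
  rw [integral_finsetSum]
  · refine Finset.sum_congr rfl fun s _ => ?_
    rw [integral_const_mul, integral_prod _ (lip_integrable hC (integrable_maskE ρ hρ s) h)]
  · intro s _
    refine Integrable.const_mul ?_ _
    exact (lip_integrable hC (integrable_maskE ρ hρ s) h).integral_prod_left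

theorem TB_apply (G : LipS (Egy (N + 1))) (h : Egy (N + 1)) :
    (TB ρ hρ N G).1 h = (1 / (K : ℝ)) * ∑ l : Fin K, (Tm ρ hρ N (emask l) G).1 h := by
  obtain ⟨C, hC⟩ := G.2
  unfold TB Tm
  simp_rw [Top_apply]
  rw [integral_prod _ (lip_integrable hC (integrable_cavE ρ hρ) h)]
  have hi : Integrable (fun x : Clause K × Fin K => ∫ I, G.1 (h + cavE (x, I)) ∂(unifK K N))
      (ρ.prod (unif K)) := (lip_integrable hC (integrable_cavE ρ hρ) h).integral_prod_left
  rw [integral_prod _ hi]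
  have h1 : ∀ c : Clause K, ∫ l, (∫ I, G.1 (h + cavE ((c, l), I)) ∂(unifK K N)) ∂(unif K) =
      (1 / (K : ℝ)) * ∑ l : Fin K, ∫ I, G.1 (h + maskE (emask l) (c, I)) ∂(unifK K N) := by
    intro c
    rw [integral_unif K (fun l => ∫ I, G.1 (h + cavE ((c, l), I)) ∂(unifK K N))]
    rfl
  simp_rw [h1]
  rw [integral_const_mul, integral_finsetSum]
  · congr 1
    refine Finset.sum_congr rfl fun l _ => ?_
    rw [integral_prod _ (lip_integrable hC (integrable_maskE ρ hρ (emask l)) h)]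
  · intro l _
    exact (lip_integrable hC (integrable_maskE ρ hρ (emask l)) h).integral_prod_left

/-- Probability that an interaction touches the extra site. -/
noncomputable def qR (K N : ℕ) : ℝ := 1 - (1 - 1 / ((N + 1 : ℕ) : ℝ)) ^ K

/-- Averaging over one interaction touching the extra site. -/
noncomputable def TR (N : ℕ) [NeZero N] : Module.End ℝ (LipS (Egy (N + 1))) :=
  ∑ s ∈ Finset.univ.erase (fun _ : Fin K => false),
    (mw (1 / ((N + 1 : ℕ) : ℝ)) s / qR K N) • Tm ρ hρ N s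

theorem p0_pos (N : ℕ) : 0 < 1 / ((N + 1 : ℕ) : ℝ) := by positivity

theorem p0_le (N : ℕ) : 1 / ((N + 1 : ℕ) : ℝ) ≤ 1 := by
  rw [div_le_one (by positivity)]
  push_cast
  have : (0 : ℝ) ≤ N := Nat.cast_nonneg N
  linarith

theorem p0_le_qR (K N : ℕ) [NeZero K] : 1 / ((N + 1 : ℕ) : ℝ) ≤ qR K N := by
  unfold qR
  have h0 := p0_pos N
  have h1 := p0_le N
  have hK : 1 ≤ K := Nat.one_le_iff_ne_zero.2 (NeZero.ne K)
  have : (1 - 1 / ((N + 1 : ℕ) : ℝ)) ^ K ≤ (1 - 1 / ((N + 1 : ℕ) : ℝ)) ^ 1 :=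
    pow_le_pow_of_le_one (by linarith only [h1]) (by linarith only [h0]) hK
  rw [pow_one] at this
  linarith only [this]

theorem qR_pos (K N : ℕ) [NeZero K] : 0 < qR K N := lt_of_lt_of_le (p0_pos N) (p0_le_qR K N)

theorem qR_le_one (K N : ℕ) : qR K N ≤ 1 := by
  unfold qR
  have h1 := p0_le N
  have : 0 ≤ (1 - 1 / ((N + 1 : ℕ) : ℝ)) ^ K := pow_nonneg (by linarith) K
  linarith only [this]

theorem sum_erase_mw (K N : ℕ) [NeZero K] :
    ∑ s ∈ Finset.univ.erase (fun _ : Fin K => false), mw (1 / ((N + 1 : ℕ) : ℝ)) s = qR K N := by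
  have h1 := mw_sum (K := K) (1 / ((N + 1 : ℕ) : ℝ))
  rw [← Finset.add_sum_erase _ _ (Finset.mem_univ (fun _ : Fin K => false)), mw_zero] at h1
  unfold qR
  linarith

theorem isAvg_TR : IsAvg (TR ρ hρ N) (∫ c, maxTheta c ∂ρ) := by
  unfold TR
  refine isAvg_comb _ _ (fun s _ => ?_) ?_ _ _ (fun s _ => isAvg_Tm ρ hρ s)
  · exact div_nonneg (mw_nonneg (p0_pos N).le (p0_le N) s) (qR_pos K N).le
  · rw [← Finset.sum_div, sum_erase_mw, div_self (qR_pos K N).ne']

theorem isAvg_TB : IsAvg (TB ρ hρ N) (∫ c, maxTheta c ∂ρ) := by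
  have hK : (K : ℝ) ≠ 0 := by exact_mod_cast NeZero.ne K
  have h : TB ρ hρ N = ∑ l : Fin K, (1 / (K : ℝ)) • Tm ρ hρ N (emask l) := by
    ext G h
    rw [comb_apply, TB_apply, Finset.mul_sum]
  rw [h]
  refine isAvg_comb _ _ (fun _ _ => by positivity) ?_ _ _ (fun l _ => isAvg_Tm ρ hρ (emask l))
  simp only [one_div, sum_const, card_univ, Fintype.card_fin, nsmul_eq_mul, ne_eq, hK, not_false_eq_true, mul_inv_cancel₀]

theorem Tc_succ' : Tc ρ hρ (N + 1) =
    (1 - qR K N) • Tm ρ hρ N (fun _ => false) + qR K N • TR ρ hρ N := by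
  have hq := (qR_pos K N).ne'
  rw [Tc_succ, ← Finset.add_sum_erase _ _ (Finset.mem_univ (fun _ : Fin K => false)), mw_zero]
  congr 1
  · congr 1
    unfold qR; ring
  · unfold TR
    rw [Finset.smul_sum]
    refine Finset.sum_congr rfl fun s _ => ?_
    rw [smul_smul, mul_div_cancel₀ _ hq]

theorem TR_near_TB (G : LipS (Egy (N + 1))) (C : ℝ≥0) (hC : LipschitzWith C G.1)
    (h : Egy (N + 1)) :
    |(TR ρ hρ N G).1 h - (TB ρ hρ N G).1 h| ≤
      C * (2 * (K : ℝ) ^ 2 * (1 / ((N + 1 : ℕ) : ℝ)) * ∫ c, maxTheta c ∂ρ) := by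
  set L := ∫ c, maxTheta c ∂ρ with hL
  set p : ℝ := 1 / ((N + 1 : ℕ) : ℝ) with hp
  have hp0 : 0 < p := p0_pos N
  have hp1 : p ≤ 1 := p0_le N
  have hq := qR_pos K N
  have hpq : p ≤ qR K N := p0_le_qR K N
  have hK : 1 ≤ K := Nat.one_le_iff_ne_zero.2 (NeZero.ne K)
  have hK0 : (0 : ℝ) < K := by exact_mod_cast hK
  have hL0 : 0 ≤ L := integral_nonneg fun c => maxTheta_nonneg c
  set w1 : ℝ := p * (1 - p) ^ (K - 1) with hw1
  have hw10 : 0 ≤ w1 := mul_nonneg hp0.le (pow_nonneg (by linarith only [hp1]) _)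
  set D : (Fin K → Bool) → ℝ := fun s => (Tm ρ hρ N s G).1 h - G.1 h with hD
  have hDle : ∀ s, |D s| ≤ C * L := fun s => (isAvg_Tm ρ hρ s).near G C hC h
  -- expansions
  have e1 : (TR ρ hρ N G).1 h - G.1 h =
      ∑ s ∈ Finset.univ.erase (fun _ : Fin K => false), (mw p s / qR K N) * D s := by
    unfold TR
    rw [comb_apply]
    simp only [hD, mul_sub]
    rw [Finset.sum_sub_distrib, ← Finset.sum_mul, ← Finset.sum_div, ← hp, hp, sum_erase_mw,
      div_self hq.ne', one_mul]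
  have e2 : (TB ρ hρ N G).1 h - G.1 h = ∑ l : Fin K, (1 / (K : ℝ)) * D (emask l) := by
    rw [TB_apply]
    simp only [hD, mul_sub]
    rw [Finset.sum_sub_distrib, ← Finset.mul_sum]
    simp only [one_div, sum_const, card_univ, Fintype.card_fin, nsmul_eq_mul, sub_right_inj]
    (clear * - hK; field_simp)
  have hsub : Finset.univ.image (emask : Fin K → Fin K → Bool) ⊆
      Finset.univ.erase (fun _ : Fin K => false) := by
    intro s hs
    obtain ⟨l, _, rfl⟩ := Finset.mem_image.1 hs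
    exact Finset.mem_erase.2 ⟨emask_ne l, Finset.mem_univ _⟩
  have e3 : ∑ s ∈ Finset.univ.erase (fun _ : Fin K => false), (mw p s / qR K N) * D s =
      ∑ s ∈ Finset.univ.erase (fun _ : Fin K => false) \ Finset.univ.image emask,
        (mw p s / qR K N) * D s + ∑ l : Fin K, (w1 / qR K N) * D (emask l) := by
    rw [← Finset.sum_sdiff hsub]
    congr 1
    rw [Finset.sum_image (fun a _ b _ h => emask_inj h)]
    refine Finset.sum_congr rfl fun l _ => ?_
    rw [mw_emask]
  have e4 : ∑ s ∈ Finset.univ.erase (fun _ : Fin K => false) \ Finset.univ.image emask,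
      mw p s = qR K N - K * w1 := by
    have h1 := Finset.sum_sdiff (f := fun s => mw p s) hsub
    rw [hp, sum_erase_mw, ← hp, Finset.sum_image (fun a _ b _ h => emask_inj h)] at h1
    have h2 : ∑ l : Fin K, mw p (emask l) = K * w1 := by
      simp_rw [mw_emask, ← hw1]
      simp
    rw [h2] at h1
    linarith only [h1]
  have hmulti : qR K N - K * w1 ≤ (K * p) * (K * p) := multi_le K hp0.le hp1 hK
  have hmulti0 : 0 ≤ qR K N - K * w1 := by
    rw [← e4]
    exact Finset.sum_nonneg fun s _ => mw_nonneg hp0.le hp1 s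
  have e5 : (TR ρ hρ N G).1 h - (TB ρ hρ N G).1 h =
      ∑ s ∈ Finset.univ.erase (fun _ : Fin K => false) \ Finset.univ.image emask,
        (mw p s / qR K N) * D s + ∑ l : Fin K, (w1 / qR K N - 1 / K) * D (emask l) := by
    have : (TR ρ hρ N G).1 h - (TB ρ hρ N G).1 h =
        ((TR ρ hρ N G).1 h - G.1 h) - ((TB ρ hρ N G).1 h - G.1 h) := by ring
    rw [this, e1, e2, e3, add_sub_assoc, ← Finset.sum_sub_distrib]
    congr 1
    exact Finset.sum_congr rfl fun l _ => by ring
  rw [e5]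
  have hfr : w1 / qR K N ≤ 1 / K := by
    rw [div_le_div_iff₀ hq hK0]
    linarith only [hmulti0]
  calc |∑ s ∈ Finset.univ.erase (fun _ : Fin K => false) \ Finset.univ.image emask,
        (mw p s / qR K N) * D s + ∑ l : Fin K, (w1 / qR K N - 1 / K) * D (emask l)|
      ≤ ∑ s ∈ Finset.univ.erase (fun _ : Fin K => false) \ Finset.univ.image emask,
        (mw p s / qR K N) * (C * L) + ∑ _l : Fin K, (1 / K - w1 / qR K N) * (C * L) := by
        refine (abs_add_le _ _).trans (add_le_add ?_ ?_)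
        · refine (Finset.abs_sum_le_sum_abs _ _).trans (Finset.sum_le_sum fun s _ => ?_)
          have : 0 ≤ mw p s / qR K N := div_nonneg (mw_nonneg hp0.le hp1 s) hq.le
          rw [abs_mul, abs_of_nonneg this]
          exact mul_le_mul_of_nonneg_left (hDle s) this
        · refine (Finset.abs_sum_le_sum_abs _ _).trans (Finset.sum_le_sum fun l _ => ?_)
          rw [abs_mul, abs_sub_comm, abs_of_nonneg (by linarith only [hfr])]
          exact mul_le_mul_of_nonneg_left (hDle _) (by linarith only [hfr])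
    _ = 2 * ((qR K N - K * w1) / qR K N) * (C * L) := by
        rw [← Finset.sum_mul, ← Finset.sum_div, e4]
        simp only [one_div, sum_const, card_univ, Fintype.card_fin, nsmul_eq_mul]
        field_simp
        ring
    _ ≤ 2 * ((K * p) * (K * p) / p) * (C * L) := by
        have hCL : 0 ≤ (C : ℝ) * L := mul_nonneg (NNReal.coe_nonneg C) hL0
        apply mul_le_mul_of_nonneg_right _ hCL
        apply mul_le_mul_of_nonneg_left _ (by norm_num)
        exact div_le_div₀ (by (clear * - hK; positivity)) hmulti hp0 hpq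
    _ = _ := by
        (clear * - hp0 hK; field_simp)

theorem Tm_commute (s s' : Fin K → Bool) : Commute (Tm ρ hρ N s) (Tm ρ hρ N s') :=
  Top_commute _ _ _ _ _ _

theorem Tm_TR_commute : Commute (Tm ρ hρ N (fun _ => false)) (TR ρ hρ N) := by
  unfold TR
  refine Commute.sum_right _ _ _ fun s _ => ?_
  exact (Tm_commute ρ hρ _ s).smul_right _

/-- Binomial expansion of the iterates of the averaging operator on `N + 1` sites. -/
theorem Tc_pow (n : ℕ) (G : LipS (Egy (N + 1))) (h : Egy (N + 1)) :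
    ((Tc ρ hρ (N + 1) ^ n) G).1 h =
      bmix (1 - qR K N) (qR K N) (fun k l =>
        ((Tm ρ hρ N (fun _ => false) ^ k) ((TR ρ hρ N ^ l) G)).1 h) n 0 0 := by
  rw [Tc_succ']
  have hcomm : Commute ((1 - qR K N) • Tm ρ hρ N (fun _ => false)) (qR K N • TR ρ hρ N) :=
    ((Tm_TR_commute ρ hρ).smul_left _).smul_right _
  rw [hcomm.add_pow', LinearMap.sum_apply]
  unfold bmix
  rw [AddSubmonoidClass.coe_finsetSum, Finset.sum_apply]
  refine Finset.sum_congr rfl fun ij _ => ?_
  rw [smul_pow, smul_pow, smul_mul_smul_comm]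
  simp only [LinearMap.smul_apply, zero_add]
  rw [← Nat.cast_smul_eq_nsmul ℝ]
  simp only [SetLike.val_smul, Pi.smul_apply, smul_eq_mul]
  rfl

end Ops

end Vale.Agent.N168I
end
end

section

section

set_option autoImplicit false
set_option linter.unusedSectionVars false

open MeasureTheory ProbabilityTheory Finset
open scoped NNReal

namespace Vale.Agent.N168I

open KS (unifK integral_unif)

theorem log_partitionFn {K N n : ℕ} (ω : Fin n → Clause K × (Fin K → Fin N)) (h : Fin N → ℝ) :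
    Real.log (partitionFn ω h) = logZ (∑ k, clauseE (ω k) + fieldE h) := by
  unfold partitionFn logZ fieldE clauseE
  simp only [Pi.add_apply, Finset.sum_apply]

theorem En_eq {K N n : ℕ} (ω : Fin n → Clause K × (Fin K → Fin N)) (h : Fin N → ℝ) :
    En ω h = ∑ k, clauseE (ω k) + fieldE h := by
  funext σ
  unfold En fieldE
  simp only [Pi.add_apply, Finset.sum_apply]

/-- Swapping a Poisson average and an expectation. -/
theorem swap_pois {H : Type} [NormedAddCommGroup H] [MeasurableSpace H] [BorelSpace H]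
    [SecondCountableTopology H] {Z : Type} [MeasurableSpace Z] (μ : Measure Z)
    [IsProbabilityMeasure μ] (E : Z → H) (hEm : Measurable E) (hE : Integrable E μ)
    (Y : ℕ → LipS H) (C : ℝ≥0) (hY : ∀ l, LipschitzWith C (Y l).1) (A B : ℝ) (hA : 0 ≤ A)
    (hB : 0 ≤ B) (hY0 : ∀ l, |(Y l).1 0| ≤ A + B * l) (a : ℝ≥0) :
    ∫ l, (∫ z, (Y l).1 (E z) ∂μ) ∂(poissonMeasure a) =
      ∫ z, (∫ l, (Y l).1 (E z) ∂(poissonMeasure a)) ∂μ := by
  rw [integral_integral_swap]
  have hdom : Integrable (fun x : ℕ × Z => (A + B * x.1) + C * ‖E x.2‖)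
      ((poissonMeasure a).prod μ) := by
    refine Integrable.add ?_ ?_
    · refine Integrable.comp_fst (f := fun l : ℕ => A + B * (l : ℝ)) ?_ μ
      exact (expGrowth_of_linear (fun n => by
        rw [abs_of_nonneg (by (clear * - hA hB; positivity))]) hA hB).integrable a
    · exact Integrable.comp_snd (f := fun z => C * ‖E z‖) (hE.norm.const_mul _) (poissonMeasure a)
  refine hdom.mono' ?_ ?_
  · refine Measurable.aestronglyMeasurable ?_
    refine measurable_from_prod_countable_right (α := ℕ) (β := Z)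
      (f := fun x => (Y x.1).1 (E x.2)) fun l => ?_
    exact (hY l).continuous.measurable.comp hEm
  · refine Filter.Eventually.of_forall fun x => ?_
    rw [Real.norm_eq_abs]
    have h1 := lip_bound (hY x.1) 0 (E x.2)
    rw [zero_add] at h1
    have h2 := abs_add_le ((Y x.1).1 (E x.2) - (Y x.1).1 0) ((Y x.1).1 0)
    rw [sub_add_cancel] at h2
    have h3 := hY0 x.1
    show |(Y x.1).1 (E x.2)| ≤ _
    linarith

section Inc

variable {K N : ℕ} [NeZero K] [NeZero N] (ρ : Measure (Clause K)) [IsProbabilityMeasure ρ]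
  (hρ : Integrable (maxTheta : Clause K → ℝ) ρ) (ν : Measure ℝ) [IsProbabilityMeasure ν]
  (hν : Integrable (fun h : ℝ => h) ν)

/-- Averaging over the fields. -/
noncomputable def Tf (M : ℕ) : Module.End ℝ (LipS (Egy M)) :=
  Top (Measure.pi fun _ => ν) fieldE (integrable_fieldE ν hν)

/-- Averaging over the field at the extra site. -/
noncomputable def Tf0 (N : ℕ) : Module.End ℝ (LipS (Egy (N + 1))) :=
  Top ν fE0 (integrable_fE0 ν hν)

include hν in
theorem integrable_liftField : Integrable (fun h : Fin N → ℝ => liftE (fieldE h : Egy N))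
    (Measure.pi fun _ => ν) := by
  refine (integrable_fieldE ν hν).norm.mono' ?_ (Filter.Eventually.of_forall fun h =>
    norm_liftE_le _)
  exact (liftE_lip.continuous.measurable.comp measurable_fieldE).aestronglyMeasurable

/-- Averaging over the fields at the ordinary sites. -/
noncomputable def Tf' (N : ℕ) [NeZero N] : Module.End ℝ (LipS (Egy (N + 1))) :=
  Top (Measure.pi fun _ : Fin N => ν) (fun h => liftE (fieldE h : Egy N))
    (integrable_liftField ν hν)

theorem Tf_succ : Tf ν hν (N + 1) = Tf0 ν hν N * Tf' ν hν N := by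
  ext G h
  obtain ⟨C, hC⟩ := G.2
  show (Tf ν hν (N + 1) G).1 h = (Tf0 ν hν N (Tf' ν hν N G)).1 h
  unfold Tf Tf0 Tf'
  simp_rw [Top_apply]
  have hmp := measurePreserving_piFinSuccAbove (fun _ : Fin (N + 1) => ν) 0
  have hemb := (MeasurableEquiv.piFinSuccAbove (fun _ : Fin (N + 1) => ℝ) 0).measurableEmbedding
  have h1 := hmp.integral_comp hemb (g := fun z : ℝ × (Fin N → ℝ) =>
    G.1 (h + fE0 z.1 + liftE (fieldE z.2)))
  have h2 : ∀ x : Fin (N + 1) → ℝ,
      G.1 (h + fE0 ((MeasurableEquiv.piFinSuccAbove (fun _ : Fin (N + 1) => ℝ) 0) x).1 +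
        liftE (fieldE ((MeasurableEquiv.piFinSuccAbove (fun _ : Fin (N + 1) => ℝ) 0) x).2)) =
      G.1 (h + fieldE x) := by
    intro x
    rw [add_assoc]
    have e1 : (fE0 ((MeasurableEquiv.piFinSuccAbove (fun _ : Fin (N + 1) => ℝ) 0) x).1 +
        liftE (fieldE ((MeasurableEquiv.piFinSuccAbove (fun _ : Fin (N + 1) => ℝ) 0) x).2 :
          Egy N) : Egy (N + 1)) = fieldE x := by
      funext σ
      show x 0 * spin (σ 0) + ∑ v : Fin N, x v.succ * spin (σ v.succ) = fieldE x σ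
      unfold fieldE
      rw [Fin.sum_univ_succ]
    rw [e1]
  simp_rw [h2] at h1
  rw [h1, integral_prod]
  have hsum : Integrable (fun z : ℝ × (Fin N → ℝ) => (fE0 z.1 : Egy (N + 1)) +
      liftE (fieldE z.2 : Egy N)) (ν.prod (Measure.pi fun _ : Fin N => ν)) :=
    ((integrable_fE0 ν hν).comp_fst _).add ((integrable_liftField ν hν).comp_snd _)
  refine (lip_integrable hC hsum h).congr (Filter.Eventually.of_forall fun z => ?_)
  show G.1 (h + (fE0 z.1 + liftE (fieldE z.2))) = G.1 (h + fE0 z.1 + liftE (fieldE z.2))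
  rw [add_assoc]

theorem mul_pressure (M : ℕ) [NeZero M] (lam : ℝ≥0) :
    (M : ℝ) * pressure lam ρ ν M =
      ∫ n, ((Tc ρ hρ M ^ n) (Tf ν hν M (PhiL M))).1 0 ∂(poissonMeasure (lam * M)) := by
  have hM : (M : ℝ) ≠ 0 := by exact_mod_cast NeZero.ne M
  unfold pressure
  rw [← mul_assoc, mul_one_div_cancel hM, one_mul]
  congr 1
  funext n
  unfold Tc
  rw [Top_pow]
  congr 1
  funext ω
  unfold Tf
  rw [Top_apply]
  congr 1
  funext h
  rw [log_partitionFn, zero_add]
  rfl

end Inc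

end Vale.Agent.N168I
end
end

section

section

set_option autoImplicit false
set_option linter.unusedSectionVars false

open MeasureTheory ProbabilityTheory Finset
open scoped NNReal

namespace Vale.Agent.N168I

open KS (unifK integral_unif)

section LogZLift

end LogZLift

section CmpU

variable {K N : ℕ} [NeZero K] [NeZero N]

variable (ρ : Measure (Clause K)) [IsProbabilityMeasure ρ]
  (hρ : Integrable (maxTheta : Clause K → ℝ) ρ) (ν : Measure ℝ) [IsProbabilityMeasure ν]
  (hν : Integrable (fun h : ℝ => h) ν) (m : Fin N → ℝ) (hm : ∀ i, |m i| ≤ 1)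

theorem swap_fin {ι : Type} [Fintype ι] [DecidableEq ι] (f : (ι → Fin N) → ℝ → ℝ)
    (hf : ∀ i, Integrable (f i) ν) :
    ∫ i, (∫ h, f i h ∂ν) ∂(Measure.pi fun _ : ι => unif N) =
      ∫ h, (∫ i, f i h ∂(Measure.pi fun _ : ι => unif N)) ∂ν := by
  simp_rw [integral_pi_unif]
  rw [integral_const_mul, integral_finsetSum _ fun i _ => hf i]

/-- The random function of the spins of the ordinary sites. -/
noncomputable def QU {l : ℕ} (ω : Fin l → Clause K × Fin K) (h : ℝ)
    (τ : Fin l × Fin K → Bool) : ℝ :=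
  ∑ e, Real.exp (h * spin e) *
    ∏ k, Real.exp (theta (ω k).1 (Function.update (fun j => τ (k, j)) (ω k).2 e))

theorem cavE_cons (y : (Clause K × Fin K) × (Fin K → Fin N)) (e : Bool) (σ : Fin N → Bool) :
    cavE y (Fin.cons e σ : Fin (N + 1) → Bool) =
      theta y.1.1 (Function.update (fun j => σ (y.2 j)) y.1.2 e) := by
  unfold cavE
  congr 1
  funext j
  unfold merge emask
  by_cases h : j = y.1.2
  · rw [h]; simp
  · rw [Function.update_of_ne h]; simp [h]

theorem pav_QU {l : ℕ} (ω : Fin l → Clause K × Fin K) (h : ℝ) (y : Fin l × Fin K → ℝ) :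
    pav (QU ω h) y = ∑ e, Real.exp (h * spin e) *
      ∏ k, cavityFactor (ω k).1 (ω k).2 (fun j => y (k, j)) e := by
  unfold QU
  rw [pav_sum]
  refine Finset.sum_congr rfl fun e _ => ?_
  rw [pav_const_mul]
  congr 1
  rw [pav_arr (fun k τ => Real.exp (theta (ω k).1 (Function.update τ (ω k).2 e))) y]
  refine Finset.prod_congr rfl fun k _ => ?_
  rw [cavityFactor_eq]
  rfl

theorem QU_mem {l : ℕ} (ω : Fin l → Clause K × Fin K) (h : ℝ) (τ : Fin l × Fin K → Bool) :
    (∑ e, Real.exp (h * spin e)) * Real.exp (-∑ k, maxTheta (ω k).1) ≤ QU ω h τ ∧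
      QU ω h τ ≤ (∑ e, Real.exp (h * spin e)) * Real.exp (∑ k, maxTheta (ω k).1) := by
  unfold QU
  rw [Finset.sum_mul, Finset.sum_mul]
  constructor
  · refine Finset.sum_le_sum fun e _ => ?_
    refine mul_le_mul_of_nonneg_left ?_ (Real.exp_pos _).le
    rw [← Real.exp_sum, Real.exp_le_exp, ← Finset.sum_neg_distrib]
    exact Finset.sum_le_sum fun k _ => (theta_mem _ _).1
  · refine Finset.sum_le_sum fun e _ => ?_
    refine mul_le_mul_of_nonneg_left ?_ (Real.exp_pos _).le
    rw [← Real.exp_sum, Real.exp_le_exp]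
    exact Finset.sum_le_sum fun k _ => (theta_mem _ _).2

end CmpU

end Vale.Agent.N168I
end
end

section

section

set_option autoImplicit false
set_option linter.unusedSectionVars false

open MeasureTheory ProbabilityTheory Finset
open scoped NNReal

namespace Vale.Agent.N168I

open KS (unifK integral_unif)

section CmpV

variable {K N : ℕ} [NeZero K] [NeZero N]

variable (ρ : Measure (Clause K)) [IsProbabilityMeasure ρ]
  (hρ : Integrable (maxTheta : Clause K → ℝ) ρ) (m : Fin N → ℝ) (hm : ∀ i, |m i| ≤ 1)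

/-- The random function of the spins. -/
noncomputable def QV {l : ℕ} (ω : Fin l → Clause K) (τ : Fin l × Fin K → Bool) : ℝ :=
  ∏ k, Real.exp (theta (ω k) (fun j => τ (k, j)))

theorem pav_QV {l : ℕ} (ω : Fin l → Clause K) (y : Fin l × Fin K → ℝ) :
    pav (QV ω) y = ∏ k, edgeFactor (ω k) (fun j => y (k, j)) := by
  unfold QV
  rw [pav_arr (fun k τ => Real.exp (theta (ω k) τ)) y]
  refine Finset.prod_congr rfl fun k _ => ?_
  rw [edgeFactor_eq]
  rfl

theorem QV_mem {l : ℕ} (ω : Fin l → Clause K) (τ : Fin l × Fin K → Bool) :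
    Real.exp (-∑ k, maxTheta (ω k)) ≤ QV ω τ ∧ QV ω τ ≤ Real.exp (∑ k, maxTheta (ω k)) := by
  unfold QV
  rw [← Real.exp_sum, Real.exp_le_exp, Real.exp_le_exp, ← Finset.sum_neg_distrib]
  exact ⟨Finset.sum_le_sum fun k _ => (theta_mem _ _).1,
    Finset.sum_le_sum fun k _ => (theta_mem _ _).2⟩

end CmpV

end Vale.Agent.N168I
end
end

section

section

set_option autoImplicit false
set_option linter.unusedSectionVars false

open MeasureTheory ProbabilityTheory Finset
open scoped NNReal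

namespace Vale.Agent.N168I

open KS (unifK integral_unif)

section Trial0

variable {K N : ℕ} [NeZero K] [NeZero N]

variable (ρ : Measure (Clause K)) [IsProbabilityMeasure ρ]
  (hρ : Integrable (maxTheta : Clause K → ℝ) ρ) (ν : Measure ℝ) [IsProbabilityMeasure ν]
  (hν : Integrable (fun h : ℝ => h) ν) (m : Fin N → ℝ) (hm : ∀ i, |m i| ≤ 1)

end Trial0

end Vale.Agent.N168I
end
end

section

section

set_option autoImplicit false
set_option linter.unusedSectionVars false

open MeasureTheory ProbabilityTheory Finset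
open scoped NNReal

namespace Vale.Agent.N168I

open KS (unifK integral_unif)

section Basic

theorem growth_cast : ExpGrowth fun l : ℕ => (l : ℝ) :=
  expGrowth_of_linear (c := 0) (d := 1) (fun n => by
    rw [abs_of_nonneg (Nat.cast_nonneg n)]; linarith) le_rfl zero_le_one

end Basic

section Point

variable {K N : ℕ} [NeZero K] [NeZero N] (ρ : Measure (Clause K)) [IsProbabilityMeasure ρ]
  (hρ : Integrable (maxTheta : Clause K → ℝ) ρ) (ν : Measure ℝ) [IsProbabilityMeasure ν]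
  (hν : Integrable (fun h : ℝ => h) ν)

theorem Lbar_nonneg : 0 ≤ ∫ c, maxTheta c ∂ρ := integral_nonneg fun c => maxTheta_nonneg c

end Point

end Vale.Agent.N168I
end
end

section

section

set_option autoImplicit false
set_option linter.unusedSectionVars false

open MeasureTheory ProbabilityTheory Finset
open scoped NNReal

namespace Vale.Agent.N168I

open KS (unifK integral_unif)

section General

variable {H : Type} [NormedAddCommGroup H]

theorem pois_lip_fun (Y : ℕ → LipS H) (C : ℝ≥0) (hY : ∀ l, LipschitzWith C (Y l).1)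
    (hg : ∀ x, ExpGrowth fun l => (Y l).1 x) (a : ℝ≥0) :
    LipschitzWith C (fun x => ∫ l, (Y l).1 x ∂(poissonMeasure a)) := by
  refine LipschitzWith.of_dist_le_mul fun x y => ?_
  rw [Real.dist_eq, ← integral_sub ((hg x).integrable a) ((hg y).integrable a), ← Real.norm_eq_abs]
  have := norm_integral_le_of_norm_le_const (μ := poissonMeasure a)
    (f := fun l => (Y l).1 x - (Y l).1 y) (C := C * dist x y)
    (Filter.Eventually.of_forall fun l => by
      have := (hY l).dist_le_mul x y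
      rwa [Real.dist_eq, ← Real.norm_eq_abs] at this)
  simpa only [Real.norm_eq_abs, ge_iff_le, probReal_univ, mul_one] using this

end General

section Incr

variable {K N : ℕ} [NeZero K] [NeZero N] (ρ : Measure (Clause K)) [IsProbabilityMeasure ρ]
  (hρ : Integrable (maxTheta : Clause K → ℝ) ρ) (ν : Measure ℝ) [IsProbabilityMeasure ν]
  (hν : Integrable (fun h : ℝ => h) ν)

/-- The law of the randomness. -/
noncomputable def muZ (N : ℕ) [NeZero N] (k : ℕ) :
    Measure ((Fin k → Clause K × (Fin K → Fin N)) × (Fin N → ℝ)) :=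
  (Measure.pi fun _ => ρ.prod (unifK K N)).prod (Measure.pi fun _ => ν)

instance instProbMuZ (k : ℕ) : IsProbabilityMeasure (muZ ρ ν N k) := by
  unfold muZ; infer_instance

include hρ hν in
theorem integrable_EZ (k : ℕ) :
    Integrable (fun z : (Fin k → Clause K × (Fin K → Fin N)) × (Fin N → ℝ) =>
      (En z.1 z.2 : Egy N)) (muZ ρ ν N k) := by
  have h1 : Integrable (fun ω : Fin k → Clause K × (Fin K → Fin N) =>
      ∑ c, (clauseE (ω c) : Egy N)) (Measure.pi fun _ => ρ.prod (unifK K N)) :=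
    integrable_finsetSum _ fun c _ => integrable_comp_eval (integrable_clauseE ρ hρ)
  have h2 := (h1.comp_fst (Measure.pi fun _ : Fin N => ν)).add
    ((integrable_fieldE (N := N) ν hν).comp_snd
      (Measure.pi fun _ : Fin k => ρ.prod (unifK K N)))
  refine h2.congr (Filter.Eventually.of_forall fun z => ?_)
  exact (En_eq z.1 z.2).symm

include hρ hν in
theorem iterZ (k : ℕ) {G : Egy N → ℝ} {C : ℝ≥0} (hG : LipschitzWith C G) :
    ∫ z, G (En z.1 z.2) ∂(muZ ρ ν N k) =
      ∫ ω : Fin k → Clause K × (Fin K → Fin N), (∫ h : Fin N → ℝ, G (En ω h)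
        ∂(Measure.pi fun _ => ν)) ∂(Measure.pi fun _ => ρ.prod (unifK K N)) := by
  unfold muZ
  rw [integral_prod]
  have := lip_integrable hG (integrable_EZ ρ hρ ν hν k) 0
  refine this.congr (Filter.Eventually.of_forall fun z => ?_)
  show G (0 + En z.1 z.2) = _
  rw [zero_add]

theorem growth2_of {B : ℕ → ℕ → ℝ} {A L : ℝ} (hA : 0 ≤ A) (hL : 0 ≤ L)
    (h : ∀ k l, |B k l| ≤ A + L * (k + l)) : ExpGrowth2 B := by
  refine ⟨A + L, 2, by linarith, by norm_num, fun k l => ?_⟩
  refine (h k l).trans ?_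
  rw [← pow_add]
  have h1 := nat_le_two_pow_real (k + l)
  have h2 : (1 : ℝ) ≤ 2 ^ (k + l) := one_le_pow₀ (by norm_num)
  push_cast at h1
  nlinarith only [hA, h2, hL, h1]

end Incr

end Vale.Agent.N168I
end
end

section

section

set_option autoImplicit false
set_option linter.unusedSectionVars false

open MeasureTheory ProbabilityTheory Finset
open scoped NNReal

namespace Vale.Agent.N168I

open KS (unifK integral_unif)

variable {K N : ℕ}

variable [NeZero N] (ρ : Measure (Clause K)) [IsProbabilityMeasure ρ]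
  (ν : Measure ℝ) [IsProbabilityMeasure ν]

end Vale.Agent.N168I
end
end

section

section

set_option autoImplicit false
set_option linter.unusedSectionVars false

open MeasureTheory ProbabilityTheory Finset
open scoped NNReal

namespace Vale.Agent.N168I

open KS (unifK integral_unif)

section Reals

theorem one_sub_pow_ge {p : ℝ} (h1 : p ≤ 1) (K : ℕ) : 1 - K * p ≤ (1 - p) ^ K := by
  have := one_add_mul_le_pow (a := -p) (by linarith) K
  rw [← sub_eq_add_neg] at this
  linarith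

theorem one_sub_pow_le {p : ℝ} (h0 : 0 ≤ p) (h1 : p ≤ 1) (K : ℕ) :
    (1 - p) ^ K ≤ 1 - K * p + (K : ℝ) ^ 2 * p ^ 2 := by
  induction K with
  | zero => simp
  | succ K ih =>
    have hK : (0 : ℝ) ≤ K := Nat.cast_nonneg K
    rw [pow_succ]
    have h2 : (1 - p) ^ K * (1 - p) ≤ (1 - K * p + (K : ℝ) ^ 2 * p ^ 2) * (1 - p) :=
      mul_le_mul_of_nonneg_right ih (by linarith)
    refine h2.trans ?_
    push_cast
    have h3 : 0 ≤ (K : ℝ) ^ 2 * p ^ 3 := by positivity
    have h4 : 0 ≤ (K : ℝ) * p ^ 2 := by positivity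
    have h5 : 0 ≤ p ^ 2 := by positivity
    linarith

theorem qR_le (K N : ℕ) : qR K N ≤ K * (1 / ((N + 1 : ℕ) : ℝ)) := by
  unfold qR
  have := one_sub_pow_ge (p0_le N) K
  linarith

theorem qR_ge (K N : ℕ) :
    K * (1 / ((N + 1 : ℕ) : ℝ)) - (K : ℝ) ^ 2 * (1 / ((N + 1 : ℕ) : ℝ)) ^ 2 ≤ qR K N := by
  unfold qR
  have := one_sub_pow_le (p0_pos N).le (p0_le N) K
  linarith

end Reals

section Bound

variable {K N : ℕ} [NeZero K] [NeZero N] (ρ : Measure (Clause K)) [IsProbabilityMeasure ρ]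
  (hρ : Integrable (maxTheta : Clause K → ℝ) ρ) (ν : Measure ℝ) [IsProbabilityMeasure ν]
  (hν : Integrable (fun h : ℝ => h) ν)

theorem iterTop (k : ℕ) (G : LipS (Egy N)) :
    ((Tc ρ hρ N ^ k) (Tf ν hν N G)).1 0 = ∫ z, G.1 (En z.1 z.2) ∂(muZ ρ ν N k) := by
  obtain ⟨C, hC⟩ := G.2
  rw [iterZ ρ hρ ν hν k hC]
  unfold Tc
  rw [Top_pow]
  congr 1
  funext ω
  unfold Tf
  rw [Top_apply]
  congr 1
  funext h
  rw [En_eq, zero_add]

include hρ hν in
theorem growthZ (G : Egy N → ℝ) (hG : LipschitzWith 1 G) :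
    ExpGrowth fun k => ∫ z, G (En z.1 z.2) ∂(muZ ρ ν N k) := by
  set Gs : LipS (Egy N) := ⟨G, 1, hG⟩ with hGs
  have hGl : LipschitzWith 1 (Tf ν hν N Gs).1 := Top_lip _ _ _ _ hG
  have e : ∀ k, ∫ z, G (En z.1 z.2) ∂(muZ ρ ν N k) = ((Tc ρ hρ N ^ k) (Tf ν hν N Gs)).1 0 :=
    fun k => (iterTop ρ hρ ν hν k Gs).symm
  simp_rw [e]
  refine expGrowth_of_linear (c := |(Tf ν hν N Gs).1 0|) (d := ∫ c, maxTheta c ∂ρ) (fun n => ?_)
    (abs_nonneg _) (Lbar_nonneg ρ)
  have h1 := (isAvg_Tc ρ hρ N).pow_near n (Tf ν hν N Gs) 1 hGl 0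
  rw [NNReal.coe_one, one_mul] at h1
  rw [abs_le] at h1 ⊢
  have h3 := abs_le.1 (le_refl |(Tf ν hν N Gs).1 0|)
  constructor <;> (clear hGs hGl e; linarith)

end Bound

end Vale.Agent.N168I
end
end

section

section

set_option autoImplicit false
set_option linter.unusedSectionVars false

open MeasureTheory ProbabilityTheory Finset
open scoped NNReal

namespace Vale.Agent.N168I

open KS (unifK integral_unif)

section Main

variable {K N : ℕ} [NeZero K] [NeZero N] (ρ : Measure (Clause K)) [IsProbabilityMeasure ρ]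
  (hρ : Integrable (maxTheta : Clause K → ℝ) ρ) (ν : Measure ℝ) [IsProbabilityMeasure ν]
  (hν : Integrable (fun h : ℝ => h) ν)

end Main

end Vale.Agent.N168I
end
end

section

section

set_option autoImplicit false
set_option linter.unusedSectionVars false

open MeasureTheory ProbabilityTheory Finset Filter
open scoped NNReal Topology

namespace Vale.Agent.N168I

open KS (unifK integral_unif)

section Cesaro

theorem sqrt_step (n : ℕ) :
    2 * Real.sqrt n + 1 / Real.sqrt ((n + 1 : ℕ) : ℝ) ≤ 2 * Real.sqrt ((n + 1 : ℕ) : ℝ) := by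
  set a := Real.sqrt n with ha
  set b := Real.sqrt ((n + 1 : ℕ) : ℝ) with hb
  have hb0 : 0 < b := Real.sqrt_pos.2 (by positivity)
  have ha0 : 0 ≤ a := Real.sqrt_nonneg _
  have haa : a * a = n := Real.mul_self_sqrt (Nat.cast_nonneg n)
  have hbb : b * b = n + 1 := by
    rw [hb, Real.mul_self_sqrt (by positivity)]; push_cast; ring
  have hab : a ≤ b := Real.sqrt_le_sqrt (by push_cast; linarith)
  have h1 : (b - a) * (b + a) = 1 := by linear_combination hbb - haa
  have h2 : (b - a) * (b + a) ≤ (b - a) * (2 * b) :=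
    mul_le_mul_of_nonneg_left (by linarith) (by linarith)
  have h3 : 1 / b ≤ 2 * (b - a) := by
    rw [div_le_iff₀ hb0]
    linarith
  linarith only [h3]

theorem cesaro_bound (F : ℕ → ℝ) (M0 C : ℝ) (hC : 0 ≤ C)
    (h : ∀ N : ℕ, 1 ≤ N → M0 - C / Real.sqrt N ≤
      ((N + 1 : ℕ) : ℝ) * F (N + 1) - (N : ℝ) * F N) (n : ℕ) :
    F 1 + n * M0 - 2 * C * Real.sqrt n ≤ ((n + 1 : ℕ) : ℝ) * F (n + 1) := by
  induction n with
  | zero => simp
  | succ n ih =>
    have h1 := h (n + 1) (by omega)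
    have h2 := mul_le_mul_of_nonneg_left (sqrt_step n) hC
    have h3 : C * (1 / Real.sqrt ((n + 1 : ℕ) : ℝ)) = C / Real.sqrt ((n + 1 : ℕ) : ℝ) := by ring
    have h4 : (((n + 1 : ℕ) : ℝ)) * M0 = n * M0 + M0 := by push_cast; ring
    rw [mul_add, h3] at h2
    rw [h4]
    linarith only [ih, h1, h2]

end Cesaro

section Lower

variable {K : ℕ} [NeZero K] (ρ : Measure (Clause K)) [IsProbabilityMeasure ρ]
  (ν : Measure ℝ) [IsProbabilityMeasure ν]

end Lower

end Vale.Agent.N168I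
end
end

section

section

set_option autoImplicit false
set_option linter.unusedSectionVars false

open MeasureTheory ProbabilityTheory Finset Filter
open scoped NNReal Topology

namespace Vale.Agent.N168I

open KS (unifK integral_unif)

section Gen

variable {K N : ℕ} [NeZero K] [NeZero N] (ρ : Measure (Clause K)) [IsProbabilityMeasure ρ]
  (hρ : Integrable (maxTheta : Clause K → ℝ) ρ) (ν : Measure ℝ) [IsProbabilityMeasure ν]
  (hν : Integrable (fun h : ℝ => h) ν)

/-- The averaged value of a functional of the random Hamiltonian. -/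
noncomputable def aG (M : ℕ) [NeZero M] (G : LipS (Egy M)) (lam : ℝ≥0) : ℝ :=
  ∫ n, ((Tc ρ hρ M ^ n) (Tf ν hν M G)).1 0 ∂(poissonMeasure (lam * M))

/-- The cavity functional for the extra site. -/
noncomputable def YRG (G : LipS (Egy (N + 1))) (l : ℕ) : LipS (Egy (N + 1)) :=
  (TR ρ hρ N ^ l) (Tf0 ν hν N G)

theorem T0_pow_eqG (G : LipS (Egy (N + 1))) (k l : ℕ) :
    ((Tm ρ hρ N (fun _ => false) ^ k) ((TR ρ hρ N ^ l) (Tf ν hν (N + 1) G))).1 0 =
      ∫ ω : Fin k → Clause K × (Fin K → Fin N), (∫ h : Fin N → ℝ,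
        (YRG ρ hρ ν hν G l).1 (liftE (En ω h)) ∂(Measure.pi fun _ => ν))
        ∂(Measure.pi fun _ => ρ.prod (unifK K N)) := by
  have hc1 : Commute (Tf0 ν hν N) (Tf' ν hν N) := Top_commute _ _ _ _ _ _
  have hc2 : Commute (TR ρ hρ N ^ l) (Tf' ν hν N) := by
    refine Commute.pow_left ?_ l
    unfold TR
    refine Commute.sum_left _ _ _ fun s _ => ?_
    refine Commute.smul_left ?_ _
    exact Top_commute _ _ _ _ _ _
  have e1 : (TR ρ hρ N ^ l) (Tf ν hν (N + 1) G) =
      Tf' ν hν N (YRG ρ hρ ν hν G l) := by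
    rw [Tf_succ, hc1.eq]
    show ((TR ρ hρ N ^ l) * Tf' ν hν N) (Tf0 ν hν N G) = _
    rw [hc2.eq]
    rfl
  rw [e1]
  unfold Tm
  rw [Top_pow]
  congr 1
  funext ω
  unfold Tf'
  rw [Top_apply]
  congr 1
  funext h
  rw [En_eq, liftE_add, liftE_sum, zero_add]
  congr 2

/-- The interaction functional. -/
noncomputable def YVG (G : LipS (Egy N)) (l : ℕ) : LipS (Egy N) := (Tc ρ hρ N ^ l) G

theorem Tc_pow_eqG (G : LipS (Egy N)) (k l : ℕ) :
    ((Tc ρ hρ N ^ (k + l)) (Tf ν hν N G)).1 0 =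
      ∫ ω : Fin k → Clause K × (Fin K → Fin N), (∫ h : Fin N → ℝ,
        (YVG ρ hρ G l).1 (En ω h) ∂(Measure.pi fun _ => ν))
        ∂(Measure.pi fun _ => ρ.prod (unifK K N)) := by
  have hc : Commute (Tc ρ hρ N ^ l) (Tf ν hν N) := by
    refine Commute.pow_left ?_ l
    exact Top_commute _ _ _ _ _ _
  have e1 : (Tc ρ hρ N ^ (k + l)) (Tf ν hν N G) =
      (Tc ρ hρ N ^ k) (Tf ν hν N (YVG ρ hρ G l)) := by
    rw [pow_add]
    show (Tc ρ hρ N ^ k) (((Tc ρ hρ N ^ l) * Tf ν hν N) G) = _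
    rw [hc.eq]
    rfl
  rw [e1]
  unfold Tc
  rw [Top_pow]
  congr 1
  funext ω
  unfold Tf
  rw [Top_apply]
  congr 1
  funext h
  rw [En_eq, zero_add]

theorem lip_Tf0G (G : LipS (Egy (N + 1))) (hG : LipschitzWith 1 G.1) :
    LipschitzWith 1 (Tf0 ν hν N G).1 := Top_lip _ _ _ _ hG

theorem YRG_lip (G : LipS (Egy (N + 1))) (hG : LipschitzWith 1 G.1) (l : ℕ) :
    LipschitzWith 1 (YRG ρ hρ ν hν G l).1 :=
  (isAvg_TR ρ hρ (N := N)).pow_lip l _ 1 (lip_Tf0G ν hν G hG)

theorem YVG_lip (G : LipS (Egy N)) (hG : LipschitzWith 1 G.1) (l : ℕ) :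
    LipschitzWith 1 (YVG ρ hρ G l).1 :=
  (isAvg_Tc ρ hρ N).pow_lip l _ 1 hG

theorem YRG_growth (G : LipS (Egy (N + 1))) (hG : LipschitzWith 1 G.1) (l : ℕ) (x : Egy (N + 1)) :
    |(YRG ρ hρ ν hν G l).1 x| ≤ |(Tf0 ν hν N G).1 x| + (∫ c, maxTheta c ∂ρ) * l := by
  have h := (isAvg_TR ρ hρ (N := N)).pow_near l (Tf0 ν hν N G) 1 (lip_Tf0G ν hν G hG) x
  rw [NNReal.coe_one, one_mul] at h
  have h2 := abs_add_le ((YRG ρ hρ ν hν G l).1 x - (Tf0 ν hν N G).1 x)
    ((Tf0 ν hν N G).1 x)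
  rw [sub_add_cancel] at h2
  have h3 : |(YRG ρ hρ ν hν G l).1 x - (Tf0 ν hν N G).1 x| ≤
      l * ∫ c, maxTheta c ∂ρ := h
  linarith

theorem YVG_growth (G : LipS (Egy N)) (hG : LipschitzWith 1 G.1) (l : ℕ) (x : Egy N) :
    |(YVG ρ hρ G l).1 x| ≤ |G.1 x| + (∫ c, maxTheta c ∂ρ) * l := by
  have h := (isAvg_Tc ρ hρ N).pow_near l G 1 hG x
  rw [NNReal.coe_one, one_mul] at h
  have h2 := abs_add_le ((YVG ρ hρ G l).1 x - G.1 x) (G.1 x)
  rw [sub_add_cancel] at h2
  have h3 : |(YVG ρ hρ G l).1 x - G.1 x| ≤ l * ∫ c, maxTheta c ∂ρ := h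
  linarith

theorem YRG_eg (G : LipS (Egy (N + 1))) (hG : LipschitzWith 1 G.1) (x : Egy (N + 1)) :
    ExpGrowth fun l => (YRG ρ hρ ν hν G l).1 x :=
  expGrowth_of_linear (YRG_growth ρ hρ ν hν G hG · x) (abs_nonneg _) (Lbar_nonneg ρ)

theorem YVG_eg (G : LipS (Egy N)) (hG : LipschitzWith 1 G.1) (x : Egy N) :
    ExpGrowth fun l => (YVG ρ hρ G l).1 x :=
  expGrowth_of_linear (YVG_growth ρ hρ G hG · x) (abs_nonneg _) (Lbar_nonneg ρ)

/-- Composition of a Lipschitz function with the lift. -/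
noncomputable def YRlG (G : LipS (Egy (N + 1))) (hG : LipschitzWith 1 G.1) (l : ℕ) :
    LipS (Egy N) :=
  ⟨fun x => (YRG ρ hρ ν hν G l).1 (liftE x), 1, by
    have := (YRG_lip ρ hρ ν hν G hG l).comp (liftE_lip (N := N))
    rw [one_mul] at this
    exact this⟩

theorem YRlG_lip (G : LipS (Egy (N + 1))) (hG : LipschitzWith 1 G.1) (l : ℕ) :
    LipschitzWith 1 (YRlG ρ hρ ν hν G hG l : LipS (Egy N)).1 := by
  have := (YRG_lip ρ hρ ν hν G hG l).comp (liftE_lip (N := N))
  rw [one_mul] at this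
  exact this

theorem B_growthG (G : LipS (Egy (N + 1))) (hG : LipschitzWith 1 G.1) : ExpGrowth2 fun k l =>
    ((Tm ρ hρ N (fun _ => false) ^ k)
      ((TR ρ hρ N ^ l) (Tf ν hν (N + 1) G))).1 0 := by
  set G' := Tf ν hν (N + 1) G with hG'
  have hGl : LipschitzWith 1 G'.1 := Top_lip _ _ _ _ hG
  refine growth2_of (A := |G'.1 0|) (L := ∫ c, maxTheta c ∂ρ) (abs_nonneg _) (Lbar_nonneg ρ)
    fun k l => ?_
  have h1 := (isAvg_TR ρ hρ (N := N)).pow_near l G' 1 hGl 0
  have h2 := (isAvg_Tm ρ hρ (N := N) (fun _ => false)).pow_near k ((TR ρ hρ N ^ l) G') 1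
    ((isAvg_TR ρ hρ (N := N)).pow_lip l G' 1 hGl) 0
  rw [NNReal.coe_one, one_mul] at h1 h2
  rw [abs_le] at h1 h2 ⊢
  have h3 := abs_le.1 (le_refl |G'.1 0|)
  constructor <;> (clear hG hG' hGl; linarith)

theorem A_growthG (G : LipS (Egy N)) (hG : LipschitzWith 1 G.1) :
    ExpGrowth fun n => ((Tc ρ hρ N ^ n) (Tf ν hν N G)).1 0 := by
  set G' := Tf ν hν N G with hG'
  have hGl : LipschitzWith 1 G'.1 := Top_lip _ _ _ _ hG
  refine expGrowth_of_linear (c := |G'.1 0|) (d := ∫ c, maxTheta c ∂ρ) (fun n => ?_)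
    (abs_nonneg _) (Lbar_nonneg ρ)
  have h1 := (isAvg_Tc ρ hρ N).pow_near n G' 1 hGl 0
  rw [NNReal.coe_one, one_mul] at h1
  rw [abs_le] at h1 ⊢
  have h3 := abs_le.1 (le_refl |G'.1 0|)
  constructor <;> (clear hG hG' hGl; linarith)

theorem upper_formG (G : LipS (Egy (N + 1))) (hG : LipschitzWith 1 G.1)
    (lam p q : ℝ≥0) (hp : (p : ℝ) = 1 - qR K N) (hq : (q : ℝ) = qR K N) :
    aG ρ hρ ν hν (N + 1) G lam =
      ∫ k, (∫ z, (∫ l, (YRG ρ hρ ν hν G l).1 (liftE (En z.1 z.2))
        ∂(poissonMeasure (q * (lam * ((N + 1 : ℕ) : ℝ≥0))))) ∂(muZ ρ ν N k))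
        ∂(poissonMeasure (p * (lam * ((N + 1 : ℕ) : ℝ≥0)))) := by
  have hpq : p + q = 1 := by
    apply NNReal.coe_injective
    push_cast
    rw [hp, hq]
    ring
  unfold aG
  simp_rw [Tc_pow ρ hρ]
  rw [← hp, ← hq, pois_bmix (B_growthG ρ hρ ν hν G hG) _ p q hpq]
  congr 1
  funext k
  simp_rw [T0_pow_eqG ρ hρ ν hν]
  have e1 : ∀ l, ∫ ω : Fin k → Clause K × (Fin K → Fin N), (∫ h : Fin N → ℝ,
        (YRG ρ hρ ν hν G l).1 (liftE (En ω h)) ∂(Measure.pi fun _ => ν))
        ∂(Measure.pi fun _ => ρ.prod (unifK K N)) =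
      ∫ z, (YRlG ρ hρ ν hν G hG l : LipS (Egy N)).1 (En z.1 z.2) ∂(muZ ρ ν N k) := by
    intro l
    exact (iterZ ρ hρ ν hν k (YRlG_lip ρ hρ ν hν G hG l)).symm
  simp_rw [e1]
  exact swap_pois (muZ ρ ν N k) (fun z => (En z.1 z.2 : Egy N)) measurable_En
    (integrable_EZ ρ hρ ν hν k) (fun l => YRlG ρ hρ ν hν G hG l) 1
    (fun l => YRlG_lip ρ hρ ν hν G hG l)
    _ _ (abs_nonneg _) (Lbar_nonneg ρ) (fun l => YRG_growth ρ hρ ν hν G hG l (liftE 0)) _

theorem lower_formG (G : LipS (Egy N)) (hG : LipschitzWith 1 G.1)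
    (lam pa b : ℝ≥0) (hab : lam * (N : ℝ≥0) = pa + b) :
    aG ρ hρ ν hν N G lam =
      ∫ k, (∫ z, (∫ l, (YVG ρ hρ G l).1 (En z.1 z.2)
        ∂(poissonMeasure b)) ∂(muZ ρ ν N k)) ∂(poissonMeasure pa) := by
  unfold aG
  rw [hab, pois_super (A_growthG ρ hρ ν hν G hG)]
  congr 1
  funext k
  simp_rw [Tc_pow_eqG ρ hρ ν hν]
  have e1 : ∀ l, ∫ ω : Fin k → Clause K × (Fin K → Fin N), (∫ h : Fin N → ℝ,
        (YVG ρ hρ G l).1 (En ω h) ∂(Measure.pi fun _ => ν))
        ∂(Measure.pi fun _ => ρ.prod (unifK K N)) =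
      ∫ z, (YVG ρ hρ G l).1 (En z.1 z.2) ∂(muZ ρ ν N k) := by
    intro l
    exact (iterZ ρ hρ ν hν k (YVG_lip ρ hρ G hG l)).symm
  simp_rw [e1]
  exact swap_pois (muZ ρ ν N k) (fun z => (En z.1 z.2 : Egy N)) measurable_En
    (integrable_EZ ρ hρ ν hν k) (fun l => YVG ρ hρ G l) 1 (fun l => YVG_lip ρ hρ G hG l)
    _ _ (abs_nonneg _) (Lbar_nonneg ρ) (fun l => YVG_growth ρ hρ G hG l 0) _

end Gen

end Vale.Agent.N168I
end
end

section

section

set_option autoImplicit false
set_option linter.unusedSectionVars false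

open MeasureTheory ProbabilityTheory Finset Filter
open scoped NNReal Topology

namespace Vale.Agent.N168I

open KS (unifK integral_unif)

section IncrG

variable {K N : ℕ} [NeZero K] [NeZero N] (ρ : Measure (Clause K)) [IsProbabilityMeasure ρ]
  (hρ : Integrable (maxTheta : Clause K → ℝ) ρ) (ν : Measure ℝ) [IsProbabilityMeasure ν]
  (hν : Integrable (fun h : ℝ => h) ν)

/-- The cavity term with `l` interactions at the extra site. -/
noncomputable def uG (G : LipS (Egy (N + 1))) (H : Egy N) (l : ℕ) : ℝ :=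
  ((TB ρ hρ N ^ l) (Tf0 ν hν N G)).1 (liftE H)

/-- The term with `l` extra interactions. -/
noncomputable def vG (G : LipS (Egy N)) (H : Egy N) (l : ℕ) : ℝ :=
  ((Tc ρ hρ N ^ l) G).1 H

theorem uG_lip (G : LipS (Egy (N + 1))) (hG : LipschitzWith 1 G.1) (H : Egy N) (l : ℕ) :
    |uG ρ hρ ν hν G H (l + 1) - uG ρ hρ ν hν G H l| ≤ ∫ c, maxTheta c ∂ρ := by
  unfold uG
  rw [pow_succ']
  have h := (isAvg_TB ρ hρ (N := N)).near ((TB ρ hρ N ^ l) (Tf0 ν hν N G)) 1
    ((isAvg_TB ρ hρ (N := N)).pow_lip l _ 1 (lip_Tf0G ν hν G hG)) (liftE H)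
  rw [NNReal.coe_one, one_mul] at h
  exact h

theorem vG_lip (G : LipS (Egy N)) (hG : LipschitzWith 1 G.1) (H : Egy N) (l : ℕ) :
    |vG ρ hρ G H (l + 1) - vG ρ hρ G H l| ≤ ∫ c, maxTheta c ∂ρ := by
  unfold vG
  rw [pow_succ']
  have h := (isAvg_Tc ρ hρ N).near ((Tc ρ hρ N ^ l) G) 1
    ((isAvg_Tc ρ hρ N).pow_lip l _ 1 hG) H
  rw [NNReal.coe_one, one_mul] at h
  exact h

theorem Tf0_bdd (G G' : LipS (Egy (N + 1))) {κ : ℝ} (hκ : ∀ x, |G.1 x - G'.1 x| ≤ κ) (x) :
    |(Tf0 ν hν N G).1 x - (Tf0 ν hν N G').1 x| ≤ κ := by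
  have h := (isAvg_top ν fE0 (integrable_fE0 ν hν) _ le_rfl).bdd (G - G') κ (fun h => hκ h) x
  rw [map_sub] at h
  exact h

/-- The pointwise comparison. -/
theorem point_gen (lam : ℝ≥0) (G1 : LipS (Egy (N + 1))) (hG1 : LipschitzWith 1 G1.1)
    (Gh : LipS (Egy (N + 1))) (hGh : LipschitzWith 1 Gh.1) (κ : ℝ)
    (hκ : ∀ x, |G1.1 x - Gh.1 x| ≤ κ) (G0 : LipS (Egy N)) (hG0 : LipschitzWith 1 G0.1) (M0 : ℝ)
    (a b : ℝ≥0) (δ : ℝ)
    (ha : |(a : ℝ) - K * lam| ≤ δ) (hb : |(b : ℝ) - ((K - 1 : ℕ) : ℝ) * lam| ≤ δ)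
    (ha' : (a : ℝ) ≤ K * lam) (H : Egy N)
    (hM : M0 ≤ (∫ l, uG ρ hρ ν hν Gh H l ∂(poissonMeasure (K * lam))) -
      ∫ l, vG ρ hρ G0 H l ∂(poissonMeasure (((K - 1 : ℕ) : ℝ≥0) * lam))) :
    M0 - (κ + 2 * (∫ c, maxTheta c ∂ρ) * δ +
      (K * lam) * (2 * (K : ℝ) ^ 2 * (1 / ((N + 1 : ℕ) : ℝ)) * ∫ c, maxTheta c ∂ρ)) ≤
    (∫ l, (YRG ρ hρ ν hν G1 l).1 (liftE H) ∂(poissonMeasure a)) -
      ∫ l, (YVG ρ hρ G0 l).1 H ∂(poissonMeasure b) := by
  set L := ∫ c, maxTheta c ∂ρ with hL
  have hL0 : 0 ≤ L := Lbar_nonneg ρ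
  set ε := 2 * (K : ℝ) ^ 2 * (1 / ((N + 1 : ℕ) : ℝ)) * L with hε
  have hε0 : 0 ≤ ε := by
    rw [hε]
    have := p0_pos N
    (clear * - hL0; positivity)
  have hκ0 : 0 ≤ κ := (abs_nonneg _).trans (hκ 0)
  have hgu : ExpGrowth fun l => uG ρ hρ ν hν Gh H l := growth_of_lip (uG_lip ρ hρ ν hν Gh hGh H)
  have hgY := YRG_eg ρ hρ ν hν G1 hG1 (liftE H)
  have hg1 : ExpGrowth fun l : ℕ => (-ε) * (l : ℝ) := growth_cast.const_mul (-ε)
  have hgf := (hgu.add (expGrowth_const (-κ))).add hg1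
  have key := pois_mono hgf hgY a fun l => by
    have h2 := (isAvg_TR ρ hρ (N := N)).pow_compare (isAvg_TB ρ hρ (N := N)) ε
      (TR_near_TB ρ hρ) l (Tf0 ν hν N G1) 1 (lip_Tf0G ν hν G1 hG1) (liftE H)
    rw [NNReal.coe_one, one_mul] at h2
    have h3 := (isAvg_TB ρ hρ (N := N)).pow_bdd l (Tf0 ν hν N G1 - Tf0 ν hν N Gh) κ
      (fun x => Tf0_bdd ν hν G1 Gh hκ x) (liftE H)
    rw [map_sub] at h3
    have h3' : |((TB ρ hρ N ^ l) (Tf0 ν hν N G1)).1 (liftE H) - uG ρ hρ ν hν Gh H l| ≤ κ := h3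
    have h4 := (abs_le.1 h2).1
    have h5 := (abs_le.1 h3').1
    have h6 : (YRG ρ hρ ν hν G1 l).1 (liftE H) =
      ((TR ρ hρ N ^ l) (Tf0 ν hν N G1)).1 (liftE H) := rfl
    rw [h6]
    (clear lam hG1 hGh hκ G0 hG0 M0 a b δ ha hb ha' hM hL hL0 hε hε0 hκ0 hgu hgY hg1 hgf h6; linarith)
  rw [integral_add ((hgu.add (expGrowth_const (-κ))).integrable a) (hg1.integrable a),
    integral_add (hgu.integrable a) ((expGrowth_const (-κ)).integrable a),
    integral_const_mul, pois_mean, pois_const] at key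
  have lU := pois_lip (uG_lip ρ hρ ν hν Gh hGh H) a (K * lam)
  have lV := pois_lip (vG_lip ρ hρ G0 hG0 H) b (((K - 1 : ℕ) : ℝ≥0) * lam)
  have lU' : L * |(a : ℝ) - ((K * lam : ℝ≥0) : ℝ)| ≤ L * δ := by
    apply mul_le_mul_of_nonneg_left _ hL0
    push_cast
    exact ha
  have lV' : L * |(b : ℝ) - ((((K - 1 : ℕ) : ℝ≥0) * lam : ℝ≥0) : ℝ)| ≤ L * δ := by
    apply mul_le_mul_of_nonneg_left _ hL0
    rw [NNReal.coe_mul, NNReal.coe_natCast]
    exact hb
  have lU2 := (abs_le.1 lU).1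
  have lV2 := (abs_le.1 lV).2
  have e1 : (a : ℝ) * ε ≤ (K * lam) * ε := mul_le_mul_of_nonneg_right ha' hε0
  have e2 : (∫ l, (YVG ρ hρ G0 l).1 H ∂(poissonMeasure b)) =
      ∫ l, vG ρ hρ G0 H l ∂(poissonMeasure b) := rfl
  rw [e2]
  linarith

theorem incr_gen (lam : ℝ≥0) (G1 : LipS (Egy (N + 1))) (hG1 : LipschitzWith 1 G1.1)
    (Gh : LipS (Egy (N + 1))) (hGh : LipschitzWith 1 Gh.1) (κ : ℝ)
    (hκ : ∀ x, |G1.1 x - Gh.1 x| ≤ κ) (G0 : LipS (Egy N)) (hG0 : LipschitzWith 1 G0.1) (M0 : ℝ)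
    (hM : ∀ H : Egy N, M0 ≤ (∫ l, uG ρ hρ ν hν Gh H l ∂(poissonMeasure (K * lam))) -
      ∫ l, vG ρ hρ G0 H l ∂(poissonMeasure (((K - 1 : ℕ) : ℝ≥0) * lam))) :
    M0 - (κ + (2 * (∫ c, maxTheta c ∂ρ) * (lam * (K : ℝ) ^ 2) +
      (K * lam) * (2 * (K : ℝ) ^ 2 * ∫ c, maxTheta c ∂ρ)) * (1 / ((N + 1 : ℕ) : ℝ))) ≤
    aG ρ hρ ν hν (N + 1) G1 lam - aG ρ hρ ν hν N G0 lam := by
  have hN : (0 : ℝ) < N := by exact_mod_cast Nat.pos_of_ne_zero (NeZero.ne N)
  have hK1 : 1 ≤ K := Nat.one_le_iff_ne_zero.2 (NeZero.ne K)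
  have hK1' : (1 : ℝ) ≤ K := by exact_mod_cast hK1
  set x : ℝ := 1 / ((N + 1 : ℕ) : ℝ) with hx
  have hx0 : 0 < x := p0_pos N
  have hxN : x * (N + 1) = 1 := by
    rw [hx]; push_cast; field_simp
  have hq0 := (qR_pos K N).le
  have hq1 := qR_le_one K N
  set q : ℝ≥0 := ⟨qR K N, hq0⟩ with hq
  set p : ℝ≥0 := ⟨1 - qR K N, by linarith only [hq1]⟩ with hp
  set Λ : ℝ≥0 := lam * ((N + 1 : ℕ) : ℝ≥0) with hΛ
  have hΛr : (Λ : ℝ) = lam * (N + 1) := by rw [hΛ]; push_cast; ring
  have hpr : (p : ℝ) = 1 - qR K N := rfl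
  have hqr : (q : ℝ) = qR K N := rfl
  have hlam : (0 : ℝ) ≤ lam := NNReal.coe_nonneg lam
  have hqx : x ≤ qR K N := p0_le_qR K N
  have hpaN : ((p * Λ : ℝ≥0) : ℝ) ≤ lam * N := by
    rw [NNReal.coe_mul, hΛr, hpr]
    have h1 : (1 - qR K N) * (N + 1) ≤ N := by
      have : x * (N + 1) ≤ qR K N * (N + 1) := mul_le_mul_of_nonneg_right hqx (by linarith only [])
      linarith only [hxN, this]
    calc (1 - qR K N) * (lam * (N + 1)) = lam * ((1 - qR K N) * (N + 1)) := by ring
      _ ≤ lam * N := mul_le_mul_of_nonneg_left h1 hlam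
  have hpaN' : p * Λ ≤ lam * (N : ℝ≥0) := by
    rw [← NNReal.coe_le_coe]
    push_cast at hpaN ⊢
    exact hpaN
  obtain ⟨b, hb⟩ := exists_add_of_le hpaN'
  have hbr : (b : ℝ) = qR K N * (lam * (N + 1)) - lam := by
    have h1 : ((lam * (N : ℝ≥0) : ℝ≥0) : ℝ) = ((p * Λ + b : ℝ≥0) : ℝ) := by rw [hb]
    rw [NNReal.coe_add, NNReal.coe_mul, NNReal.coe_mul, hΛr, hpr, NNReal.coe_natCast] at h1
    linarith only [h1]
  have har : ((q * Λ : ℝ≥0) : ℝ) = qR K N * (lam * (N + 1)) := by
    rw [NNReal.coe_mul, hΛr, hqr]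
  have hale : ((q * Λ : ℝ≥0) : ℝ) ≤ K * lam := by
    rw [har]
    calc qR K N * (lam * (N + 1)) ≤ (K * x) * (lam * (N + 1)) :=
          mul_le_mul_of_nonneg_right (qR_le K N) (by (clear * - hN; positivity))
      _ = K * lam * (x * (N + 1)) := by ring
      _ = K * lam := by rw [hxN, mul_one]
  have hage : K * lam - ((q * Λ : ℝ≥0) : ℝ) ≤ lam * (K : ℝ) ^ 2 * x := by
    rw [har]
    have h1 : (K * x - (K : ℝ) ^ 2 * x ^ 2) * (lam * (N + 1)) ≤ qR K N * (lam * (N + 1)) :=
      mul_le_mul_of_nonneg_right (qR_ge K N) (by (clear * - hN; positivity))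
    have h2 : (K * x - (K : ℝ) ^ 2 * x ^ 2) * (lam * (N + 1)) =
        K * lam * (x * (N + 1)) - lam * (K : ℝ) ^ 2 * x * (x * (N + 1)) := by ring
    rw [h2, hxN] at h1
    linarith only [h1]
  set δ : ℝ := lam * (K : ℝ) ^ 2 * x with hδ
  have ha : |((q * Λ : ℝ≥0) : ℝ) - K * lam| ≤ δ := by
    rw [abs_le]
    have hδ0 : 0 ≤ δ := by (clear * - hK1; positivity)
    constructor <;> linarith only [hage, hale]
  have hKm : (((K - 1 : ℕ) : ℝ)) = (K : ℝ) - 1 := by
    rw [Nat.cast_sub hK1, Nat.cast_one]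
  have hbb : |(b : ℝ) - ((K - 1 : ℕ) : ℝ) * lam| ≤ δ := by
    have : (b : ℝ) - ((K - 1 : ℕ) : ℝ) * lam = ((q * Λ : ℝ≥0) : ℝ) - K * lam := by
      rw [hKm, hbr, har]; ring
    rw [this]
    exact ha
  rw [upper_formG ρ hρ ν hν G1 hG1 lam p q hpr hqr, lower_formG ρ hρ ν hν G0 hG0 lam (p * Λ) b hb,
    ← hΛ]
  set L := ∫ c, maxTheta c ∂ρ with hL
  set GR : Egy N → ℝ := fun H => ∫ l, (YRG ρ hρ ν hν G1 l).1 (liftE H) ∂(poissonMeasure (q * Λ))
    with hGR
  set GV : Egy N → ℝ := fun H => ∫ l, (YVG ρ hρ G0 l).1 H ∂(poissonMeasure b) with hGV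
  have hGRl : LipschitzWith 1 GR := pois_lip_fun (fun l => YRlG ρ hρ ν hν G1 hG1 l) 1
    (fun l => YRlG_lip ρ hρ ν hν G1 hG1 l) (fun x => YRG_eg ρ hρ ν hν G1 hG1 (liftE x)) (q * Λ)
  have hGVl : LipschitzWith 1 GV := pois_lip_fun (fun l => YVG ρ hρ G0 l) 1
    (fun l => YVG_lip ρ hρ G0 hG0 l) (fun x => YVG_eg ρ hρ G0 hG0 x) b
  have hg1 := growthZ ρ hρ ν hν GR hGRl
  have hg2 := growthZ ρ hρ ν hν GV hGVl
  show _ ≤ (∫ k, (∫ z, GR (En z.1 z.2) ∂(muZ ρ ν N k)) ∂(poissonMeasure (p * Λ))) -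
    ∫ k, (∫ z, GV (En z.1 z.2) ∂(muZ ρ ν N k)) ∂(poissonMeasure (p * Λ))
  rw [← integral_sub (hg1.integrable _) (hg2.integrable _)]
  set e0 : ℝ := κ + 2 * L * δ + (K * lam) * (2 * (K : ℝ) ^ 2 * x * L) with he0
  have hpt : ∀ H : Egy N, M0 - e0 ≤ GR H - GV H := fun H =>
    point_gen ρ hρ ν hν lam G1 hG1 Gh hGh κ hκ G0 hG0 M0 (q * Λ) b δ ha hbb hale H (hM H)
  have hk : ∀ k : ℕ, M0 - e0 ≤
      (∫ z, GR (En z.1 z.2) ∂(muZ ρ ν N k)) - ∫ z, GV (En z.1 z.2) ∂(muZ ρ ν N k) := by
    intro k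
    have i1 := lip_integrable hGRl (integrable_EZ ρ hρ ν hν (N := N) k) 0
    have i2 := lip_integrable hGVl (integrable_EZ ρ hρ ν hν (N := N) k) 0
    simp only [zero_add] at i1 i2
    rw [← integral_sub i1 i2]
    have e1 : ∫ _ : (Fin k → Clause K × (Fin K → Fin N)) × (Fin N → ℝ), (M0 - e0)
        ∂(muZ ρ ν N k) = M0 - e0 := by simp
    rw [← e1]
    exact integral_mono (integrable_const _) (i1.sub i2) fun z => hpt (En z.1 z.2)
  have hg5 : ExpGrowth fun k => (∫ z, GR (En z.1 z.2) ∂(muZ ρ ν N k)) -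
      ∫ z, GV (En z.1 z.2) ∂(muZ ρ ν N k) := by
    have h := hg1.add (hg2.const_mul (-1))
    simpa only [sub_eq_add_neg, neg_mul, one_mul] using h
  have key := pois_mono (expGrowth_const (M0 - e0)) hg5 (p * Λ) hk
  rw [pois_const] at key
  refine le_trans (le_of_eq ?_) key
  rw [he0, hδ]
  ring

end IncrG

section Final

variable {K : ℕ} [NeZero K] (ρ : Measure (Clause K)) [IsProbabilityMeasure ρ]
  (hρ : Integrable (maxTheta : Clause K → ℝ) ρ) (ν : Measure ℝ) [IsProbabilityMeasure ν]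
  (hν : Integrable (fun h : ℝ => h) ν)

theorem aG_near (M : ℕ) [NeZero M] (G : LipS (Egy M)) (hG : LipschitzWith 1 G.1) (lam : ℝ≥0)
    (C0 : ℝ) (h : ∀ x, |G.1 x - logZ x| ≤ C0) :
    aG ρ hρ ν hν M G lam - C0 ≤ (M : ℝ) * pressure lam ρ ν M := by
  rw [mul_pressure ρ hρ ν hν M lam]
  unfold aG
  have g1 := A_growthG ρ hρ ν hν G hG
  have g2 := A_growthG ρ hρ ν hν (PhiL M) logZ_lip
  have key := pois_mono (g1.add (expGrowth_const (-C0))) g2 (lam * M) fun n => by
    have h1 := (isAvg_Tc ρ hρ M).pow_bdd n (Tf ν hν M G - Tf ν hν M (PhiL M)) C0 (fun x => by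
      have h2 := (isAvg_top (Measure.pi fun _ : Fin M => ν) fieldE (integrable_fieldE ν hν) _
        le_rfl).bdd (G - PhiL M) C0 (fun y => h y) x
      rw [map_sub] at h2
      exact h2) 0
    rw [map_sub] at h1
    have h3 : |((Tc ρ hρ M ^ n) (Tf ν hν M G)).1 0 -
      ((Tc ρ hρ M ^ n) (Tf ν hν M (PhiL M))).1 0| ≤ C0 := h1
    have h4 := (abs_le.1 h3).2
    linarith
  rw [integral_add (g1.integrable _) ((expGrowth_const (-C0)).integrable _), pois_const] at key
  linarith

/-- The Aizenman–Sims–Starr scheme with a family of 1-Lipschitz functionals. -/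
theorem ass_generic (lam : ℝ≥0) (G : ∀ N : ℕ, LipS (Egy N))
    (hG : ∀ N, LipschitzWith 1 (G N).1) (Gh : ∀ N : ℕ, LipS (Egy (N + 1)))
    (hGh : ∀ N, LipschitzWith 1 (Gh N).1) (C0 C1 : ℝ) (hC0 : 0 ≤ C0) (hC1 : 0 ≤ C1)
    (h0 : ∀ N, 1 ≤ N → ∀ x, |(G N).1 x - logZ x| ≤ C0)
    (h1 : ∀ N, 1 ≤ N → ∀ x, |(G (N + 1)).1 x - (Gh N).1 x| ≤ C1 / ((N + 1 : ℕ) : ℝ)) (M0 : ℝ)
    (hM : ∀ (N : ℕ) [NeZero N] (H : Egy N),
      M0 ≤ (∫ l, uG ρ hρ ν hν (Gh N) H l ∂(poissonMeasure (K * lam))) -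
      ∫ l, vG ρ hρ (G N) H l ∂(poissonMeasure (((K - 1 : ℕ) : ℝ≥0) * lam))) :
    (M0 : EReal) ≤ liminf (fun N => ((pressure lam ρ ν N : ℝ) : EReal)) atTop := by
  set L := ∫ c, maxTheta c ∂ρ with hL
  have hL0 : 0 ≤ L := Lbar_nonneg ρ
  set C2' : ℝ := C1 + (2 * L * (lam * (K : ℝ) ^ 2) + (K * lam) * (2 * (K : ℝ) ^ 2 * L)) with hC2
  have hC20 : 0 ≤ C2' := by (clear * - hC1 hL0; positivity)
  -- the sequence
  set F : ℕ → ℝ := fun N => if h : N = 0 then 0 else
    haveI : NeZero N := ⟨h⟩; aG ρ hρ ν hν N (G N) lam / N with hF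
  have hstep : ∀ N : ℕ, 1 ≤ N → M0 - C2' / Real.sqrt N ≤
      ((N + 1 : ℕ) : ℝ) * F (N + 1) - (N : ℝ) * F N := by
    intro N hN
    haveI : NeZero N := ⟨by omega⟩
    have hNr : (1 : ℝ) ≤ N := by exact_mod_cast hN
    have e1 : ((N + 1 : ℕ) : ℝ) * F (N + 1) = aG ρ hρ ν hν (N + 1) (G (N + 1)) lam := by
      rw [hF]
      simp only
      rw [dif_neg (Nat.succ_ne_zero N)]
      (clear hG Gh hGh C0 C1 hC0 hC1 h0 h1 M0 hM L hL hL0 C2' hC2 hC20 F hF hNr; field_simp)
    have e2 : (N : ℝ) * F N = aG ρ hρ ν hν N (G N) lam := by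
      rw [hF]
      simp only
      rw [dif_neg (by omega : ¬ N = 0)]
      (clear hG Gh hGh C0 C1 hC0 hC1 h0 h1 M0 hM L hL hL0 C2' hC2 hC20 F hF hNr e1; field_simp)
    rw [e1, e2]
    have h2 := incr_gen (N := N) ρ hρ ν hν lam (G (N + 1)) (hG _) (Gh N) (hGh N)
      (C1 / ((N + 1 : ℕ) : ℝ)) (h1 N hN) (G N) (hG N) M0 (hM N)
    refine le_trans ?_ h2
    set s := Real.sqrt N with hs
    have hs1 : 1 ≤ s := Real.one_le_sqrt.2 hNr
    have hss : s * s = N := Real.mul_self_sqrt (by linarith only [])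
    have h3 : 1 / ((N + 1 : ℕ) : ℝ) ≤ 1 / s := by
      apply one_div_le_one_div_of_le (by linarith only [hs1])
      push_cast
      nlinarith only [hss]
    have h4 : C2' * (1 / ((N + 1 : ℕ) : ℝ)) ≤ C2' * (1 / s) := mul_le_mul_of_nonneg_left h3 hC20
    have h5 : C2' / s = C2' * (1 / s) := by ring
    have h6 : C1 / ((N + 1 : ℕ) : ℝ) + (2 * L * (lam * (K : ℝ) ^ 2) +
        (K * lam) * (2 * (K : ℝ) ^ 2 * L)) * (1 / ((N + 1 : ℕ) : ℝ)) =
        C2' * (1 / ((N + 1 : ℕ) : ℝ)) := by rw [hC2]; ring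
    rw [h5, h6]
    linarith only [h4]
  have hbase : ∀ N : ℕ, 1 ≤ N → F N - C0 / N ≤ pressure lam ρ ν N := by
    intro N hN
    haveI : NeZero N := ⟨by omega⟩
    have hNr : (0 : ℝ) < N := by exact_mod_cast hN
    have h2 := aG_near ρ hρ ν hν N (G N) (hG N) lam C0 (h0 N hN)
    have e2 : F N = aG ρ hρ ν hν N (G N) lam / N := by
      rw [hF]
      simp only
      rw [dif_neg (by omega : ¬ N = 0)]
    rw [e2, ← sub_div, div_le_iff₀ hNr]
    (clear Gh hGh C1 hC0 hC1 h1 M0 hM L hL hL0 C2' hC2 hC20 F hF hstep hNr e2; linarith)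
  -- lower bound for F
  set D : ℝ := |F 1 - M0| + 2 * C2' with hD
  have hlow : ∀ N : ℕ, 1 ≤ N → M0 - D / Real.sqrt N ≤ F N := by
    intro N hN
    obtain ⟨n, rfl⟩ : ∃ n, N = n + 1 := ⟨N - 1, by omega⟩
    have h1 := cesaro_bound F M0 C2' hC20 hstep n
    set b := Real.sqrt ((n + 1 : ℕ) : ℝ) with hb
    have hb0 : 0 < b := Real.sqrt_pos.2 (by positivity)
    have hbb : b * b = ((n + 1 : ℕ) : ℝ) := Real.mul_self_sqrt (by positivity)
    have hb1 : 1 ≤ b := by
      rw [hb]
      apply Real.one_le_sqrt.2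
      push_cast
      have : (0 : ℝ) ≤ n := Nat.cast_nonneg n
      linarith only []
    have hab : Real.sqrt n ≤ b := Real.sqrt_le_sqrt (by push_cast; linarith only [])
    have h2 : F 1 + n * M0 - 2 * C2' * Real.sqrt n ≥ ((n + 1 : ℕ) : ℝ) * M0 - D * b := by
      have h3 : ((n + 1 : ℕ) : ℝ) * M0 = n * M0 + M0 := by push_cast; ring
      rw [h3]
      have h4 : 2 * C2' * Real.sqrt n ≤ 2 * C2' * b := mul_le_mul_of_nonneg_left hab (by linarith only [hC20])
      have h5 : -(F 1 - M0) ≤ |F 1 - M0| * b := by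
        calc -(F 1 - M0) ≤ |F 1 - M0| := neg_le_abs _
          _ = |F 1 - M0| * 1 := by ring
          _ ≤ |F 1 - M0| * b := mul_le_mul_of_nonneg_left hb1 (abs_nonneg _)
      rw [hD]
      linarith only [h4, h5]
    have h6 : ((n + 1 : ℕ) : ℝ) * (M0 - D / b) = ((n + 1 : ℕ) : ℝ) * M0 - D * b := by
      rw [← hbb]
      (clear * - hb0; field_simp)
    have h7 : (0 : ℝ) < ((n + 1 : ℕ) : ℝ) := by positivity
    refine le_of_mul_le_mul_left ?_ h7
    rw [h6]
    linarith only [h1, h2]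
  have hfin : ∀ N : ℕ, 1 ≤ N → M0 - (D + C0) / Real.sqrt N ≤ pressure lam ρ ν N := by
    intro N hN
    have hNr : (1 : ℝ) ≤ N := by exact_mod_cast hN
    have h2 := hlow N hN
    have h3 := hbase N hN
    set s := Real.sqrt N with hs
    have hs1 : 1 ≤ s := Real.one_le_sqrt.2 hNr
    have hss : s * s = N := Real.mul_self_sqrt (by linarith only [])
    have h4 : C0 / N ≤ C0 / s := by
      apply div_le_div_of_nonneg_left hC0 (by linarith only [hs1])
      nlinarith only [hss, hs1]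
    have h5 : (D + C0) / s = D / s + C0 / s := add_div _ _ _
    rw [h5]
    linarith only [h3, h2, h4]
  have ht : Tendsto (fun N : ℕ => M0 - (D + C0) / Real.sqrt N) atTop (𝓝 M0) := by
    have h1 : Tendsto (fun N : ℕ => Real.sqrt (N : ℝ)) atTop atTop :=
      Real.tendsto_sqrt_atTop.comp tendsto_natCast_atTop_atTop
    have h2 : Tendsto (fun N : ℕ => (D + C0) / Real.sqrt (N : ℝ)) atTop (𝓝 0) :=
      h1.const_div_atTop _
    have h3 := (tendsto_const_nhds (x := M0)).sub h2
    simpa using h3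
  have ht' : Tendsto (fun N : ℕ => ((M0 - (D + C0) / Real.sqrt N : ℝ) : EReal)) atTop
      (𝓝 (M0 : EReal)) := (continuous_coe_real_ereal.tendsto _).comp ht
  rw [← ht'.liminf_eq]
  refine liminf_le_liminf ?_
  filter_upwards [eventually_ge_atTop 1] with N hN
  exact EReal.coe_le_coe_iff.2 (hfin N hN)

end Final

end Vale.Agent.N168I
end
end

section

section

set_option autoImplicit false
set_option linter.unusedSectionVars false

open MeasureTheory ProbabilityTheory Finset Filter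
open scoped NNReal Topology

namespace Vale.Agent.N168I

open KS (unifK integral_unif)

section Plse

variable {N : ℕ}

/-- Summation over the extra spin, on the level of energies. -/
noncomputable def plse (H : Egy (N + 1)) : Egy N := fun σ =>
  Real.log (∑ e, Real.exp (H (Fin.cons e σ)))

theorem plse_mono {H H' : Egy (N + 1)} {c : ℝ} (h : ∀ σ, H σ ≤ H' σ + c) (σ : Fin N → Bool) :
    plse H σ ≤ plse H' σ + c := by
  unfold plse
  have h1 : ∑ e, Real.exp (H (Fin.cons e σ)) ≤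
      Real.exp c * ∑ e, Real.exp (H' (Fin.cons e σ)) := by
    rw [Finset.mul_sum]
    refine Finset.sum_le_sum fun e _ => ?_
    rw [← Real.exp_add, Real.exp_le_exp]
    linarith [h (Fin.cons e σ)]
  have h2 : 0 < ∑ e : Bool, Real.exp (H (Fin.cons e σ)) :=
    Finset.sum_pos (fun σ _ => Real.exp_pos _) Finset.univ_nonempty
  have h3 : 0 < ∑ e : Bool, Real.exp (H' (Fin.cons e σ)) :=
    Finset.sum_pos (fun σ _ => Real.exp_pos _) Finset.univ_nonempty
  calc Real.log (∑ e, Real.exp (H (Fin.cons e σ))) ≤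
        Real.log (Real.exp c * ∑ e, Real.exp (H' (Fin.cons e σ))) := Real.log_le_log h2 h1
    _ = _ := by rw [Real.log_mul (Real.exp_pos c).ne' h3.ne', Real.log_exp]; ring

theorem plse_lip : LipschitzWith 1 (plse : Egy (N + 1) → Egy N) := by
  refine LipschitzWith.of_dist_le_mul fun x y => ?_
  rw [NNReal.coe_one, one_mul]
  rw [dist_pi_le_iff dist_nonneg]
  intro σ
  have h : ∀ a b : Egy (N + 1), ∀ σ, a σ ≤ b σ + dist a b := by
    intro a b σ
    have := (abs_le.1 ((Real.dist_eq (a σ) (b σ)) ▸ dist_le_pi_dist a b σ)).2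
    linarith
  rw [Real.dist_eq, abs_le]
  have h1 := plse_mono (h x y) σ
  have h2 := plse_mono (h y x) σ
  rw [dist_comm y x] at h2
  constructor <;> linarith

theorem plse_lift_add (H : Egy N) (W : Egy (N + 1)) : plse (liftE H + W) = H + plse W := by
  funext σ
  unfold plse
  have h3 : 0 < ∑ e : Bool, Real.exp (W (Fin.cons e σ)) :=
    Finset.sum_pos (fun σ _ => Real.exp_pos _) Finset.univ_nonempty
  have h1 : ∑ e, Real.exp ((liftE H + W) (Fin.cons e σ : Fin (N + 1) → Bool)) =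
      Real.exp (H σ) * ∑ e, Real.exp (W (Fin.cons e σ)) := by
    rw [Finset.mul_sum]
    refine Finset.sum_congr rfl fun e _ => ?_
    rw [← Real.exp_add]
    rfl
  rw [h1, Real.log_mul (Real.exp_pos _).ne' h3.ne', Real.log_exp]
  rfl

theorem logZ_plse (H : Egy (N + 1)) : logZ (plse H) = logZ H := by
  unfold logZ plse
  congr 1
  rw [sum_fin_succ_fun, Finset.sum_comm]
  refine Finset.sum_congr rfl fun σ _ => ?_
  rw [Real.exp_log]
  exact Finset.sum_pos (fun σ _ => Real.exp_pos _) Finset.univ_nonempty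

/-- Composition of a functional with the summation over the extra spin. -/
noncomputable def compPlse (G : LipS (Egy N)) (hG : LipschitzWith 1 G.1) : LipS (Egy (N + 1)) :=
  ⟨fun x => G.1 (plse x), 1, by
    have := hG.comp (plse_lip (N := N))
    rw [one_mul] at this
    exact this⟩

theorem compPlse_lip (G : LipS (Egy N)) (hG : LipschitzWith 1 G.1) :
    LipschitzWith 1 (compPlse G hG).1 := by
  have := hG.comp (plse_lip (N := N))
  rw [one_mul] at this
  exact this

end Plse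

section Cav

variable {K N : ℕ} [NeZero K] [NeZero N]

/-- The energy of the cavity shape at the sites `i`. -/
noncomputable def eU {l : ℕ} (ω : Fin l → Clause K × Fin K) (h : ℝ)
    (i : Fin l × Fin K → Fin N) : Egy N := fun σ => Real.log (QU ω h fun p => σ (i p))

/-- The energy of the interaction shape at the sites `i`. -/
noncomputable def eV {l : ℕ} (ω : Fin l → Clause K) (i : Fin l × Fin K → Fin N) : Egy N :=
  fun σ => Real.log (QV ω fun p => σ (i p))

theorem plse_cav {l : ℕ} (H : Egy N) (η : Fin l → (Clause K × Fin K) × (Fin K → Fin N)) (h : ℝ) :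
    plse (liftE H + ∑ k, cavE (η k) + fE0 h) =
      H + eU (fun k => (η k).1) h (fun p => (η p.1).2 p.2) := by
  rw [add_assoc, plse_lift_add]
  congr 1
  funext σ
  unfold plse eU QU
  congr 1
  refine Finset.sum_congr rfl fun e _ => ?_
  rw [Pi.add_apply, Finset.sum_apply, Real.exp_add, Real.exp_sum, mul_comm]
  congr 1
  refine Finset.prod_congr rfl fun k _ => ?_
  rw [cavE_cons]

theorem sum_clauseE_eV {l : ℕ} (η : Fin l → Clause K × (Fin K → Fin N)) :
    ∑ k, (clauseE (η k) : Egy N) = eV (fun k => (η k).1) (fun p => (η p.1).2 p.2) := by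
  funext σ
  unfold eV QV
  rw [← Real.exp_sum, Real.log_exp, Finset.sum_apply]
  rfl

variable (ρ : Measure (Clause K)) [IsProbabilityMeasure ρ]
  (hρ : Integrable (maxTheta : Clause K → ℝ) ρ) (ν : Measure ℝ) [IsProbabilityMeasure ν]
  (hν : Integrable (fun h : ℝ => h) ν)

theorem uG_formula (G : LipS (Egy N)) (hG : LipschitzWith 1 G.1) (H : Egy N) (l : ℕ) :
    uG ρ hρ ν hν (compPlse G hG) H l =
    ∫ ω : Fin l → Clause K × Fin K, (∫ h : ℝ, (∫ i : Fin l × Fin K → Fin N,
      G.1 (H + eU ω h i)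
      ∂(Measure.pi fun _ => unif N)) ∂ν) ∂(Measure.pi fun _ => ρ.prod (unif K)) := by
  unfold uG TB
  rw [Top_pow]
  set F : (Fin l → Clause K × Fin K) → (Fin l × Fin K → Fin N) → ℝ := fun ω i =>
    ∫ h, G.1 (H + eU ω h i) ∂ν with hF
  have e1 : ∀ η : Fin l → (Clause K × Fin K) × (Fin K → Fin N),
      (Tf0 ν hν N (compPlse G hG)).1 (liftE H + ∑ k, cavE (η k)) =
      F (fun k => (η k).1) (fun p => (η p.1).2 p.2) := by
    intro η
    unfold Tf0
    rw [Top_apply]
    congr 1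
    funext h
    show G.1 (plse (liftE H + ∑ k, cavE (η k) + fE0 h)) = _
    rw [plse_cav]
  have hint : Integrable (fun η : Fin l → (Clause K × Fin K) × (Fin K → Fin N) =>
      (Tf0 ν hν N (compPlse G hG)).1 (liftE H + ∑ k, cavE (η k)))
      (Measure.pi fun _ => (ρ.prod (unif K)).prod (unifK K N)) := by
    refine lip_integrable (lip_Tf0G ν hν _ (compPlse_lip G hG)) ?_ (liftE H)
    refine integrable_finsetSum _ fun k _ => ?_
    exact integrable_comp_eval (integrable_cavE ρ hρ)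
  simp_rw [e1] at hint ⊢
  rw [integral_arrow (ρ.prod (unif K)) F hint]
  congr 1
  funext ω
  rw [hF]
  simp only
  rw [swap_fin ν]
  intro i
  have := lip_integrable (compPlse_lip G hG) (integrable_fE0 (N := N) ν hν)
    (liftE H + ∑ k, cavE ((ω k), fun j => i (k, j)))
  refine this.congr (Filter.Eventually.of_forall fun h => ?_)
  show G.1 (plse (liftE H + ∑ k, cavE ((ω k), fun j => i (k, j)) + fE0 h)) = _
  rw [plse_cav H (fun k => ((ω k), fun j => i (k, j))) h]

theorem vG_formula (G : LipS (Egy N)) (hG : LipschitzWith 1 G.1) (H : Egy N) (l : ℕ) :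
    vG ρ hρ G H l =
    ∫ ω : Fin l → Clause K, (∫ i : Fin l × Fin K → Fin N, G.1 (H + eV ω i)
      ∂(Measure.pi fun _ => unif N)) ∂(Measure.pi fun _ => ρ) := by
  unfold vG Tc
  rw [Top_pow]
  set F : (Fin l → Clause K) → (Fin l × Fin K → Fin N) → ℝ := fun ω i =>
    G.1 (H + eV ω i) with hF
  have e1 : ∀ η : Fin l → Clause K × (Fin K → Fin N),
      G.1 (H + ∑ k, clauseE (η k)) = F (fun k => (η k).1) (fun p => (η p.1).2 p.2) := by
    intro η
    rw [sum_clauseE_eV]
  have hint : Integrable (fun η : Fin l → Clause K × (Fin K → Fin N) =>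
      G.1 (H + ∑ k, clauseE (η k))) (Measure.pi fun _ => ρ.prod (unifK K N)) := by
    refine lip_integrable hG ?_ H
    refine integrable_finsetSum _ fun k _ => ?_
    exact integrable_comp_eval (integrable_clauseE ρ hρ)
  simp_rw [e1] at hint ⊢
  exact integral_arrow ρ F hint

end Cav

end Vale.Agent.N168I
end
end

section

section

set_option autoImplicit false
set_option linter.unusedSectionVars false

open MeasureTheory ProbabilityTheory Finset Filter
open scoped NNReal Topology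

namespace Vale.Agent.N168I.MP

/-- The energy of the (logarithmic) shape `ψ` at the sites `s`. -/
def shE {N : ℕ} {J : Type} (ψ : (J → Bool) → ℝ) (s : J → Fin N) : Egy N :=
  fun σ => ψ fun j => σ (s j)

theorem norm_shE_le {N : ℕ} {J : Type} {ψ : (J → Bool) → ℝ} {M : ℝ} (hM : 0 ≤ M)
    (hψ : ∀ τ, |ψ τ| ≤ M) (s : J → Fin N) : ‖(shE ψ s : Egy N)‖ ≤ M := by
  rw [pi_norm_le_iff_of_nonneg hM]
  intro σ
  rw [Real.norm_eq_abs]
  exact hψ _

section Slots

variable {W J : Type} (ψ : W → (J → Bool) → ℝ) (M : ℝ) (hM : 0 ≤ M)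
  (hψ : ∀ w τ, |ψ w τ| ≤ M)

/-- The slots acting on energies on `N` sites: the slot `(w, s)` adds the shape `ψ w` at the
sites `s`. -/
noncomputable def egySlots (N : ℕ) : Slots (Egy N) (W × (J → Fin N)) where
  act τ H := H + shE (ψ τ.1) τ.2
  comm τ τ' H := by
    funext σ
    simp only [Pi.add_apply]
    ring
  base := logZ
  M := M
  M_nonneg := hM
  bd τ H := by
    have h := lip_bound (logZ_lip (N := N)) H (shE (ψ τ.1) τ.2)
    rw [NNReal.coe_one, one_mul] at h
    exact h.trans (norm_shE_le hM (hψ _) _)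

theorem egySlots_act (N : ℕ) (τ : W × (J → Fin N)) (H : Egy N) :
    (egySlots ψ M hM hψ N).act τ H = H + shE (ψ τ.1) τ.2 := rfl

/-- The functional `lam` is 1-Lipschitz in the energy. -/
theorem lam_lip {N : ℕ} {L : List (ℝ × (W × (J → Fin N)))} (hL : Pos L) :
    LipschitzWith 1 ((egySlots ψ M hM hψ N).lam L) := by
  induction L with
  | nil => exact logZ_lip
  | cons a L ih =>
    obtain ⟨μ, τ⟩ := a
    have hμ : 0 < μ := (Slots.Pos_head hL).1
    have ih' := ih (Slots.Pos_tail hL)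
    refine LipschitzWith.of_dist_le_mul fun x y => ?_
    rw [NNReal.coe_one, one_mul, Real.dist_eq, abs_le]
    have key : ∀ x y : Egy N, (egySlots ψ M hM hψ N).lam L x ≤
        (egySlots ψ M hM hψ N).lam L y + dist x y := by
      intro x y
      have := ih'.dist_le_mul x y
      rw [NNReal.coe_one, one_mul, Real.dist_eq] at this
      linarith [(abs_le.1 this).2]
    have hd : ∀ x y : Egy N, dist ((egySlots ψ M hM hψ N).act τ x)
        ((egySlots ψ M hM hψ N).act τ y) = dist x y := by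
      intro x y
      rw [egySlots_act, egySlots_act, dist_add_right]
    have k1 := key ((egySlots ψ M hM hψ N).act τ x) ((egySlots ψ M hM hψ N).act τ y)
    have k2 := key ((egySlots ψ M hM hψ N).act τ y) ((egySlots ψ M hM hψ N).act τ x)
    rw [hd] at k1 k2
    have h1 := Slots.lamstep_le hμ (key x y) k1
    have h2 := Slots.lamstep_le hμ (key y x) k2
    rw [Slots.lam_cons, Slots.lam_cons]
    rw [dist_comm y x] at h2
    constructor <;> linarith only [h1, h2]

/-- Lift of a slot type to `N + 1` sites. -/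
def liftW {N : ℕ} (τ : W × (J → Fin N)) : W × (J → Fin (N + 1)) := (τ.1, fun j => (τ.2 j).succ)

theorem liftW_inj {N : ℕ} : Function.Injective (liftW : W × (J → Fin N) → _) := by
  intro a b h
  unfold liftW at h
  rw [Prod.mk.injEq] at h
  refine Prod.ext h.1 (funext fun j => ?_)
  exact Fin.succ_injective _ (congrFun h.2 j)

theorem shE_lift {N : ℕ} (φ : (J → Bool) → ℝ) (s : J → Fin N) :
    shE φ (fun j => (s j).succ) = liftE (shE φ s) := rfl

theorem lam_lift {N : ℕ} (L : List (ℝ × (W × (J → Fin N)))) (H : Egy (N + 1)) :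
    (egySlots ψ M hM hψ (N + 1)).lam (L.map (Prod.map id liftW)) H =
      (egySlots ψ M hM hψ N).lam L (plse H) := by
  induction L generalizing H with
  | nil =>
    rw [List.map_nil, Slots.lam_nil, Slots.lam_nil]
    exact (logZ_plse H).symm
  | cons a L ih =>
    obtain ⟨μ, τ⟩ := a
    rw [List.map_cons, Prod.map_apply, Slots.lam_cons, Slots.lam_cons, ih, ih]
    have e : plse ((egySlots ψ M hM hψ (N + 1)).act (liftW τ) H) =
        (egySlots ψ M hM hψ N).act τ (plse H) := by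
      rw [egySlots_act, egySlots_act]
      show plse (H + shE (ψ τ.1) fun j => (τ.2 j).succ) = _
      rw [shE_lift, add_comm H, plse_lift_add, add_comm]
    rw [e]
    rfl

end Slots

section Scheme

variable {W J I : Type} [Fintype W] [Nonempty W] [Fintype J] [DecidableEq J] [Fintype I]
  [DecidableEq I] (ψ : W → (J → Bool) → ℝ) (M : ℝ) (hM : 0 ≤ M) (hψ : ∀ w τ, |ψ w τ| ≤ M)
  (pat : List (ℝ × I)) (hpat : Pos pat)

/-- The list of slots with pattern `pat` and data `τ`. -/
def patL {Ω : Type} (τ : I → Ω) : List (ℝ × Ω) := pat.map (Prod.map id τ)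

include hpat in
theorem patL_pos {Ω : Type} (τ : I → Ω) : Pos (patL pat τ) := by
  intro s hs
  unfold patL at hs
  obtain ⟨a, ha, rfl⟩ := List.mem_map.1 hs
  exact hpat a ha

theorem patL_length {Ω : Type} (τ : I → Ω) : (patL pat τ).length = pat.length :=
  List.length_map _

theorem patL_comp {Ω Ω' : Type} (f : Ω → Ω') (τ : I → Ω) :
    patL pat (fun i => f (τ i)) = (patL pat τ).map (Prod.map id f) := by
  unfold patL
  rw [List.map_map]
  rfl

/-- The averaged slot functional on energies on `N` sites (`0` for `N = 0`). -/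
noncomputable def GP (N : ℕ) (H : Egy N) : ℝ :=
  (∑ τ : I → W × (J → Fin N), (egySlots ψ M hM hψ N).lam (patL pat τ) H) /
    (Fintype.card (I → W × (J → Fin N)) : ℝ)

theorem GP_eq (N : ℕ) [NeZero N] (H : Egy N) : GP ψ M hM hψ pat N H =
    (PE.unif (I → W × (J → Fin N))).E fun τ =>
      (egySlots ψ M hM hψ N).lam (patL pat τ) H := rfl

include hpat in
theorem GP_lip (N : ℕ) : LipschitzWith 1 (GP ψ M hM hψ pat N) := by
  refine LipschitzWith.of_dist_le_mul fun x y => ?_
  rw [NNReal.coe_one, one_mul, Real.dist_eq]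
  unfold GP
  rw [← sub_div, ← Finset.sum_sub_distrib, abs_div, Nat.abs_cast]
  rcases Nat.eq_zero_or_pos (Fintype.card (I → W × (J → Fin N))) with h | h
  · rw [h, Nat.cast_zero, div_zero]
    exact dist_nonneg
  · have h' : (0 : ℝ) < Fintype.card (I → W × (J → Fin N)) := by exact_mod_cast h
    rw [div_le_iff₀ h']
    refine (Finset.abs_sum_le_sum_abs _ _).trans ?_
    refine (Finset.sum_le_card_nsmul _ _ (dist x y) fun τ _ => ?_).trans (le_of_eq ?_)
    · have := (lam_lip ψ M hM hψ (patL_pos pat hpat τ)).dist_le_mul x y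
      rwa [NNReal.coe_one, one_mul, Real.dist_eq] at this
    · rw [nsmul_eq_mul, Finset.card_univ, mul_comm]

include hpat in
theorem GP_near (N : ℕ) [NeZero N] (H : Egy N) :
    |GP ψ M hM hψ pat N H - logZ H| ≤ pat.length * M := by
  rw [GP_eq, ← PE.const (PE.unif (I → W × (J → Fin N))) (logZ H), ← PE.sub]
  refine (PE.abs_le _ _).trans (PE.le_const _ fun τ => ?_)
  have h := (egySlots ψ M hM hψ N).lam_base_near (patL_pos pat hpat τ) H
  rw [patL_length] at h
  exact h

theorem card_W (N : ℕ) : Fintype.card (I → W × (J → Fin N)) =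
    (Fintype.card W * N ^ Fintype.card J) ^ Fintype.card I := by
  simp only [Fintype.card_pi, Fintype.card_prod, Fintype.card_fin, prod_const, card_univ]

include hpat in
theorem GP_succ (N : ℕ) [NeZero N] (H : Egy (N + 1)) :
    |GP ψ M hM hψ pat (N + 1) H - GP ψ M hM hψ pat N (plse H)| ≤
      2 * (pat.length * M) * (Fintype.card I * Fintype.card J) / ((N + 1 : ℕ) : ℝ) := by
  have _inst : DecidableEq (I → W × (J → Fin (N + 1))) := Classical.decEq _
  set c := logZ H with hc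
  set A := Fintype.card (I → W × (J → Fin (N + 1))) with hA
  set B := Fintype.card (I → W × (J → Fin N)) with hB
  have hA0 : (0 : ℝ) < A := by exact_mod_cast Fintype.card_pos
  have hB0 : (0 : ℝ) < B := by exact_mod_cast Fintype.card_pos
  set f : (I → W × (J → Fin (N + 1))) → ℝ := fun τ =>
    (egySlots ψ M hM hψ (N + 1)).lam (patL pat τ) H - c with hf
  set f' : (I → W × (J → Fin N)) → ℝ := fun τ =>
    (egySlots ψ M hM hψ N).lam (patL pat τ) (plse H) - c with hf'
  have hfb : ∀ τ, |f τ| ≤ pat.length * M := fun τ => by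
    have h := (egySlots ψ M hM hψ (N + 1)).lam_base_near (patL_pos pat hpat τ) H
    rw [patL_length] at h
    exact h
  have hfb' : ∀ τ, |f' τ| ≤ pat.length * M := fun τ => by
    have h := (egySlots ψ M hM hψ N).lam_base_near (patL_pos pat hpat τ) (plse H)
    rw [patL_length] at h
    have e : (egySlots ψ M hM hψ N).base (plse H) = c := logZ_plse H
    rw [e] at h
    exact h
  set lf : (I → W × (J → Fin N)) → (I → W × (J → Fin (N + 1))) := fun τ i => liftW (τ i) with hlf
  have hinj : Function.Injective lf := by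
    intro a b h
    funext i
    exact liftW_inj (congrFun h i)
  have hff : ∀ τ, f (lf τ) = f' τ := fun τ => by
    simp only [hf, hf', hlf]
    rw [patL_comp pat liftW τ, lam_lift]
  have e1 : GP ψ M hM hψ pat (N + 1) H = c + (∑ τ, f τ) / A := by
    unfold GP
    simp only [hf]
    rw [Finset.sum_sub_distrib, Finset.sum_const, Finset.card_univ, nsmul_eq_mul, ← hA]
    field_simp
    ring
  have e2 : GP ψ M hM hψ pat N (plse H) = c + (∑ τ, f' τ) / B := by
    unfold GP
    simp only [hf']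
    rw [Finset.sum_sub_distrib, Finset.sum_const, Finset.card_univ, nsmul_eq_mul, ← hB]
    field_simp
    ring
  rw [e1, e2, add_sub_add_left_eq_sub]
  set s : Finset (I → W × (J → Fin (N + 1))) := Finset.univ.image lf with hs
  have hscard : s.card = B := by
    rw [hs, Finset.card_image_of_injective _ hinj, Finset.card_univ]
  have hsum : ∑ τ ∈ s, f τ = ∑ τ, f' τ := by
    rw [hs, Finset.sum_image fun a _ b _ h => hinj h]
    exact Finset.sum_congr rfl fun τ _ => hff τ
  have hBA : (B : ℝ) ≤ A := by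
    rw [← hscard, hA]
    exact_mod_cast Finset.card_le_univ s
  have hsplit : ∑ τ, f τ = ∑ τ ∈ sᶜ, f τ + ∑ τ, f' τ := by
    rw [← hsum]
    have := Finset.sum_add_sum_compl s f
    linarith only [this]
  have hcompl : |∑ τ ∈ sᶜ, f τ| ≤ (A - B) * (pat.length * M) := by
    refine (Finset.abs_sum_le_sum_abs _ _).trans ?_
    refine (Finset.sum_le_card_nsmul _ _ _ fun τ _ => hfb τ).trans (le_of_eq ?_)
    rw [Finset.card_compl, hscard, nsmul_eq_mul, Nat.cast_sub (by exact_mod_cast hBA), ← hA]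
  have hsum' : |∑ τ, f' τ| ≤ B * (pat.length * M) := by
    refine (Finset.abs_sum_le_sum_abs _ _).trans ?_
    refine (Finset.sum_le_card_nsmul _ _ _ fun τ _ => hfb' τ).trans (le_of_eq ?_)
    rw [Finset.card_univ, nsmul_eq_mul]
  have hTM : 0 ≤ pat.length * M := mul_nonneg (Nat.cast_nonneg _) hM
  have e3 : (∑ τ, f τ) / A - (∑ τ, f' τ) / B =
      (∑ τ ∈ sᶜ, f τ) / A - (∑ τ, f' τ) * ((A - B) / (A * B)) := by
    rw [hsplit]
    field_simp
    ring
  rw [e3]
  have hAB0 : (0 : ℝ) ≤ (A - B) / (A * B) := div_nonneg (by linarith only [hBA]) (by positivity)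
  have h1 : |(∑ τ ∈ sᶜ, f τ) / A| ≤ (A - B) / A * (pat.length * M) := by
    rw [abs_div, abs_of_pos hA0, div_mul_eq_mul_div]
    exact div_le_div_of_nonneg_right hcompl hA0.le
  have h2 : |(∑ τ, f' τ) * ((A - B) / (A * B))| ≤ (A - B) / A * (pat.length * M) := by
    rw [abs_mul, abs_of_nonneg hAB0]
    refine (mul_le_mul_of_nonneg_right hsum' hAB0).trans (le_of_eq ?_)
    (clear * - hB0 hA0; field_simp)
  have h3 : |(∑ τ ∈ sᶜ, f τ) / A - (∑ τ, f' τ) * ((A - B) / (A * B))| ≤
      2 * ((A - B) / A * (pat.length * M)) := by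
    refine (abs_sub _ _).trans ?_
    linarith only [h1, h2]
  refine h3.trans ?_
  have hN1 : (0 : ℝ) < ((N + 1 : ℕ) : ℝ) := by (clear * -; positivity)
  have hratio : (B : ℝ) / A =
      (1 - 1 / ((N + 1 : ℕ) : ℝ)) ^ (Fintype.card I * Fintype.card J) := by
    have hn1 : (0 : ℝ) < Fintype.card W := by exact_mod_cast Fintype.card_pos
    rw [hA, hB, card_W, card_W]
    push_cast
    rw [← div_pow, mul_div_mul_left _ _ hn1.ne', ← div_pow, ← pow_mul, mul_comm (Fintype.card I)]
    congr 1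
    field_simp
    ring
  have hpow : 1 - ((Fintype.card I * Fintype.card J : ℕ) : ℝ) * (1 / ((N + 1 : ℕ) : ℝ)) ≤
      (1 - 1 / ((N + 1 : ℕ) : ℝ)) ^ (Fintype.card I * Fintype.card J) :=
    one_sub_pow_ge (p0_le N) _
  have hprop : (A - B) / A ≤ (Fintype.card I * Fintype.card J : ℝ) / ((N + 1 : ℕ) : ℝ) := by
    have : ((A : ℝ) - B) / A = 1 - B / A := by (clear * - hA0; field_simp)
    rw [this, hratio]
    have h4 : ((Fintype.card I * Fintype.card J : ℕ) : ℝ) * (1 / ((N + 1 : ℕ) : ℝ)) =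
        (Fintype.card I * Fintype.card J : ℝ) / ((N + 1 : ℕ) : ℝ) := by push_cast; ring
    rw [h4] at hpow
    linarith only [hpow]
  calc 2 * ((A - B) / A * (pat.length * M)) ≤
        2 * ((Fintype.card I * Fintype.card J : ℝ) / ((N + 1 : ℕ) : ℝ) * (pat.length * M)) := by
        apply mul_le_mul_of_nonneg_left _ (by norm_num)
        exact mul_le_mul_of_nonneg_right hprop hTM
    _ = _ := by ring

end Scheme

section Ass

variable {K : ℕ} [NeZero K] (ρ : Measure (Clause K)) [IsProbabilityMeasure ρ]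
  (hρ : Integrable (maxTheta : Clause K → ℝ) ρ) (ν : Measure ℝ) [IsProbabilityMeasure ν]
  (hν : Integrable (fun h : ℝ => h) ν)

variable {W J I : Type} [Fintype W] [Nonempty W] [Fintype J] [DecidableEq J] [Fintype I]
  [DecidableEq I] (ψ : W → (J → Bool) → ℝ) (M : ℝ) (hM : 0 ≤ M) (hψ : ∀ w τ, |ψ w τ| ≤ M)
  (pat : List (ℝ × I)) (hpat : Pos pat)

include hρ hν hpat in
/-- The Aizenman–Sims–Starr scheme with random slots: a lower bound for the cavity functional of
the slot functional, uniform in `N` and in the energy, is a lower bound for the pressure. -/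
theorem ass_slots (lam : ℝ≥0) (M0 : ℝ)
    (h : ∀ (N : ℕ) [NeZero N] (H : Egy N),
      M0 ≤ (∫ l : ℕ, (∫ ω : Fin l → Clause K × Fin K, (∫ h : ℝ, (∫ i : Fin l × Fin K → Fin N,
          GP ψ M hM hψ pat N (H + eU ω h i) ∂(Measure.pi fun _ => unif N)) ∂ν)
          ∂(Measure.pi fun _ => ρ.prod (unif K))) ∂(poissonMeasure (K * lam))) -
        ∫ l : ℕ, (∫ ω : Fin l → Clause K, (∫ i : Fin l × Fin K → Fin N,
          GP ψ M hM hψ pat N (H + eV ω i) ∂(Measure.pi fun _ => unif N))
          ∂(Measure.pi fun _ => ρ)) ∂(poissonMeasure (((K - 1 : ℕ) : ℝ≥0) * lam))) :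
    (M0 : EReal) ≤ liminf (fun N => ((pressure lam ρ ν N : ℝ) : EReal)) atTop := by
  set G : ∀ N : ℕ, LipS (Egy N) := fun N =>
    ⟨GP ψ M hM hψ pat N, 1, GP_lip ψ M hM hψ pat hpat N⟩ with hG
  have hGl : ∀ N, LipschitzWith 1 (G N).1 := fun N => GP_lip ψ M hM hψ pat hpat N
  refine ass_generic ρ hρ ν hν lam G hGl (fun N => compPlse (G N) (hGl N))
    (fun N => compPlse_lip (G N) (hGl N)) (pat.length * M)
    (2 * (pat.length * M) * (Fintype.card I * Fintype.card J))
    (mul_nonneg (Nat.cast_nonneg _) hM) (by positivity) ?_ ?_ M0 ?_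
  · intro N hN x
    haveI : NeZero N := ⟨by omega⟩
    exact GP_near ψ M hM hψ pat hpat N x
  · intro N hN x
    haveI : NeZero N := ⟨by omega⟩
    exact GP_succ ψ M hM hψ pat hpat N x
  · intro N _ H
    simp_rw [uG_formula ρ hρ ν hν (G N) (hGl N) H, vG_formula ρ hρ (G N) (hGl N) H]
    exact h N H

end Ass

end Vale.Agent.N168I.MP
end
end

section

section

set_option autoImplicit false
set_option linter.unusedSectionVars false

open MeasureTheory ProbabilityTheory Finset Filter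
open scoped NNReal Topology

namespace Vale.Agent.N168I.MP

section Shapes

variable {K : ℕ} [NeZero K]

/-- Logarithmic cavity shape. -/
noncomputable def lU {l : ℕ} (z : (Fin l → Clause K × Fin K) × ℝ) : SE K l :=
  fun τ => Real.log (QU z.1 z.2 τ)

/-- Logarithmic interaction shape. -/
noncomputable def lV {l : ℕ} (ω : Fin l → Clause K) : SE K l :=
  fun τ => Real.log (QV ω τ)

theorem eU_eq {l N : ℕ} (ω : Fin l → Clause K × Fin K) (h : ℝ) (i : Fin l × Fin K → Fin N) :
    eU ω h i = shE (lU (ω, h)) i := rfl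

theorem eV_eq {l N : ℕ} (ω : Fin l → Clause K) (i : Fin l × Fin K → Fin N) :
    eV ω i = shE (lV ω) i := rfl

theorem measurable_lU {l : ℕ} : Measurable (lU : (Fin l → Clause K × Fin K) × ℝ → SE K l) := by
  rw [measurable_pi_iff]
  intro τ
  unfold lU QU
  refine Measurable.log ?_
  refine Finset.measurable_fun_sum _ fun e _ => ?_
  refine Measurable.mul ?_ ?_
  · exact (measurable_snd.mul_const _).exp
  · refine Finset.measurable_fun_prod _ fun k _ => ?_
    refine Measurable.exp ?_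
    have h1 : Measurable fun y : Clause K × Fin K =>
        theta y.1 (Function.update (fun j => τ (k, j)) y.2 e) := by
      refine measurable_from_prod_countable_left (α := Clause K) (β := Fin K)
        (f := fun y => theta y.1 (Function.update (fun j => τ (k, j)) y.2 e)) fun a => ?_
      show Measurable fun c : Clause K => theta c (Function.update (fun j => τ (k, j)) a e)
      exact measurable_theta (Function.update (fun j => τ (k, j)) a e)
    have h2 : Measurable fun z : (Fin l → Clause K × Fin K) × ℝ => z.1 k :=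
      (measurable_pi_apply k).comp measurable_fst
    show Measurable ((fun y : Clause K × Fin K =>
      theta y.1 (Function.update (fun j => τ (k, j)) y.2 e)) ∘
        fun z : (Fin l → Clause K × Fin K) × ℝ => z.1 k)
    exact Measurable.comp h1 h2

theorem measurable_lV {l : ℕ} : Measurable (lV : (Fin l → Clause K) → SE K l) := by
  rw [measurable_pi_iff]
  intro τ
  unfold lV QV
  refine Measurable.log ?_
  refine Finset.measurable_fun_prod _ fun k _ => ?_
  exact ((measurable_theta _).comp (measurable_pi_apply k)).exp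

theorem log_cosh_abs (h : ℝ) : |Real.log (∑ e : Bool, Real.exp (h * spin e))| ≤
    |h| + Real.log 2 := by
  have e1 : ∑ e : Bool, Real.exp (h * spin e) = Real.exp h + Real.exp (-h) := by
    rw [Fintype.sum_bool]
    simp [spin]
  rw [e1]
  have h1 : Real.exp h ≤ Real.exp |h| := Real.exp_le_exp.2 (le_abs_self h)
  have h2 : Real.exp (-h) ≤ Real.exp |h| := Real.exp_le_exp.2 (neg_le_abs h)
  have h3 : (1 : ℝ) ≤ Real.exp h + Real.exp (-h) := by
    rcases le_total 0 h with h0 | h0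
    · have := Real.one_le_exp h0
      have := Real.exp_pos (-h)
      linarith
    · have := Real.one_le_exp (neg_nonneg.2 h0)
      have := Real.exp_pos h
      linarith
  have h4 : 0 ≤ Real.log (Real.exp h + Real.exp (-h)) := Real.log_nonneg h3
  rw [abs_of_nonneg h4]
  calc Real.log (Real.exp h + Real.exp (-h)) ≤ Real.log (Real.exp |h| * 2) :=
        Real.log_le_log (by linarith) (by linarith)
    _ = |h| + Real.log 2 := by
        rw [Real.log_mul (Real.exp_pos _).ne' (by norm_num), Real.log_exp]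

theorem norm_lU_le {l : ℕ} (z : (Fin l → Clause K × Fin K) × ℝ) :
    ‖lU z‖ ≤ |z.2| + Real.log 2 + ∑ k, maxTheta (z.1 k).1 := by
  have hs : 0 ≤ ∑ k, maxTheta (z.1 k).1 := Finset.sum_nonneg fun k _ => maxTheta_nonneg _
  have hl : 0 ≤ Real.log 2 := Real.log_nonneg (by norm_num)
  refine norm_le_of (by positivity) fun τ => ?_
  have hc := abs_le.1 (log_cosh_abs z.2)
  have hZ : 0 < ∑ e : Bool, Real.exp (z.2 * spin e) :=
    Finset.sum_pos (fun e _ => Real.exp_pos _) Finset.univ_nonempty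
  have hm := QU_mem z.1 z.2 τ
  have h1 := Real.log_le_log (mul_pos hZ (Real.exp_pos _)) hm.1
  have h2 := Real.log_le_log (lt_of_lt_of_le (mul_pos hZ (Real.exp_pos _)) hm.1) hm.2
  rw [Real.log_mul hZ.ne' (Real.exp_pos _).ne', Real.log_exp] at h1 h2
  unfold lU
  rw [abs_le]
  constructor <;> linarith

theorem norm_lV_le {l : ℕ} (ω : Fin l → Clause K) :
    ‖lV ω‖ ≤ ∑ k, maxTheta (ω k) := by
  have hs : 0 ≤ ∑ k, maxTheta (ω k) := Finset.sum_nonneg fun k _ => maxTheta_nonneg _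
  refine norm_le_of hs fun τ => ?_
  have hm := QV_mem ω τ
  exact log_abs_of_mem hm.1 hm.2

variable (ρ : Measure (Clause K)) [IsProbabilityMeasure ρ]
  (hρ : Integrable (maxTheta : Clause K → ℝ) ρ) (ν : Measure ℝ) [IsProbabilityMeasure ν]
  (hν : Integrable (fun h : ℝ => h) ν)

/-- Law of the cavity shape with `l` interactions. -/
noncomputable def πU (l : ℕ) : Measure (SE K l) :=
  ((Measure.pi fun _ : Fin l => ρ.prod (unif K)).prod ν).map lU

/-- Law of the interaction shape with `l` interactions. -/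
noncomputable def πV (l : ℕ) : Measure (SE K l) := (Measure.pi fun _ : Fin l => ρ).map lV

instance instU (l : ℕ) : IsProbabilityMeasure (πU ρ ν l) :=
  Measure.isProbabilityMeasure_map measurable_lU.aemeasurable

instance instV (l : ℕ) : IsProbabilityMeasure (πV ρ l) :=
  Measure.isProbabilityMeasure_map measurable_lV.aemeasurable

include hρ hν in
theorem integrable_bU (l : ℕ) : Integrable (fun z : (Fin l → Clause K × Fin K) × ℝ =>
    |z.2| + Real.log 2 + ∑ k, maxTheta (z.1 k).1)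
    ((Measure.pi fun _ : Fin l => ρ.prod (unif K)).prod ν) := by
  have h1 : Integrable (fun y : Clause K × Fin K => maxTheta y.1) (ρ.prod (unif K)) :=
    hρ.comp_fst _
  have h2 : Integrable (fun ω : Fin l → Clause K × Fin K => ∑ k, maxTheta (ω k).1)
      (Measure.pi fun _ : Fin l => ρ.prod (unif K)) :=
    integrable_finsetSum _ fun k _ => integrable_comp_eval (μ := fun _ : Fin l => ρ.prod (unif K))
      (i := k) (f := fun y : Clause K × Fin K => maxTheta y.1) h1
  exact ((hν.abs.comp_snd _).add (integrable_const _)).add (h2.comp_fst _)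

include hρ hν in
theorem integral_bU (l : ℕ) : ∫ z : (Fin l → Clause K × Fin K) × ℝ,
    (|z.2| + Real.log 2 + ∑ k, maxTheta (z.1 k).1)
    ∂((Measure.pi fun _ : Fin l => ρ.prod (unif K)).prod ν) =
    ((∫ h, |h| ∂ν) + Real.log 2) + (∫ c, maxTheta c ∂ρ) * l := by
  have h1 : Integrable (fun y : Clause K × Fin K => maxTheta y.1) (ρ.prod (unif K)) :=
    hρ.comp_fst _
  have h2 : Integrable (fun ω : Fin l → Clause K × Fin K => ∑ k, maxTheta (ω k).1)
      (Measure.pi fun _ : Fin l => ρ.prod (unif K)) :=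
    integrable_finsetSum _ fun k _ => integrable_comp_eval (μ := fun _ : Fin l => ρ.prod (unif K))
      (i := k) (f := fun y : Clause K × Fin K => maxTheta y.1) h1
  have e0 : ∫ y : Clause K × Fin K, maxTheta y.1 ∂(ρ.prod (unif K)) = ∫ c, maxTheta c ∂ρ := by
    have e2 := integral_prod_mul (μ := ρ) (ν := unif K)
      (fun c : Clause K => maxTheta c) (fun _ => (1 : ℝ))
    simp only [mul_one, integral_const, probReal_univ, smul_eq_mul] at e2
    exact e2
  have i1 : Integrable (fun z : (Fin l → Clause K × Fin K) × ℝ => |z.2|)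
      ((Measure.pi fun _ : Fin l => ρ.prod (unif K)).prod ν) := hν.abs.comp_snd _
  have i2 : Integrable (fun z : (Fin l → Clause K × Fin K) × ℝ => |z.2| + Real.log 2)
      ((Measure.pi fun _ : Fin l => ρ.prod (unif K)).prod ν) := i1.add (integrable_const _)
  rw [integral_add i2 (h2.comp_fst _), integral_add i1 (integrable_const _)]
  have e1 : ∫ z : (Fin l → Clause K × Fin K) × ℝ, |z.2|
      ∂((Measure.pi fun _ : Fin l => ρ.prod (unif K)).prod ν) = ∫ h, |h| ∂ν := by
    have := integral_prod_mul (μ := Measure.pi fun _ : Fin l => ρ.prod (unif K)) (ν := ν)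
      (fun _ => (1 : ℝ)) (fun h => |h|)
    simpa using this
  have e2 : ∫ z : (Fin l → Clause K × Fin K) × ℝ, (∑ k, maxTheta (z.1 k).1)
      ∂((Measure.pi fun _ : Fin l => ρ.prod (unif K)).prod ν) = (∫ c, maxTheta c ∂ρ) * l := by
    have e3 := integral_prod_mul (μ := Measure.pi fun _ : Fin l => ρ.prod (unif K)) (ν := ν)
      (fun ω => ∑ k, maxTheta (ω k).1) (fun _ => (1 : ℝ))
    have e4 : ∫ ω : Fin l → Clause K × Fin K, (∑ k, maxTheta (ω k).1)
        ∂(Measure.pi fun _ : Fin l => ρ.prod (unif K)) = (∫ c, maxTheta c ∂ρ) * l := by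
      rw [integral_finsetSum _ fun k _ => integrable_comp_eval
        (μ := fun _ : Fin l => ρ.prod (unif K)) (i := k)
        (f := fun y : Clause K × Fin K => maxTheta y.1) h1]
      have : ∀ k : Fin l, ∫ ω : Fin l → Clause K × Fin K, maxTheta (ω k).1
          ∂(Measure.pi fun _ : Fin l => ρ.prod (unif K)) = ∫ c, maxTheta c ∂ρ := by
        intro k
        rw [← e0]
        exact integral_comp_eval (μ := fun _ : Fin l => ρ.prod (unif K)) (i := k)
          (f := fun y : Clause K × Fin K => maxTheta y.1) h1.aestronglyMeasurable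
      simp_rw [this]
      simp only [sum_const, card_univ, Fintype.card_fin, nsmul_eq_mul, mul_comm]
    simp only [mul_one, integral_const, probReal_univ, smul_eq_mul] at e3
    rw [e3, e4]
  rw [e1, e2]
  simp

include hρ hν in
theorem integrable_πU (l : ℕ) : Integrable (fun φ : SE K l => ‖φ‖) (πU ρ ν l) := by
  unfold πU
  rw [integrable_map_measure measurable_norm.aestronglyMeasurable measurable_lU.aemeasurable]
  refine (integrable_bU ρ hρ ν hν l).mono'
    (measurable_norm.comp measurable_lU).aestronglyMeasurable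
    (Filter.Eventually.of_forall fun z => ?_)
  show ‖‖lU z‖‖ ≤ _
  rw [norm_norm]
  exact norm_lU_le z

include hρ hν in
theorem integral_πU_le (l : ℕ) : ∫ φ : SE K l, ‖φ‖ ∂(πU ρ ν l) ≤
    ((∫ h, |h| ∂ν) + Real.log 2) + (∫ c, maxTheta c ∂ρ) * l := by
  have hi := integrable_πU ρ hρ ν hν l
  unfold πU at hi ⊢
  rw [integral_map measurable_lU.aemeasurable measurable_norm.aestronglyMeasurable,
    ← integral_bU ρ hρ ν hν l]
  rw [integrable_map_measure measurable_norm.aestronglyMeasurable measurable_lU.aemeasurable] at hi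
  exact integral_mono hi (integrable_bU ρ hρ ν hν l) fun z => norm_lU_le z

include hρ in
theorem integrable_πV (l : ℕ) : Integrable (fun φ : SE K l => ‖φ‖) (πV ρ l) := by
  unfold πV
  rw [integrable_map_measure measurable_norm.aestronglyMeasurable measurable_lV.aemeasurable]
  have h2 : Integrable (fun ω : Fin l → Clause K => ∑ k, maxTheta (ω k))
      (Measure.pi fun _ : Fin l => ρ) :=
    integrable_finsetSum _ fun k _ => integrable_comp_eval hρ
  refine h2.mono' (measurable_norm.comp measurable_lV).aestronglyMeasurable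
    (Filter.Eventually.of_forall fun z => ?_)
  show ‖‖lV z‖‖ ≤ _
  rw [norm_norm]
  exact norm_lV_le z

include hρ in
theorem integral_πV_le (l : ℕ) : ∫ φ : SE K l, ‖φ‖ ∂(πV ρ l) ≤
    0 + (∫ c, maxTheta c ∂ρ) * l := by
  have hi := integrable_πV ρ hρ l
  have h2 : Integrable (fun ω : Fin l → Clause K => ∑ k, maxTheta (ω k))
      (Measure.pi fun _ : Fin l => ρ) :=
    integrable_finsetSum _ fun k _ => integrable_comp_eval hρ
  unfold πV at hi ⊢
  rw [integral_map measurable_lV.aemeasurable measurable_norm.aestronglyMeasurable]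
  rw [integrable_map_measure measurable_norm.aestronglyMeasurable measurable_lV.aemeasurable] at hi
  refine (integral_mono hi h2 fun z => norm_lV_le z).trans (le_of_eq ?_)
  rw [integral_finsetSum _ fun k _ => integrable_comp_eval hρ, zero_add]
  have : ∀ k : Fin l, ∫ ω : Fin l → Clause K, maxTheta (ω k)
      ∂(Measure.pi fun _ : Fin l => ρ) = ∫ c, maxTheta c ∂ρ := by
    intro k
    exact integral_comp_eval (μ := fun _ : Fin l => ρ) (i := k)
      (f := (maxTheta : Clause K → ℝ)) hρ.aestronglyMeasurable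
  simp_rw [this]
  simp only [sum_const, card_univ, Fintype.card_fin, nsmul_eq_mul, mul_comm]

include hρ hν in
/-- Nested integrals of a Lipschitz functional of the cavity shape. -/
theorem nested_U {l : ℕ} {F : SE K l → ℝ} (hF : LipschitzWith 1 F) :
    ∫ ω : Fin l → Clause K × Fin K, (∫ h : ℝ, F (lU (ω, h)) ∂ν)
      ∂(Measure.pi fun _ => ρ.prod (unif K)) = ∫ φ, F φ ∂(πU ρ ν l) := by
  have hi : Integrable F (πU ρ ν l) := by
    refine ((integrable_const |F 0|).add (integrable_πU ρ hρ ν hν l)).mono'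
      hF.continuous.aestronglyMeasurable (Filter.Eventually.of_forall fun φ => ?_)
    rw [Real.norm_eq_abs]
    have h1 := lip_bound hF 0 φ
    rw [zero_add, NNReal.coe_one, one_mul] at h1
    have h2 := abs_add_le (F φ - F 0) (F 0)
    rw [sub_add_cancel] at h2
    show |F φ| ≤ |F 0| + ‖φ‖
    linarith
  unfold πU at hi ⊢
  rw [integral_map measurable_lU.aemeasurable hF.continuous.aestronglyMeasurable]
  rw [integrable_map_measure hF.continuous.aestronglyMeasurable measurable_lU.aemeasurable] at hi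
  exact (integral_prod _ hi).symm

theorem nested_V {l : ℕ} {F : SE K l → ℝ} (hF : LipschitzWith 1 F) :
    ∫ ω : Fin l → Clause K, F (lV ω) ∂(Measure.pi fun _ => ρ) = ∫ φ, F φ ∂(πV ρ l) := by
  unfold πV
  rw [integral_map measurable_lV.aemeasurable hF.continuous.aestronglyMeasurable]

include hρ hν in
theorem trialU_eq {r : ℕ} {m : Fin r → ℝ} {x : (Fin (r + 1) → U01) → ℝ} (h : IsTrial r m x)
    (lam : ℝ≥0) : trialU lam ρ ν r m x = (trSF K h).val (πU ρ ν) (K * lam) := by
  unfold trialU ShapeFun.val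
  congr 1
  funext n
  rw [← nested_U ρ hρ ν hν ((trSF K h).lip n)]
  congr 1
  funext ω
  congr 1
  funext t
  show _ = trF m x (lU (ω, t))
  unfold trF
  congr 1
  funext w v
  have e : (fun σ => Real.exp (lU (ω, t) σ)) = QU ω t := by
    funext σ
    unfold lU
    rw [Real.exp_log]
    exact lt_of_lt_of_le (mul_pos (Finset.sum_pos (fun e _ => Real.exp_pos _)
      Finset.univ_nonempty) (Real.exp_pos _)) (QU_mem ω t σ).1
  rw [e, mlin_eq_pav, pav_QU]

theorem trialV_eq {r : ℕ} {m : Fin r → ℝ} {x : (Fin (r + 1) → U01) → ℝ} (h : IsTrial r m x)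
    (lam : ℝ≥0) : trialV lam ρ r m x =
      (trSF K h).val (πV ρ) (((K - 1 : ℕ) : ℝ≥0) * lam) := by
  unfold trialV ShapeFun.val
  congr 1
  funext n
  rw [← nested_V ρ ((trSF K h).lip n)]
  congr 1
  funext ω
  show _ = trF m x (lV ω)
  unfold trF
  congr 1
  funext w v
  have e : (fun σ => Real.exp (lV ω σ)) = QV ω := by
    funext σ
    unfold lV
    rw [Real.exp_log]
    exact lt_of_lt_of_le (Real.exp_pos _) (QV_mem ω σ).1
  rw [e, mlin_eq_pav, pav_QV]

end Shapes

end Vale.Agent.N168I.MP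
end
end

section

section

set_option autoImplicit false
set_option linter.unusedSectionVars false

open MeasureTheory ProbabilityTheory Finset Filter
open scoped NNReal Topology

namespace Vale.Agent.N168I.MP

section RealFun

theorem shE_sub {N : ℕ} {J : Type} [Fintype J] [DecidableEq J] (φ φ' : (J → Bool) → ℝ) (s : J → Fin N) :
    ‖(shE φ s - shE φ' s : Egy N)‖ ≤ ‖φ - φ'‖ := by
  refine norm_le_of (norm_nonneg _) fun σ => ?_
  exact abs_le_norm (φ - φ') fun j => σ (s j)

variable {K N : ℕ} [NeZero K] [NeZero N]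

/-- The increments of a functional of the energy, as a functional of shapes. -/
noncomputable def reSF (K : ℕ) {N : ℕ} [NeZero N] (g : Egy N → ℝ) (hg : LipschitzWith 1 g)
    (H : Egy N) : ShapeFun K where
  F l φ := ∫ i : Fin l × Fin K → Fin N, (g (H + shE φ i) - g H)
    ∂(Measure.pi fun _ => unif N)
  lip l := by
    refine LipschitzWith.of_dist_le_mul fun φ φ' => ?_
    rw [NNReal.coe_one, one_mul, Real.dist_eq, dist_eq_norm,
      ← integral_sub (Integrable.of_finite) (Integrable.of_finite), ← Real.norm_eq_abs]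
    have := norm_integral_le_of_norm_le_const
      (μ := Measure.pi fun _ : Fin l × Fin K => unif N)
      (f := fun i => g (H + shE φ i) - g H - (g (H + shE φ' i) - g H)) (C := ‖φ - φ'‖)
      (Filter.Eventually.of_forall fun i => by
        have h1 := hg.dist_le_mul (H + shE φ i) (H + shE φ' i)
        rw [NNReal.coe_one, one_mul, Real.dist_eq, dist_eq_norm, add_sub_add_left_eq_sub] at h1
        rw [Real.norm_eq_abs, sub_sub_sub_cancel_right]
        exact h1.trans (shE_sub φ φ' i))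
    simpa using this
  zero l := by
    have e : ∀ i : Fin l × Fin K → Fin N, g (H + shE (0 : SE K l) i) - g H = 0 := by
      intro i
      have : shE (0 : SE K l) i = (0 : Egy N) := rfl
      rw [this, add_zero, sub_self]
    simp_rw [e]
    simp
  emb {l D} hlD φ := by
    have hmp := mp_comp_inj (unif N) (fun p : Fin l × Fin K => ((Fin.castLE hlD p.1, p.2) :
      Fin D × Fin K)) (fun a b hab => by
        rw [Prod.mk.injEq] at hab
        exact Prod.ext (Fin.castLE_injective hlD hab.1) hab.2)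
    have h3 := integral_map (μ := Measure.pi fun _ : Fin D × Fin K => unif N)
      hmp.measurable.aemeasurable
      (f := fun i : Fin l × Fin K → Fin N => g (H + shE φ i) - g H)
      (measurable_of_countable _).aestronglyMeasurable
    rw [hmp.map_eq] at h3
    exact h3.symm

theorem reSF_eq_unif (g : Egy N → ℝ) (hg : LipschitzWith 1 g) (H : Egy N) {l : ℕ} (φ : SE K l) :
    (reSF K g hg H).F l φ =
      (PE.unif (Fin l × Fin K → Fin N)).E (fun s => g (H + shE φ s)) - g H := by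
  show ∫ i : Fin l × Fin K → Fin N, (g (H + shE φ i) - g H)
    ∂(Measure.pi fun _ => unif N) = _
  rw [integral_pi_unif, Finset.sum_sub_distrib, PE.unif_E]
  have hN : (N : ℝ) ≠ 0 := by exact_mod_cast NeZero.ne N
  rw [Finset.sum_const, Finset.card_univ, nsmul_eq_mul]
  have e : (Fintype.card (Fin l × Fin K → Fin N) : ℝ) =
      (N : ℝ) ^ Fintype.card (Fin l × Fin K) := by
    rw [Fintype.card_fun, Fintype.card_fin]
    push_cast
    rfl
  rw [e, one_div, inv_pow]
  field_simp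

end RealFun

section Main

variable {K : ℕ} [NeZero K]

theorem sum_wt (π : ∀ l : ℕ, Measure (SE K l)) [∀ l, IsProbabilityMeasure (π l)] (a : ℝ≥0)
    (ε : ℝ) (n D : ℕ) : ∑ c, wt π a ε n D c = 1 := by
  unfold wt
  have hgc : ∀ c : RI K n D, ExpGrowth fun l => (π l).real {φ | rnd ε n D φ = c} := by
    intro c
    refine ⟨1, 1, zero_le_one, le_rfl, fun l => ?_⟩
    rw [abs_of_nonneg measureReal_nonneg, one_pow, mul_one]
    exact measureReal_le_one
  rw [← integral_finsetSum _ fun c _ => (hgc c).integrable a]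
  have e : ∀ l, ∑ c, (π l).real {φ | rnd ε n D φ = c} = 1 := by
    intro l
    have := integral_rnd π ε n D l (fun _ => 1)
    simp only [mul_one] at this
    rw [← this]
    simp
  simp_rw [e]
  simp

theorem wt_nonneg (π : ∀ l : ℕ, Measure (SE K l)) (a : ℝ≥0)
    (ε : ℝ) (n D : ℕ) (c : RI K n D) : 0 ≤ wt π a ε n D c :=
  integral_nonneg fun _ => measureReal_nonneg

/-- The conclusion of the core theorem for the family of shapes `ψ0`, with error `ε`. -/
def CoreFor {J W0 : Type} [Fintype J] [DecidableEq J] (ψ0 : W0 → (J → Bool) → ℝ) (ε : ℝ) :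
    Prop :=
  ∃ (W : Type) (_ : Fintype W) (_ : Nonempty W) (ψ : W → (J → Bool) → ℝ) (M : ℝ) (hM : 0 ≤ M)
    (hψ : ∀ w τ, |ψ w τ| ≤ M) (I : Type) (_ : Fintype I) (_ : DecidableEq I)
    (pat : List (ℝ × I)) (_ : Pos pat) (r : ℕ) (m : Fin r → ℝ),
    ∀ (N : ℕ) [NeZero N] (H : Egy N),
      ∃ (α : Type) (P : PE α) (x : α → (Fin (r + 1) → U01) → ℝ), (∀ a, IsTrial r m (x a)) ∧
        ∀ w : W0, |(PE.unif (J → Fin N)).E (fun s => GP ψ M hM hψ pat N (H + shE (ψ0 w) s)) -
          GP ψ M hM hψ pat N H - P.E (fun a => trF m (x a) (ψ0 w))| ≤ ε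

variable (ρ : Measure (Clause K)) [IsProbabilityMeasure ρ]
  (hρ : Integrable (maxTheta : Clause K → ℝ) ρ) (ν : Measure ℝ) [IsProbabilityMeasure ν]
  (hν : Integrable (fun h : ℝ => h) ν)

include hρ hν in
/-- Assembly: the core theorem implies the lower bound. -/
theorem lower_of_core (lam : ℝ≥0)
    (core : ∀ (n D : ℕ) (ε : ℝ), 0 < ε →
      CoreFor (rsh ε : RI K n D → SE K D) ε) :
    mezardParisi lam ρ ν ≤ liminf (fun N => ((pressure lam ρ ν N : ℝ) : EReal)) atTop := by
  refine EReal.ge_of_forall_gt_iff_ge.1 fun M0 hM0 => ?_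
  -- it suffices to lose an arbitrarily small amount
  refine le_of_forall_lt fun b hb => ?_
  obtain ⟨b', hb1, hb2⟩ := EReal.lt_iff_exists_real_btwn.1 hb
  refine hb1.trans_le ?_
  have hb3 : b' < M0 := by exact_mod_cast hb2
  set δ : ℝ := M0 - b' with hδ
  have hδ0 : 0 < δ := by rw [hδ]; linarith
  -- parameters
  set ε : ℝ := δ / 20 with hε
  have hε0 : 0 < ε := by positivity
  have hl2 : 0 ≤ (∫ h, |h| ∂ν) + Real.log 2 :=
    add_nonneg (integral_nonneg fun h => abs_nonneg h) (Real.log_nonneg (by norm_num))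
  have hL0 : 0 ≤ ∫ c, maxTheta c ∂ρ := Lbar_nonneg ρ
  have tU := tail_tendsto (πU ρ ν) (integrable_πU ρ hρ ν hν) _ _ hl2 hL0
    (integral_πU_le ρ hρ ν hν) (K * lam)
  have tV := tail_tendsto (πV ρ) (integrable_πV ρ hρ) _ _ le_rfl hL0
    (integral_πV_le ρ hρ) (((K - 1 : ℕ) : ℝ≥0) * lam)
  obtain ⟨D, hDU, hDV⟩ : ∃ D : ℕ,
      (∫ l, tl (πU ρ ν) D l ∂(poissonMeasure (K * lam))) < ε ∧
      (∫ l, tl (πV ρ) D l ∂(poissonMeasure (((K - 1 : ℕ) : ℝ≥0) * lam))) < ε :=
    ((tU.eventually (gt_mem_nhds hε0)).and (tV.eventually (gt_mem_nhds hε0))).exists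
  obtain ⟨n, hn⟩ := exists_nat_ge ((D : ℝ) / ε + 1)
  obtain ⟨W, iW, nW, ψ, M, hM, hψ, I, iI, dI, pat, hpat, r, m, hcore⟩ := core n D ε hε0
  have hquantU : ∀ S : ShapeFun K, |S.val (πU ρ ν) (K * lam) -
      ∑ c, wt (πU ρ ν) (K * lam) ε n D c * S.F D (rsh ε c)| ≤ 3 * ε := by
    intro S
    have := S.quant (πU ρ ν) (integrable_πU ρ hρ ν hν) _ _ hl2 hL0
      (integral_πU_le ρ hρ ν hν) (K * lam) hε0 hn
    linarith only [hDU, this]
  have hquantV : ∀ S : ShapeFun K, |S.val (πV ρ) (((K - 1 : ℕ) : ℝ≥0) * lam) -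
      ∑ c, wt (πV ρ) (((K - 1 : ℕ) : ℝ≥0) * lam) ε n D c * S.F D (rsh ε c)| ≤ 3 * ε := by
    intro S
    have := S.quant (πV ρ) (integrable_πV ρ hρ) _ _ le_rfl hL0
      (integral_πV_le ρ hρ) (((K - 1 : ℕ) : ℝ≥0) * lam) hε0 hn
    linarith only [hDV, this]
  have key : ((M0 - 14 * ε : ℝ) : EReal) ≤
      liminf (fun N => ((pressure lam ρ ν N : ℝ) : EReal)) atTop := by
    refine ass_slots ρ hρ ν hν ψ M hM hψ pat hpat lam (M0 - 14 * ε) fun N _ H => ?_
    set g := GP ψ M hM hψ pat N with hg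
    have hgl : LipschitzWith 1 g := GP_lip ψ M hM hψ pat hpat N
    set S := reSF K g hgl H with hS
    obtain ⟨α, P, x, hx, hw⟩ := hcore N H
    -- the real functional
    have eU1 : (∫ l : ℕ, (∫ ω : Fin l → Clause K × Fin K, (∫ h : ℝ,
        (∫ i : Fin l × Fin K → Fin N, g (H + eU ω h i) ∂(Measure.pi fun _ => unif N)) ∂ν)
          ∂(Measure.pi fun _ => ρ.prod (unif K))) ∂(poissonMeasure (K * lam))) =
        S.val (πU ρ ν) (K * lam) + g H := by
      have e1 : ∀ l : ℕ, (∫ ω : Fin l → Clause K × Fin K, (∫ h : ℝ,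
        (∫ i : Fin l × Fin K → Fin N, g (H + eU ω h i) ∂(Measure.pi fun _ => unif N)) ∂ν)
          ∂(Measure.pi fun _ => ρ.prod (unif K))) = (∫ φ, S.F l φ ∂(πU ρ ν l)) + g H := by
        intro l
        have e2 : ∀ (ω : Fin l → Clause K × Fin K) (h : ℝ),
            (∫ i : Fin l × Fin K → Fin N, g (H + eU ω h i) ∂(Measure.pi fun _ => unif N)) =
            (fun φ => S.F l φ + g H) (lU (ω, h)) := by
          intro ω h
          show _ = (∫ i : Fin l × Fin K → Fin N, (g (H + shE (lU (ω, h)) i) - g H)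
            ∂(Measure.pi fun _ => unif N)) + g H
          rw [integral_sub (Integrable.of_finite) (Integrable.of_finite)]
          simp [eU_eq]
        simp_rw [e2]
        have hlip : LipschitzWith 1 (fun φ => S.F l φ + g H) := by
          refine LipschitzWith.of_dist_le_mul fun a b => ?_
          rw [dist_add_right]
          exact (S.lip l).dist_le_mul a b
        rw [nested_U ρ hρ ν hν hlip, integral_add (S.integrable (πU ρ ν) l
          (integrable_πU ρ hρ ν hν)) (integrable_const _)]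
        simp
      simp_rw [e1]
      rw [integral_add _ (integrable_const _)]
      · simp [ShapeFun.val]
      · have hgS : ExpGrowth fun l => ∫ φ, S.F l φ ∂(πU ρ ν l) := by
          refine expGrowth_of_linear (c := (∫ h, |h| ∂ν) + Real.log 2)
            (d := ∫ c, maxTheta c ∂ρ) (fun l => ?_) hl2 hL0
          rw [← Real.norm_eq_abs]
          refine (norm_integral_le_integral_norm _).trans ((integral_mono
            (S.integrable (πU ρ ν) l (integrable_πU ρ hρ ν hν)).norm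
            (integrable_πU ρ hρ ν hν l) fun φ => ?_).trans (integral_πU_le ρ hρ ν hν l))
          rw [Real.norm_eq_abs]
          exact S.abs_le φ
        exact hgS.integrable _
    have eV1 : (∫ l : ℕ, (∫ ω : Fin l → Clause K,
        (∫ i : Fin l × Fin K → Fin N, g (H + eV ω i) ∂(Measure.pi fun _ => unif N))
          ∂(Measure.pi fun _ => ρ)) ∂(poissonMeasure (((K - 1 : ℕ) : ℝ≥0) * lam))) =
        S.val (πV ρ) (((K - 1 : ℕ) : ℝ≥0) * lam) + g H := by
      have e1 : ∀ l : ℕ, (∫ ω : Fin l → Clause K,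
        (∫ i : Fin l × Fin K → Fin N, g (H + eV ω i) ∂(Measure.pi fun _ => unif N))
          ∂(Measure.pi fun _ => ρ)) = (∫ φ, S.F l φ ∂(πV ρ l)) + g H := by
        intro l
        have e2 : ∀ (ω : Fin l → Clause K),
            (∫ i : Fin l × Fin K → Fin N, g (H + eV ω i) ∂(Measure.pi fun _ => unif N)) =
            (fun φ => S.F l φ + g H) (lV ω) := by
          intro ω
          show _ = (∫ i : Fin l × Fin K → Fin N, (g (H + shE (lV ω) i) - g H)
            ∂(Measure.pi fun _ => unif N)) + g H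
          rw [integral_sub (Integrable.of_finite) (Integrable.of_finite)]
          simp [eV_eq]
        simp_rw [e2]
        have hlip : LipschitzWith 1 (fun φ => S.F l φ + g H) := by
          refine LipschitzWith.of_dist_le_mul fun a b => ?_
          rw [dist_add_right]
          exact (S.lip l).dist_le_mul a b
        rw [nested_V ρ hlip, integral_add (S.integrable (πV ρ) l
          (integrable_πV ρ hρ)) (integrable_const _)]
        simp
      simp_rw [e1]
      rw [integral_add _ (integrable_const _)]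
      · simp only [Nat.cast_tsub, Nat.cast_one, integral_const, probReal_univ, smul_eq_mul, one_mul, ShapeFun.val]
      · have hgS : ExpGrowth fun l => ∫ φ, S.F l φ ∂(πV ρ l) := by
          refine expGrowth_of_linear (c := 0)
            (d := ∫ c, maxTheta c ∂ρ) (fun l => ?_) le_rfl hL0
          rw [← Real.norm_eq_abs]
          refine (norm_integral_le_integral_norm _).trans ((integral_mono
            (S.integrable (πV ρ) l (integrable_πV ρ hρ)).norm
            (integrable_πV ρ hρ l) fun φ => ?_).trans (integral_πV_le ρ hρ l))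
          rw [Real.norm_eq_abs]
          exact S.abs_le φ
        exact hgS.integrable _
    rw [eU1, eV1, add_sub_add_right_eq_sub]
    -- quantized sums
    set cU := wt (πU ρ ν) (K * lam) ε n D with hcU
    set cV := wt (πV ρ) (((K - 1 : ℕ) : ℝ≥0) * lam) ε n D with hcV
    have sU : ∑ c, cU c = 1 := sum_wt (πU ρ ν) (K * lam) ε n D
    have sV : ∑ c, cV c = 1 := sum_wt (πV ρ) (((K - 1 : ℕ) : ℝ≥0) * lam) ε n D
    have pU : ∀ c, 0 ≤ cU c := fun c => wt_nonneg _ _ _ _ _ c
    have pV : ∀ c, 0 ≤ cV c := fun c => wt_nonneg _ _ _ _ _ c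
    have hSc : ∀ c : RI K n D, |S.F D (rsh ε c) - P.E (fun a => trF m (x a) (rsh ε c))| ≤ ε := by
      intro c
      rw [hS, reSF_eq_unif]
      exact hw c
    -- the average of the trial values
    have hP : ∀ cc : RI K n D → ℝ, P.E (fun a => ∑ c, cc c * trF m (x a) (rsh ε c)) =
        ∑ c, cc c * P.E (fun a => trF m (x a) (rsh ε c)) := by
      intro cc
      rw [PE.sum]
      refine Finset.sum_congr rfl fun c _ => ?_
      rw [PE.smul]
    have hlow : M0 - 6 * ε ≤ P.E (fun a => (∑ c, cU c * trF m (x a) (rsh ε c)) -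
        ∑ c, cV c * trF m (x a) (rsh ε c)) := by
      refine P.const_le fun a => ?_
      have hMP : (M0 : EReal) ≤ ((trialU lam ρ ν r m (x a) - trialV lam ρ r m (x a) : ℝ) :
          EReal) := by
        refine hM0.le.trans ?_
        unfold mezardParisi
        refine (iInf_le _ r).trans ?_
        unfold phi
        exact (iInf_le _ m).trans ((iInf_le _ (x a)).trans (iInf_le _ (hx a)))
      rw [EReal.coe_le_coe_iff, trialU_eq ρ hρ ν hν (hx a) lam, trialV_eq ρ (hx a) lam] at hMP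
      have q1 := (abs_le.1 (hquantU (trSF K (hx a)))).2
      have q2 := (abs_le.1 (hquantV (trSF K (hx a)))).1
      have q3 : ∀ c : RI K n D, (trSF K (hx a)).F D (rsh ε c) = trF m (x a) (rsh ε c) := fun c => rfl
      simp only [q3] at q1 q2
      linarith only [hMP, q1, q2]
    rw [P.sub, hP, hP] at hlow
    have dU : |∑ c, cU c * S.F D (rsh ε c) -
        ∑ c, cU c * P.E (fun a => trF m (x a) (rsh ε c))| ≤ ε := by
      rw [← Finset.sum_sub_distrib]
      refine (Finset.abs_sum_le_sum_abs _ _).trans ?_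
      calc ∑ c, |cU c * S.F D (rsh ε c) - cU c * P.E (fun a => trF m (x a) (rsh ε c))|
          ≤ ∑ c, cU c * ε := by
            refine Finset.sum_le_sum fun c _ => ?_
            rw [← mul_sub, abs_mul, abs_of_nonneg (pU c)]
            exact mul_le_mul_of_nonneg_left (hSc c) (pU c)
        _ = ε := by rw [← Finset.sum_mul, sU, one_mul]
    have dV : |∑ c, cV c * S.F D (rsh ε c) -
        ∑ c, cV c * P.E (fun a => trF m (x a) (rsh ε c))| ≤ ε := by
      rw [← Finset.sum_sub_distrib]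
      refine (Finset.abs_sum_le_sum_abs _ _).trans ?_
      calc ∑ c, |cV c * S.F D (rsh ε c) - cV c * P.E (fun a => trF m (x a) (rsh ε c))|
          ≤ ∑ c, cV c * ε := by
            refine Finset.sum_le_sum fun c _ => ?_
            rw [← mul_sub, abs_mul, abs_of_nonneg (pV c)]
            exact mul_le_mul_of_nonneg_left (hSc c) (pV c)
        _ = ε := by rw [← Finset.sum_mul, sV, one_mul]
    have r1 := (abs_le.1 (hquantU S)).1
    have r2 := (abs_le.1 (hquantV S)).2
    have r3 := (abs_le.1 dU).1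
    have r4 := (abs_le.1 dV).2
    linarith only [hlow, r1, r2, r3, r4]
  refine le_trans ?_ key
  rw [EReal.coe_le_coe_iff, hε, hδ]
  linarith only [hb3]

end Main

end Vale.Agent.N168I.MP
end
end

section

section

set_option autoImplicit false
set_option linter.unusedSectionVars false

open Finset

namespace Vale.Agent.N168I.MP

section Char

variable {ι : Type} [Fintype ι] [DecidableEq ι]

theorem spin_abs (b : Bool) : |spin b| = 1 := by cases b <;> simp [spin]

theorem abs_prod_spin (I : Finset ι) (σ : ι → Bool) : |∏ j ∈ I, spin (σ j)| = 1 := by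
  rw [Finset.abs_prod]
  exact Finset.prod_eq_one fun j _ => spin_abs _

/-- The coefficients of the expansion in characters. -/
noncomputable def hatc (W : (ι → Bool) → ℝ) (I : Finset ι) : ℝ :=
  (∑ σ : ι → Bool, W σ * ∏ j ∈ I, spin (σ j)) / 2 ^ Fintype.card ι

theorem mlin_expand (W : (ι → Bool) → ℝ) (y : ι → ℝ) :
    mlin W y = ∑ I : Finset ι, hatc W I * ∏ j ∈ I, y j := by
  unfold mlin hatc
  have h1 : ∀ σ : ι → Bool, ∏ j, (1 + y j * spin (σ j)) / 2 =
      (∑ I : Finset ι, (∏ j ∈ I, y j) * ∏ j ∈ I, spin (σ j)) / 2 ^ Fintype.card ι := by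
    intro σ
    rw [Finset.prod_div_distrib, Finset.prod_const, Finset.card_univ]
    congr 1
    have h2 : ∀ j, 1 + y j * spin (σ j) = y j * spin (σ j) + 1 := fun j => add_comm _ _
    rw [Finset.prod_congr rfl fun j _ => h2 j, Finset.prod_add_one, Finset.powerset_univ]
    exact Finset.sum_congr rfl fun I _ => Finset.prod_mul_distrib
  simp_rw [h1]
  have h3 : ∀ σ : ι → Bool, W σ * ((∑ I : Finset ι, (∏ j ∈ I, y j) * ∏ j ∈ I, spin (σ j)) /
      2 ^ Fintype.card ι) = ∑ I : Finset ι, (W σ * ∏ j ∈ I, spin (σ j)) / 2 ^ Fintype.card ι *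
        ∏ j ∈ I, y j := by
    intro σ
    rw [← mul_div_assoc, Finset.mul_sum, Finset.sum_div]
    refine Finset.sum_congr rfl fun I _ => ?_
    ring
  simp_rw [h3]
  rw [Finset.sum_comm]
  refine Finset.sum_congr rfl fun I _ => ?_
  rw [← Finset.sum_mul, Finset.sum_div]

theorem mlin_spin (W : (ι → Bool) → ℝ) (τ : ι → Bool) :
    mlin W (fun j => spin (τ j)) = W τ := by
  unfold mlin
  rw [Finset.sum_eq_single τ]
  · have : ∏ j, (1 + spin (τ j) * spin (τ j)) / 2 = 1 := by
      refine Finset.prod_eq_one fun j _ => ?_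
      cases τ j <;> simp [spin]
    rw [this, mul_one]
  · intro σ _ hσ
    obtain ⟨j, hj⟩ := Function.ne_iff.1 hσ
    have h0 : (1 + spin (τ j) * spin (σ j)) / 2 = 0 := by
      revert hj
      cases τ j <;> cases σ j <;> simp [spin]
    rw [Finset.prod_eq_zero (Finset.mem_univ j) h0, mul_zero]
  · intro h
    exact absurd (Finset.mem_univ _) h

/-- Expansion in characters. -/
theorem expand (W : (ι → Bool) → ℝ) (τ : ι → Bool) :
    W τ = ∑ I : Finset ι, hatc W I * ∏ j ∈ I, spin (τ j) := by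
  conv_lhs => rw [← mlin_spin W τ]
  exact mlin_expand W _

theorem abs_hatc_le {W : (ι → Bool) → ℝ} {C : ℝ} (hW : ∀ σ, |W σ| ≤ C) (I : Finset ι) :
    |hatc W I| ≤ C := by
  unfold hatc
  rw [abs_div, abs_of_pos (show (0 : ℝ) < 2 ^ Fintype.card ι by positivity),
    div_le_iff₀ (by positivity)]
  refine (Finset.abs_sum_le_sum_abs _ _).trans ?_
  refine (Finset.sum_le_card_nsmul _ _ C fun σ _ => ?_).trans (le_of_eq ?_)
  · rw [abs_mul, abs_prod_spin, mul_one]
    exact hW σ
  · rw [nsmul_eq_mul, Finset.card_univ, Fintype.card_fun, Fintype.card_bool]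
    push_cast
    ring

end Char

section Marg

variable {ι β : Type} [Fintype ι] [DecidableEq ι] [Fintype β] [Nonempty β]

/-- Exchange the coordinate `a` of two tuples. -/
def swapAt (a : ι) (p : (ι → β) × (ι → β)) : (ι → β) × (ι → β) :=
  (Function.update p.1 a (p.2 a), Function.update p.2 a (p.1 a))

theorem swapAt_invol (a : ι) : Function.Involutive (swapAt (β := β) a) := by
  intro p
  unfold swapAt
  simp

/-- A function of the coordinate `a` of an independent copy. -/
theorem aS_marg (a : ι) (G : (ι → β) → β → ℝ)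
    (hG : ∀ s t i, (∀ j, j ≠ a → s j = t j) → G s i = G t i) :
    (aS fun s : ι → β => aS fun s' : ι → β => G s (s' a)) = aS fun s : ι → β => G s (s a) := by
  have hcard : (Fintype.card (ι → β) : ℝ) ≠ 0 := by exact_mod_cast Fintype.card_ne_zero
  have h1 : (aS fun s : ι → β => aS fun s' : ι → β => G s (s' a)) =
      aS fun s : ι → β => aS fun _ : ι → β => G s (s a) := by
    unfold aS
    simp only [PE.unif_E]
    rw [← Finset.sum_div, ← Finset.sum_div]
    congr 2
    rw [← Fintype.sum_prod_type' (f := fun s s' : ι → β => G s (s' a)),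
      ← Fintype.sum_prod_type' (f := fun s _ : ι → β => G s (s a)),
      ← Equiv.sum_comp (Function.Involutive.toPerm _ (swapAt_invol (β := β) a))]
    refine Finset.sum_congr rfl fun p _ => ?_
    rw [Function.Involutive.coe_toPerm]
    unfold swapAt
    dsimp only
    rw [Function.update_self]
    refine hG _ _ _ fun j hj => ?_
    rw [Function.update_of_ne hj]
  rw [h1]
  congr 1
  funext s
  exact PE.const _ _

end Marg

end Vale.Agent.N168I.MP
end
end

section

section

set_option autoImplicit false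
set_option linter.unusedSectionVars false

open Finset

namespace Vale.Agent.N168I.MP

/-- Logarithms of shapes. -/
abbrev Sh (ι : Type) : Type := (ι → Bool) → ℝ

section Sys

variable {ι 𝒲 : Type} [Fintype ι] [DecidableEq ι] {N : ℕ}

/-- The energy of the shape `w` at the sites `s`. -/
def addE (u : 𝒲 → Sh ι) (τ : 𝒲 × (ι → Fin N)) : Egy N := fun σ => u τ.1 fun j => σ (τ.2 j)

/-- The slots of the finite system on `N` sites. -/
noncomputable def sys (N : ℕ) (u : 𝒲 → Sh ι) (M : ℝ) (hM : 0 ≤ M) (hu : ∀ w σ, |u w σ| ≤ M) :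
    Slots (Egy N) (𝒲 × (ι → Fin N)) where
  act τ H := H + addE u τ
  comm τ τ' x := by rw [add_assoc, add_assoc, add_comm (addE u τ') (addE u τ)]
  base := logZ
  M := M
  M_nonneg := hM
  bd τ x := by
    have h := lip_bound (logZ_lip (N := N)) x (addE u τ)
    rw [NNReal.coe_one, one_mul] at h
    refine h.trans ?_
    rw [pi_norm_le_iff_of_nonneg hM]
    intro σ
    rw [Real.norm_eq_abs]
    exact hu _ _

/-- Gibbs weight at a node of the last block (power `1`) with remaining slots `l`. -/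
noncomputable def gw (u : 𝒲 → Sh ι) (l : List (𝒲 × (ι → Fin N))) (H : Egy N)
    (σ : Fin N → Bool) : ℝ :=
  Real.exp (H σ) * (l.map fun τ => (1 + Real.exp (addE u τ σ)) / 2).prod

/-- Gibbs average at such a node. -/
noncomputable def gav (u : 𝒲 → Sh ι) (l : List (𝒲 × (ι → Fin N))) (H : Egy N)
    (f : (Fin N → Bool) → ℝ) : ℝ :=
  (∑ σ, gw u l H σ * f σ) / ∑ σ, gw u l H σ

/-- Local magnetizations at such a node. -/
noncomputable def gmag (u : 𝒲 → Sh ι) (l : List (𝒲 × (ι → Fin N))) (H : Egy N) (i : Fin N) : ℝ :=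
  gav u l H fun σ => spin (σ i)

theorem gw_pos (u : 𝒲 → Sh ι) (l : List (𝒲 × (ι → Fin N))) (H : Egy N) (σ : Fin N → Bool) :
    0 < gw u l H σ := by
  unfold gw
  refine mul_pos (Real.exp_pos _) (List.prod_pos fun a ha => ?_)
  obtain ⟨τ, _, rfl⟩ := List.mem_map.1 ha
  positivity

theorem sum_gw_pos (u : 𝒲 → Sh ι) (l : List (𝒲 × (ι → Fin N))) (H : Egy N) :
    0 < ∑ σ, gw u l H σ :=
  Finset.sum_pos (fun σ _ => gw_pos u l H σ) Finset.univ_nonempty

theorem gw_cons (u : 𝒲 → Sh ι) (τ : 𝒲 × (ι → Fin N)) (l : List (𝒲 × (ι → Fin N))) (H : Egy N)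
    (σ : Fin N → Bool) :
    gw u (τ :: l) H σ = (gw u l H σ + gw u l (H + addE u τ) σ) / 2 := by
  unfold gw
  rw [List.map_cons, List.prod_cons, Pi.add_apply, Real.exp_add]
  ring

theorem gw_act (u : 𝒲 → Sh ι) (τ : 𝒲 × (ι → Fin N)) (l : List (𝒲 × (ι → Fin N))) (H : Egy N)
    (σ : Fin N → Bool) : gw u l (H + addE u τ) σ = gw u l H σ * Real.exp (addE u τ σ) := by
  unfold gw
  rw [Pi.add_apply, Real.exp_add]
  ring

/-- The Gibbs average as a `PE`. -/
noncomputable def gPE (u : 𝒲 → Sh ι) (l : List (𝒲 × (ι → Fin N))) (H : Egy N) :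
    PE (Fin N → Bool) where
  E f := gav u l H f
  add' f g := by
    unfold gav
    rw [← add_div, ← Finset.sum_add_distrib]
    congr 1
    exact Finset.sum_congr rfl fun σ _ => mul_add _ _ _
  smul' c f := by
    unfold gav
    rw [← mul_div_assoc, Finset.mul_sum]
    congr 1
    exact Finset.sum_congr rfl fun σ _ => by ring
  mono' f g h := by
    unfold gav
    exact div_le_div_of_nonneg_right (Finset.sum_le_sum fun σ _ =>
      mul_le_mul_of_nonneg_left (h σ) (gw_pos u l H σ).le) (sum_gw_pos u l H).le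
  one' := by
    unfold gav
    simp only [mul_one]
    exact div_self (sum_gw_pos u l H).ne'

theorem gPE_E (u : 𝒲 → Sh ι) (l : List (𝒲 × (ι → Fin N))) (H : Egy N)
    (f : (Fin N → Bool) → ℝ) : (gPE u l H).E f = gav u l H f := rfl

theorem abs_gav_le (u : 𝒲 → Sh ι) (l : List (𝒲 × (ι → Fin N))) (H : Egy N)
    {f : (Fin N → Bool) → ℝ} {c : ℝ} (hf : ∀ σ, |f σ| ≤ c) : |gav u l H f| ≤ c :=
  ((gPE u l H).abs_le f).trans ((gPE u l H).le_const hf)

theorem abs_gmag_le (u : 𝒲 → Sh ι) (l : List (𝒲 × (ι → Fin N))) (H : Egy N) (i : Fin N) :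
    |gmag u l H i| ≤ 1 := abs_gav_le u l H fun _ => (spin_abs _).le

/-- Gibbs averages after an insertion. -/
theorem gav_act (u : 𝒲 → Sh ι) (l : List (𝒲 × (ι → Fin N))) (H : Egy N) (τ : 𝒲 × (ι → Fin N))
    (f : (Fin N → Bool) → ℝ) : gav u l (H + addE u τ) f =
      gav u l H (fun σ => f σ * Real.exp (addE u τ σ)) /
        gav u l H fun σ => Real.exp (addE u τ σ) := by
  unfold gav
  simp only [gw_act]
  have h1 := sum_gw_pos u l H
  have h2 : 0 < ∑ σ, gw u l H σ * Real.exp (addE u τ σ) :=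
    Finset.sum_pos (fun σ _ => mul_pos (gw_pos u l H σ) (Real.exp_pos _)) Finset.univ_nonempty
  rw [div_div_div_cancel_right₀ h1.ne']
  congr 1
  exact Finset.sum_congr rfl fun σ _ => by ring

variable (u : 𝒲 → Sh ι) (M : ℝ) (hM : 0 ≤ M) (hu : ∀ w σ, |u w σ| ≤ M)

theorem exp_lam_one (l : List (𝒲 × (ι → Fin N))) (H : Egy N) :
    Real.exp ((sys N u M hM hu).lam (blk 1 l) H) = ∑ σ, gw u l H σ := by
  induction l generalizing H with
  | nil =>
    have h : 0 < ∑ σ : Fin N → Bool, Real.exp (H σ) :=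
      Finset.sum_pos (fun σ _ => Real.exp_pos _) Finset.univ_nonempty
    rw [blk_nil, Slots.lam_nil]
    change Real.exp (Real.log _) = _
    rw [Real.exp_log h]
    exact Finset.sum_congr rfl fun σ _ => by simp [gw]
  | cons τ l ih =>
    have h := (sys N u M hM hu).exp_lam_cons one_pos τ (blk 1 l) H
    rw [one_mul, one_mul, one_mul] at h
    rw [blk_cons, h, ih, ih, Finset.sum_congr rfl fun σ _ => gw_cons u τ l H σ,
      ← Finset.sum_div, Finset.sum_add_distrib]
    rfl

theorem av_one (l : List (𝒲 × (ι → Fin N))) (H : Egy N) (τ : 𝒲 × (ι → Fin N)) :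
    (sys N u M hM hu).av 1 (blk 1 l) τ H = gav u l H fun σ => Real.exp (addE u τ σ) := by
  unfold Slots.av Slots.val
  rw [one_mul, Real.exp_sub, exp_lam_one, exp_lam_one]
  unfold gav
  congr 1
  exact Finset.sum_congr rfl fun σ _ => gw_act u τ l H σ

/-- The characters. -/
noncomputable def chi (I : Finset ι) (s : ι → Fin N) (σ : Fin N → Bool) : ℝ :=
  ∏ j ∈ I, spin (σ (s j))

/-- Truncated correlations are controlled by the effect of an insertion. -/
theorem cov_le_diff (l : List (𝒲 × (ι → Fin N))) (H : Egy N) (τ τ' : 𝒲 × (ι → Fin N))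
    {f g : (Fin N → Bool) → ℝ} (hg : ∀ σ, |g σ| ≤ 1)
    (h1 : ∀ σ, Real.exp (addE u τ' σ) = 1 + (1 / 2) * f σ)
    (h2 : ∀ σ, Real.exp (addE u τ σ) = 1 + (1 / 2) * g σ) :
    |(gPE u l H).cov f g| ≤ 6 * |(sys N u M hM hu).av 1 (blk 1 l) τ' (H + addE u τ) -
      (sys N u M hM hu).av 1 (blk 1 l) τ' H| := by
  rw [av_one, av_one, gav_act]
  have e1 : gav u l H (fun σ => Real.exp (addE u τ σ)) = 1 + (1 / 2) * (gPE u l H).E g := by
    simp only [h2]
    rw [← gPE_E, PE.add, PE.const, PE.smul]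
  have e2 : gav u l H (fun σ => Real.exp (addE u τ' σ)) = 1 + (1 / 2) * (gPE u l H).E f := by
    simp only [h1]
    rw [← gPE_E, PE.add, PE.const, PE.smul]
  have e3 : gav u l H (fun σ => Real.exp (addE u τ' σ) * Real.exp (addE u τ σ)) =
      1 + (1 / 2) * (gPE u l H).E f + (1 / 2) * (gPE u l H).E g +
        (1 / 4) * (gPE u l H).E fun σ => f σ * g σ := by
    have : (fun σ => Real.exp (addE u τ' σ) * Real.exp (addE u τ σ)) =
        fun σ => ((1 + (1 / 2) * f σ) + (1 / 2) * g σ) + (1 / 4) * (f σ * g σ) := by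
      funext σ
      rw [h1, h2]
      ring
    rw [this, ← gPE_E, PE.add, PE.add, PE.add, PE.const, PE.smul, PE.smul, PE.smul]
  have hE := abs_le.1 (abs_gav_le u l H hg)
  rw [← gPE_E] at hE
  have hpos : 0 < 1 + (1 / 2) * (gPE u l H).E g := by linarith only [hE]
  rw [e1, e2, e3]
  have e4 : (1 + (1 / 2) * (gPE u l H).E f + (1 / 2) * (gPE u l H).E g +
        (1 / 4) * (gPE u l H).E fun σ => f σ * g σ) / (1 + (1 / 2) * (gPE u l H).E g) -
      (1 + (1 / 2) * (gPE u l H).E f) =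
      (1 / 4) * (gPE u l H).cov f g / (1 + (1 / 2) * (gPE u l H).E g) := by
    unfold PE.cov
    rw [div_sub' hpos.ne']
    congr 1
    ring
  rw [e4, abs_div, abs_mul, abs_of_pos hpos, abs_of_pos (show (0 : ℝ) < 1 / 4 by norm_num),
    mul_div_assoc', le_div_iff₀ hpos]
  have := abs_nonneg ((gPE u l H).cov f g)
  nlinarith only [hE, this]

/-- Mean error of the factorization of the correlation over `I`. -/
noncomputable def facErr (l : List (𝒲 × (ι → Fin N))) (H : Egy N) [NeZero N] (I : Finset ι) : ℝ :=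
  aS fun s : ι → Fin N => |gav u l H (chi I s) - ∏ j ∈ I, gmag u l H (s j)|

/-- Mean truncated correlation. -/
noncomputable def corErr (l : List (𝒲 × (ι → Fin N))) (H : Egy N) [NeZero N] (I : Finset ι)
    (a : ι) : ℝ :=
  aS fun s : ι → Fin N => aS fun s' : ι → Fin N =>
    |(gPE u l H).cov (chi I s) fun σ => spin (σ (s' a))|

theorem facErr_empty (l : List (𝒲 × (ι → Fin N))) (H : Egy N) [NeZero N] :
    facErr u l H ∅ = 0 := by
  unfold facErr
  have h : ∀ s : ι → Fin N, |gav u l H (chi ∅ s) - ∏ j ∈ (∅ : Finset ι), gmag u l H (s j)| = 0 := by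
    intro s
    have h1 : gav u l H (chi ∅ s) = 1 := by
      have : chi (N := N) (∅ : Finset ι) s = fun _ => 1 := by
        funext σ
        simp [chi]
      rw [this, ← gPE_E, PE.const]
    rw [h1, Finset.prod_empty, sub_self, abs_zero]
  simp only [h]
  exact PE.const _ _

theorem facErr_insert (l : List (𝒲 × (ι → Fin N))) (H : Egy N) [NeZero N] {I : Finset ι} {a : ι}
    (ha : a ∉ I) : facErr u l H (insert a I) ≤ facErr u l H I + corErr u l H I a := by
  have h1 : corErr u l H I a = aS fun s : ι → Fin N =>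
      |(gPE u l H).cov (chi I s) fun σ => spin (σ (s a))| := by
    unfold corErr
    refine aS_marg a (fun s i => |(gPE u l H).cov (chi I s) fun σ => spin (σ i)|) ?_
    intro s t i hst
    have : chi (N := N) I s = chi I t := by
      funext σ
      unfold chi
      refine Finset.prod_congr rfl fun j hj => ?_
      rw [hst j (fun h => ha (h ▸ hj))]
    simp only [this]
  rw [h1]
  unfold facErr aS
  rw [← PE.add]
  refine PE.mono _ fun s => ?_
  have e1 : gav u l H (chi (insert a I) s) = (gPE u l H).E fun σ => chi I s σ * spin (σ (s a)) := by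
    rw [gPE_E]
    congr 1
    funext σ
    unfold chi
    rw [Finset.prod_insert ha, mul_comm]
  have e2 : (gPE u l H).cov (chi I s) (fun σ => spin (σ (s a))) =
      gav u l H (chi (insert a I) s) - gav u l H (chi I s) * gmag u l H (s a) := by
    rw [e1]
    rfl
  rw [Finset.prod_insert ha]
  have e3 : gav u l H (chi (insert a I) s) - gmag u l H (s a) * ∏ j ∈ I, gmag u l H (s j) =
      (gav u l H (chi I s) - ∏ j ∈ I, gmag u l H (s j)) * gmag u l H (s a) +
        (gPE u l H).cov (chi I s) fun σ => spin (σ (s a)) := by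
    rw [e2]
    ring
  rw [e3]
  refine (abs_add_le _ _).trans (add_le_add_left ?_ _)
  rw [abs_mul]
  exact mul_le_of_le_one_right (abs_nonneg _) (abs_gmag_le u l H (s a))

include hu in
/-- The error of the multilinear formula for the value of the shape `w`. -/
theorem leaf_le (l : List (𝒲 × (ι → Fin N))) (H : Egy N) [NeZero N] (w : 𝒲) :
    (aS fun s : ι → Fin N => |gav u l H (fun σ => Real.exp (addE u (w, s) σ)) -
      mlin (fun σ => Real.exp (u w σ)) fun j => gmag u l H (s j)|) ≤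
      Real.exp M * ∑ I : Finset ι, facErr u l H I := by
  have hW : ∀ σ, |Real.exp (u w σ)| ≤ Real.exp M := fun σ => by
    rw [abs_of_pos (Real.exp_pos _)]
    exact Real.exp_le_exp.2 (abs_le.1 (hu w σ)).2
  unfold facErr aS
  rw [← PE.sum, ← PE.smul]
  refine PE.mono _ fun s => ?_
  have e1 : gav u l H (fun σ => Real.exp (addE u (w, s) σ)) =
      ∑ I : Finset ι, hatc (fun σ => Real.exp (u w σ)) I * gav u l H (chi I s) := by
    have : (fun σ => Real.exp (addE u (w, s) σ)) = fun σ => ∑ I : Finset ι,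
        hatc (fun σ => Real.exp (u w σ)) I * chi I s σ := by
      funext σ
      exact expand (fun σ => Real.exp (u w σ)) fun j => σ (s j)
    rw [this, ← gPE_E, PE.sum]
    exact Finset.sum_congr rfl fun I _ => PE.smul _ _ _
  rw [e1, mlin_expand, ← Finset.sum_sub_distrib, Finset.mul_sum]
  refine (Finset.abs_sum_le_sum_abs _ _).trans (Finset.sum_le_sum fun I _ => ?_)
  rw [← mul_sub, abs_mul]
  exact mul_le_mul_of_nonneg_right (abs_hatc_le hW I) (abs_nonneg _)

variable [Fintype 𝒲] [Nonempty 𝒲]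

/-- The average over one shape is controlled by the average over all shapes. -/
theorem aS_le_unif [NeZero N] (w : 𝒲) {F : 𝒲 × (ι → Fin N) → ℝ} (hF : ∀ τ, 0 ≤ F τ) :
    (aS fun s : ι → Fin N => F (w, s)) ≤
      Fintype.card 𝒲 * (PE.unif (𝒲 × (ι → Fin N))).E F := by
  unfold aS
  rw [PE.unif_E, PE.unif_E, Fintype.card_prod, Fintype.sum_prod_type]
  have h1 : (0 : ℝ) < Fintype.card 𝒲 := by exact_mod_cast Fintype.card_pos
  have h2 : (0 : ℝ) < Fintype.card (ι → Fin N) := by exact_mod_cast Fintype.card_pos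
  push_cast
  rw [mul_div_assoc', mul_div_mul_left _ _ h1.ne']
  refine div_le_div_of_nonneg_right ?_ h2.le
  exact Finset.single_le_sum (f := fun w => ∑ s : ι → Fin N, F (w, s))
    (fun w _ => Finset.sum_nonneg fun s _ => hF _) (Finset.mem_univ w)

/-- Joint law of the structure and of the node of the last level. -/
noncomputable def jointPE (θ : ℝ) (R n N : ℕ) [NeZero N] (H0 : Egy N) :
    PE (St R n (𝒲 × (ι → Fin N)) × Egy N) :=
  (PE.unif (St R n (𝒲 × (ι → Fin N)))).bind fun st =>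
    ((sys N u M hM hu).lawP θ st H0 R).map fun H => (st, H)

theorem cor_small {θ : ℝ} (h0 : 0 < θ) (h1 : θ < 1) (R n : ℕ) [NeZero N] (H0 : Egy N)
    (I : Finset ι) (a : ι)
    (hpur : ∀ I : Finset ι, ∃ w, ∀ σ : ι → Bool,
      u w σ = Real.log (1 + (1 / 2) * ∏ j ∈ I, spin (σ j))) :
    ((jointPE u M hM hu θ R n N H0).E fun x => corErr u (blkAt x.1 R).suf x.2 I a) ≤
      6 * Real.sqrt (Fintype.card 𝒲 * ((sys N u M hM hu).CM / (n + 1))) := by
  obtain ⟨wI, hwI⟩ := hpur I
  obtain ⟨wa, hwa⟩ := hpur {a}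
  set P := jointPE u M hM hu θ R n N H0 with hP
  set Δ : St R n (𝒲 × (ι → Fin N)) × Egy N → (ι → Fin N) → (ι → Fin N) → ℝ := fun x s s' =>
    ((sys N u M hM hu).chain θ x.1).a R ((sys N u M hM hu).act (wa, s') x.2) (wI, s) -
      ((sys N u M hM hu).chain θ x.1).a R x.2 (wI, s) with hΔ
  have hpow : pw θ R R = 1 := by unfold pw; rw [Nat.sub_self, pow_zero]
  have ha : ∀ (st : St R n (𝒲 × (ι → Fin N))) (H : Egy N) τ,
      ((sys N u M hM hu).chain θ st).a R H τ =
        (sys N u M hM hu).av 1 (blk 1 (blkAt st R).suf) τ H := by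
    intro st H τ
    change (sys N u M hM hu).av (pw θ R R) (remSlots θ st R) τ H = _
    unfold remSlots
    rw [hpow, rest_last, List.append_nil]
  have hexp : ∀ (J : Finset ι) (w : 𝒲), (∀ σ : ι → Bool,
      u w σ = Real.log (1 + (1 / 2) * ∏ j ∈ J, spin (σ j))) → ∀ (s : ι → Fin N) σ,
      Real.exp (addE u (w, s) σ) = 1 + (1 / 2) * chi J s σ := by
    intro J w hw s σ
    unfold addE
    dsimp only
    rw [hw, Real.exp_log]
    · rfl
    · have := abs_le.1 (abs_prod_spin J fun j => σ (s j)).le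
      linarith only [this]
  have hcor : ∀ x, corErr u (blkAt x.1 R).suf x.2 I a ≤
      6 * aS fun s : ι → Fin N => aS fun s' : ι → Fin N => |Δ x s s'| := by
    intro x
    unfold corErr
    unfold aS
    rw [← PE.smul]
    refine PE.mono _ fun s => ?_
    rw [← PE.smul]
    refine PE.mono _ fun s' => ?_
    rw [hΔ]
    dsimp only
    rw [ha, ha]
    refine cov_le_diff u M hM hu (blkAt x.1 R).suf x.2 (wa, s') (wI, s)
      (fun σ => (spin_abs _).le) (hexp I wI hwI s) fun σ => ?_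
    rw [hexp {a} wa hwa s' σ]
    simp [chi]
  refine (P.mono hcor).trans ?_
  rw [P.smul]
  refine mul_le_mul_of_nonneg_left ?_ (by norm_num)
  set Q := P.bind fun x => (PE.unif (ι → Fin N)).bind fun s =>
    (PE.unif (ι → Fin N)).map fun s' => (x, s, s') with hQ
  have hQ1 := Q.abs_le_sqrt fun y => Δ y.1 y.2.1 y.2.2
  refine hQ1.trans (Real.sqrt_le_sqrt ?_)
  change (P.E fun x => (PE.unif (ι → Fin N)).E fun s => (PE.unif (ι → Fin N)).E fun s' =>
    Δ x s s' ^ 2) ≤ _
  rw [PE.comm_unif]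
  refine PE.le_const _ fun s => ?_
  have h3 := (sys N u M hM hu).chain_M_avg (n := n) (R := R) h0 h1 H0 (wI, s)
  have h4 : (P.E fun x => (PE.unif (ι → Fin N)).E fun s' => Δ x s s' ^ 2) ≤
      P.E fun x => Fintype.card 𝒲 * (PE.unif (𝒲 × (ι → Fin N))).E fun τ =>
        (((sys N u M hM hu).chain θ x.1).a R ((sys N u M hM hu).act τ x.2) (wI, s) -
          ((sys N u M hM hu).chain θ x.1).a R x.2 (wI, s)) ^ 2 := by
    refine P.mono fun x => ?_
    exact aS_le_unif (F := fun τ =>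
      (((sys N u M hM hu).chain θ x.1).a R ((sys N u M hM hu).act τ x.2) (wI, s) -
          ((sys N u M hM hu).chain θ x.1).a R x.2 (wI, s)) ^ 2) wa fun τ => sq_nonneg _
  refine h4.trans ?_
  rw [P.smul]
  exact mul_le_mul_of_nonneg_left h3 (Nat.cast_nonneg _)

/-- PURITY of the last level of a random structure. -/
theorem purity (hpur : ∀ I : Finset ι, ∃ w, ∀ σ : ι → Bool,
      u w σ = Real.log (1 + (1 / 2) * ∏ j ∈ I, spin (σ j))) :
    ∃ C : ℝ, 0 ≤ C ∧ ∀ (N : ℕ) [NeZero N] (R n : ℕ) (θ : ℝ), 0 < θ → θ < 1 → ∀ H0 : Egy N,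
      ((PE.unif (St R n (𝒲 × (ι → Fin N)))).E fun st =>
        ((sys N u M hM hu).lawP θ st H0 R).E fun H => ∑ w,
          ((sys N u M hM hu).chain θ st).leafErr (fun w σ => Real.exp (u w σ))
            (fun H i => gmag u (blkAt st R).suf H i) R H w) ≤ C / Real.sqrt (n + 1) := by
  set CM0 : ℝ := Real.exp (4 * M) * (1 + Real.exp M) ^ 6 with hCM0
  refine ⟨Fintype.card 𝒲 * (Real.exp M * (Fintype.card (Finset ι) * (Fintype.card ι *
    (6 * Real.sqrt (Fintype.card 𝒲 * CM0))))), by positivity, ?_⟩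
  intro N _ R n θ h0 h1 H0
  have hn : (0 : ℝ) < n + 1 := by positivity
  set B : ℝ := 6 * Real.sqrt (Fintype.card 𝒲 * ((sys N u M hM hu).CM / (n + 1))) with hB
  have hB0 : 0 ≤ B := by (clear * - hM hu; positivity)
  have hBe : B = 6 * Real.sqrt (Fintype.card 𝒲 * CM0) / Real.sqrt (n + 1) := by
    have : (Fintype.card 𝒲 : ℝ) * ((sys N u M hM hu).CM / (n + 1)) =
        (Fintype.card 𝒲 * CM0) / (n + 1) := by
      rw [mul_div_assoc]
      rfl
    rw [hB, this, Real.sqrt_div (by positivity), mul_div_assoc]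
  set P := jointPE u M hM hu θ R n N H0 with hP
  have hfac : ∀ I : Finset ι, (P.E fun x => facErr u (blkAt x.1 R).suf x.2 I) ≤ I.card * B := by
    intro I
    induction I using Finset.induction_on with
    | empty =>
      simp only [facErr_empty]
      rw [PE.const]
      simp
    | insert a I ha ih =>
      refine (P.mono fun x => facErr_insert u (blkAt x.1 R).suf x.2 ha).trans ?_
      rw [P.add, Finset.card_insert_of_notMem ha]
      have h2 := cor_small u M hM hu h0 h1 R n H0 I a hpur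
      push_cast
      (clear CM0 hCM0 hn hB hB0 hBe hP ha; linarith)
  have hpow : pw θ R R = 1 := by unfold pw; rw [Nat.sub_self, pow_zero]
  have hleaf : ∀ (x : St R n (𝒲 × (ι → Fin N)) × Egy N) (w : 𝒲),
      ((sys N u M hM hu).chain θ x.1).leafErr (fun w σ => Real.exp (u w σ))
            (fun H i => gmag u (blkAt x.1 R).suf H i) R x.2 w ≤
        Real.exp M * ∑ I : Finset ι, facErr u (blkAt x.1 R).suf x.2 I := by
    intro x w
    refine le_trans (le_of_eq ?_) (leaf_le u M hu (blkAt x.1 R).suf x.2 w)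
    unfold Chain.leafErr
    congr 1
    funext s
    congr 2
    change (sys N u M hM hu).av (pw θ R R) (remSlots θ x.1 R) (w, s) x.2 = _
    unfold remSlots
    rw [hpow, rest_last, List.append_nil, av_one]
  change (P.E fun x => ∑ w, ((sys N u M hM hu).chain θ x.1).leafErr
    (fun w σ => Real.exp (u w σ)) (fun H i => gmag u (blkAt x.1 R).suf H i) R x.2 w) ≤ _
  rw [P.sum]
  have h3 : ∀ w : 𝒲, (P.E fun x => ((sys N u M hM hu).chain θ x.1).leafErr
      (fun w σ => Real.exp (u w σ)) (fun H i => gmag u (blkAt x.1 R).suf H i) R x.2 w) ≤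
      Real.exp M * (Fintype.card (Finset ι) * (Fintype.card ι * B)) := by
    intro w
    refine (P.mono fun x => hleaf x w).trans ?_
    rw [P.smul, P.sum]
    refine mul_le_mul_of_nonneg_left ?_ (Real.exp_pos _).le
    refine (Finset.sum_le_card_nsmul _ _ (Fintype.card ι * B) fun I _ => ?_).trans (le_of_eq ?_)
    · refine (hfac I).trans (mul_le_mul_of_nonneg_right ?_ hB0)
      exact_mod_cast Finset.card_le_univ I
    · rw [nsmul_eq_mul, Finset.card_univ]
  refine (Finset.sum_le_card_nsmul _ _ _ fun w _ => h3 w).trans (le_of_eq ?_)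
  rw [nsmul_eq_mul, Finset.card_univ, hBe]
  ring

/-- The value of the trial data on the log shape `v`. -/
noncomputable def valMP {R N : ℕ} [NeZero N] (θ : ℝ) (data : Chain.Data R (Fin N)) {κ : Type}
    [Fintype κ] [DecidableEq κ] (v : Sh κ) : ℝ :=
  (1 / θ ^ R) * aS fun s : κ → Fin N =>
    Real.log (betaRec θ R data.1 (Chain.leafF (fun σ => Real.exp (v σ)) data.2) s)

/-- The slot functional `E log X_L` for a uniform structure. -/
noncomputable def PhiN (θ : ℝ) (R n : ℕ) (N : ℕ) [NeZero N] (H : Egy N) : ℝ :=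
  (PE.unif (St R n (𝒲 × (ι → Fin N)))).E fun st => (sys N u M hM hu).lam (allSlots θ st) H

end Sys

end Vale.Agent.N168I.MP
end
end

section

section

set_option autoImplicit false
set_option linter.unusedSectionVars false

open Finset

namespace Vale.Agent.N168I.MP

namespace PE

variable {α β : Type} (P : PE α)

theorem cov_unif_right [Fintype β] [Nonempty β] (f : α → ℝ) (g : β → α → ℝ) :
    P.cov f (fun x => (unif β).E fun b => g b x) = (unif β).E fun b => P.cov f (g b) := by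
  unfold cov
  rw [(unif β).sub, (unif β).smul, P.comm_unif (fun x b => g b x)]
  congr 1
  rw [← P.comm_unif (fun x b => f x * g b x)]
  congr 1
  funext x
  rw [(unif β).smul]

end PE

/-- elementary quadratic inequality -/
theorem le_sqrt_add_of_sq_le {v e D : ℝ} (he : 0 ≤ e) (hD : 0 ≤ D) (h : v ^ 2 ≤ e + v * D) :
    v ≤ Real.sqrt e + D := by
  by_contra hc
  push Not at hc
  have h1 := Real.sqrt_nonneg e
  have h2 := Real.sq_sqrt he
  nlinarith only [h, h2, hc, h1, hD]

theorem rpow_bounds {c u δ : ℝ} (hc : 0 < c) (hc1 : c ≤ 1) (hu : c ≤ u) (hu' : u ≤ c⁻¹)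
    (h0 : 0 ≤ δ) (h1 : δ ≤ 1) :
    1 - δ * (c⁻¹ - 1) ≤ u ^ (-δ) ∧ u ^ (-δ) ≤ 1 + δ * (c⁻¹ - 1) := by
  have hci : 1 ≤ c⁻¹ := (one_le_inv₀ hc).mpr hc1
  have hB : (c⁻¹) ^ δ ≤ 1 + δ * (c⁻¹ - 1) := by
    have := rpow_one_add_le_one_add_mul_self (s := c⁻¹ - 1) (by linarith only [hc, hu, hu']) h0 h1
    simpa using this
  have hupos : 0 < u := hc.trans_le hu
  constructor
  · have h2 : u ^ δ ≤ (c⁻¹) ^ δ := Real.rpow_le_rpow hupos.le hu' h0
    have h3 : 0 < u ^ δ := Real.rpow_pos_of_pos hupos δ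
    rw [Real.rpow_neg hupos.le]
    have h4 : 0 ≤ δ * (c⁻¹ - 1) := mul_nonneg h0 (by linarith only [hci])
    have h5 : (1 + δ * (c⁻¹ - 1))⁻¹ ≤ (u ^ δ)⁻¹ := by
      apply inv_anti₀ h3
      linarith only [hB, h2]
    refine le_trans ?_ h5
    generalize δ * (c⁻¹ - 1) = t at h4
    rw [inv_eq_one_div, le_div_iff₀ (by linarith only [h4])]
    nlinarith only [h4]
  · have h2 : u ^ (-δ) ≤ c ^ (-δ) := by
      rw [Real.rpow_neg hupos.le, Real.rpow_neg hc.le]
      exact inv_anti₀ (Real.rpow_pos_of_pos hc δ) (Real.rpow_le_rpow hc.le hu h0)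
    refine h2.trans ?_
    rw [Real.rpow_neg hc.le, ← Real.inv_rpow hc.le]
    exact hB

/-- the map `u ↦ u - u ^ θ` is Lipschitz with constant `c⁻¹ (1 - θ)` -/
theorem sub_rpow_lip {θ c u v : ℝ} (h0 : 0 < θ) (h1 : θ < 1) (hc : 0 < c) (hc1 : c ≤ 1)
    (hu : c ≤ u) (hu' : u ≤ c⁻¹) (hv : c ≤ v) (hv' : v ≤ c⁻¹) :
    |(u - u ^ θ) - (v - v ^ θ)| ≤ c⁻¹ * (1 - θ) * |u - v| := by
  have hci : 1 ≤ c⁻¹ := (one_le_inv₀ hc).mpr hc1
  have key := Convex.norm_image_sub_le_of_norm_hasDerivWithin_le (𝕜 := ℝ)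
    (f := fun x : ℝ => x - x ^ θ) (f' := fun x => 1 - θ * x ^ (θ - 1)) (C := c⁻¹ * (1 - θ))
    (s := Set.Icc c c⁻¹) (x := v) (y := u) ?_ ?_ (convex_Icc _ _) ⟨hv, hv'⟩ ⟨hu, hu'⟩
  · simpa only [ge_iff_le, Real.norm_eq_abs] using key
  · intro x hx
    have hx0 : x ≠ 0 := (hc.trans_le hx.1).ne'
    exact ((hasDerivAt_id x).sub (Real.hasDerivAt_rpow_const (Or.inl hx0))).hasDerivWithinAt
  · intro x hx
    obtain ⟨b1, b2⟩ := rpow_bounds (δ := 1 - θ) hc hc1 hx.1 hx.2 (by linarith only [h1]) (by linarith)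
    have e : -(1 - θ) = θ - 1 := by ring
    rw [e] at b1 b2
    rw [Real.norm_eq_abs, abs_le]
    constructor
    · nlinarith only [b2, h0, h1, b1]
    · nlinarith only [b1, h0, h1, b2]

namespace PE

variable {α β : Type}

/-- law of the pair (intermediate state, final state) -/
def pairPE (κ : PE α) (ρ : α → PE α) : PE (α × α) := κ.bind fun y => (ρ y).map fun z => (y, z)

theorem pairPE_E (κ : PE α) (ρ : α → PE α) (F : α × α → ℝ) :
    (pairPE κ ρ).E F = κ.E fun y => (ρ y).E fun z => F (y, z) := rfl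

/-- Conditional variance computation: for `h y = E_y f` the function
`f(z) - f(z) h(y)^(θ - 1)` has small standard deviation. -/
theorem sd_sub_le {θ c : ℝ} (h0 : 0 < θ) (h1 : θ < 1) (hc : 0 < c) (hc1 : c ≤ 1)
    (κ : PE α) (ρ : α → PE α) {f : α → ℝ} (hf : ∀ x, c ≤ f x) (hf' : ∀ x, f x ≤ c⁻¹) :
    (pairPE κ ρ).sd (fun u => f u.2 - f u.2 * ((ρ u.1).E f) ^ (θ - 1)) ≤
      c⁻¹ * (1 - θ) * (pairPE κ ρ).sd (fun u => f u.2) := by
  have hci : 1 ≤ c⁻¹ := (one_le_inv₀ hc).mpr hc1
  set L : ℝ := c⁻¹ * (1 - θ) with hL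
  have hL0 : 0 ≤ L := mul_nonneg (by linarith only [hci]) (by linarith)
  set h : α → ℝ := fun y => (ρ y).E f with hh
  have hlo : ∀ y, c ≤ h y := fun y => (ρ y).const_le hf
  have hhi : ∀ y, h y ≤ c⁻¹ := fun y => (ρ y).le_const hf'
  set g : α → ℝ := fun y => 1 - h y ^ (θ - 1) with hg
  have hgL : ∀ y, |g y| ≤ L := by
    intro y
    obtain ⟨b1, b2⟩ := rpow_bounds (δ := 1 - θ) hc hc1 (hlo y) (hhi y) (by linarith) (by linarith)
    have e : -(1 - θ) = θ - 1 := by ring
    rw [e] at b1 b2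
    rw [_root_.abs_le, hg, hL]
    constructor <;> nlinarith only [h1, b1, b2]
  have hvar : (pairPE κ ρ).var (fun u => f u.2 - f u.2 * ((ρ u.1).E f) ^ (θ - 1)) ≤
      L ^ 2 * (pairPE κ ρ).var (fun u => f u.2) := by
    have e1 : (fun u : α × α => f u.2 - f u.2 * ((ρ u.1).E f) ^ (θ - 1)) =
        fun u => g u.1 * f u.2 := by
      funext u
      simp only [hg, hh]
      ring
    rw [e1]
    have e2 : (pairPE κ ρ).E (fun u => (g u.1 * f u.2) ^ 2) =
        κ.E fun y => g y ^ 2 * (ρ y).E fun z => f z ^ 2 := by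
      rw [pairPE_E]
      congr 1
      funext y
      rw [← (ρ y).smul]
      congr 1
      funext z
      ring
    have e3 : (pairPE κ ρ).E (fun u => g u.1 * f u.2) = κ.E fun y => g y * h y := by
      rw [pairPE_E]
      congr 1
      funext y
      exact (ρ y).smul (g y) f
    have e4 : (pairPE κ ρ).E (fun u => f u.2 ^ 2) = κ.E fun y => (ρ y).E fun z => f z ^ 2 := rfl
    have e5 : (pairPE κ ρ).E (fun u => f u.2) = κ.E h := rfl
    unfold var
    rw [e2, e3, e4, e5]
    have s1 : (κ.E fun y => g y ^ 2 * (ρ y).E fun z => f z ^ 2) ≤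
        L ^ 2 * ((κ.E fun y => (ρ y).E fun z => f z ^ 2) - κ.E fun y => h y ^ 2) +
          κ.E fun y => (g y * h y) ^ 2 := by
      rw [← κ.sub, ← κ.smul, ← κ.add]
      refine κ.mono fun y => ?_
      have hv : 0 ≤ ((ρ y).E fun z => f z ^ 2) - h y ^ 2 := (ρ y).var_nonneg f
      have hg2 : g y ^ 2 ≤ L ^ 2 := by
        rw [← sq_abs (g y)]
        exact pow_le_pow_left₀ (abs_nonneg _) (hgL y) 2
      nlinarith only [hg2, hv]
    have s2 : (κ.E fun y => (g y * h y) ^ 2) - (κ.E fun y => g y * h y) ^ 2 ≤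
        L ^ 2 * ((κ.E fun y => h y ^ 2) - κ.E h ^ 2) := by
      have m1 : c ≤ κ.E h := κ.const_le hlo
      have m2 : κ.E h ≤ c⁻¹ := κ.le_const hhi
      have hψ : ∀ y, g y * h y = h y - h y ^ θ := by
        intro y
        have hy : 0 < h y := hc.trans_le (hlo y)
        have : h y ^ θ = h y ^ (θ - 1) * h y := by
          rw [← Real.rpow_add_one hy.ne']
          congr 1
          ring
        rw [this, hg]
        ring
      have := κ.var_le (fun y => g y * h y) (κ.E h - (κ.E h) ^ θ)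
      have t1 : (κ.E fun y => (g y * h y - (κ.E h - (κ.E h) ^ θ)) ^ 2) ≤
          L ^ 2 * κ.E fun y => (h y - κ.E h) ^ 2 := by
        rw [← κ.smul]
        refine κ.mono fun y => ?_
        rw [hψ y]
        have := sub_rpow_lip h0 h1 hc hc1 (hlo y) (hhi y) m1 m2
        rw [← hL] at this
        have h2 := pow_le_pow_left₀ (abs_nonneg _) this 2
        rw [sq_abs, mul_pow, sq_abs] at h2
        exact h2
      have t2 := κ.var_eq h
      unfold var at this t2
      rw [← t2] at t1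
      exact this.trans t1
    linarith
  unfold sd
  calc Real.sqrt ((pairPE κ ρ).var (fun u => f u.2 - f u.2 * ((ρ u.1).E f) ^ (θ - 1)))
      ≤ Real.sqrt (L ^ 2 * (pairPE κ ρ).var (fun u => f u.2)) := Real.sqrt_le_sqrt hvar
    _ = L * Real.sqrt ((pairPE κ ρ).var (fun u => f u.2)) := by
        rw [Real.sqrt_mul (sq_nonneg L), Real.sqrt_sq hL0]

/-- Bound for the standard deviation of an average: `b ↦ f b` are the summands, `g b` are
approximations of them for which the covariances are small. -/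
theorem sd_avg_le [Fintype β] [Nonempty β] (P : PE α) (χ : β → ℝ) (hχ : ∀ b, 0 ≤ χ b)
    (f g : β → α → ℝ) (D : β → ℝ) (hD : ∀ b, P.sd (fun x => f b x - g b x) ≤ D b) :
    P.sd (fun x => (unif β).E fun b => χ b * f b x) ≤
      Real.sqrt ((unif β).E fun b => χ b * (unif β).E fun b' => χ b' * |P.cov (f b') (g b)|) +
        (unif β).E fun b => χ b * D b := by
  have hD0 : ∀ b, 0 ≤ D b := fun b => (P.sd_nonneg _).trans (hD b)
  refine le_sqrt_add_of_sq_le ?_ ?_ ?_
  · exact (unif β).nonneg fun b => mul_nonneg (hχ b)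
      ((unif β).nonneg fun b' => mul_nonneg (hχ b') (abs_nonneg _))
  · exact (unif β).nonneg fun b => mul_nonneg (hχ b) (hD0 b)
  · rw [sd_sq, ← cov_self]
    set X : α → ℝ := fun x => (unif β).E fun b => χ b * f b x with hX
    have h1 : P.cov X X = (unif β).E fun b => χ b * P.cov X (f b) := by
      conv_lhs => rw [show P.cov X X = P.cov X (fun x => (unif β).E fun b => χ b * f b x) from rfl]
      rw [cov_unif_right]
      congr 1
      funext b
      rw [cov_smul_right]
    rw [h1, ← (unif β).smul, ← (unif β).add]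
    refine (unif β).mono fun b => ?_
    have h2 : P.cov X (f b) = P.cov X (g b) + P.cov X (fun x => f b x - g b x) := by
      rw [← cov_add_right]
      congr 1
      funext x
      ring
    have h3 : P.cov X (g b) ≤ (unif β).E fun b' => χ b' * |P.cov (f b') (g b)| := by
      rw [cov_comm, hX, cov_unif_right]
      refine (unif β).mono fun b' => ?_
      rw [cov_smul_right, cov_comm]
      exact mul_le_mul_of_nonneg_left (le_abs_self _) (hχ b')
    have h4 : P.cov X (fun x => f b x - g b x) ≤ P.sd X * D b :=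
      (le_abs_self _).trans ((P.abs_cov_le _ _).trans
        (mul_le_mul_of_nonneg_left (hD b) (P.sd_nonneg _)))
    rw [h2]
    have h5 : P.cov X (g b) + P.cov X (fun x => f b x - g b x) ≤
        ((unif β).E fun b' => χ b' * |P.cov (f b') (g b)|) + P.sd X * D b := add_le_add h3 h4
    calc χ b * (P.cov X (g b) + P.cov X (fun x => f b x - g b x))
        ≤ χ b * (((unif β).E fun b' => χ b' * |P.cov (f b') (g b)|) + P.sd X * D b) :=
          mul_le_mul_of_nonneg_left h5 (hχ b)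
      _ = _ := by ring

end PE

section core

variable {α S ι : Type} [Fintype S] [Nonempty S] [Fintype ι] [DecidableEq ι]

theorem cellAvg_sub (Q : S → ℕ) (f g : (ι → S) → ℝ) (s : ι → S) :
    cellAvg Q (fun t => f t - g t) s = cellAvg Q f s - cellAvg Q g s :=
  (cellPE Q s).sub f g

/-- Claim C, abstract form. -/
theorem claimC_core (P : PE α) (f g : (ι → S) → α → ℝ) {K : ℝ}
    (hD : ∀ s, P.sd (fun x => f s x - g s x) ≤ K * P.sd (f s)) (Q : S → ℕ) {Λ : ℕ}
    (hQ : nlab Q ≤ Λ) :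
    P.E (fun x => aS fun s : ι → S =>
      |cellAvg Q (fun t => f t x) s - cellAvg Q (fun t => P.E (f t)) s|) ≤
      Real.sqrt ((Λ : ℝ) ^ Fintype.card ι) *
        Real.sqrt (aS fun s : ι → S => aS fun s' : ι → S => |P.cov (f s') (g s)|) +
      K * aS fun s : ι → S => P.sd (f s) := by
  classical
  set Z := univ.image (fun s : ι → S => Q ∘ s) with hZ
  let χ : (ι → ℕ) → (ι → S) → ℝ := fun ζ s => if Q ∘ s = ζ then 1 else 0
  have hχ0 : ∀ ζ s, 0 ≤ χ ζ s := fun ζ s => by
    simp only [χ]; split_ifs <;> norm_num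
  have hχ1 : ∀ ζ s, χ ζ s ≤ 1 := fun ζ s => by
    simp only [χ]; split_ifs <;> norm_num
  have hχm : ∀ ζ (s : ι → S) (a : ℝ), (if Q ∘ s = ζ then a else 0) = χ ζ s * a := by
    intro ζ s a
    simp only [χ]; split_ifs <;> simp
  have hsplit : ∀ F : (ι → S) → ℝ, ∑ ζ ∈ Z, aS (fun s => χ ζ s * F s) = aS F := by
    intro F
    rw [aS_eq_sum_cells Q F]
    refine Finset.sum_congr rfl fun ζ _ => ?_
    congr 1
    funext s
    rw [hχm]
  -- the fluctuations of the cells
  have h1 : ∀ x, (aS fun s : ι → S =>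
      |cellAvg Q (fun t => f t x) s - cellAvg Q (fun t => P.E (f t)) s|) =
      ∑ ζ ∈ Z, |(aS fun s => χ ζ s * f s x) - P.E fun x => aS fun s => χ ζ s * f s x| := by
    intro x
    have e1 : (fun s : ι → S =>
        |cellAvg Q (fun t => f t x) s - cellAvg Q (fun t => P.E (f t)) s|) =
        fun s => |cellAvg Q (fun t => f t x - P.E (f t)) s| := by
      funext s
      rw [cellAvg_sub]
    rw [e1, aS_abs_cellAvg_eq]
    refine Finset.sum_congr rfl fun ζ _ => ?_
    have e2 : (P.E fun x => aS fun s => χ ζ s * f s x) = aS fun s => χ ζ s * P.E (f s) := by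
      unfold aS
      rw [P.comm_unif (fun x s => χ ζ s * f s x)]
      congr 1
      funext s
      rw [P.smul]
    rw [e2]
    congr 1
    rw [← (PE.unif (ι → S)).sub]
    congr 1
    funext s
    rw [hχm]
    ring
  have h2 : P.E (fun x => aS fun s : ι → S =>
      |cellAvg Q (fun t => f t x) s - cellAvg Q (fun t => P.E (f t)) s|) ≤
      ∑ ζ ∈ Z, P.sd (fun x => aS fun s => χ ζ s * f s x) := by
    have e : (fun x => aS fun s : ι → S =>
      |cellAvg Q (fun t => f t x) s - cellAvg Q (fun t => P.E (f t)) s|) =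
      fun x => ∑ ζ ∈ Z, |(aS fun s => χ ζ s * f s x) - P.E fun x => aS fun s => χ ζ s * f s x| :=
      funext h1
    rw [e, P.sum]
    exact Finset.sum_le_sum fun ζ _ => P.abs_dev_le_sd _
  refine h2.trans ?_
  set e : (ι → ℕ) → ℝ := fun ζ =>
    aS fun s => χ ζ s * aS fun s' => χ ζ s' * |P.cov (f s') (g s)| with he
  have he0 : ∀ ζ, 0 ≤ e ζ := fun ζ => PE.nonneg _ fun s => mul_nonneg (hχ0 _ _)
    (PE.nonneg _ fun s' => mul_nonneg (hχ0 _ _) (abs_nonneg _))
  have h3 : ∀ ζ ∈ Z, P.sd (fun x => aS fun s => χ ζ s * f s x) ≤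
      Real.sqrt (e ζ) + aS fun s => χ ζ s * (K * P.sd (f s)) := fun ζ _ =>
    PE.sd_avg_le P (χ ζ) (hχ0 ζ) f g (fun s => K * P.sd (f s)) hD
  refine (Finset.sum_le_sum h3).trans ?_
  rw [Finset.sum_add_distrib, hsplit]
  have h4 : (aS fun s : ι → S => K * P.sd (f s)) = K * aS fun s : ι → S => P.sd (f s) :=
    PE.smul _ _ _
  rw [h4]
  refine add_le_add ?_ le_rfl
  -- Cauchy-Schwarz
  have h5 : ∑ ζ ∈ Z, Real.sqrt (e ζ) ≤ Real.sqrt (Z.card * ∑ ζ ∈ Z, e ζ) := by
    apply Real.le_sqrt_of_sq_le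
    have := sq_sum_le_card_mul_sum_sq (s := Z) (f := fun ζ => Real.sqrt (e ζ))
    refine this.trans (le_of_eq ?_)
    congr 1
    exact Finset.sum_congr rfl fun ζ _ => Real.sq_sqrt (he0 ζ)
  have h6 : ∑ ζ ∈ Z, e ζ ≤ aS fun s : ι → S => aS fun s' : ι → S => |P.cov (f s') (g s)| := by
    rw [← hsplit (fun s => aS fun s' : ι → S => |P.cov (f s') (g s)|)]
    refine Finset.sum_le_sum fun ζ _ => PE.mono _ fun s => mul_le_mul_of_nonneg_left ?_ (hχ0 _ _)
    refine PE.mono _ fun s' => ?_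
    exact mul_le_of_le_one_left (abs_nonneg _) (hχ1 _ _)
  have h7 : (Z.card : ℝ) ≤ (Λ : ℝ) ^ Fintype.card ι := by
    have := card_cells_le (ι := ι) Q
    calc (Z.card : ℝ) ≤ ((nlab Q ^ Fintype.card ι : ℕ) : ℝ) := by exact_mod_cast this
      _ = (nlab Q : ℝ) ^ Fintype.card ι := by push_cast; rfl
      _ ≤ (Λ : ℝ) ^ Fintype.card ι := by
        (clear * - hQ; gcongr)
  refine h5.trans ?_
  rw [← Real.sqrt_mul (by (clear * -; positivity))]
  exact Real.sqrt_le_sqrt (mul_le_mul h7 h6 (Finset.sum_nonneg fun ζ _ => he0 ζ) (by (clear * -; positivity)))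

end core

namespace Chain

section Sites

variable {𝒩 S ι 𝒲 : Type} [Fintype S] [Nonempty S] [Fintype ι] [DecidableEq ι]
  [Fintype 𝒲] [Nonempty 𝒲] {θ c : ℝ} {R : ℕ}

theorem claimC {C : Chain 𝒩 (𝒲 × (ι → S))} (h : C.Ok θ c R) {p : ℕ} (hp : p < R) (x : 𝒩) (w : 𝒲)
    (Q : S → ℕ) {Λ : ℕ} (hQ : nlab Q ≤ Λ) :
    (C.step p x).E (fun z => aS fun s : ι → S =>
      |cellAvg Q (fun t => C.a (p + 1) z (w, t)) s - cellAvg Q (fun t => C.A p x (w, t)) s|) ≤
    c⁻¹ ^ 3 * Real.sqrt ((Λ : ℝ) ^ Fintype.card ι) * Real.sqrt (C.Iav θ p x w) +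
      c⁻¹ ^ 3 * (1 - θ) * aS fun s : ι → S => Real.sqrt (C.vr p x (w, s)) := by
  have hci : 1 ≤ c⁻¹ := (one_le_inv₀ h.c_pos).mpr h.c_le
  have hθ : 0 ≤ 1 - θ := by linarith only [h.θ_lt]
  have key := claimC_core (C.two p x) (fun (s : ι → S) (u : 𝒩 × 𝒩) => C.a (p + 1) u.2 (w, s))
    (fun s u => C.a (p + 1) u.2 (w, s) * (C.hat p u.1 (w, s)) ^ (θ - 1))
    (K := c⁻¹ * (1 - θ))
    (fun s => PE.sd_sub_le h.θ_pos h.θ_lt h.c_pos h.c_le (C.κ p x) (C.ρ p)
      (f := fun z => C.a (p + 1) z (w, s)) (fun z => h.lo _ hp z _) (fun z => h.hi _ hp z _)) Q hQ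
  refine (show (C.step p x).E (fun z => aS fun s : ι → S =>
      |cellAvg Q (fun t => C.a (p + 1) z (w, t)) s - cellAvg Q (fun t => C.A p x (w, t)) s|) ≤ _
      from key).trans ?_
  have hI : 0 ≤ Real.sqrt ((Λ : ℝ) ^ Fintype.card ι) * Real.sqrt (C.Iav θ p x w) := by positivity
  have e1 : Real.sqrt ((Λ : ℝ) ^ Fintype.card ι) * Real.sqrt (aS fun s : ι → S =>
      aS fun s' : ι → S => |(C.two p x).cov (fun u : 𝒩 × 𝒩 => C.a (p + 1) u.2 (w, s'))
        (fun u => C.a (p + 1) u.2 (w, s) * (C.hat p u.1 (w, s)) ^ (θ - 1))|) =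
      Real.sqrt ((Λ : ℝ) ^ Fintype.card ι) * Real.sqrt (C.Iav θ p x w) := rfl
  have e2 : (aS fun s : ι → S => (C.two p x).sd (fun u : 𝒩 × 𝒩 => C.a (p + 1) u.2 (w, s))) =
      aS fun s : ι → S => Real.sqrt (C.vr p x (w, s)) := rfl
  rw [e1, e2]
  have hV : 0 ≤ aS fun s : ι → S => Real.sqrt (C.vr p x (w, s)) :=
    PE.nonneg _ fun s => Real.sqrt_nonneg _
  have c3 : (1 : ℝ) ≤ c⁻¹ ^ 3 := one_le_pow₀ hci
  have c31 : c⁻¹ ≤ c⁻¹ ^ 3 := by
    calc c⁻¹ = c⁻¹ ^ 1 := (pow_one _).symm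
      _ ≤ c⁻¹ ^ 3 := pow_le_pow_right₀ hci (by norm_num)
  refine add_le_add ?_ ?_
  · rw [mul_assoc]
    exact le_mul_of_one_le_left hI c3
  · exact mul_le_mul_of_nonneg_right (mul_le_mul_of_nonneg_right c31 hθ) hV

theorem er_nonneg {C : Chain 𝒩 (𝒲 × (ι → S))} (W : 𝒲 → (ι → Bool) → ℝ) (xh : 𝒩 → S → ℝ)
    (hc : 0 < c) {η d : ℝ} (hη : 0 ≤ η) (hd : 0 ≤ d) (j : ℕ) (x : 𝒩) :
    0 ≤ C.er W xh R c η d j x := by
  induction j generalizing x with
  | zero =>
    exact add_nonneg (Finset.sum_nonneg fun w _ => PE.nonneg _ fun s => abs_nonneg _) hd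
  | succ j ih =>
    exact mul_nonneg (inv_pos.mpr hc).le (add_nonneg (PE.nonneg _ ih) (by linarith))

/-- Total error from the level `R - j` on. -/
noncomputable def tot (C : Chain 𝒩 (𝒲 × (ι → S))) (W : 𝒲 → (ι → Bool) → ℝ) (xh : 𝒩 → S → ℝ)
    (R : ℕ) (θ c η d : ℝ) (Λ : ℕ) (j : ℕ) : 𝒩 → 𝒲 → ℝ :=
  Nat.rec (motive := fun _ => 𝒩 → 𝒲 → ℝ) (C.leafErr W xh R)
    (fun j T x w => C.errP W xh R θ c η d Λ (R - (j + 1)) x w +
      (C.step (R - (j + 1)) x).E fun z => T z w) j

theorem tot_zero (C : Chain 𝒩 (𝒲 × (ι → S))) (W : 𝒲 → (ι → Bool) → ℝ) (xh : 𝒩 → S → ℝ)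
    (R : ℕ) (θ c η d : ℝ) (Λ : ℕ) (x : 𝒩) (w : 𝒲) :
    C.tot W xh R θ c η d Λ 0 x w = C.leafErr W xh R x w := rfl

theorem tot_succ (C : Chain 𝒩 (𝒲 × (ι → S))) (W : 𝒲 → (ι → Bool) → ℝ) (xh : 𝒩 → S → ℝ)
    (R : ℕ) (θ c η d : ℝ) (Λ j : ℕ) (x : 𝒩) (w : 𝒲) :
    C.tot W xh R θ c η d Λ (j + 1) x w = C.errP W xh R θ c η d Λ (R - (j + 1)) x w +
      (C.step (R - (j + 1)) x).E fun z => C.tot W xh R θ c η d Λ j z w := rfl

/-- Unfolding of the total error along the path. -/
theorem tot_eq (C : Chain 𝒩 (𝒲 × (ι → S))) (W : 𝒲 → (ι → Bool) → ℝ) (xh : 𝒩 → S → ℝ)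
    (R : ℕ) (θ c η d : ℝ) (Λ : ℕ) (x : 𝒩) (w : 𝒲) (k : ℕ) (hk : k ≤ R) :
    C.tot W xh R θ c η d Λ R x w =
      ∑ p ∈ range k, (C.law x p).E (fun y => C.errP W xh R θ c η d Λ p y w) +
        (C.law x k).E fun y => C.tot W xh R θ c η d Λ (R - k) y w := by
  induction k with
  | zero => simp [C.law_zero, PE.dirac_E]
  | succ k ih =>
    rw [ih (by omega), Finset.sum_range_succ, add_assoc, C.law_succ, PE.bind_E, ← (C.law x k).add]
    congr 2
    funext y
    obtain ⟨m, hm⟩ : ∃ m, R - k = m + 1 := ⟨R - k - 1, by omega⟩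
    have hm' : R - (k + 1) = m := by omega
    have hm2 : R - (m + 1) = k := by omega
    rw [hm, tot_succ, hm', hm2]

theorem errP_nonneg {C : Chain 𝒩 (𝒲 × (ι → S))} (h : C.Ok θ c R) (W : 𝒲 → (ι → Bool) → ℝ)
    (xh : 𝒩 → S → ℝ) {η d : ℝ} (hη : 0 ≤ η) (hd : 0 ≤ d) (Λ p : ℕ) (x : 𝒩) (w : 𝒲) :
    0 ≤ C.errP W xh R θ c η d Λ p x w := by
  have hc := h.c_pos
  have hθ : 0 ≤ 1 - θ := by linarith [h.θ_lt]
  have h1 : 0 ≤ aS fun s : ι → S => Real.sqrt (C.vr p x (w, s)) :=
    PE.nonneg _ fun s => Real.sqrt_nonneg _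
  have h2 : 0 ≤ aS fun s : ι → S => C.vr p x (w, s) :=
    PE.nonneg _ fun s => PE.var_nonneg _ _
  have h3 := er_nonneg (C := C) (R := R) W xh hc hη hd (R - p) x
  unfold errP
  positivity

theorem tot_nonneg {C : Chain 𝒩 (𝒲 × (ι → S))} (h : C.Ok θ c R) (W : 𝒲 → (ι → Bool) → ℝ)
    (xh : 𝒩 → S → ℝ) {η d : ℝ} (hη : 0 ≤ η) (hd : 0 ≤ d) (Λ j : ℕ) (x : 𝒩) (w : 𝒲) :
    0 ≤ C.tot W xh R θ c η d Λ j x w := by
  induction j generalizing x with
  | zero => exact PE.nonneg _ fun s => abs_nonneg _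
  | succ j ih =>
    exact add_nonneg (errP_nonneg h W xh hη hd Λ _ x w) (PE.nonneg _ fun z => ih z)

/-- One step of the comparison at a fixed final state and fixed later data. -/
theorem step_bound {A a a' β : (ι → S) → ℝ} (h0 : 0 < θ) (h1 : θ < 1) (hc : 0 < c)
    (q : S → ℕ) (hA : ∀ s, c ≤ A s) (hβ : ∀ s, c ≤ β s) {e v : ℝ}
    (he : (aS fun s => |cellAvg q A s - A s|) ≤ e) (hv : (aS fun s => |a s - A s ^ θ|) ≤ v) :
    (aS fun s => |cellAvg q β s ^ θ - a s|) ≤
      c ^ (-(1 - θ)) * ((aS fun s => |β s - a' s|) +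
        aS fun s => |cellAvg q a' s - cellAvg q A s|) + c ^ (-(1 - θ)) * e + v := by
  set K : ℝ := c ^ (-(1 - θ)) with hK
  have hK0 : 0 ≤ K := (Real.rpow_pos_of_pos hc _).le
  have hcA : ∀ s, c ≤ cellAvg q A s := fun s => (cellPE q s).const_le hA
  have hcβ : ∀ s, c ≤ cellAvg q β s := fun s => (cellPE q s).const_le hβ
  have p1 : ∀ s, |cellAvg q β s ^ θ - a s| ≤
      K * (|cellAvg q (fun t => β t - a' t) s| + |cellAvg q a' s - cellAvg q A s|) +
        (K * |cellAvg q A s - A s| + |a s - A s ^ θ|) := by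
    intro s
    have t1 := rpow_lip h0 h1.le hc (hcβ s) (hcA s)
    have t2 := rpow_lip h0 h1.le hc (hcA s) (hA s)
    rw [← hK] at t1 t2
    have t3 : |cellAvg q β s - cellAvg q A s| ≤
        |cellAvg q (fun t => β t - a' t) s| + |cellAvg q a' s - cellAvg q A s| := by
      rw [cellAvg_sub]
      exact abs_sub_le _ _ _
    have t4 : |cellAvg q β s ^ θ - a s| ≤ |cellAvg q β s ^ θ - cellAvg q A s ^ θ| +
        (|cellAvg q A s ^ θ - A s ^ θ| + |a s - A s ^ θ|) := by
      rw [abs_sub_comm (a s)]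
      exact (abs_sub_le _ _ _).trans (add_le_add le_rfl (abs_sub_le _ _ _))
    have t5 := mul_le_mul_of_nonneg_left t3 hK0
    linarith only [t1, t2, t4, t5]
  refine (PE.mono _ p1).trans ?_
  rw [PE.add, PE.smul, PE.add, PE.add, PE.smul]
  have p2 := aS_abs_cellAvg_le q (fun t => β t - a' t)
  have p3 := mul_le_mul_of_nonneg_left p2 hK0
  have p4 := mul_le_mul_of_nonneg_left he hK0
  unfold aS at *
  linarith

theorem chain_ind {C : Chain 𝒩 (𝒲 × (ι → S))} (h : C.Ok θ c R) {W : 𝒲 → (ι → Bool) → ℝ}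
    {xh : 𝒩 → S → ℝ} (hW : ∀ w σ, W w σ ∈ Set.Icc c c⁻¹) (hxh : ∀ x i, |xh x i| ≤ 1) {K0 Dq : ℕ}
    (hK : 0 < K0) (hD : 0 < Dq) {Λ : ℕ} (hΛ : ∀ j ≤ R, lab K0 Dq j ≤ Λ) (j : ℕ) (hj : j ≤ R) :
    ∀ x : 𝒩, ∃ D : PE (Data j S), ∀ w : 𝒲,
      D.E (fun data => aS fun s : ι → S =>
        |betaRec θ j data.1 (leafF (W w) data.2) s - C.a (R - j) x (w, s)|) ≤
      (c ^ (-(1 - θ))) ^ j * C.tot W xh R θ c (2 * Fintype.card 𝒲 * c⁻¹ / Real.sqrt K0)
            (Fintype.card 𝒲 * (c⁻¹ * (Fintype.card ι / Dq))) Λ j x w := by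
  set K : ℝ := c ^ (-(1 - θ)) with hKdef
  set η : ℝ := 2 * Fintype.card 𝒲 * c⁻¹ / Real.sqrt K0 with hη
  set d : ℝ := Fintype.card 𝒲 * (c⁻¹ * (Fintype.card ι / Dq)) with hd
  have hc := h.c_pos
  have hci : 1 ≤ c⁻¹ := (one_le_inv₀ hc).mpr h.c_le
  have hθ : 0 ≤ 1 - θ := by linarith only [h.θ_lt]
  have hη0 : 0 ≤ η := by (clear W xh hW hxh Dq hD Λ hΛ j hj K hKdef hη d hd hci hθ; positivity)
  have hd0 : 0 ≤ d := by (clear W xh hW hxh K0 hK Λ hΛ j hj K hKdef η hη hd hci hθ hη0; positivity)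
  have hK1 : 1 ≤ K := by
    rw [hKdef, Real.rpow_neg hc.le, one_le_inv₀ (Real.rpow_pos_of_pos hc _)]
    exact Real.rpow_le_one hc.le h.c_le hθ
  have hWabs : ∀ w σ, |W w σ| ≤ c⁻¹ := by
    intro w σ
    rw [abs_of_nonneg (hc.le.trans (hW w σ).1)]
    exact (hW w σ).2
  induction j with
  | zero =>
    intro x
    refine ⟨PE.dirac (Fin.elim0, fun i => ⟨xh x i, abs_le.mp (hxh x i)⟩), fun w => ?_⟩
    rw [PE.dirac_E, tot_zero, pow_zero, one_mul]
    refine le_of_eq ?_
    unfold leafErr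
    congr 1
    funext s
    rw [betaRec_zero, abs_sub_comm]
    rfl
  | succ j ih =>
    intro x
    have ih' := ih (by omega)
    choose Dz hDz using ih'
    obtain ⟨q, hq1, -, hq3⟩ := approx h hWabs hxh hK hD (j + 1) hj x
    obtain ⟨G, hG⟩ := hq3 (Nat.succ_pos j)
    rw [← hη, ← hd] at hG
    set p : ℕ := R - (j + 1) with hp
    have hpR : p < R := by omega
    have hp1 : R - j = p + 1 := by omega
    have hRp : R - p = j + 1 := by omega
    refine ⟨(C.step p x).bind fun z => (Dz z).map fun data => (Fin.cons q data.1, data.2),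
      fun w => ?_⟩
    -- approximation error of `A`
    have hA : (aS fun s : ι → S => |cellAvg q (fun t => C.A p x (w, t)) s - C.A p x (w, s)|) ≤
        2 * C.er W xh R c η d (j + 1) x := by
      refine (aS_abs_cellAvg_sub_le q _ (G w)).trans ?_
      refine mul_le_mul_of_nonneg_left ?_ (by norm_num)
      refine le_trans ?_ hG
      exact Finset.single_le_sum (f := fun w => aS fun s : ι → S =>
        |C.A p x (w, s) - G w (q ∘ s)|) (fun w _ => PE.nonneg _ fun s => abs_nonneg _)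
        (Finset.mem_univ w)
    have hv : (aS fun s : ι → S => |C.a p x (w, s) - C.A p x (w, s) ^ θ|) ≤
        c⁻¹ ^ 2 * (1 - θ) * aS fun s : ι → S => C.vr p x (w, s) := by
      rw [← PE.smul]
      exact PE.mono _ fun s => h.F2 hpR x (w, s)
    have hAlo : ∀ s : ι → S, c ≤ C.A p x (w, s) := fun s =>
      (C.step p x).const_le fun z => h.lo _ hpR z _
    -- pointwise bound
    have hpt : ∀ (z : 𝒩) (data : Data j S),
        (aS fun s : ι → S => |betaRec θ (j + 1) (Fin.cons q data.1) (leafF (W w) data.2) s -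
          C.a p x (w, s)|) ≤
        (K * (aS fun s : ι → S => |betaRec θ j data.1 (leafF (W w) data.2) s -
          C.a (R - j) z (w, s)|)) +
        ((K * aS fun s : ι → S => |cellAvg q (fun t => C.a (p + 1) z (w, t)) s -
          cellAvg q (fun t => C.A p x (w, t)) s|) + (K * (2 * C.er W xh R c η d (j + 1) x) +
            c⁻¹ ^ 2 * (1 - θ) * aS fun s : ι → S => C.vr p x (w, s))) := by
      intro z data
      have hβ : ∀ s, c ≤ betaRec θ j data.1 (leafF (W w) data.2) s := fun s =>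
        betaRec_lower h.θ_pos.le h.θ_lt.le hc h.c_le (fun s => mlin_lower (fun σ => (hW w σ).1)
          (fun i => abs_le.mpr (data.2 (s i)).2)) j data.1 s
      have := step_bound (a := fun s => C.a p x (w, s)) (A := fun s => C.A p x (w, s))
        (a' := fun s => C.a (p + 1) z (w, s))
        (β := fun s => betaRec θ j data.1 (leafF (W w) data.2) s) h.θ_pos h.θ_lt hc q hAlo hβ hA hv
      rw [← hKdef] at this
      have e : (fun s : ι → S => |betaRec θ (j + 1) (Fin.cons q data.1) (leafF (W w) data.2) s -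
          C.a p x (w, s)|) = fun s =>
          |cellAvg q (fun s => betaRec θ j data.1 (leafF (W w) data.2) s) s ^ θ -
            C.a p x (w, s)| := by
        funext s
        rw [betaRec_succ, Fin.cons_zero, Fin.tail_cons]
      rw [e, hp1]
      refine this.trans (le_of_eq ?_)
      ring
    have hC := claimC h hpR x w q (Λ := Λ) (hq1.trans (hΛ (j + 1) hj))
    rw [PE.bind_E]
    simp only [PE.map_E]
    -- integrate over the data, then over `z`
    have hz : ∀ z, ((Dz z).E fun data => aS fun s : ι → S =>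
        |betaRec θ (j + 1) (Fin.cons q data.1) (leafF (W w) data.2) s - C.a p x (w, s)|) ≤
        K * (K ^ j * C.tot W xh R θ c η d Λ j z w) +
        ((K * aS fun s : ι → S => |cellAvg q (fun t => C.a (p + 1) z (w, t)) s -
          cellAvg q (fun t => C.A p x (w, t)) s|) + (K * (2 * C.er W xh R c η d (j + 1) x) +
            c⁻¹ ^ 2 * (1 - θ) * aS fun s : ι → S => C.vr p x (w, s))) := by
      intro z
      refine ((Dz z).mono (hpt z)).trans ?_
      rw [(Dz z).add, (Dz z).smul, (Dz z).const]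
      have := mul_le_mul_of_nonneg_left (hDz z w) (zero_le_one.trans hK1)
      (clear hW hxh hK hD hΛ hη hd hci hη0 hd0 hWabs ih hj hq1 G hq3 hG hp hpR hp1 hRp hA hv hAlo hpt hC; linarith)
    refine ((C.step p x).mono hz).trans ?_
    rw [(C.step p x).add, (C.step p x).smul, (C.step p x).smul, (C.step p x).add,
      (C.step p x).smul, (C.step p x).const, tot_succ, ← hp]
    unfold errP
    rw [hRp]
    set T : ℝ := (C.step p x).E fun z => C.tot W xh R θ c η d Λ j z w with hT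
    have hT0 : 0 ≤ T := PE.nonneg _ fun z => tot_nonneg h W xh hη0 hd0 Λ j z w
    set V : ℝ := aS fun s : ι → S => C.vr p x (w, s) with hV
    have hV0 : 0 ≤ V := PE.nonneg _ fun s => PE.var_nonneg _ _
    set E1 : ℝ := c⁻¹ ^ 3 * Real.sqrt ((Λ : ℝ) ^ Fintype.card ι) * Real.sqrt (C.Iav θ p x w) +
      c⁻¹ ^ 3 * (1 - θ) * aS fun s : ι → S => Real.sqrt (C.vr p x (w, s)) with hE1
    have hE10 : 0 ≤ E1 := le_trans (PE.nonneg _ fun z => PE.nonneg _ fun s => abs_nonneg _) hC
    set er' : ℝ := C.er W xh R c η d (j + 1) x with her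
    have her0 : 0 ≤ er' := er_nonneg W xh hc hη0 hd0 (j + 1) x
    have hKj : 1 ≤ K ^ j := one_le_pow₀ hK1
    have hK0 : 0 ≤ K := zero_le_one.trans hK1
    have hKK : K ≤ K ^ (j + 1) := by
      rw [pow_succ]
      exact le_mul_of_one_le_left hK0 hKj
    have s1 : K * (C.step p x).E (fun z => aS fun s : ι → S =>
        |cellAvg q (fun t => C.a (p + 1) z (w, t)) s - cellAvg q (fun t => C.A p x (w, t)) s|) ≤
        K ^ (j + 1) * E1 :=
      (mul_le_mul_of_nonneg_left hC hK0).trans (mul_le_mul_of_nonneg_right hKK hE10)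
    have s2 : K * (2 * er') ≤ K ^ (j + 1) * (2 * er') :=
      mul_le_mul_of_nonneg_right hKK (by linarith only [her0])
    have s3 : c⁻¹ ^ 2 * (1 - θ) * V ≤ K ^ (j + 1) * (c⁻¹ ^ 3 * (1 - θ) * V) := by
      have a1 : c⁻¹ ^ 2 * (1 - θ) * V ≤ c⁻¹ ^ 3 * (1 - θ) * V := by
        have : c⁻¹ ^ 2 ≤ c⁻¹ ^ 3 := pow_le_pow_right₀ hci (by norm_num)
        exact mul_le_mul_of_nonneg_right (mul_le_mul_of_nonneg_right this hθ) hV0
      have a2 : 0 ≤ c⁻¹ ^ 3 * (1 - θ) * V := by (clear * - hc hθ hV0; positivity)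
      exact a1.trans (le_mul_of_one_le_left a2 (hK1.trans hKK))
    have s4 : K * (K ^ j * T) = K ^ (j + 1) * T := by ring
    calc K * (K ^ j * T) + (K * (C.step p x).E (fun z => aS fun s : ι → S =>
        |cellAvg q (fun t => C.a (p + 1) z (w, t)) s - cellAvg q (fun t => C.A p x (w, t)) s|) +
          (K * (2 * er') + c⁻¹ ^ 2 * (1 - θ) * V))
        ≤ K ^ (j + 1) * T + (K ^ (j + 1) * E1 + (K ^ (j + 1) * (2 * er') +
          K ^ (j + 1) * (c⁻¹ ^ 3 * (1 - θ) * V))) := by
          rw [s4]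
          exact add_le_add le_rfl (add_le_add s1 (add_le_add s2 s3))
      _ = K ^ (j + 1) * ((E1 + c⁻¹ ^ 3 * (1 - θ) * V + 2 * er') + T) := by ring

/-- CHAIN THEOREM (Claim D and its iteration). The partition of the level `p` is the one given by
the labels of `approx` at the node of level `p` of the reference path. -/
theorem chain_main {C : Chain 𝒩 (𝒲 × (ι → S))} (h : C.Ok θ c R) {W : 𝒲 → (ι → Bool) → ℝ}
    {xh : 𝒩 → S → ℝ} (hW : ∀ w σ, W w σ ∈ Set.Icc c c⁻¹) (hxh : ∀ x i, |xh x i| ≤ 1) {K0 Dq : ℕ}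
    (hK : 0 < K0) (hD : 0 < Dq) (x : 𝒩) {Λ : ℕ} (hΛ : ∀ j ≤ R, lab K0 Dq j ≤ Λ) :
    ∃ D : PE (Data R S), ∀ w : 𝒲,
      D.E (fun data => aS fun s : ι → S =>
        |betaRec θ R data.1 (leafF (W w) data.2) s - C.a 0 x (w, s)|) ≤
      c ^ (-(R * (1 - θ))) * (∑ p ∈ range R, (C.law x p).E (fun y =>
          C.errP W xh R θ c (2 * Fintype.card 𝒲 * c⁻¹ / Real.sqrt K0)
            (Fintype.card 𝒲 * (c⁻¹ * (Fintype.card ι / Dq))) Λ p y w) +
        (C.law x R).E (fun y => C.leafErr W xh R y w)) := by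
  obtain ⟨D, hDw⟩ := chain_ind h hW hxh hK hD hΛ R le_rfl x
  refine ⟨D, fun w => ?_⟩
  have := hDw w
  rw [tot_eq C W xh R θ c _ _ Λ x w R le_rfl, Nat.sub_self] at this
  refine this.trans (le_of_eq ?_)
  congr 1
  rw [← Real.rpow_natCast, ← Real.rpow_mul h.c_pos.le]
  congr 1
  ring

end Sites

end Chain

end Vale.Agent.N168I.MP
end
end

section

section

set_option autoImplicit false
set_option linter.unusedSectionVars false

open Finset

namespace Vale.Agent.N168I.MP

namespace Chain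

variable {𝒩 S ι 𝒲 : Type} [Fintype S] [Nonempty S] [Fintype ι] [DecidableEq ι]
  [Fintype 𝒲] [Nonempty 𝒲] {C : Chain 𝒩 (𝒲 × (ι → S))}

theorem leafErr_nonneg (W : 𝒲 → (ι → Bool) → ℝ) (xh : 𝒩 → S → ℝ) (R : ℕ) (x : 𝒩) (w : 𝒲) :
    0 ≤ C.leafErr W xh R x w := PE.nonneg _ fun _ => abs_nonneg _

theorem er_bound (W : 𝒲 → (ι → Bool) → ℝ) (xh : 𝒩 → S → ℝ) {R : ℕ} {c η d : ℝ} (hc : 0 < c)
    (hc1 : c ≤ 1) (hη : 0 ≤ η) (hd : 0 ≤ d) (x : 𝒩) (j : ℕ) (hj : j ≤ R) :
    (C.law x (R - j)).E (C.er W xh R c η d j) ≤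
      c⁻¹ ^ j * ((C.law x R).E (fun y => ∑ w, C.leafErr W xh R y w) + d + 2 * j * η) := by
  have hci : 1 ≤ c⁻¹ := (one_le_inv₀ hc).2 hc1
  induction j with
  | zero =>
    have : (C.law x (R - 0)).E (C.er W xh R c η d 0) =
        (C.law x R).E (fun y => ∑ w, C.leafErr W xh R y w + d) := rfl
    rw [this, PE.add, PE.const]
    simp
  | succ j ih =>
    have ih' := ih (by omega)
    have e1 : R - j = (R - (j + 1)) + 1 := by omega
    have e2 : (C.law x (R - (j + 1))).E (C.er W xh R c η d (j + 1)) =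
        c⁻¹ * ((C.law x (R - j)).E (C.er W xh R c η d j) + 2 * η) := by
      rw [e1, law_succ, PE.bind_E]
      have : (C.er W xh R c η d (j + 1)) = fun y =>
          c⁻¹ * ((C.step (R - (j + 1)) y).E (C.er W xh R c η d j) + 2 * η) := rfl
      rw [this, PE.smul, PE.add, PE.const]
    rw [e2]
    have hL : 0 ≤ (C.law x R).E (fun y => ∑ w, C.leafErr W xh R y w) :=
      PE.nonneg _ fun y => Finset.sum_nonneg fun w _ => leafErr_nonneg W xh R y w
    have hp : 1 ≤ c⁻¹ ^ j := one_le_pow₀ hci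
    have hη' : 2 * η ≤ c⁻¹ ^ j * (2 * η) := le_mul_of_one_le_left (by positivity) hp
    calc c⁻¹ * ((C.law x (R - j)).E (C.er W xh R c η d j) + 2 * η)
        ≤ c⁻¹ * (c⁻¹ ^ j * ((C.law x R).E (fun y => ∑ w, C.leafErr W xh R y w) + d +
            2 * j * η) + c⁻¹ ^ j * (2 * η)) := by
          apply mul_le_mul_of_nonneg_left _ (by positivity)
          exact add_le_add ih' hη'
      _ = _ := by
          push_cast
          ring

/-- Sum of the errors along the levels, for a fixed structure and a fixed starting node. -/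
theorem err_sum {θ c : ℝ} {R : ℕ} (h : C.Ok θ c R) (W : 𝒲 → (ι → Bool) → ℝ) (xh : 𝒩 → S → ℝ)
    {η d : ℝ} (hη : 0 ≤ η) (hd : 0 ≤ d) (Λ : ℕ) (x : 𝒩) (w : 𝒲) :
    ∑ p ∈ range R, (C.law x p).E (fun y => C.errP W xh R θ c η d Λ p y w) ≤
      c⁻¹ ^ 3 * Real.sqrt ((Λ : ℝ) ^ Fintype.card ι) *
        (∑ p ∈ range R, (C.law x p).E (fun y => Real.sqrt (C.Iav θ p y w))) +
      c⁻¹ ^ 3 * (1 - θ) * (Real.sqrt R * Real.sqrt (5 * c⁻¹ ^ 5 * (1 + R * (1 - θ)))) +
      c⁻¹ ^ 3 * (1 - θ) * (5 * c⁻¹ ^ 5 * (1 + R * (1 - θ))) +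
      2 * (R * (c⁻¹ ^ R * ((C.law x R).E (fun y => ∑ w, C.leafErr W xh R y w) + d +
        2 * R * η))) := by
  have hci : 1 ≤ c⁻¹ := (one_le_inv₀ h.c_pos).2 h.c_le
  have hth : 0 ≤ 1 - θ := by linarith [h.θ_lt]
  have hA : 0 ≤ c⁻¹ ^ 3 * (1 - θ) := by positivity
  -- standard deviations
  have h1 : ∑ p ∈ range R, (C.law x p).E (fun y => aS fun s : ι → S =>
      Real.sqrt (C.vr p y (w, s))) ≤
      Real.sqrt R * Real.sqrt (5 * c⁻¹ ^ 5 * (1 + R * (1 - θ))) := by
    have e : ∀ p, (C.law x p).E (fun y => aS fun s : ι → S => Real.sqrt (C.vr p y (w, s))) =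
        aS fun s : ι → S => (C.law x p).E fun y => Real.sqrt (C.vr p y (w, s)) := fun p =>
      PE.comm_unif _ _
    simp_rw [e]
    rw [← PE.sum]
    exact PE.le_const _ fun s => h.F3sd x (w, s)
  have h2 : ∑ p ∈ range R, (C.law x p).E (fun y => aS fun s : ι → S => C.vr p y (w, s)) ≤
      5 * c⁻¹ ^ 5 * (1 + R * (1 - θ)) := by
    have e : ∀ p, (C.law x p).E (fun y => aS fun s : ι → S => C.vr p y (w, s)) =
        aS fun s : ι → S => (C.law x p).E fun y => C.vr p y (w, s) := fun p =>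
      PE.comm_unif _ _
    simp_rw [e]
    rw [← PE.sum]
    exact PE.le_const _ fun s => h.F3 x (w, s)
  have hL : 0 ≤ (C.law x R).E (fun y => ∑ w, C.leafErr W xh R y w) :=
    PE.nonneg _ fun y => Finset.sum_nonneg fun w _ => leafErr_nonneg W xh R y w
  have h3 : ∑ p ∈ range R, (C.law x p).E (C.er W xh R c η d (R - p)) ≤
      R * (c⁻¹ ^ R * ((C.law x R).E (fun y => ∑ w, C.leafErr W xh R y w) + d +
        2 * R * η)) := by
    have : ∀ p ∈ range R, (C.law x p).E (C.er W xh R c η d (R - p)) ≤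
        c⁻¹ ^ R * ((C.law x R).E (fun y => ∑ w, C.leafErr W xh R y w) + d + 2 * R * η) := by
      intro p hp
      have hp' : p < R := mem_range.1 hp
      have h4 := er_bound (C := C) W xh h.c_pos h.c_le hη hd x (R - p) (Nat.sub_le R p)
      have e : R - (R - p) = p := by omega
      rw [e] at h4
      refine h4.trans ?_
      have h5 : c⁻¹ ^ (R - p) ≤ c⁻¹ ^ R := pow_le_pow_right₀ hci (Nat.sub_le R p)
      have h6 : ((R - p : ℕ) : ℝ) ≤ R := by exact_mod_cast Nat.sub_le R p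
      have h7 : (2 : ℝ) * ((R - p : ℕ) : ℝ) * η ≤ 2 * R * η := by nlinarith only [hη, h6]
      apply mul_le_mul h5 (by (clear θ c h hd Λ w hci hth hA h1 h2 hL hp hp' h4 e h5; linarith)) _ (by positivity)
      have : (0 : ℝ) ≤ 2 * ((R - p : ℕ) : ℝ) * η := by (clear * - hη; positivity)
      (clear θ c h Λ w hci hth hA h1 h2 hp hp' h4 e h5 h6 h7; linarith)
    refine (Finset.sum_le_sum this).trans (le_of_eq ?_)
    rw [Finset.sum_const, card_range, nsmul_eq_mul]
  have e0 : ∀ p, (C.law x p).E (fun y => C.errP W xh R θ c η d Λ p y w) =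
      c⁻¹ ^ 3 * Real.sqrt ((Λ : ℝ) ^ Fintype.card ι) *
        ((C.law x p).E (fun y => Real.sqrt (C.Iav θ p y w))) +
      c⁻¹ ^ 3 * (1 - θ) * ((C.law x p).E (fun y => aS fun s : ι → S =>
        Real.sqrt (C.vr p y (w, s)))) +
      c⁻¹ ^ 3 * (1 - θ) * ((C.law x p).E (fun y => aS fun s : ι → S => C.vr p y (w, s))) +
      2 * (C.law x p).E (C.er W xh R c η d (R - p)) := by
    intro p
    unfold errP
    rw [PE.add, PE.add, PE.add, PE.smul, PE.smul, PE.smul, PE.smul]
  simp_rw [e0]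
  rw [Finset.sum_add_distrib, Finset.sum_add_distrib, Finset.sum_add_distrib,
    ← Finset.mul_sum, ← Finset.mul_sum, ← Finset.mul_sum, ← Finset.mul_sum]
  have h8 := mul_le_mul_of_nonneg_left h1 hA
  have h9 := mul_le_mul_of_nonneg_left h2 hA
  linarith

end Chain

section Avg

variable {ι 𝒲 : Type} [Fintype ι] [DecidableEq ι] [Fintype 𝒲] [Nonempty 𝒲] {N : ℕ} [NeZero N]

/-- The average over the sites of a nonnegative function of one shape is at most `card 𝒲` times
the average over all tests. -/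
theorem aS_le_all {f : 𝒲 × (ι → Fin N) → ℝ} (hf : ∀ τ, 0 ≤ f τ) (w : 𝒲) :
    (aS fun s : ι → Fin N => f (w, s)) ≤
      Fintype.card 𝒲 * (PE.unif (𝒲 × (ι → Fin N))).E f := by
  have hW : (0 : ℝ) < Fintype.card 𝒲 := by exact_mod_cast Fintype.card_pos
  have hS : (0 : ℝ) < Fintype.card (ι → Fin N) := by exact_mod_cast Fintype.card_pos
  show (PE.unif (ι → Fin N)).E (fun s => f (w, s)) ≤ _
  rw [PE.unif_E, PE.unif_E, Fintype.card_prod, Fintype.sum_prod_type]
  push_cast
  have h1 : ∑ s : ι → Fin N, f (w, s) ≤ ∑ w', ∑ s : ι → Fin N, f (w', s) :=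
    Finset.single_le_sum (f := fun w' => ∑ s : ι → Fin N, f (w', s))
      (fun w' _ => Finset.sum_nonneg fun s _ => hf _) (Finset.mem_univ w)
  have h2 : (Fintype.card 𝒲 : ℝ) * ((∑ w', ∑ s : ι → Fin N, f (w', s)) /
      (Fintype.card 𝒲 * Fintype.card (ι → Fin N))) =
      (∑ w', ∑ s : ι → Fin N, f (w', s)) / Fintype.card (ι → Fin N) := by
    field_simp
  rw [h2]
  exact div_le_div_of_nonneg_right h1 hS.le

variable (u : 𝒲 → Sh ι) (M : ℝ) (hM : 0 ≤ M) (hu : ∀ w σ, |u w σ| ≤ M)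

/-- Average of the covariance errors of a random structure. -/
theorem avg_Iav {R n : ℕ} {θ : ℝ} (h0 : 0 < θ) (h1 : θ < 1) (H0 : Egy N) {p : ℕ} (hp : p < R)
    (w : 𝒲) :
    ((PE.unif (St R n (𝒲 × (ι → Fin N)))).E fun st =>
      ((sys N u M hM hu).law0 θ st H0).E fun x => (((sys N u M hM hu).chain θ st).law x p).E fun y =>
        Real.sqrt (((sys N u M hM hu).chain θ st).Iav θ p y w)) ≤
      Real.sqrt (Fintype.card 𝒲 ^ 2 * (sys N u M hM hu).CI / Real.sqrt (n + 1)) := by
  set S := sys N u M hM hu with hS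
  have hW : (0 : ℝ) < Fintype.card 𝒲 := by exact_mod_cast Fintype.card_pos
  have hI : ∀ st : St R n (𝒲 × (ι → Fin N)), ∀ y, 0 ≤ (S.chain θ st).Iav θ p y w := fun st y =>
    PE.nonneg _ fun s => PE.nonneg _ fun s' => abs_nonneg _
  have e1 : ∀ st : St R n (𝒲 × (ι → Fin N)), (S.law0 θ st H0).E (fun x =>
      ((S.chain θ st).law x p).E fun y => Real.sqrt ((S.chain θ st).Iav θ p y w)) =
      (S.lawP θ st H0 p).E fun y => Real.sqrt ((S.chain θ st).Iav θ p y w) := fun st =>
    S.lawP_eq st H0 hp.le _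
  simp_rw [e1]
  have h2 : ∀ st : St R n (𝒲 × (ι → Fin N)),
      ((S.lawP θ st H0 p).E fun y => Real.sqrt ((S.chain θ st).Iav θ p y w)) ≤
      Real.sqrt ((S.lawP θ st H0 p).E fun y => (S.chain θ st).Iav θ p y w) := fun st =>
    PE.sqrt_le _ (hI st)
  refine ((PE.unif _).mono h2).trans ?_
  refine (PE.sqrt_le _ fun st => PE.nonneg _ (hI st)).trans ?_
  apply Real.sqrt_le_sqrt
  have h3 : ∀ st : St R n (𝒲 × (ι → Fin N)), ∀ y, (S.chain θ st).Iav θ p y w ≤
      Fintype.card 𝒲 ^ 2 * (PE.unif (𝒲 × (ι → Fin N))).E fun τ =>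
        (PE.unif (𝒲 × (ι → Fin N))).E fun τ' => |(S.chain θ st).Ic θ p y τ' τ| := by
    intro st y
    have h4 : ∀ s : ι → Fin N, (aS fun s' : ι → Fin N => |(S.chain θ st).Ic θ p y (w, s') (w, s)|) ≤
        Fintype.card 𝒲 * (PE.unif (𝒲 × (ι → Fin N))).E fun τ' =>
          |(S.chain θ st).Ic θ p y τ' (w, s)| := fun s =>
      aS_le_all (f := fun τ' => |(S.chain θ st).Ic θ p y τ' (w, s)|) (fun _ => abs_nonneg _) w
    have h5 : (aS fun s : ι → Fin N => (PE.unif (𝒲 × (ι → Fin N))).E fun τ' =>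
        |(S.chain θ st).Ic θ p y τ' (w, s)|) ≤
        Fintype.card 𝒲 * (PE.unif (𝒲 × (ι → Fin N))).E fun τ =>
          (PE.unif (𝒲 × (ι → Fin N))).E fun τ' => |(S.chain θ st).Ic θ p y τ' τ| :=
      aS_le_all (f := fun τ => (PE.unif (𝒲 × (ι → Fin N))).E fun τ' =>
        |(S.chain θ st).Ic θ p y τ' τ|) (fun _ => PE.nonneg _ fun _ => abs_nonneg _) w
    calc (S.chain θ st).Iav θ p y w ≤ aS fun s : ι → Fin N => Fintype.card 𝒲 *
          (PE.unif (𝒲 × (ι → Fin N))).E fun τ' => |(S.chain θ st).Ic θ p y τ' (w, s)| :=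
          PE.mono _ h4
      _ = Fintype.card 𝒲 * aS fun s : ι → Fin N =>
          (PE.unif (𝒲 × (ι → Fin N))).E fun τ' => |(S.chain θ st).Ic θ p y τ' (w, s)| :=
          PE.smul _ _ _
      _ ≤ Fintype.card 𝒲 * (Fintype.card 𝒲 * (PE.unif (𝒲 × (ι → Fin N))).E fun τ =>
          (PE.unif (𝒲 × (ι → Fin N))).E fun τ' => |(S.chain θ st).Ic θ p y τ' τ|) :=
          mul_le_mul_of_nonneg_left h5 hW.le
      _ = _ := by ring
  calc ((PE.unif (St R n (𝒲 × (ι → Fin N)))).E fun st => (S.lawP θ st H0 p).E fun y =>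
        (S.chain θ st).Iav θ p y w)
      ≤ (PE.unif (St R n (𝒲 × (ι → Fin N)))).E fun st => (S.lawP θ st H0 p).E fun y =>
        Fintype.card 𝒲 ^ 2 * (PE.unif (𝒲 × (ι → Fin N))).E fun τ =>
        (PE.unif (𝒲 × (ι → Fin N))).E fun τ' => |(S.chain θ st).Ic θ p y τ' τ| :=
        PE.mono _ fun st => PE.mono _ (h3 st)
    _ = Fintype.card 𝒲 ^ 2 * ((PE.unif (St R n (𝒲 × (ι → Fin N)))).E fun st =>
        (S.lawP θ st H0 p).E fun y => (PE.unif (𝒲 × (ι → Fin N))).E fun τ =>
        (PE.unif (𝒲 × (ι → Fin N))).E fun τ' => |(S.chain θ st).Ic θ p y τ' τ|) := by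
        simp_rw [PE.smul]
    _ ≤ Fintype.card 𝒲 ^ 2 * (S.CI / Real.sqrt (n + 1)) :=
        mul_le_mul_of_nonneg_left (S.chain_I_avg h0 h1 hp H0) (by positivity)
    _ = _ := by ring

end Avg

theorem PE.lin4 {α : Type} (P : PE α) (X a b g : ℝ) (F G K : α → ℝ) :
    P.E (fun x => X * (a * F x + b + g * G x + K x)) =
      X * (a * P.E F + b + g * P.E G + P.E K) := by
  rw [PE.smul, PE.add, PE.add, PE.add, PE.smul, PE.const, PE.smul]

section Main

variable {ι 𝒲 : Type} [Fintype ι] [DecidableEq ι] [Fintype 𝒲] [Nonempty 𝒲]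
variable (u : 𝒲 → Sh ι) (M : ℝ) (hM : 0 ≤ M) (hu : ∀ w σ, |u w σ| ≤ M)

/-- The increment of the slot functional is the mean value at the root. -/
theorem PhiN_incr (θ : ℝ) (R n N : ℕ) [NeZero N] (H : Egy N) (w : 𝒲) :
    (aS fun s : ι → Fin N => PhiN u M hM hu θ R n N (H + addE u (w, s))) -
      PhiN u M hM hu θ R n N H =
    (PE.unif (St R n (𝒲 × (ι → Fin N)))).E fun st => aS fun s : ι → Fin N =>
      (sys N u M hM hu).val (allSlots θ st) (w, s) H := by
  have e1 : (aS fun s : ι → Fin N => PhiN u M hM hu θ R n N (H + addE u (w, s))) =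
      (PE.unif (St R n (𝒲 × (ι → Fin N)))).E fun st => aS fun s : ι → Fin N =>
        (sys N u M hM hu).lam (allSlots θ st) (H + addE u (w, s)) := by
    unfold PhiN
    exact PE.comm_unif _ _
  have e2 : PhiN u M hM hu θ R n N H =
      (PE.unif (St R n (𝒲 × (ι → Fin N)))).E fun st => aS fun _ : ι → Fin N =>
        (sys N u M hM hu).lam (allSlots θ st) H := by
    unfold PhiN
    congr 1
    funext st
    exact (PE.const _ _).symm
  rw [e1, e2, ← PE.sub]
  congr 1
  funext st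
  rw [← PE.sub]
  rfl

/-- Decoupling with explicit parameters. -/
theorem decoupling_params {R n : ℕ} {θ : ℝ} (h0 : 0 < θ) (h1 : θ < 1) {K0 Dq : ℕ} (hK : 0 < K0)
    (hD : 0 < Dq) {Λ : ℕ} (hΛ : ∀ j ≤ R, Chain.lab K0 Dq j ≤ Λ) {CL : ℝ} (N : ℕ) [NeZero N]
    (H : Egy N)
    (hCL : ((PE.unif (St R n (𝒲 × (ι → Fin N)))).E fun st =>
        ((sys N u M hM hu).lawP θ st H R).E fun H => ∑ w,
          ((sys N u M hM hu).chain θ st).leafErr (fun w σ => Real.exp (u w σ))
            (fun H i => gmag u (blkAt st R).suf H i) R H w) ≤ CL / Real.sqrt (n + 1)) :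
    ∃ D : PE (Chain.Data R (Fin N)), ∀ w : 𝒲,
      |(aS fun s : ι → Fin N => PhiN u M hM hu θ R n N (H + addE u (w, s))) -
          PhiN u M hM hu θ R n N H - D.E fun data => valMP θ data (u w)| ≤
      Real.exp M / θ ^ R * Real.exp (-M) ^ (-(R * (1 - θ))) *
        (Real.exp M ^ 3 * Real.sqrt ((Λ : ℝ) ^ Fintype.card ι) *
          (R * Real.sqrt (Fintype.card 𝒲 ^ 2 * (sys N u M hM hu).CI / Real.sqrt (n + 1))) +
        Real.exp M ^ 3 * (1 - θ) *
          (Real.sqrt R * Real.sqrt (5 * Real.exp M ^ 5 * (1 + R * (1 - θ)))) +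
        Real.exp M ^ 3 * (1 - θ) * (5 * Real.exp M ^ 5 * (1 + R * (1 - θ))) +
        2 * (R * (Real.exp M ^ R * (CL / Real.sqrt (n + 1) +
          Fintype.card 𝒲 * (Real.exp M * (Fintype.card ι / Dq)) +
          2 * R * (2 * Fintype.card 𝒲 * Real.exp M / Real.sqrt K0)))) +
        CL / Real.sqrt (n + 1)) + θ ^ R * M ^ 2 * Real.exp M := by
  set S := sys N u M hM hu with hS
  set c : ℝ := Real.exp (-M) with hc
  have hc0 : 0 < c := Real.exp_pos _
  have hc1 : c ≤ 1 := by rw [hc]; exact Real.exp_le_one_iff.2 (by linarith only [hM])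
  have hcinv : c⁻¹ = Real.exp M := by rw [hc, ← Real.exp_neg, neg_neg]
  have hok : ∀ st : St R n (𝒲 × (ι → Fin N)), (S.chain θ st).Ok θ c R := fun st =>
    S.chain_ok h0 h1 st
  set W : 𝒲 → (ι → Bool) → ℝ := fun w σ => Real.exp (u w σ) with hWdef
  have hW : ∀ w σ, W w σ ∈ Set.Icc c c⁻¹ := by
    intro w σ
    have := abs_le.1 (hu w σ)
    rw [hcinv]
    exact ⟨Real.exp_le_exp.2 this.1, Real.exp_le_exp.2 this.2⟩
  set η : ℝ := 2 * Fintype.card 𝒲 * c⁻¹ / Real.sqrt K0 with hη
  set d : ℝ := Fintype.card 𝒲 * (c⁻¹ * (Fintype.card ι / Dq)) with hd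
  have hη0 : 0 ≤ η := by positivity
  have hd0 : 0 ≤ d := by positivity
  have hmain := fun (st : St R n (𝒲 × (ι → Fin N))) (x : Egy N) =>
    Chain.chain_main (hok st) (W := W) (xh := fun H i => gmag u (blkAt st R).suf H i) hW
      (fun H i => abs_gmag_le u _ H i) hK hD x hΛ
  choose D hDx using hmain
  set 𝔻 : PE (Chain.Data R (Fin N)) :=
    (PE.unif (St R n (𝒲 × (ι → Fin N)))).bind fun st => (S.law0 θ st H).bind fun x => D st x
    with h𝔻
  refine ⟨𝔻, fun w => ?_⟩
  have hθR : 0 < θ ^ R := pow_pos h0 R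
  have hθR1 : θ ^ R ≤ 1 := pow_le_one₀ h0.le h1.le
  set rt : ℝ := θ ^ R * M ^ 2 * Real.exp M with hrt
  -- bound for fixed st, x
  set Bd : St R n (𝒲 × (ι → Fin N)) → Egy N → ℝ := fun st x =>
    c ^ (-(R * (1 - θ))) * (∑ p ∈ range R, ((S.chain θ st).law x p).E (fun y =>
      (S.chain θ st).errP W (fun H i => gmag u (blkAt st R).suf H i) R θ c η d Λ p y w) +
      ((S.chain θ st).law x R).E (fun y =>
        (S.chain θ st).leafErr W (fun H i => gmag u (blkAt st R).suf H i) R y w)) with hBd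
  have hval : ∀ st x, |(1 / θ ^ R) * (aS fun s : ι → Fin N =>
      Real.log ((S.chain θ st).a 0 x (w, s))) - (D st x).E fun data => valMP θ data (u w)| ≤
      c⁻¹ / θ ^ R * Bd st x := by
    intro st x
    have e1 : (D st x).E (fun data => valMP θ data (u w)) = (1 / θ ^ R) *
        (D st x).E fun data => aS fun s : ι → Fin N =>
          Real.log (betaRec θ R data.1 (Chain.leafF (W w) data.2) s) := by
      unfold valMP
      rw [PE.smul]
    have e2 : (aS fun s : ι → Fin N => Real.log ((S.chain θ st).a 0 x (w, s))) =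
        (D st x).E fun _ => aS fun s : ι → Fin N => Real.log ((S.chain θ st).a 0 x (w, s)) :=
      (PE.const _ _).symm
    rw [e1, ← mul_sub, abs_mul, abs_of_pos (by positivity : 0 < 1 / θ ^ R), e2]
    have h3 := (D st x).abs_sub_le
      (fun _ => aS fun s : ι → Fin N => Real.log ((S.chain θ st).a 0 x (w, s)))
      (fun data => aS fun s : ι → Fin N =>
        Real.log (betaRec θ R data.1 (Chain.leafF (W w) data.2) s))
    have h4 : (D st x).E (fun data => |(aS fun s : ι → Fin N =>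
        Real.log ((S.chain θ st).a 0 x (w, s))) - aS fun s : ι → Fin N =>
        Real.log (betaRec θ R data.1 (Chain.leafF (W w) data.2) s)|) ≤
        (D st x).E fun data => c⁻¹ * aS fun s : ι → Fin N =>
          |betaRec θ R data.1 (Chain.leafF (W w) data.2) s - (S.chain θ st).a 0 x (w, s)| := by
      refine PE.mono _ fun data => ?_
      refine ((PE.unif (ι → Fin N)).abs_sub_le _ _).trans ?_
      rw [← PE.smul]
      refine PE.mono _ fun s => ?_
      rw [abs_sub_comm (betaRec θ R data.1 (Chain.leafF (W w) data.2) s)]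
      have hy : ∀ s : ι → Fin N, ∀ j, |((data.2 (s j) : ℝ))| ≤ 1 := fun s j =>
        abs_le.2 (data.2 (s j)).2
      refine log_lip hc0 ((hok st).lo 0 (Nat.zero_le _) x _) ?_
      exact betaRec_lower h0.le h1.le hc0 hc1
        (fun s => mlin_lower (fun σ => (hW w σ).1) (hy s)) R _ s
    rw [PE.smul] at h4
    have h5 := hDx st x w
    calc 1 / θ ^ R * |(D st x).E (fun _ => aS fun s : ι → Fin N =>
          Real.log ((S.chain θ st).a 0 x (w, s))) - (D st x).E fun data => aS fun s : ι → Fin N =>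
          Real.log (betaRec θ R data.1 (Chain.leafF (W w) data.2) s)|
        ≤ 1 / θ ^ R * (c⁻¹ * Bd st x) := by
          apply mul_le_mul_of_nonneg_left _ (by positivity)
          exact (h3.trans h4).trans (mul_le_mul_of_nonneg_left h5 (by positivity))
      _ = _ := by ring
  -- root
  have hroot : ∀ st : St R n (𝒲 × (ι → Fin N)), |(aS fun s : ι → Fin N => S.val (allSlots θ st) (w, s) H) -
      (S.law0 θ st H).E (fun x => (1 / θ ^ R) * aS fun s : ι → Fin N =>
        Real.log ((S.chain θ st).a 0 x (w, s)))| ≤ rt := by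
    intro st
    have e1 : (S.law0 θ st H).E (fun x => (1 / θ ^ R) * aS fun s : ι → Fin N =>
        Real.log ((S.chain θ st).a 0 x (w, s))) = aS fun s : ι → Fin N =>
        (S.law0 θ st H).E fun x => (1 / θ ^ R) * Real.log ((S.chain θ st).a 0 x (w, s)) := by
      refine Eq.trans ?_ ((S.law0 θ st H).comm_unif (β := ι → Fin N)
        (fun x s => (1 / θ ^ R) * Real.log ((S.chain θ st).a 0 x (w, s))))
      congr 1
      funext x
      exact (PE.smul _ _ _).symm
    rw [e1]
    refine ((PE.unif (ι → Fin N)).abs_sub_le _ _).trans ?_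
    exact PE.le_const _ fun s => S.root_near h0 h1 st H (w, s)
  -- combine
  rw [PhiN_incr]
  have hcomb : ∀ st : St R n (𝒲 × (ι → Fin N)), |(aS fun s : ι → Fin N => S.val (allSlots θ st) (w, s) H) -
      (S.law0 θ st H).E (fun x => (D st x).E fun data => valMP θ data (u w))| ≤
      c⁻¹ / θ ^ R * (S.law0 θ st H).E (Bd st) + rt := by
    intro st
    have h6 : |(S.law0 θ st H).E (fun x => (1 / θ ^ R) * aS fun s : ι → Fin N =>
        Real.log ((S.chain θ st).a 0 x (w, s))) -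
        (S.law0 θ st H).E (fun x => (D st x).E fun data => valMP θ data (u w))| ≤
        c⁻¹ / θ ^ R * (S.law0 θ st H).E (Bd st) := by
      rw [← PE.smul]
      exact (PE.abs_sub_le _ _ _).trans (PE.mono _ (hval st))
    have h7 := abs_sub_le (aS fun s : ι → Fin N => S.val (allSlots θ st) (w, s) H)
      ((S.law0 θ st H).E (fun x => (1 / θ ^ R) * aS fun s : ι → Fin N =>
        Real.log ((S.chain θ st).a 0 x (w, s))))
      ((S.law0 θ st H).E (fun x => (D st x).E fun data => valMP θ data (u w)))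
    (clear hK hD hΛ CL hS hCL hWdef hη hd hη0 hd0 𝔻 h𝔻 hθR hθR1 hrt hBd; linarith [hroot st])
  have h8 : |((PE.unif (St R n (𝒲 × (ι → Fin N)))).E fun st => aS fun s : ι → Fin N =>
      S.val (allSlots θ st) (w, s) H) - 𝔻.E fun data => valMP θ data (u w)| ≤
      c⁻¹ / θ ^ R * ((PE.unif (St R n (𝒲 × (ι → Fin N)))).E fun st =>
        (S.law0 θ st H).E (Bd st)) + rt := by
    have e1 : 𝔻.E (fun data => valMP θ data (u w)) =
        (PE.unif (St R n (𝒲 × (ι → Fin N)))).E fun st => (S.law0 θ st H).E fun x =>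
          (D st x).E fun data => valMP θ data (u w) := rfl
    rw [e1]
    refine (PE.abs_sub_le _ _ _).trans ?_
    refine (PE.mono _ hcomb).trans (le_of_eq ?_)
    rw [PE.add, PE.smul, PE.const]
  refine h8.trans ?_
  have hBdle : ((PE.unif (St R n (𝒲 × (ι → Fin N)))).E fun st => (S.law0 θ st H).E (Bd st)) ≤
      c ^ (-(R * (1 - θ))) *
        (c⁻¹ ^ 3 * Real.sqrt ((Λ : ℝ) ^ Fintype.card ι) *
          (R * Real.sqrt (Fintype.card 𝒲 ^ 2 * S.CI / Real.sqrt (n + 1))) +
        c⁻¹ ^ 3 * (1 - θ) * (Real.sqrt R * Real.sqrt (5 * c⁻¹ ^ 5 * (1 + R * (1 - θ)))) +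
        c⁻¹ ^ 3 * (1 - θ) * (5 * c⁻¹ ^ 5 * (1 + R * (1 - θ))) +
        2 * (R * (c⁻¹ ^ R * (CL / Real.sqrt (n + 1) + d + 2 * R * η))) +
        CL / Real.sqrt (n + 1)) := by
    -- leaf errors
    set LE : ℝ := (PE.unif (St R n (𝒲 × (ι → Fin N)))).E fun st => (S.law0 θ st H).E fun x =>
      ((S.chain θ st).law x R).E fun y => ∑ w,
        (S.chain θ st).leafErr W (fun H i => gmag u (blkAt st R).suf H i) R y w with hLE
    have hLE1 : LE ≤ CL / Real.sqrt (n + 1) := by
      refine le_trans (le_of_eq ?_) hCL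
      rw [hLE]
      congr 1
      funext st
      exact S.lawP_eq st H le_rfl _
    have hLEw : ((PE.unif (St R n (𝒲 × (ι → Fin N)))).E fun st => (S.law0 θ st H).E fun x =>
        ((S.chain θ st).law x R).E fun y =>
          (S.chain θ st).leafErr W (fun H i => gmag u (blkAt st R).suf H i) R y w) ≤ LE := by
      refine PE.mono _ fun st => PE.mono _ fun x => PE.mono _ fun y => ?_
      exact Finset.single_le_sum (f := fun w => (S.chain θ st).leafErr W
        (fun H i => gmag u (blkAt st R).suf H i) R y w)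
        (fun w _ => Chain.leafErr_nonneg W _ R y w) (Finset.mem_univ w)
    set IE : ℝ := ∑ p ∈ range R, (PE.unif (St R n (𝒲 × (ι → Fin N)))).E fun st =>
      (S.law0 θ st H).E fun x => ((S.chain θ st).law x p).E fun y =>
        Real.sqrt ((S.chain θ st).Iav θ p y w) with hIE
    have hIE1 : IE ≤ R * Real.sqrt (Fintype.card 𝒲 ^ 2 * S.CI / Real.sqrt (n + 1)) := by
      have : ∀ p ∈ range R, ((PE.unif (St R n (𝒲 × (ι → Fin N)))).E fun st =>
          (S.law0 θ st H).E fun x => ((S.chain θ st).law x p).E fun y =>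
            Real.sqrt ((S.chain θ st).Iav θ p y w)) ≤
          Real.sqrt (Fintype.card 𝒲 ^ 2 * S.CI / Real.sqrt (n + 1)) := fun p hp =>
        avg_Iav u M hM hu h0 h1 H (mem_range.1 hp) w
      refine (Finset.sum_le_sum this).trans (le_of_eq ?_)
      rw [Finset.sum_const, card_range, nsmul_eq_mul]
    have hpt : ∀ st x, Bd st x ≤ c ^ (-(R * (1 - θ))) *
        ((c⁻¹ ^ 3 * Real.sqrt ((Λ : ℝ) ^ Fintype.card ι)) *
          (∑ p ∈ range R, ((S.chain θ st).law x p).E
            (fun y => Real.sqrt ((S.chain θ st).Iav θ p y w))) +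
        (c⁻¹ ^ 3 * (1 - θ) * (Real.sqrt R * Real.sqrt (5 * c⁻¹ ^ 5 * (1 + R * (1 - θ)))) +
        c⁻¹ ^ 3 * (1 - θ) * (5 * c⁻¹ ^ 5 * (1 + R * (1 - θ))) +
        2 * R * c⁻¹ ^ R * (d + 2 * R * η)) +
        2 * R * c⁻¹ ^ R * (((S.chain θ st).law x R).E (fun y => ∑ w,
          (S.chain θ st).leafErr W (fun H i => gmag u (blkAt st R).suf H i) R y w)) +
        ((S.chain θ st).law x R).E (fun y =>
        (S.chain θ st).leafErr W (fun H i => gmag u (blkAt st R).suf H i) R y w)) := by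
      intro st x
      have h9 := Chain.err_sum (hok st) W (fun H i => gmag u (blkAt st R).suf H i) hη0 hd0 Λ x w
      rw [hBd]
      apply mul_le_mul_of_nonneg_left _ (Real.rpow_nonneg hc0.le _)
      (clear hΛ CL H hS hc hc0 hc1 hcinv hCL hWdef hW hη hd D hDx 𝔻 h𝔻 hθR hθR1 rt hrt Bd hBd hval hroot hcomb h8 LE hLE hLE1 hLEw IE hIE hIE1; linarith)
    have h10 : ((PE.unif (St R n (𝒲 × (ι → Fin N)))).E fun st => (S.law0 θ st H).E (Bd st)) ≤
        c ^ (-(R * (1 - θ))) *
        ((c⁻¹ ^ 3 * Real.sqrt ((Λ : ℝ) ^ Fintype.card ι)) * IE +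
        (c⁻¹ ^ 3 * (1 - θ) * (Real.sqrt R * Real.sqrt (5 * c⁻¹ ^ 5 * (1 + R * (1 - θ)))) +
        c⁻¹ ^ 3 * (1 - θ) * (5 * c⁻¹ ^ 5 * (1 + R * (1 - θ))) +
        2 * R * c⁻¹ ^ R * (d + 2 * R * η)) +
        2 * R * c⁻¹ ^ R * LE + LE) := by
      refine (PE.mono _ fun st => PE.mono _ (hpt st)).trans ?_
      simp_rw [PE.lin4]
      apply mul_le_mul_of_nonneg_left _ (Real.rpow_nonneg hc0.le _)
      have e3 : IE = (PE.unif (St R n (𝒲 × (ι → Fin N)))).E fun st => (S.law0 θ st H).E fun x =>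
          ∑ p ∈ range R, ((S.chain θ st).law x p).E fun y =>
            Real.sqrt ((S.chain θ st).Iav θ p y w) := by
        rw [hIE]
        rw [← PE.sum]
        congr 1
        funext st
        rw [← PE.sum]
      rw [e3]
      exact add_le_add le_rfl hLEw
    refine h10.trans ?_
    apply mul_le_mul_of_nonneg_left _ (Real.rpow_nonneg hc0.le _)
    have h11 := mul_le_mul_of_nonneg_left hIE1
      (by (clear * -; positivity) : 0 ≤ c⁻¹ ^ 3 * Real.sqrt ((Λ : ℝ) ^ Fintype.card ι))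
    have h12 := mul_le_mul_of_nonneg_left hLE1
      (by (clear * -; positivity) : (0 : ℝ) ≤ 2 * R * c⁻¹ ^ R)
    have h13 : 2 * (R * (c⁻¹ ^ R * (CL / Real.sqrt (n + 1) + d + 2 * R * η))) =
        2 * R * c⁻¹ ^ R * (d + 2 * R * η) + 2 * R * c⁻¹ ^ R * (CL / Real.sqrt (n + 1)) := by
      ring
    rw [h13]
    linarith only [hLE1, h11, h12]
  have h14 := mul_le_mul_of_nonneg_left hBdle (by positivity : 0 ≤ c⁻¹ / θ ^ R)
  rw [hη, hd] at h14
  rw [hcinv] at h14
  have h15 : Real.exp M / θ ^ R * Real.exp (-M) ^ (-(R * (1 - θ))) = Real.exp M / θ ^ R *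
    c ^ (-(R * (1 - θ))) := rfl
  rw [h15, mul_assoc (Real.exp M / θ ^ R)]
  rw [hcinv]
  linarith

/-- DECOUPLING THEOREM for a family of shapes which contains the purification shapes. -/
theorem decoupling_core (hpur : ∀ I : Finset ι, ∃ w, ∀ σ : ι → Bool,
      u w σ = Real.log (1 + (1 / 2) * ∏ j ∈ I, spin (σ j))) {ε : ℝ} (hε : 0 < ε) :
    ∃ (R n : ℕ) (θ : ℝ), 0 < θ ∧ θ < 1 ∧ ∀ (N : ℕ) [NeZero N] (H : Egy N),
      ∃ D : PE (Chain.Data (R + 1) (Fin N)), ∀ w : 𝒲,
        |(aS fun s : ι → Fin N => PhiN u M hM hu θ (R + 1) n N (H + addE u (w, s))) -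
          PhiN u M hM hu θ (R + 1) n N H - D.E fun data => valMP θ data (u w)| ≤ ε := by
  obtain ⟨CL, hCL0, hCL⟩ := purity u M hM hu hpur
  have hc0 : 0 < Real.exp (-M) := Real.exp_pos _
  have hc1 : Real.exp (-M) ≤ 1 := Real.exp_le_one_iff.2 (by linarith)
  have hcinv : (Real.exp (-M))⁻¹ = Real.exp M := by rw [← Real.exp_neg, neg_neg]
  obtain ⟨r, θ, K0, Dq, Λ, n, h0, h1, hK, hD, hΛ, hn⟩ :=
    exists_params (c := Real.exp (-M)) (M := M) (cW := Fintype.card 𝒲) (cJ := Fintype.card ι)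
      (Fintype.card ι) (CI := Fintype.card 𝒲 ^ 2 * (100 * Real.exp (10 * M) *
        (1 + Real.exp M) ^ 6)) (CL := CL) hc0 hc1 (Nat.cast_nonneg _) (Nat.cast_nonneg _) hCL0 hε
  refine ⟨r, n, θ, h0, h1, fun N _ H => ?_⟩
  obtain ⟨D, hDw⟩ := decoupling_params u M hM hu h0 h1 hK hD hΛ N H
    (hCL N (r + 1) n θ h0 h1 H)
  refine ⟨D, fun w => (hDw w).trans ?_⟩
  refine le_trans ?_ (hn n le_rfl)
  unfold totErr
  rw [hcinv]
  have hW1 : (1 : ℝ) ≤ Fintype.card 𝒲 := by exact_mod_cast Fintype.card_pos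
  have e1 : Real.exp M ^ (r + 1) * (CL / Real.sqrt (n + 1) +
      Fintype.card 𝒲 * (Real.exp M * (Fintype.card ι / Dq)) +
      2 * ((r + 1 : ℕ) : ℝ) * (2 * Fintype.card 𝒲 * Real.exp M / Real.sqrt K0)) ≤
      Real.exp M ^ (r + 1) * (Fintype.card 𝒲 * (CL / Real.sqrt (n + 1)) +
      Fintype.card 𝒲 * (Real.exp M * (Fintype.card ι / Dq)) +
      2 * ((r + 1 : ℕ) : ℝ) * (2 * Fintype.card 𝒲 * Real.exp M / Real.sqrt K0)) := by
    apply mul_le_mul_of_nonneg_left _ (by positivity)
    have : CL / Real.sqrt (n + 1) ≤ Fintype.card 𝒲 * (CL / Real.sqrt (n + 1)) :=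
      le_mul_of_one_le_left (by (clear * - hCL0; positivity)) hW1
    linarith only [this]
  have e2 : (sys N u M hM hu).CI = 100 * Real.exp (10 * M) * (1 + Real.exp M) ^ 6 := rfl
  rw [e2]
  have e3 : θ ^ (r + 1) * M ^ 2 * Real.exp M = θ ^ (r + 1) * (M ^ 2 * Real.exp M) := by ring
  rw [e3]
  refine add_le_add ?_ le_rfl
  apply mul_le_mul_of_nonneg_left
  · have e4 := mul_le_mul_of_nonneg_left e1 (by positivity : (0 : ℝ) ≤ 2 * ((r + 1 : ℕ) : ℝ))
    linarith only [e4]
  · have := Real.rpow_nonneg hc0.le (-(((r + 1 : ℕ) : ℝ) * (1 - θ)))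
    positivity

end Main

/-- DECOUPLING THEOREM: for every finite family of shapes there is a slot functional (built with a
larger family `u'`) whose increments are mixtures of Mézard–Parisi values, with the same mixture
for all shapes of the family. -/
theorem decoupling {ι 𝒲 : Type} [Fintype ι] [DecidableEq ι] [Fintype 𝒲] (u : 𝒲 → Sh ι)
    {ε : ℝ} (hε : 0 < ε) :
    ∃ (𝒲' : Type) (_ : Fintype 𝒲') (_ : Nonempty 𝒲') (u' : 𝒲' → Sh ι) (M : ℝ) (hM : 0 ≤ M)
      (hu : ∀ w σ, |u' w σ| ≤ M) (R n : ℕ) (θ : ℝ), 0 < θ ∧ θ < 1 ∧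
      ∀ (N : ℕ) [NeZero N] (H : Egy N),
      ∃ D : PE (Chain.Data (R + 1) (Fin N)), ∀ w : 𝒲,
        |(aS fun s : ι → Fin N => PhiN u' M hM hu θ (R + 1) n N (H + addE u (w, s))) -
          PhiN u' M hM hu θ (R + 1) n N H - D.E fun data => valMP θ data (u w)| ≤ ε := by
  let u' : 𝒲 ⊕ Finset ι → Sh ι := fun w => match w with
    | Sum.inl w => u w
    | Sum.inr I => fun σ => Real.log (1 + (1 / 2) * ∏ j ∈ I, spin (σ j))
  have hM : 0 ≤ ∑ w, ∑ σ, |u' w σ| :=
    Finset.sum_nonneg fun w _ => Finset.sum_nonneg fun σ _ => abs_nonneg _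
  have hu : ∀ w σ, |u' w σ| ≤ ∑ w, ∑ σ, |u' w σ| := fun w σ =>
    (Finset.single_le_sum (f := fun σ => |u' w σ|) (fun σ _ => abs_nonneg _)
      (Finset.mem_univ σ)).trans
    (Finset.single_le_sum (f := fun w => ∑ σ, |u' w σ|)
      (fun w _ => Finset.sum_nonneg fun σ _ => abs_nonneg _) (Finset.mem_univ w))
  obtain ⟨R, n, θ, h0, h1, h⟩ := decoupling_core u' _ hM hu (fun I => ⟨Sum.inr I, fun σ => rfl⟩) hε
  refine ⟨𝒲 ⊕ Finset ι, inferInstance, inferInstance, u', _, hM, hu, R, n, θ, h0, h1,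
    fun N _ H => ?_⟩
  obtain ⟨D, hD⟩ := h N H
  exact ⟨D, fun w => hD (Sum.inl w)⟩

end Vale.Agent.N168I.MP
end
end

section

section

set_option autoImplicit false
set_option linter.unusedSectionVars false

open Finset

namespace Vale.Agent.N168I.MP

section Unif

/-- Uniform average over a type which projects uniformly (as a factor of a product). -/
theorem unif_snd {α β γ : Type} [Fintype α] [Nonempty α] [Fintype β] [Nonempty β] [Fintype γ]
    [Nonempty γ] (e : γ ≃ α × β) (f : β → ℝ) :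
    (PE.unif γ).E (fun g => f (e g).2) = (PE.unif β).E f := by
  rw [PE.unif_E, PE.unif_E]
  have h1 : ∑ g, f (e g).2 = ∑ ab : α × β, f ab.2 := e.sum_comp fun ab => f ab.2
  have h2 : Fintype.card γ = Fintype.card α * Fintype.card β := by
    rw [Fintype.card_congr e, Fintype.card_prod]
  have h3 : ∑ ab : α × β, f ab.2 = Fintype.card α * ∑ b, f b := by
    rw [Fintype.sum_prod_type]
    show ∑ _a : α, ∑ b : β, f b = _
    rw [Finset.sum_const, Finset.card_univ, nsmul_eq_mul]
  have ha : (Fintype.card α : ℝ) ≠ 0 := by exact_mod_cast Fintype.card_ne_zero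
  rw [h1, h2, h3]
  push_cast
  rw [mul_div_mul_left _ _ ha]

end Unif

section Pat

variable (θ : ℝ) (R n : ℕ)

/-- The pattern of the slots of a structure. -/
noncomputable def patR : List (ℝ × (Fin (R + 1) × Fin n)) :=
  (List.range (R + 1)).flatMap fun p =>
    blk (pw θ R p) (List.ofFn fun i : Fin n => ((⟨min p R, by omega⟩ : Fin (R + 1)), i))

theorem allSlots_patL {Ω : Type} (st : St R n Ω) :
    allSlots θ st = patL (patR θ R n) fun q => (st q.1).2 q.2 := by
  unfold allSlots patL patR full blk blkAt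
  rw [List.map_flatMap]
  congr 1
  funext p
  rw [List.map_map, List.map_ofFn, List.map_ofFn]
  rfl

theorem patR_pos {θ : ℝ} (h0 : 0 < θ) (h1 : θ < 1) (R n : ℕ) : Pos (patR θ R n) := by
  intro s hs
  unfold patR blk at hs
  simp only [List.mem_flatMap, List.mem_map] at hs
  obtain ⟨p, _, a, _, rfl⟩ := hs
  exact ⟨pow_pos h0 _, pow_le_one₀ h0.le h1.le⟩

/-- Structures, as positions and slots. -/
def stEquiv {Ω : Type} : St R n Ω ≃ (Fin (R + 1) → Fin (n + 1)) × ((Fin (R + 1) × Fin n) → Ω) where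
  toFun st := (fun p => (st p).1, fun q => (st q.1).2 q.2)
  invFun a := fun p => (a.1 p, fun i => a.2 (p, i))
  left_inv _ := rfl
  right_inv _ := rfl

end Pat

variable {ι 𝒲 : Type} [Fintype ι] [DecidableEq ι] [Fintype 𝒲] [Nonempty 𝒲]

theorem PhiN_eq_GP (u : 𝒲 → Sh ι) (M : ℝ) (hM : 0 ≤ M) (hu : ∀ w σ, |u w σ| ≤ M) (θ : ℝ)
    (R n N : ℕ) [NeZero N] (H : Egy N) :
    PhiN u M hM hu θ R n N H = GP u M hM hu (patR θ R n) N H := by
  rw [GP_eq]
  unfold PhiN
  simp_rw [allSlots_patL]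
  exact unif_snd (stEquiv R n) fun τ =>
    (egySlots u M hM hu N).lam (patL (patR θ R n) τ) H

/-- The core theorem from the decoupling theorem. -/
theorem core_of_decoupling {J W0 : Type} [Fintype J] [DecidableEq J] [Fintype W0]
    (ψ0 : W0 → (J → Bool) → ℝ) {ε : ℝ} (hε : 0 < ε) : CoreFor ψ0 ε := by
  obtain ⟨W, iW, nW, u', M, hM, hu, R, n, θ, h0, h1, h⟩ := decoupling (ι := J) ψ0 hε
  refine ⟨W, iW, nW, u', M, hM, hu, Fin (R + 1 + 1) × Fin n, inferInstance, inferInstance,
    patR θ (R + 1) n, patR_pos h0 h1 _ _, R, fun i => θ ^ (R - (i : ℕ)), fun N _ H => ?_⟩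
  obtain ⟨D, hD⟩ := h N H
  choose x hx hval using fun data : Chain.Data (R + 1) (Fin N) => realize_data h0 h1 R data
  refine ⟨Chain.Data (R + 1) (Fin N), D, x, hx, fun w => ?_⟩
  have h2 := hD w
  simp only [PhiN_eq_GP] at h2
  have e : (fun data : Chain.Data (R + 1) (Fin N) =>
      trF (fun i => θ ^ (R - (i : ℕ))) (x data) (ψ0 w)) = fun data => valMP θ data (ψ0 w) := by
    funext data
    exact hval data J (fun σ => Real.exp (ψ0 w σ)) fun σ => Real.exp_pos _
  rw [e]
  exact h2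

end Vale.Agent.N168I.MP
end
end

section

section

set_option autoImplicit false

open MeasureTheory ProbabilityTheory Filter
open scoped NNReal Topology

namespace Vale.Agent.N168I.MP

variable {K : ℕ} [NeZero K] (ρ : Measure (Clause K)) [IsProbabilityMeasure ρ]
  (hρ : Integrable (maxTheta : Clause K → ℝ) ρ) (ν : Measure ℝ) [IsProbabilityMeasure ν]
  (hν : Integrable (fun h : ℝ => h) ν)

include hρ hν in
/-- THE LOWER BOUND: the Mézard–Parisi value is at most the lower limit of the pressure. -/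
theorem lower_full (lam : ℝ≥0) :
    mezardParisi lam ρ ν ≤ liminf (fun N => ((pressure lam ρ ν N : ℝ) : EReal)) atTop :=
  lower_of_core ρ hρ ν hν lam fun _ _ _ hε => core_of_decoupling _ hε

end Vale.Agent.N168I.MP
end
end
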