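import Vale.Agent.N168.Convex

section

/-!
Random constraint satisfaction problems with the convexity condition: free energy and minimal
number of violated constraints (scheme of the starting files `H45/Ground`, `H791/Bridge`).
-/

set_option autoImplicit false
set_option linter.unusedSectionVars false

open MeasureTheory ProbabilityTheory Filter
open scoped NNReal Topology

namespace Vale.Agent.N168.Csp

open Vale.Agent.N168I (Disorder disorder randomPressure)

/-- change of variables from a finite space; no measurability of the integrand -/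
theorem integral_map_finite {A B : Type} [Finite A] [MeasurableSpace A]
    [DiscreteMeasurableSpace A] [MeasurableSpace B] [MeasurableSingletonClass B] (μ : Measure A)
    (Φ : A → B) (f : B → ℝ) : ∫ b, f b ∂(μ.map Φ) = ∫ a, f (Φ a) ∂μ := by
  classical
  have hΦ : Measurable Φ := Measurable.of_discrete
  have hfin : (Set.range Φ).Finite := Set.finite_range _
  refine integral_map hΦ.aemeasurable ?_
  refine ⟨fun b => ∑ s ∈ hfin.toFinset, ({s} : Set B).indicator (fun _ => f s) b, ?_, ?_⟩
  · exact (Finset.measurable_fun_sum _ fun s _ =>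
      measurable_const.indicator (measurableSet_singleton s)).stronglyMeasurable
  · have h : ∀ᵐ b ∂(μ.map Φ), b ∈ Set.range Φ :=
      (ae_map_iff (p := fun b => b ∈ Set.range Φ) hΦ.aemeasurable hfin.measurableSet).2
        (Filter.Eventually.of_forall fun a => ⟨a, rfl⟩)
    filter_upwards [h] with b hb
    rw [Finset.sum_eq_single b]
    · simp
    · intro s _ hs
      simp [Set.indicator, hs.symm]
    · intro h'
      exact absurd (hfin.mem_toFinset.2 hb) h'

theorem pi_dirac {ι : Type} [Fintype ι] (a : ι → ℝ) :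
    Measure.pi (fun i => Measure.dirac (a i)) = Measure.dirac a := by
  classical
  refine Measure.pi_eq fun s hs => ?_
  rw [Measure.dirac_apply' _ (MeasurableSet.univ_pi hs)]
  simp_rw [Measure.dirac_apply' _ (hs _)]
  by_cases h : ∀ i, a i ∈ s i
  · rw [Set.indicator_of_mem (by simpa [Set.mem_univ_pi] using h)]
    exact (Finset.prod_eq_one fun i _ => by rw [Set.indicator_of_mem (h i)]; rfl).symm
  · have h' := h
    push Not at h
    obtain ⟨i, hi⟩ := h
    rw [Set.indicator_of_notMem (by simpa [Set.mem_univ_pi] using h')]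
    exact (Finset.prod_eq_zero (Finset.mem_univ i) (Set.indicator_of_notMem hi _)).symm

variable {K N M : ℕ} {T : Type} [Fintype T] [MeasurableSpace T] [DiscreteMeasurableSpace T]
  (κ : Measure T) [IsProbabilityMeasure κ] (viol : T → (Fin K → Bool) → Prop) [DecidableRel viol]

/-- Instances. -/
abbrev Formula (T : Type) (K N M : ℕ) : Type := Fin M → T × (Fin K → Fin N)

/-- The interaction of a constraint. -/
def satC (β : ℝ) (t : T) : Fn K := fun σ => if viol t σ then -β else 0

/-- The mean over the instances. -/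
noncomputable def average (F : Formula T K N M → ℝ) : ℝ :=
  ∫ φ, F φ ∂(Measure.pi fun _ => κ.prod (Measure.pi fun _ => unif N))

/-- The pressure of an instance. -/
noncomputable def lz (β : ℝ) (φ : Formula T K N M) : ℝ :=
  1 / (N : ℝ) * Real.log (∑ σ, Real.exp (-β * violated viol φ σ))

/-- The minimal fraction. -/
noncomputable def mu (φ : Formula T K N M) : ℝ := ((⨅ σ, violated viol φ σ : ℕ) : ℝ) / N

theorem unif_prob (N : ℕ) [NeZero N] : IsProbabilityMeasure (unif N) :=
  isProbabilityMeasure_uniformOn Set.finite_univ Set.univ_nonempty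

attribute [local instance] unif_prob

/-- The disorder of an instance. -/
noncomputable def disF (β : ℝ) (φ : Formula T K N M) : Disorder K N M :=
  (fun k => (satC viol β (φ k).1, (φ k).2), 0)

theorem disorder_sat [NeZero N] (β : ℝ) :
    disorder (κ.map (satC viol β)) (Measure.dirac 0) N M =
      (Measure.pi fun _ : Fin M => κ.prod (Measure.pi fun _ : Fin K => unif N)).map
        (disF viol β) := by
  have h0 : MeasurePreserving (satC viol β) κ (κ.map (satC viol β)) :=
    ⟨Measurable.of_discrete, rfl⟩
  have : IsProbabilityMeasure (κ.map (satC viol β)) :=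
    Measure.isProbabilityMeasure_map h0.measurable.aemeasurable
  have h1 := h0.prod (MeasurePreserving.id (Measure.pi fun _ : Fin K => unif N))
  have h2 := measurePreserving_pi (fun _ : Fin M => κ.prod (Measure.pi fun _ : Fin K => unif N))
    (fun _ : Fin M => (κ.map (satC viol β)).prod (Measure.pi fun _ : Fin K => unif N))
    (f := fun _ => Prod.map (satC viol β) id) fun _ => h1
  have h3 : (Measure.pi fun _ : Fin N => Measure.dirac (0 : ℝ)) = Measure.dirac (0 : Fin N → ℝ) :=
    pi_dirac _
  change (Measure.pi fun _ : Fin M => (κ.map (satC viol β)).prod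
    (Measure.pi fun _ : Fin K => unif N)).prod (Measure.pi fun _ : Fin N => Measure.dirac 0) = _
  rw [h3, Measure.prod_dirac, ← h2.map_eq, Measure.map_map measurable_prodMk_right h2.measurable]
  rfl

theorem partition_sat (β : ℝ) (φ : Formula T K N M) :
    N168I.partitionFn (disF viol β φ).1 (disF viol β φ).2 =
      ∑ σ : Fin N → Bool, Real.exp (-β * violated viol φ σ) := by
  unfold N168I.partitionFn disF
  refine Finset.sum_congr rfl fun σ _ => ?_
  congr 1
  simp only [N168I.theta, satC, Pi.zero_apply, zero_mul, Finset.sum_const_zero, add_zero]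
  rw [← Finset.sum_filter, Finset.sum_const, nsmul_eq_mul, mul_comm]
  rfl

theorem bridge [NeZero N] (β : ℝ) (g : ℝ → ℝ) :
    ∫ w, g (randomPressure w) ∂(disorder (κ.map (satC viol β)) (Measure.dirac 0) N M) =
      average κ fun φ : Formula T K N M => g (lz viol β φ) := by
  rw [disorder_sat, integral_map_finite]
  unfold average
  congr 1
  funext φ
  unfold randomPressure lz
  rw [partition_sat]

theorem inClass' (hK : 1 ≤ K) (hc : ReplicaConvex κ fun t σ => if viol t σ then 1 else 0)
    {β : ℝ} (hβ : 0 ≤ β) : N168I.InClass K (κ.map (satC viol β)) (Measure.dirac 0) := by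
  have h1 : Real.exp (-β) ≤ 1 := Real.exp_le_one_iff.2 (by linarith)
  have h2 := Real.exp_pos (-β)
  refine inClass (a := fun _ => 1) hK Measurable.of_discrete Measurable.of_discrete
    (fun _ => Integrable.of_finite) (integrable_dirac (by simp))
    (Eventually.of_forall fun t => ⟨one_pos, fun σ => ?_⟩)
    (hc.smul (c := 1 - Real.exp (-β)) (by linarith))
  unfold satC
  split_ifs
  · rw [mul_one, abs_lt]
    exact ⟨⟨by linarith, by linarith⟩, by ring⟩
  · simp

variable {κ} {viol}

section avg

variable [NeZero N]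

theorem average_mono {F G : Formula T K N M → ℝ} (h : ∀ φ, F φ ≤ G φ) :
    average κ F ≤ average κ G :=
  integral_mono Integrable.of_finite Integrable.of_finite h

theorem average_add (F G : Formula T K N M → ℝ) :
    average κ (fun φ => F φ + G φ) = average κ F + average κ G :=
  integral_add Integrable.of_finite Integrable.of_finite

theorem average_mul (c : ℝ) (F : Formula T K N M → ℝ) :
    average κ (fun φ => c * F φ) = c * average κ F := integral_const_mul _ _

theorem average_const (c : ℝ) : average κ (fun _ : Formula T K N M => c) = c := by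
  unfold average
  rw [integral_const, probReal_univ, one_smul]

theorem abs_average_sub (F : Formula T K N M → ℝ) (c : ℝ) :
    |average κ F - c| ≤ average κ fun φ => |F φ - c| := by
  have h1 : average κ F - c = average κ fun φ => F φ + -1 * c := by
    rw [average_add, average_mul, average_const]; ring
  rw [h1, abs_le]
  constructor
  · have h2 : -(average κ fun φ : Formula T K N M => |F φ - c|) =
        average κ fun φ => -1 * |F φ - c| := by rw [average_mul]; ring
    rw [h2]
    exact average_mono fun φ => by have := neg_abs_le (F φ - c); linarith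
  · exact average_mono fun φ => by have := le_abs_self (F φ - c); linarith

end avg

theorem average_nonneg {F : Formula T K N M → ℝ} (h : ∀ φ, 0 ≤ F φ) : 0 ≤ average κ F :=
  integral_nonneg h

theorem unsat_min (φ : Formula T K N M) : ∃ σ, violated viol φ σ = ⨅ σ, violated viol φ σ :=
  exists_eq_ciInf_of_finite

theorem lz_bounds [NeZero N] {β : ℝ} (hβ : 0 < β) (φ : Formula T K N M) :
    -(β * mu viol φ) ≤ lz viol β φ ∧ lz viol β φ ≤ Real.log 2 - β * mu viol φ := by
  have hN : (0 : ℝ) < N := by exact_mod_cast NeZero.pos N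
  obtain ⟨σ₀, h0⟩ := unsat_min (viol := viol) φ
  set u : ℕ := ⨅ σ, violated viol φ σ with hu
  have hle : ∀ σ, u ≤ violated viol φ σ := fun σ => ciInf_le (OrderBot.bddBelow _) σ
  have h1 : Real.exp (-β * u) ≤ ∑ σ, Real.exp (-β * violated viol φ σ) := by
    rw [← h0]
    exact Finset.single_le_sum (f := fun σ => Real.exp (-β * violated viol φ σ))
      (fun σ _ => (Real.exp_pos _).le) (Finset.mem_univ σ₀)
  have h2 : ∑ σ, Real.exp (-β * violated viol φ σ) ≤ 2 ^ N * Real.exp (-β * u) := by
    calc ∑ σ, Real.exp (-β * violated viol φ σ) ≤ ∑ _σ : Fin N → Bool, Real.exp (-β * u) := by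
          refine Finset.sum_le_sum fun σ _ => Real.exp_le_exp.2 ?_
          have : (u : ℝ) ≤ violated viol φ σ := by exact_mod_cast hle σ
          nlinarith
      _ = 2 ^ N * Real.exp (-β * u) := by simp
  have hp : 0 < ∑ σ, Real.exp (-β * violated viol φ σ) := (Real.exp_pos _).trans_le h1
  have l1 := Real.log_le_log (Real.exp_pos _) h1
  have l2 := Real.log_le_log hp h2
  rw [Real.log_exp] at l1
  rw [Real.log_mul (by positivity) (Real.exp_pos _).ne', Real.log_exp, Real.log_pow] at l2
  have e1 : lz viol β φ = Real.log (∑ σ, Real.exp (-β * violated viol φ σ)) / N := by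
    unfold lz; ring
  have e2 : mu viol φ = (u : ℝ) / N := rfl
  rw [e1, e2]
  constructor
  · rw [le_div_iff₀ hN]
    have e3 : -(β * ((u : ℝ) / N)) * N = -β * u := by field_simp
    rw [e3]; exact l1
  · rw [div_le_iff₀ hN]
    have e3 : (Real.log 2 - β * ((u : ℝ) / N)) * N = N * Real.log 2 + -β * u := by
      field_simp
      ring
    rw [e3]; exact l2

section main

variable (hK : 1 ≤ K) (hc : ReplicaConvex κ fun t σ => if viol t σ then 1 else 0) (lam : ℝ≥0)
  {P : ℝ → ℝ} (hP : ∀ β, 0 ≤ β → Tendsto (pressure lam (κ.map (satC viol β)) (Measure.dirac 0))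
    atTop (𝓝 (P β)))

include hK hc hP in
theorem lz_L1 {M : ℕ → ℕ}
    (hM : Tendsto (fun N => (M N : ℝ) / N) atTop (𝓝 (lam : ℝ))) {β : ℝ} (hβ : 0 ≤ β) :
    Tendsto (fun N => average κ fun φ : Formula T K N (M N) => |lz viol β φ - P β|) atTop (𝓝 0) := by
  have hcl := inClass' κ viol hK hc hβ
  have := hcl.prob_clause
  have h := N168I.Cc.det_L1 (N168I.PT.maxTheta_int hcl) hcl.field_int (hP β hβ) hM
  refine h.congr' ?_
  filter_upwards [eventually_ge_atTop 1] with N hN
  have : NeZero N := ⟨by omega⟩
  exact bridge κ viol β fun x => |x - P β|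

include hK hc hP in
theorem q_le {β β' : ℝ} (hβ : 0 < β) (hβ' : 0 < β') :
    -P β / β ≤ -P β' / β' + Real.log 2 / β' := by
  set M : ℕ → ℕ := fun N => ⌊(lam : ℝ) * N⌋₊ with hMd
  have hM : Tendsto (fun N => (M N : ℝ) / N) atTop (𝓝 (lam : ℝ)) := by
    have h1 := tendsto_nat_floor_mul_div_atTop (R := ℝ) (a := (lam : ℝ)) lam.2
    exact h1.comp tendsto_natCast_atTop_atTop
  have key : ∀ γ, 0 ≤ γ →
      Tendsto (fun N => average κ fun φ : Formula T K N (M N) => lz viol γ φ) atTop (𝓝 (P γ)) := by
    intro γ hγ
    rw [tendsto_iff_dist_tendsto_zero]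
    refine squeeze_zero' (Eventually.of_forall fun _ => dist_nonneg) ?_
      (lz_L1 hK hc lam hP hM hγ)
    filter_upwards [eventually_ge_atTop 1] with N hN
    have : NeZero N := ⟨by omega⟩
    rw [Real.dist_eq]
    exact abs_average_sub _ _
  have t1 : Tendsto (fun N => -(average κ fun φ : Formula T K N (M N) => lz viol β φ) / β) atTop
      (𝓝 (-P β / β)) := ((key β hβ.le).neg).div_const β
  have t2 : Tendsto (fun N => -(average κ fun φ : Formula T K N (M N) => lz viol β' φ) / β' +
      Real.log 2 / β') atTop (𝓝 (-P β' / β' + Real.log 2 / β')) :=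
    (((key β' hβ'.le).neg).div_const β').add_const _
  refine le_of_tendsto_of_tendsto t1 t2 ?_
  filter_upwards [eventually_ge_atTop 1] with N hN
  have : NeZero N := ⟨by omega⟩
  have h3 : average κ (fun φ : Formula T K N (M N) => (-1 / β) * lz viol β φ) ≤
      average κ (fun φ : Formula T K N (M N) => (-1 / β') * lz viol β' φ + Real.log 2 / β') := by
    refine average_mono fun φ => ?_
    have b1 := (lz_bounds (viol := viol) hβ φ).1
    have b2 := (lz_bounds (viol := viol) hβ' φ).2
    have c1 : (-1 / β) * lz viol β φ ≤ mu viol φ := by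
      rw [div_mul_eq_mul_div, div_le_iff₀ hβ]
      linarith
    have c2 : mu viol φ ≤ (-1 / β') * lz viol β' φ + Real.log 2 / β' := by
      have : (-1 / β') * lz viol β' φ + Real.log 2 / β' = (Real.log 2 - lz viol β' φ) / β' := by ring
      rw [this, le_div_iff₀ hβ']
      linarith
    exact c1.trans c2
  rw [average_mul, average_add, average_mul, average_const] at h3
  have e1 : -(average κ fun φ : Formula T K N (M N) => lz viol β φ) / β =
      -1 / β * average κ fun φ : Formula T K N (M N) => lz viol β φ := by ring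
  have e2 : -(average κ fun φ : Formula T K N (M N) => lz viol β' φ) / β' =
      -1 / β' * average κ fun φ : Formula T K N (M N) => lz viol β' φ := by ring
  rw [e1, e2]
  exact h3

include hK hc hP in
/-- **Free energy and ground state of the random problem.** -/
theorem ground : ∃ e : ℝ, Tendsto (fun β => -P β / β) atTop (𝓝 e) ∧
    ∀ M : ℕ → ℕ, Tendsto (fun N => (M N : ℝ) / N) atTop (𝓝 (lam : ℝ)) →
      Tendsto (fun N => average κ fun φ : Formula T K N (M N) => |mu viol φ - e|) atTop (𝓝 0) := by
  set S : Set ℝ := (fun β => -P β / β) '' Set.Ioi 0 with hS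
  have hub : ∀ β, 0 < β → ∀ x ∈ S, x ≤ -P β / β + Real.log 2 / β := by
    rintro β hβ x ⟨γ, hγ, rfl⟩
    exact q_le hK hc lam hP hγ hβ
  have hne : S.Nonempty := ⟨_, 1, Set.mem_Ioi.2 one_pos, rfl⟩
  have hbd : BddAbove S := ⟨_, hub 1 one_pos⟩
  set e := sSup S with he
  have h1 : ∀ β, 0 < β → -P β / β ≤ e := fun β hβ => le_csSup hbd ⟨β, hβ, rfl⟩
  have h2 : ∀ β, 0 < β → e ≤ -P β / β + Real.log 2 / β := fun β hβ => csSup_le hne (hub β hβ)
  have hl2 : 0 < Real.log 2 := Real.log_pos one_lt_two
  refine ⟨e, ?_, fun M hM => ?_⟩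
  · rw [tendsto_iff_dist_tendsto_zero]
    refine squeeze_zero' (Eventually.of_forall fun _ => dist_nonneg) ?_
      (tendsto_const_nhds.div_atTop tendsto_id (a := Real.log 2))
    filter_upwards [eventually_gt_atTop 0] with β hβ
    rw [Real.dist_eq, abs_le]
    have a1 := h1 β hβ
    have a2 := h2 β hβ
    have a3 : 0 < Real.log 2 / β := div_pos hl2 hβ
    simp only [id]
    constructor <;> linarith
  · refine N168I.Cc.tendsto_zero_of (fun N => average_nonneg fun φ => abs_nonneg _)
      (C := 2 * Real.log 2) (by positivity) fun ε hε => ?_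
    have hβ : 0 < 1 / ε := by positivity
    refine ⟨fun N => ε * average κ fun φ : Formula T K N (M N) => |lz viol (1 / ε) φ - P (1 / ε)|, ?_, ?_⟩
    · have := (lz_L1 hK hc lam hP hM hβ.le).const_mul ε
      simpa using this
    · filter_upwards [eventually_ge_atTop 1] with N hN
      have : NeZero N := ⟨by omega⟩
      have h3 : average κ (fun φ : Formula T K N (M N) => |mu viol φ - e|) ≤
          average κ (fun φ : Formula T K N (M N) => 2 * Real.log 2 * ε +
            ε * |lz viol (1 / ε) φ - P (1 / ε)|) := by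
        refine average_mono fun φ => ?_
        have b1 := (lz_bounds (viol := viol) hβ φ).1
        have b2 := (lz_bounds (viol := viol) hβ φ).2
        have a1 := h1 _ hβ
        have a2 := h2 _ hβ
        have e1 : -P (1 / ε) / (1 / ε) = -ε * P (1 / ε) := by field_simp
        have e2 : Real.log 2 / (1 / ε) = ε * Real.log 2 := by field_simp
        rw [e1] at a1 a2
        rw [e2] at a2
        have b3 : -(ε * lz viol (1 / ε) φ) ≤ mu viol φ := by
          have := mul_le_mul_of_nonneg_left b1 hε.le
          have e3 : ε * -(1 / ε * mu viol φ) = -mu viol φ := by field_simp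
          rw [e3] at this
          linarith
        have b4 : mu viol φ ≤ ε * Real.log 2 - ε * lz viol (1 / ε) φ := by
          have := mul_le_mul_of_nonneg_left b2 hε.le
          have e3 : ε * (Real.log 2 - 1 / ε * mu viol φ) = ε * Real.log 2 - mu viol φ := by field_simp
          rw [e3] at this
          linarith
        have c1 := mul_le_mul_of_nonneg_left (le_abs_self (lz viol (1 / ε) φ - P (1 / ε))) hε.le
        have c2 := mul_le_mul_of_nonneg_left (neg_abs_le (lz viol (1 / ε) φ - P (1 / ε))) hε.le
        have c3 : 0 < ε * Real.log 2 := mul_pos hε hl2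
        rw [abs_le]
        constructor <;> nlinarith
      rw [average_add, average_const, average_mul] at h3
      exact h3

end main

theorem csp (hK : 1 ≤ K) (hc : ReplicaConvex κ fun t σ => if viol t σ then 1 else 0)
    (lam : ℝ≥0) : ∃ (P : ℝ → ℝ) (e : ℝ),
      (∀ β, 0 ≤ β → ⨅ r, phi lam (κ.map (satC viol β)) (Measure.dirac 0) r = (P β : EReal) ∧
        Tendsto (pressure lam (κ.map (satC viol β)) (Measure.dirac 0)) atTop (𝓝 (P β))) ∧
      Tendsto (fun β => -P β / β) atTop (𝓝 e) ∧
      ∀ M : ℕ → ℕ, Tendsto (fun N => (M N : ℝ) / N) atTop (𝓝 (lam : ℝ)) →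
        Tendsto (fun N => average κ fun φ : Formula T K N (M N) => |mu viol φ - e|)
          atTop (𝓝 0) := by
  have hf : ∀ β : ℝ, ∃ L : ℝ, 0 ≤ β →
      (⨅ r, phi lam (κ.map (satC viol β)) (Measure.dirac 0) r = (L : EReal) ∧
        Tendsto (pressure lam (κ.map (satC viol β)) (Measure.dirac 0)) atTop (𝓝 L)) := by
    intro β
    by_cases hβ : 0 ≤ β
    · obtain ⟨L, hL⟩ := formula (inClass' κ viol hK hc hβ) lam
      exact ⟨L, fun _ => ⟨hL.1, hL.2.1⟩⟩
    · exact ⟨0, fun h => absurd h hβ⟩
  choose P hP using hf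
  obtain ⟨e, he, hg⟩ := ground hK hc lam fun β hβ => (hP β hβ).2
  exact ⟨P, e, hP, he, hg⟩

end Vale.Agent.N168.Csp

end

section

/-! The statements for random variables on a probability space. -/

set_option autoImplicit false
set_option linter.unusedSectionVars false

open MeasureTheory ProbabilityTheory Filter
open scoped NNReal Topology

namespace Vale.Agent.N168

variable {K : ℕ} {Ω : Type} [MeasurableSpace Ω] {P : Measure Ω} [IsProbabilityMeasure P]
  {θ : Ω → Fn K} {h : Ω → ℝ}

theorem int_eval (hθi : Integrable θ P) (σ : Fin K → Bool) : Integrable (fun ω => θ ω σ) P :=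
  (ContinuousLinearMap.proj (R := ℝ) (φ := fun _ : Fin K → Bool => ℝ) σ).integrable_comp hθi

theorem int_field (hh : Measurable h) (hhi : Integrable h P) :
    Integrable (fun x : ℝ => x) (P.map h) :=
  (integrable_map_measure aestronglyMeasurable_id hh.aemeasurable).2 hhi

theorem lower_rv (hK : 1 ≤ K) (lam : ℝ≥0) (hθ : Measurable θ) (hh : Measurable h)
    (hθi : Integrable θ P) (hhi : Integrable h P) :
    ⨅ r, phi lam (P.map θ) (P.map h) r ≤
      liminf (fun N => ((pressure lam (P.map θ) (P.map h) N : ℝ) : EReal)) atTop := by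
  have := Measure.isProbabilityMeasure_map (μ := P) hθ.aemeasurable
  have := Measure.isProbabilityMeasure_map (μ := P) hh.aemeasurable
  refine lower hK lam _ _ (fun σ => ?_) (int_field hh hhi)
  exact (integrable_map_measure (measurable_pi_apply σ).aestronglyMeasurable
    hθ.aemeasurable).2 (int_eval hθi σ)

theorem formula_rv (hK : 1 ≤ K) (lam : ℝ≥0) (hθ : Measurable θ) (hh : Measurable h)
    (hθi : Integrable θ P) (hhi : Integrable h P) {a : Ω → ℝ} {ψ : Ω → Fn K} (hψ : Measurable ψ)
    (hae : ∀ᵐ ω ∂P, 0 < a ω ∧ ∀ σ, |ψ ω σ| < 1 ∧ Real.exp (θ ω σ) = a ω * (1 - ψ ω σ))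
    (hc : ReplicaConvex P ψ) :
    ∃ L : ℝ, ⨅ r, phi lam (P.map θ) (P.map h) r = (L : EReal) ∧
      Tendsto (pressure lam (P.map θ) (P.map h)) atTop (𝓝 L) ∧
      ∀ N, 1 ≤ N → pressure lam (P.map θ) (P.map h) N ≤ L := by
  have := Measure.isProbabilityMeasure_map (μ := P) hh.aemeasurable
  exact formula (inClass hK hθ hψ (fun σ => int_eval hθi σ) (int_field hh hhi) hae hc) lam

theorem question (hK : 2 ≤ K) (he : Even K) (lam : ℝ≥0) {a b : Ω → ℝ}
    {f : Fin K → Ω → Bool → ℝ} (hθ : Measurable θ) (hh : Measurable h) (hb : Measurable b)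
    (hf : ∀ j, Measurable (f j))
    (hae : ∀ᵐ ω ∂P, 0 < a ω ∧ |b ω| < 1 ∧ (∀ j s, |f j ω s| ≤ 1) ∧
      ∀ σ, Real.exp (θ ω σ) = a ω * (1 + b ω * ∏ j, f j ω (σ j)))
    (hpos : ∀ n : ℕ, 1 ≤ n → 0 ≤ ∫ ω, (-b ω) ^ n ∂P)
    (hind : iIndepFun f P) (hid : ∀ i j, IdentDistrib (f i) (f j) P P)
    (hbf : IndepFun b (fun ω j => f j ω) P) (hθi : Integrable θ P) (hhi : Integrable h P) :
    ∃ L : ℝ, Tendsto (pressure lam (P.map θ) (P.map h)) atTop (𝓝 L) ∧
      ⨅ r, phi lam (P.map θ) (P.map h) r = (L : EReal) := by
  have hψ : Measurable fun ω (σ : Fin K → Bool) => -b ω * ∏ j, f j ω (σ j) :=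
    measurable_pi_lambda _ fun σ => hb.neg.mul (Finset.measurable_fun_prod _ fun j _ =>
      (measurable_pi_apply (σ j)).comp (hf j))
  obtain ⟨L, h1, h2, -⟩ := formula_rv (a := a) (le_trans one_le_two hK) lam hθ hh hθi hhi hψ
    (hae.mono fun ω hω => ⟨hω.1, fun σ => ⟨by
      rw [abs_mul, abs_neg]
      exact mul_lt_one_of_nonneg_of_lt_one_left (abs_nonneg _) hω.2.1
        (N168I.PT.abs_prod_le_one _ fun j _ => hω.2.2.1 j _), by rw [hω.2.2.2 σ]; ring⟩⟩)
    (product_convex he hb hf hpos hind hid hbf)
  exact ⟨L, h2, h1⟩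

end Vale.Agent.N168

end
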